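import Crest.Agent.R105.ADefs

/-! Row 105, block A: Bojarski's inequality. -/

set_option autoImplicit false

namespace Crest.Agent.R105

open MeasureTheory Filter Topology Set Metric Crest.AnalysisR
open scoped ENNReal ContDiff

/-- Weak type estimate.  If the discs `ball q (r q)`, `q ∈ S`, are disjoint and the average of `g`
over `ball q (2 r q)` exceeds `lam` for all `q ∈ S`, then `∑ π r q² ≤ (50 / lam) ∫_{g > lam/2} g`:
the average of `g 1_{g > lam/2}` exceeds `lam / 2`; Vitali
(`Vitali.exists_disjoint_subfamily_covering_enlargement_ball` or `_closedBall`) for the doubled discs. -/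
theorem boj_weak (S : Finset ℂ) {r : ℂ → ℝ} (hr : ∀ q ∈ S, 0 < r q)
    (hd : (S : Set ℂ).PairwiseDisjoint fun q => ball q (r q)) {g : ℂ → ℝ≥0∞} (hg : Measurable g)
    {lam : ℝ} (hlam : 0 < lam)
    (hav : ∀ q ∈ S, ENNReal.ofReal lam * volume (ball q (2 * r q)) < ∫⁻ z in ball q (2 * r q), g z) :
    ENNReal.ofReal lam * ∑ q ∈ S, volume (ball q (r q)) ≤
      50 * ∫⁻ z in {z | ENNReal.ofReal (lam / 2) < g z}, g z := by
  classical
  set T := {z | ENNReal.ofReal (lam / 2) < g z} with hT
  have hTm : MeasurableSet T := measurableSet_lt measurable_const hg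
  have h3 : ENNReal.ofReal lam = ENNReal.ofReal (lam / 2) + ENNReal.ofReal (lam / 2) := by
    rw [← ENNReal.ofReal_add (by positivity) (by positivity), add_halves]
  have h1 : ∀ q ∈ S, ENNReal.ofReal (lam / 2) * volume (ball q (2 * r q)) ≤
      ∫⁻ z in ball q (2 * r q), g z ∂(volume.restrict T) := by
    intro q hq
    have h := (hav q hq).le
    have h2 : ∫⁻ z in ball q (2 * r q), g z ≤
        ∫⁻ z in ball q (2 * r q), g z ∂(volume.restrict T) +
          ENNReal.ofReal (lam / 2) * volume (ball q (2 * r q)) := by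
      rw [← lintegral_inter_add_sdiff g (ball q (2 * r q)) hTm,
        Measure.restrict_restrict measurableSet_ball]
      refine add_le_add le_rfl ?_
      calc ∫⁻ z in ball q (2 * r q) \ T, g z
          ≤ ∫⁻ _ in ball q (2 * r q) \ T, ENNReal.ofReal (lam / 2) :=
            setLIntegral_mono measurable_const fun z hz => not_lt.1 hz.2
        _ = ENNReal.ofReal (lam / 2) * volume (ball q (2 * r q) \ T) := setLIntegral_const _ _
        _ ≤ _ := by
            gcongr
            exact sdiff_subset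
    rw [h3, add_mul] at h
    exact (ENNReal.add_le_add_iff_right
      (ENNReal.mul_ne_top ENNReal.ofReal_ne_top measure_ball_lt_top.ne)).1 (h.trans h2)
  obtain ⟨R, hR⟩ := (S.finite_toSet.image fun q => 2 * r q).bddAbove
  obtain ⟨u, huS, hud, hu⟩ := Vitali.exists_disjoint_subfamily_covering_enlargement_ball
    (S : Set ℂ) (fun q => q) (fun q => 2 * r q) R (fun a ha => hR (mem_image_of_mem _ ha)) 5
    (by norm_num)
  lift u to Finset ℂ using S.finite_toSet.subset huS
  have h2 : ∑ q ∈ S, volume (ball q (r q)) ≤ ∑ b ∈ u, 25 * volume (ball b (2 * r b)) := by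
    rw [← measure_biUnion_finset hd fun _ _ => measurableSet_ball]
    refine le_trans (measure_mono (t := ⋃ b ∈ u, ball b (5 * (2 * r b))) ?_)
      ((measure_biUnion_finset_le _ _).trans (Finset.sum_le_sum fun b hb => ?_))
    · refine iUnion₂_subset fun q hq => ?_
      obtain ⟨b, hb, h⟩ := hu q hq
      exact (ball_subset_ball (by linarith [hr q hq])).trans
        (h.trans (subset_biUnion_of_mem (u := fun b => ball b (5 * (2 * r b))) hb))
    · rw [Complex.volume_ball, Complex.volume_ball, ENNReal.ofReal_mul (by norm_num), mul_pow,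
        mul_assoc]
      norm_num
  calc ENNReal.ofReal lam * ∑ q ∈ S, volume (ball q (r q))
      ≤ ENNReal.ofReal lam * ∑ b ∈ u, 25 * volume (ball b (2 * r b)) := by gcongr
    _ = 50 * ∑ b ∈ u, ENNReal.ofReal (lam / 2) * volume (ball b (2 * r b)) := by
        rw [← Finset.mul_sum, ← Finset.mul_sum, h3]
        ring
    _ ≤ 50 * ∑ b ∈ u, ∫⁻ z in ball b (2 * r b), g z ∂(volume.restrict T) := by
        gcongr with b hb
        exact h1 b (huS hb)
    _ = 50 * ∫⁻ z in ⋃ b ∈ u, ball b (2 * r b), g z ∂(volume.restrict T) := by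
        rw [lintegral_biUnion_finset hud fun _ _ => measurableSet_ball]
    _ ≤ _ := mul_le_mul_right (setLIntegral_le_lintegral _ _) _

theorem h17_int {a : ℝ} (ha : 0 ≤ a) :
    ∫⁻ l in Ioo 0 a, ENNReal.ofReal l = ENNReal.ofReal (a ^ 2 / 2) := by
  rw [← ofReal_integral_eq_lintegral_ofReal (f := fun l : ℝ => l), ← integral_Ioc_eq_integral_Ioo,
    ← intervalIntegral.integral_of_le ha, integral_id]
  · simp
  · exact (continuous_id.integrableOn_Icc (a := 0) (b := a)).mono_set Ioo_subset_Icc_self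
  · exact (ae_restrict_mem measurableSet_Ioo).mono fun l hl => hl.1.le

/-- Carleson embedding: with `A q` the average of `g` over the doubled disc,
`∑ |B q| (A q)² = ∫_0^∞ 2 lam ∑_{A q > lam} |B q| dlam ≤ 100 ∫ g ∫_0^{2 g} dlam = 200 ∫ g²`
(`boj_weak` for `S.filter (lam < A q)`, Tonelli).  Here `A q` is any real number with
`A q · |2B q| ≤ ∫_{2 B q} g`. -/
theorem boj_carleson (S : Finset ℂ) {r : ℂ → ℝ} (hr : ∀ q ∈ S, 0 < r q)
    (hd : (S : Set ℂ).PairwiseDisjoint fun q => ball q (r q)) {g : ℂ → ℝ≥0∞} (hg : Measurable g)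
    {A : ℂ → ℝ} (hA0 : ∀ q ∈ S, 0 ≤ A q)
    (hA : ∀ q ∈ S, ENNReal.ofReal (A q) * volume (ball q (2 * r q)) ≤
      ∫⁻ z in ball q (2 * r q), g z) :
    ∑ q ∈ S, volume (ball q (r q)) * ENNReal.ofReal (A q) ^ 2 ≤ 200 * ∫⁻ z, g z ^ 2 := by
  classical
  set W : Set (ℝ × ℂ) := {p | 0 < p.1 ∧ ENNReal.ofReal (p.1 / 2) < g p.2} with hW
  have hWm : MeasurableSet W :=
    (measurableSet_lt measurable_const measurable_fst).inter
      (measurableSet_lt (by fun_prop) (hg.comp measurable_snd))
  have hF : Measurable (W.indicator fun p => g p.2) := (hg.comp measurable_snd).indicator hWm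
  have key : ∀ l : ℝ, ∑ q ∈ S, volume (ball q (r q)) *
      (Ioo 0 (A q)).indicator (fun l => ENNReal.ofReal l) l ≤
      50 * ∫⁻ z, W.indicator (fun p => g p.2) (l, z) := by
    intro l
    by_cases hl : 0 < l
    · have h1 := boj_weak (S.filter fun q => l < A q) (r := r)
        (fun q hq => hr q (Finset.mem_filter.1 hq).1)
        (hd.subset (by intro q hq; exact (Finset.mem_filter.1 hq).1)) hg hl (fun q hq => by
          obtain ⟨h1, h2⟩ := Finset.mem_filter.1 hq
          refine lt_of_lt_of_le ?_ (hA q h1)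
          have h3 : 0 < 2 * r q := by have := hr q h1; positivity
          refine ENNReal.mul_lt_mul_left (measure_ball_pos _ _ h3).ne' measure_ball_lt_top.ne ?_
          exact (ENNReal.ofReal_lt_ofReal_iff (hl.trans h2)).2 h2)
      have h2 : ∫⁻ z in {z | ENNReal.ofReal (l / 2) < g z}, g z =
          ∫⁻ z, W.indicator (fun p => g p.2) (l, z) := by
        rw [← lintegral_indicator (measurableSet_lt measurable_const hg)]
        refine lintegral_congr fun z => ?_
        simp only [indicator, hW, mem_setOf_eq, hl, true_and]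
      rw [h2] at h1
      refine le_trans (le_of_eq ?_) h1
      rw [Finset.mul_sum, Finset.sum_filter]
      refine Finset.sum_congr rfl fun q _ => ?_
      simp only [indicator, mem_Ioo, hl, true_and]
      split_ifs
      · rw [mul_comm]
      · rw [mul_zero]
    · refine le_trans (le_of_eq (Finset.sum_eq_zero fun q _ => ?_)) bot_le
      rw [indicator_of_notMem (fun h => hl h.1), mul_zero]
  have h1 := lintegral_mono (μ := (volume : Measure ℝ)) key
  rw [lintegral_finset_sum _ (fun q _ =>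
      (ENNReal.measurable_ofReal.indicator measurableSet_Ioo).const_mul _),
    lintegral_const_mul _ hF.lintegral_prod_right',
    lintegral_lintegral_swap (f := fun l z => W.indicator (fun p => g p.2) (l, z))
      hF.aemeasurable] at h1
  have h2 : ∀ z, ∫⁻ l : ℝ, W.indicator (fun p => g p.2) (l, z) ≤ 2 * g z ^ 2 := by
    intro z
    by_cases hz : g z = ⊤
    · rw [hz]; simp
    · calc ∫⁻ l : ℝ, W.indicator (fun p => g p.2) (l, z)
          ≤ ∫⁻ l : ℝ, (Ioo 0 (2 * (g z).toReal)).indicator (fun _ => g z) l := by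
            refine lintegral_mono fun l => ?_
            by_cases hl : (l, z) ∈ W
            · have h3 : l / 2 < (g z).toReal := by
                have h4 := hl.2
                rw [← ENNReal.ofReal_toReal hz] at h4
                exact (ENNReal.ofReal_lt_ofReal_iff_of_nonneg (by have := hl.1; positivity)).1 h4
              rw [indicator_of_mem hl, indicator_of_mem (show l ∈ Ioo 0 (2 * (g z).toReal) from
                ⟨hl.1, by linarith⟩)]
            · rw [indicator_of_notMem hl]; exact bot_le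
        _ = 2 * g z ^ 2 := by
            rw [lintegral_indicator measurableSet_Ioo, setLIntegral_const, Real.volume_Ioo,
              sub_zero, ENNReal.ofReal_mul zero_le_two, ENNReal.ofReal_toReal hz,
              ENNReal.ofReal_ofNat]
            ring
  have h3 := h1.trans (mul_le_mul_right (lintegral_mono h2) 50)
  rw [lintegral_const_mul _ (hg.pow_const 2)] at h3
  have h4 : ∑ q ∈ S, volume (ball q (r q)) * ENNReal.ofReal (A q) ^ 2 =
      2 * ∑ q ∈ S, ∫⁻ l : ℝ, volume (ball q (r q)) *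
        (Ioo 0 (A q)).indicator (fun l => ENNReal.ofReal l) l := by
    rw [Finset.mul_sum]
    refine Finset.sum_congr rfl fun q hq => ?_
    rw [lintegral_const_mul _ (ENNReal.measurable_ofReal.indicator measurableSet_Ioo),
      lintegral_indicator measurableSet_Ioo, h17_int (hA0 q hq), ← ENNReal.ofReal_pow (hA0 q hq),
      mul_left_comm, ← ENNReal.ofReal_ofNat 2, ← ENNReal.ofReal_mul zero_le_two]
    congr 2
    ring
  rw [h4]
  refine (mul_le_mul_right h3 2).trans (le_of_eq ?_)
  ring

theorem h92_vol_ball (q : ℂ) {r : ℝ} (hr : 0 ≤ r) :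
    volume (ball q r) = ENNReal.ofReal (Real.pi * r ^ 2) := by
  rw [Complex.volume_ball, mul_comm Real.pi, ENNReal.ofReal_mul (sq_nonneg r), ENNReal.ofReal_pow hr,
    ← NNReal.coe_real_pi, ENNReal.ofReal_coe_nnreal]

/-- Duality with `g = ∑ a q 1_{2B q}` itself (bounded, finite energy `E`):
`E = ∑ a q ∫_{2B q} g = 4 ∑ a q |B q| A q ≤ 4 (∑ a q² |B q|)^{1/2} (200 E)^{1/2}`; use
`4 a A ≤ 1600 a² + A² / 400` to avoid square roots. -/
theorem boj_fin (S : Finset ℂ) {r a : ℂ → ℝ} (hr : ∀ q ∈ S, 0 < r q) (ha : ∀ q ∈ S, 0 ≤ a q)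
    (hd : (S : Set ℂ).PairwiseDisjoint fun q => ball q (r q)) :
    ∫⁻ z, (∑ q ∈ S, (ball q (2 * r q)).indicator (fun _ => ENNReal.ofReal (a q)) z) ^ 2 ≤
      3200 * ∑ q ∈ S, ENNReal.ofReal (a q ^ 2 * (Real.pi * r q ^ 2)) := by
  set g : ℂ → ℝ≥0∞ := fun z =>
    ∑ q ∈ S, (ball q (2 * r q)).indicator (fun _ => ENNReal.ofReal (a q)) z with hgd
  have hg : Measurable g :=
    Finset.measurable_sum _ fun q _ => measurable_const.indicator measurableSet_ball
  have hv : ∀ q ∈ S, 0 < Real.pi * r q ^ 2 := fun q hq => mul_pos Real.pi_pos (pow_pos (hr q hq) 2)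
  have hv2 : ∀ q ∈ S, volume (ball q (2 * r q)) = ENNReal.ofReal (4 * (Real.pi * r q ^ 2)) :=
    fun q hq => by
      rw [h92_vol_ball q (by linarith [hr q hq])]
      congr 1
      ring
  have hfin : ∀ q ∈ S, ∫⁻ z in ball q (2 * r q), g z ≠ ⊤ := fun q hq => by
    refine ne_top_of_le_ne_top (b := ∫⁻ _ in ball q (2 * r q), ∑ p ∈ S, ENNReal.ofReal (a p)) ?_
      (lintegral_mono fun z => Finset.sum_le_sum fun p _ => indicator_le_self _ _ z)
    rw [setLIntegral_const, hv2 q hq]
    exact ENNReal.mul_ne_top (ENNReal.sum_ne_top.2 fun _ _ => ENNReal.ofReal_ne_top)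
      ENNReal.ofReal_ne_top
  obtain ⟨A, hAd⟩ : ∃ A : ℂ → ℝ, ∀ q, A q =
      (∫⁻ z in ball q (2 * r q), g z).toReal / (4 * (Real.pi * r q ^ 2)) := ⟨_, fun _ => rfl⟩
  have hA0 : ∀ q ∈ S, 0 ≤ A q := fun q hq => by
    rw [hAd]
    exact div_nonneg ENNReal.toReal_nonneg (by linarith [hv q hq])
  have hA : ∀ q ∈ S, ∫⁻ z in ball q (2 * r q), g z =
      ENNReal.ofReal (A q * (4 * (Real.pi * r q ^ 2))) := fun q hq => by
    rw [hAd, div_mul_cancel₀ _ (by linarith [hv q hq]), ENNReal.ofReal_toReal (hfin q hq)]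
  have hn : ∀ q ∈ S, 0 ≤ a q * (A q * (4 * (Real.pi * r q ^ 2))) := fun q hq =>
    mul_nonneg (ha q hq) (mul_nonneg (hA0 q hq) (by linarith [hv q hq]))
  have hE : ∫⁻ z, g z ^ 2 = ENNReal.ofReal (∑ q ∈ S, a q * (A q * (4 * (Real.pi * r q ^ 2)))) := by
    have e : ∀ z, g z ^ 2 =
        ∑ q ∈ S, (ball q (2 * r q)).indicator (fun z => ENNReal.ofReal (a q) * g z) z := fun z => by
      rw [sq]
      conv_lhs => enter [1]; rw [hgd]
      rw [Finset.sum_mul]
      exact Finset.sum_congr rfl fun q _ => (indicator_mul_left _ _ _).symm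
    simp only [e]
    rw [lintegral_finsetSum _ fun q _ => (hg.const_mul _).indicator measurableSet_ball,
      ENNReal.ofReal_sum_of_nonneg hn]
    refine Finset.sum_congr rfl fun q hq => ?_
    rw [lintegral_indicator measurableSet_ball, lintegral_const_mul _ hg, hA q hq,
      ENNReal.ofReal_mul (ha q hq)]
  have hC := boj_carleson S hr hd hg hA0 fun q hq => by
    rw [hA q hq, hv2 q hq, ENNReal.ofReal_mul (hA0 q hq)]
  have e2 : ∑ q ∈ S, volume (ball q (r q)) * ENNReal.ofReal (A q) ^ 2 =
      ENNReal.ofReal (∑ q ∈ S, Real.pi * r q ^ 2 * A q ^ 2) := by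
    rw [ENNReal.ofReal_sum_of_nonneg fun q hq => mul_nonneg (hv q hq).le (sq_nonneg _)]
    refine Finset.sum_congr rfl fun q hq => ?_
    rw [h92_vol_ball q (hr q hq).le, ENNReal.ofReal_mul (hv q hq).le, ENNReal.ofReal_pow (hA0 q hq)]
  have hs := Finset.sum_nonneg hn
  rw [e2, hE, ← ENNReal.ofReal_ofNat 200, ← ENNReal.ofReal_mul (by norm_num),
    ENNReal.ofReal_le_ofReal_iff (by linarith)] at hC
  show ∫⁻ z, g z ^ 2 ≤ _
  rw [hE, ← ENNReal.ofReal_sum_of_nonneg fun q hq => mul_nonneg (sq_nonneg _) (hv q hq).le,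
    ← ENNReal.ofReal_ofNat 3200, ← ENNReal.ofReal_mul (by norm_num)]
  refine ENNReal.ofReal_le_ofReal ?_
  have h3 : ∑ q ∈ S, a q * (A q * (4 * (Real.pi * r q ^ 2))) ≤
      ∑ q ∈ S, (1600 * (a q ^ 2 * (Real.pi * r q ^ 2)) + 1 / 400 * (Real.pi * r q ^ 2 * A q ^ 2)) :=
    Finset.sum_le_sum fun q hq => by
      have := mul_nonneg (hv q hq).le (sq_nonneg (40 * a q - A q / 20))
      nlinarith
  rw [Finset.sum_add_distrib, ← Finset.mul_sum, ← Finset.mul_sum] at h3
  linarith

/-- monotone convergence (`ENNReal.tsum_eq_iSup_sum`, `lintegral_iSup_directed_of_measurable`). -/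
theorem bojarski {A : Set ℂ} (hA : A.Countable) {r a : ℂ → ℝ} (hr : ∀ q ∈ A, 0 < r q)
    (ha : ∀ q ∈ A, 0 ≤ a q) (hd : A.PairwiseDisjoint fun q => ball q (r q)) :
    ∫⁻ z, (∑' q : A, (ball (q : ℂ) (2 * r q)).indicator (fun _ => ENNReal.ofReal (a q)) z) ^ 2 ≤
      3200 * ∑' q : A, ENNReal.ofReal (a q ^ 2 * (Real.pi * r q ^ 2)) := by
  classical
  have := hA.to_subtype
  have e : ∀ z, (∑' q : A, (ball (q : ℂ) (2 * r q)).indicator (fun _ => ENNReal.ofReal (a q)) z) ^ 2 =
      ⨆ S : Finset A,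
        (∑ q ∈ S, (ball (q : ℂ) (2 * r q)).indicator (fun _ => ENNReal.ofReal (a q)) z) ^ 2 := by
    intro z
    rw [ENNReal.tsum_eq_iSup_sum]
    exact Monotone.map_iSup_of_continuousAt (f := fun x : ℝ≥0∞ => x ^ 2)
      (ENNReal.continuous_pow 2).continuousAt (fun _ _ h => pow_le_pow_left' h 2) (by simp)
  simp only [e]
  rw [lintegral_iSup_directed_of_measurable]
  · refine iSup_le fun S => ?_
    have h := boj_fin (S.map (Function.Embedding.subtype _)) (r := r) (a := a)
      (fun q hq => hr q (Finset.property_of_mem_map_subtype S hq))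
      (fun q hq => ha q (Finset.property_of_mem_map_subtype S hq))
      (hd.subset fun q hq => Finset.property_of_mem_map_subtype S hq)
    simp only [Finset.sum_map, Function.Embedding.coe_subtype] at h
    exact h.trans (mul_le_mul_right (ENNReal.sum_le_tsum S) _)
  · exact fun S => (Finset.measurable_sum _ fun q _ =>
      measurable_const.indicator measurableSet_ball).pow_const 2
  · refine Monotone.directed_le fun S T h z => ?_
    exact pow_le_pow_left' (Finset.sum_le_sum_of_subset h) 2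

end Crest.Agent.R105
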