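import Crest.Agent.R105.ADefs

/-! Row 105, block A: collar cut-offs. -/

set_option autoImplicit false

namespace Crest.Agent.R105

open MeasureTheory Filter Topology Set Metric Crest.AnalysisR
open scoped ENNReal ContDiff

/-- radial cut-off -/
noncomputable def collar (c : ℂ) (r s : ℝ) (z : ℂ) : ℝ :=
  Real.smoothTransition ((r + s - ‖z - c‖) / (s / 2))

theorem collar_one (c : ℂ) {r s : ℝ} (hs : 0 < s) {z : ℂ} (hz : z ∈ ball c (r + s / 2)) :
    collar c r s z = 1 := by
  refine Real.smoothTransition.one_of_one_le ?_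
  rw [mem_ball, dist_eq_norm] at hz
  rw [le_div_iff₀ (by positivity)]
  linarith

theorem collar_supp (c : ℂ) {r s : ℝ} (hs : 0 < s) :
    tsupport (collar c r s) ⊆ closedBall c (r + s) := by
  refine closure_minimal (fun z hz => ?_) isClosed_closedBall
  by_contra h
  rw [mem_closedBall, dist_eq_norm, not_le] at h
  refine hz (Real.smoothTransition.zero_of_nonpos ?_)
  exact div_nonpos_of_nonpos_of_nonneg (by linarith) (by positivity)

/-- constant near `c`, smooth off `c` (`ContDiffAt.norm`). -/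
theorem collar_contDiff (c : ℂ) {r s : ℝ} (hr : 0 < r) (hs : 0 < s) :
    ContDiff ℝ ∞ (collar c r s) := by
  refine contDiff_iff_contDiffAt.2 fun z => ?_
  by_cases hz : z = c
  · have h : collar c r s =ᶠ[𝓝 z] fun _ => 1 := by
      filter_upwards [isOpen_ball.mem_nhds (show z ∈ ball c (r + s / 2) by
        rw [hz]; exact mem_ball_self (by positivity))] with w hw using collar_one c hs hw
    exact contDiffAt_const.congr_of_eventuallyEq h
  · have h : ContDiffAt ℝ ∞ (fun w : ℂ => ‖w - c‖) z :=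
      (contDiffAt_id.sub contDiffAt_const).norm ℝ (sub_ne_zero.2 hz)
    exact Real.smoothTransition.contDiff.contDiffAt.comp z
      ((contDiffAt_const.sub h).div_const _)

/-- the radial profile -/
noncomputable def h78prof (r s x : ℝ) : ℝ := Real.smoothTransition ((r + s - x) / (s / 2))

theorem h78prof_contDiff (r s : ℝ) : ContDiff ℝ ∞ (h78prof r s) :=
  Real.smoothTransition.contDiff.comp ((contDiff_const.sub contDiff_id).div_const _)

theorem h78prof_anti (r : ℝ) {s : ℝ} (hs : 0 < s) : Antitone (h78prof r s) := fun x y h =>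
  Real.smoothTransition.monotone (div_le_div_of_nonneg_right (by linarith) (by positivity))

theorem h78prof_deriv (r : ℝ) {s : ℝ} (hs : 0 < s) {x : ℝ} (hx : r + s < x) :
    deriv (h78prof r s) x = 0 := by
  have h : h78prof r s =ᶠ[𝓝 x] fun _ => 0 := by
    filter_upwards [Ioi_mem_nhds hx] with y hy
    exact Real.smoothTransition.zero_of_nonpos
      (div_nonpos_of_nonpos_of_nonneg (by linarith [mem_Ioi.1 hy]) (by positivity))
  rw [h.deriv_eq, deriv_const]

theorem h78_fderiv_le (c : ℂ) {r s : ℝ} (hr : 0 < r) (hs : 0 < s) (z : ℂ) :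
    ‖fderiv ℝ (collar c r s) z‖ ≤ ‖deriv (h78prof r s) ‖z - c‖‖ := by
  by_cases hz : z = c
  · have h : collar c r s =ᶠ[𝓝 z] fun _ => 1 := by
      filter_upwards [isOpen_ball.mem_nhds (show z ∈ ball c (r + s / 2) by
        rw [hz]; exact mem_ball_self (by positivity))] with w hw using collar_one c hs hw
    rw [h.fderiv_eq, fderiv_const_apply, norm_zero]
    exact norm_nonneg _
  · have h : DifferentiableAt ℝ (fun w : ℂ => ‖w - c‖) z :=
      (differentiableAt_id.sub_const c).norm ℝ (sub_ne_zero.2 hz)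
    have h1 : HasDerivAt (h78prof r s) (deriv (h78prof r s) ‖z - c‖) ‖z - c‖ :=
      ((h78prof_contDiff r s).differentiable (by simp) _).hasDerivAt
    have h2 := (h1.comp_hasFDerivAt z h.hasFDerivAt).fderiv
    have h3 : LipschitzWith 1 fun w : ℂ => ‖w - c‖ := by
      refine LipschitzWith.of_dist_le_mul fun a b => ?_
      have := dist_norm_norm_le (a - c) (b - c)
      rw [sub_sub_sub_cancel_right] at this
      rw [dist_eq_norm a b, NNReal.coe_one, one_mul]
      exact this
    have h4 : ‖fderiv ℝ (fun w : ℂ => ‖w - c‖) z‖ ≤ 1 := by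
      simpa using norm_fderiv_le_of_lipschitz ℝ (x₀ := z) h3
    change ‖fderiv ℝ (h78prof r s ∘ fun w : ℂ => ‖w - c‖) z‖ ≤ _
    rw [h2, norm_smul]
    exact mul_le_of_le_one_right (norm_nonneg _) h4

theorem h78_rad {r s : ℝ} (hr : 0 < r) (hs : 0 < s) :
    ∫⁻ x in Ioi (0 : ℝ), ENNReal.ofReal x * ‖deriv (h78prof r s) |x|‖ₑ ≤ ENNReal.ofReal (r + s) := by
  have hc : Continuous (deriv (h78prof r s)) := (h78prof_contDiff r s).continuous_deriv (by simp)
  have hn : ∀ x, 0 ≤ -deriv (h78prof r s) x := fun x =>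
    neg_nonneg.2 ((h78prof_anti r hs).deriv_nonpos)
  have hrs : 0 ≤ r + s := by positivity
  have h1 : ∫⁻ x in Ioc (0 : ℝ) (r + s), ENNReal.ofReal (-deriv (h78prof r s) x) ≤ 1 := by
    rw [← ofReal_integral_eq_lintegral_ofReal (f := fun x => -deriv (h78prof r s) x)
        (hc.neg.integrableOn_Ioc) (Eventually.of_forall hn),
      ← intervalIntegral.integral_of_le hrs, intervalIntegral.integral_neg,
      intervalIntegral.integral_deriv_eq_sub
        (fun x _ => (h78prof_contDiff r s).differentiable (by simp) x) (hc.intervalIntegrable _ _),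
      ← ENNReal.ofReal_one]
    refine ENNReal.ofReal_le_ofReal ?_
    have a1 : 0 ≤ h78prof r s (r + s) := Real.smoothTransition.nonneg _
    have a2 : h78prof r s 0 ≤ 1 := Real.smoothTransition.le_one _
    linarith
  calc ∫⁻ x in Ioi (0 : ℝ), ENNReal.ofReal x * ‖deriv (h78prof r s) |x|‖ₑ
      ≤ ∫⁻ x, (Ioc (0 : ℝ) (r + s)).indicator
          (fun x => ENNReal.ofReal (r + s) * ENNReal.ofReal (-deriv (h78prof r s) x)) x := by
        rw [← lintegral_indicator measurableSet_Ioi]
        refine lintegral_mono fun x => ?_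
        by_cases h0 : x ∈ Ioi (0 : ℝ)
        · rw [indicator_of_mem h0, abs_of_pos h0]
          by_cases h2 : x ≤ r + s
          · rw [indicator_of_mem (show x ∈ Ioc (0 : ℝ) (r + s) from ⟨h0, h2⟩), ← enorm_neg,
              Real.enorm_of_nonneg (hn x)]
            exact mul_le_mul_left (ENNReal.ofReal_le_ofReal h2) _
          · rw [h78prof_deriv r hs (not_le.1 h2)]
            simp
        · rw [indicator_of_notMem h0]
          exact zero_le
    _ = ENNReal.ofReal (r + s) *
          ∫⁻ x in Ioc (0 : ℝ) (r + s), ENNReal.ofReal (-deriv (h78prof r s) x) := by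
        rw [lintegral_indicator measurableSet_Ioc,
          lintegral_const_mul' _ _ ENNReal.ofReal_ne_top]
    _ ≤ ENNReal.ofReal (r + s) * 1 := mul_le_mul_right h1 _
    _ = _ := mul_one _

/-- `‖∇φ z‖ ≤ |h'(‖z - c‖)|` with `h x = smoothTransition ((r + s - x) / (s / 2))` antitone,
`h' = 0` off `[r + s/2, r + s]`; polar coordinates (`lintegral` form: translate to `c = 0`, then
`Complex.lintegral_comp_polarCoord_symm` or `integral_fun_norm_addHaar`),
`∫ x |h' x| dx ≤ (r + s) (h 0 - h ∞) = r + s`. -/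
theorem collar_tot (c : ℂ) {r s : ℝ} (hr : 0 < r) (hs : 0 < s) :
    ∫⁻ z, ‖fderiv ℝ (collar c r s) z‖ₑ ≤ ENNReal.ofReal (2 * Real.pi * (r + s)) := by
  have hc : Continuous (deriv (h78prof r s)) := (h78prof_contDiff r s).continuous_deriv (by simp)
  calc ∫⁻ z, ‖fderiv ℝ (collar c r s) z‖ₑ ≤ ∫⁻ z, ‖deriv (h78prof r s) ‖z - c‖‖ₑ :=
        lintegral_mono fun z => by
          rw [← ofReal_norm, ← ofReal_norm]
          exact ENNReal.ofReal_le_ofReal (h78_fderiv_le c hr hs z)
    _ = ∫⁻ z : ℂ, ‖deriv (h78prof r s) ‖z‖‖ₑ :=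
        lintegral_sub_right_eq_self (fun z : ℂ => ‖deriv (h78prof r s) ‖z‖‖ₑ) c
    _ = ∫⁻ p : ℝ × ℝ in Ioi (0 : ℝ) ×ˢ Ioo (-Real.pi) Real.pi,
          (ENNReal.ofReal p.1 * ‖deriv (h78prof r s) |p.1|‖ₑ) * (fun _ : ℝ => (1 : ℝ≥0∞)) p.2 := by
        rw [← Complex.lintegral_comp_polarCoord_symm]
        simp only [Complex.norm_polarCoord_symm, smul_eq_mul, mul_one, polarCoord_target]
    _ = (∫⁻ x in Ioi (0 : ℝ), ENNReal.ofReal x * ‖deriv (h78prof r s) |x|‖ₑ) *
          ∫⁻ _ in Ioo (-Real.pi) Real.pi, (1 : ℝ≥0∞) := by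
        rw [Measure.volume_eq_prod, ← Measure.prod_restrict]
        exact lintegral_prod_mul
          (f := fun x : ℝ => ENNReal.ofReal x * ‖deriv (h78prof r s) |x|‖ₑ)
          (g := fun _ : ℝ => (1 : ℝ≥0∞))
          (ENNReal.measurable_ofReal.mul (hc.comp continuous_abs).measurable.enorm).aemeasurable
          aemeasurable_const
    _ ≤ ENNReal.ofReal (r + s) * ENNReal.ofReal (2 * Real.pi) := by
        refine mul_le_mul' (h78_rad hr hs) (le_of_eq ?_)
        rw [setLIntegral_one, Real.volume_Ioo]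
        congr 1; ring
    _ = _ := by
        rw [← ENNReal.ofReal_mul (by positivity), mul_comm]

theorem h28_mono_var {h : ℝ → ℝ} (hh : ContDiff ℝ ∞ h) (h0 : ∀ x, 0 ≤ h x) (h1 : ∀ x, h x ≤ 1)
    {u v : ℝ} (huv : u ≤ v) (hm : MonotoneOn h (Ioo u v)) :
    ∫⁻ x in Ioc u v, ‖deriv h x‖ₑ ≤ 1 := by
  have hc : Continuous (deriv h) := hh.continuous_deriv (by simp)
  have hp : ∀ x ∈ Ioo u v, 0 ≤ deriv h x := fun x hx => by
    rw [← derivWithin_of_isOpen isOpen_Ioo hx]
    exact hm.derivWithin_nonneg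
  have hi : IntegrableOn (deriv h) (Ioo u v) :=
    (hc.integrableOn_Icc (a := u) (b := v)).mono_set Ioo_subset_Icc_self
  rw [← setLIntegral_congr Ioo_ae_eq_Ioc, setLIntegral_congr_fun measurableSet_Ioo
    (g := fun x => ENNReal.ofReal (deriv h x)) fun x hx => Real.enorm_of_nonneg (hp x hx),
    ← ofReal_integral_eq_lintegral_ofReal hi (ae_restrict_of_forall_mem measurableSet_Ioo hp),
    ← integral_Ioc_eq_integral_Ioo, ← intervalIntegral.integral_of_le huv,
    intervalIntegral.integral_deriv_eq_sub (fun x _ => hh.differentiable (by simp) x)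
      (hc.intervalIntegrable _ _), ENNReal.ofReal_le_one]
  linarith [h0 u, h1 v]

/-- A smooth function with values in `[0,1]`, monotone on `Iic a` and antitone on `Ici a`, has total
variation at most `2` (`intervalIntegral.integral_deriv_eq_sub` on `[a - n, a]`, `[a, a + n]`,
monotone convergence). -/
theorem unimodal_var {h : ℝ → ℝ} (hh : ContDiff ℝ ∞ h) (h0 : ∀ x, 0 ≤ h x) (h1 : ∀ x, h x ≤ 1)
    {a : ℝ} (hm : MonotoneOn h (Iic a)) (ha : AntitoneOn h (Ici a)) :
    ∫⁻ x, ‖deriv h x‖ₑ ≤ 2 := by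
  have hu : (⋃ n : ℕ, Ioc (a - n) (a + n)) = univ := by
    refine eq_univ_of_forall fun x => ?_
    obtain ⟨n, hn⟩ := exists_nat_gt |x - a|
    rw [abs_lt] at hn
    exact mem_iUnion.2 ⟨n, by linarith [hn.1], by linarith [hn.2]⟩
  rw [← setLIntegral_univ, ← hu, setLIntegral_iUnion_of_directed _
    (Monotone.directed_le fun m n hmn => Ioc_subset_Ioc (by gcongr) (by gcongr))]
  refine iSup_le fun n => ?_
  have hn : (0 : ℝ) ≤ n := n.cast_nonneg
  rw [← Ioc_union_Ioc_eq_Ioc (b := a) (by linarith) (by linarith), ← one_add_one_eq_two]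
  refine (lintegral_union_le _ _ _).trans (add_le_add
    (h28_mono_var hh h0 h1 (by linarith) (hm.mono fun x hx => hx.2.le)) ?_)
  have := h28_mono_var (h := fun x => 1 - h x) (contDiff_const.sub hh) (fun x => by linarith [h1 x])
    (fun x => by linarith [h0 x]) (u := a) (v := a + n) (by linarith)
    fun x hx y hy hxy => by linarith [ha hx.1.le hy.1.le hxy]
  simpa using this

theorem h28_line (c : ℂ) {r s : ℝ} (hr : 0 < r) (hs : 0 < s) (w v : ℂ) (a : ℝ)
    (hv : ∃ k : ℝ, ∀ x : ℝ, ‖w + x • v - c‖ ^ 2 = (x - a) ^ 2 + k) :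
    ∫⁻ x : ℝ, ‖fderiv ℝ (collar c r s) (w + x • v) v‖ₑ ≤ 2 := by
  obtain ⟨k, hk⟩ := hv
  have hd := collar_contDiff c hr hs
  have hl : ContDiff ℝ ∞ fun x : ℝ => w + x • v := by fun_prop
  have hm : ∀ x y : ℝ, (y - a) ^ 2 ≤ (x - a) ^ 2 →
      collar c r s (w + x • v) ≤ collar c r s (w + y • v) := fun x y h => by
    have : ‖w + y • v - c‖ ≤ ‖w + x • v - c‖ :=
      (sq_le_sq₀ (norm_nonneg _) (norm_nonneg _)).1 (by rw [hk, hk]; linarith)
    exact Real.smoothTransition.monotone (by gcongr)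
  have := unimodal_var (h := fun x : ℝ => collar c r s (w + x • v)) (hd.comp hl)
    (fun _ => Real.smoothTransition.nonneg _) (fun _ => Real.smoothTransition.le_one _) (a := a)
    (fun x hx y hy hxy => hm x y (by nlinarith [mem_Iic.1 hx, mem_Iic.1 hy]))
    fun x hx y hy hxy => hm y x (by nlinarith [mem_Ici.1 hx, mem_Ici.1 hy])
  refine le_trans (le_of_eq (lintegral_congr fun x => ?_)) this
  have h1 : HasDerivAt (fun x : ℝ => w + x • v) v x := by
    simpa using ((hasDerivAt_id x).smul_const v).const_add w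
  exact congrArg _ ((hd.differentiable (by simp) _).hasFDerivAt.comp_hasDerivAt x h1).deriv.symm

/-- `‖∇φ‖ ≤ |∂ₓ φ| + |∂_y φ|`; the ball lies in a horizontal and in a vertical strip of width `2 t`;
Fubini (`Complex.volume_preserving_equiv_real_prod`, `lintegral_prod`) and `unimodal_var` on each
line. -/
theorem collar_loc (c : ℂ) {r s : ℝ} (hr : 0 < r) (hs : 0 < s) (z₀ : ℂ) (t : ℝ) :
    ∫⁻ z in ball z₀ t, ‖fderiv ℝ (collar c r s) z‖ₑ ≤ ENNReal.ofReal (8 * t) := by
  have hd := (collar_contDiff c hr hs).continuous_fderiv (by simp)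
  have hm : ∀ v : ℂ, Measurable fun z => ‖fderiv ℝ (collar c r s) z v‖ₑ := fun v =>
    (hd.clm_apply continuous_const).enorm.measurable
  have he := Complex.volume_preserving_equiv_real_prod.symm
  have hm' : ∀ v : ℂ, Measurable fun p : ℝ × ℝ =>
      ‖fderiv ℝ (collar c r s) (Complex.measurableEquivRealProd.symm p) v‖ₑ := fun v =>
    (hm v).comp he.measurable
  have hv : ∀ a : ℝ, 2 * volume (Ioo (a - t) (a + t)) = ENNReal.ofReal (4 * t) := fun a => by
    rw [Real.volume_Ioo, ← ENNReal.ofReal_ofNat, ← ENNReal.ofReal_mul zero_le_two]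
    congr 1; ring
  have h1 : ∫⁻ z in ball z₀ t, ‖fderiv ℝ (collar c r s) z 1‖ₑ ≤ ENNReal.ofReal (4 * t) := by
    rw [← he.setLIntegral_comp_preimage_emb (MeasurableEquiv.measurableEmbedding _)]
    refine (lintegral_mono_set (t := univ ×ˢ Ioo (z₀.im - t) (z₀.im + t)) fun p hp => ?_).trans ?_
    · have := abs_lt.1 ((Complex.abs_im_le_norm _).trans_lt (mem_ball_iff_norm.1 hp))
      simp only [Complex.sub_im, Complex.measurableEquivRealProd_symm_apply] at this
      exact ⟨trivial, by linarith [this.1], by linarith [this.2]⟩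
    rw [Measure.volume_eq_prod, setLIntegral_prod_symm _ (hm' 1).aemeasurable,
      ← hv, ← setLIntegral_const]
    refine lintegral_mono fun y => ?_
    rw [setLIntegral_univ]
    refine le_trans (le_of_eq (lintegral_congr fun x => ?_)) (h28_line c hr hs (y * Complex.I) 1 c.re
      ⟨(y - c.im) ^ 2, fun x => by rw [Complex.sq_norm, Complex.normSq_apply]; simp; ring⟩)
    congr 3
    apply Complex.ext <;> simp
  have h2 : ∫⁻ z in ball z₀ t, ‖fderiv ℝ (collar c r s) z Complex.I‖ₑ ≤
      ENNReal.ofReal (4 * t) := by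
    rw [← he.setLIntegral_comp_preimage_emb (MeasurableEquiv.measurableEmbedding _)]
    refine (lintegral_mono_set (t := Ioo (z₀.re - t) (z₀.re + t) ×ˢ univ) fun p hp => ?_).trans ?_
    · have := abs_lt.1 ((Complex.abs_re_le_norm _).trans_lt (mem_ball_iff_norm.1 hp))
      simp only [Complex.sub_re, Complex.measurableEquivRealProd_symm_apply] at this
      exact ⟨⟨by linarith [this.1], by linarith [this.2]⟩, trivial⟩
    rw [Measure.volume_eq_prod, setLIntegral_prod _ (hm' _).aemeasurable,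
      ← hv, ← setLIntegral_const]
    refine lintegral_mono fun x => ?_
    rw [setLIntegral_univ]
    refine le_trans (le_of_eq (lintegral_congr fun y => ?_)) (h28_line c hr hs x Complex.I c.im
      ⟨(x - c.re) ^ 2, fun y => by rw [Complex.sq_norm, Complex.normSq_apply]; simp; ring⟩)
    congr 3
    apply Complex.ext <;> simp
  have h3 : ∀ L : ℂ →L[ℝ] ℝ, ‖L‖ₑ ≤ ‖L 1‖ₑ + ‖L Complex.I‖ₑ := fun L => by
    rw [← ofReal_norm, ← ofReal_norm, ← ofReal_norm,
      ← ENNReal.ofReal_add (norm_nonneg _) (norm_nonneg _)]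
    refine ENNReal.ofReal_le_ofReal (L.opNorm_le_bound (by positivity) fun z => ?_)
    have e : L z = z.re • L 1 + z.im • L Complex.I := by
      rw [← map_smul, ← map_smul, ← map_add]
      congr 1
      apply Complex.ext <;> simp
    rw [e]
    refine (norm_add_le _ _).trans ?_
    rw [norm_smul, norm_smul, add_mul, mul_comm ‖L 1‖, mul_comm ‖L Complex.I‖]
    gcongr
    · exact Complex.abs_re_le_norm z
    · exact Complex.abs_im_le_norm z
  refine (lintegral_mono fun z => h3 _).trans ?_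
  rw [lintegral_add_left (hm 1)]
  refine (add_le_add h1 h2).trans (le_of_eq ?_)
  rw [← two_mul, ← ENNReal.ofReal_ofNat, ← ENNReal.ofReal_mul zero_le_two]
  congr 1; ring

theorem exists_collar (Q : Finset ℂ) {r : ℂ → ℝ} (hr : ∀ q ∈ Q, 0 < r q) {s : ℝ} (hs : 0 < s)
    (hd : (Q : Set ℂ).PairwiseDisjoint fun q => closedBall q (r q + s)) :
    ∃ φ : ℂ → ℂ → ℝ, Collar Q r s φ :=
  ⟨fun q => collar q (r q) s,
    { smooth := fun q hq => collar_contDiff q (hr q hq) hs
      nonneg := fun _ _ _ => Real.smoothTransition.nonneg _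
      le_one := fun _ _ _ => Real.smoothTransition.le_one _
      one := fun q _ _ hz => collar_one q hs hz
      supp := fun q _ => collar_supp q hs
      disj := hd
      tot := fun q hq => collar_tot q (hr q hq) hs
      loc := fun q hq => collar_loc q (hr q hq) hs }⟩

end Crest.Agent.R105
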