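import Crest.Agent.R105.ADefs

/-! Row 105, block A: basic facts on pictures. -/

set_option autoImplicit false

namespace Crest.Agent.R105

open MeasureTheory Filter Topology Set Metric Crest.AnalysisR
open scoped ENNReal ContDiff

variable {U : Set ℂ} {F : ℂ → ℂ} {N : Set ℂ} {r R : ℂ → ℝ}

/-- disjoint discs inside a compact set: `measure_biUnion_finset`, `Complex.volume_closedBall`. -/
theorem sum_area_le {K : Set ℂ} (hK : IsCompact K) (S : Finset ℂ) {c : ℂ → ℂ} {ρ : ℂ → ℝ}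
    (hρ : ∀ q ∈ S, 0 ≤ ρ q) (hsub : ∀ q ∈ S, closedBall (c q) (ρ q) ⊆ K)
    (hd : (S : Set ℂ).PairwiseDisjoint fun q => closedBall (c q) (ρ q)) :
    ∑ q ∈ S, Real.pi * ρ q ^ 2 ≤ (volume K).toReal := by
  have h1 : ∑ q ∈ S, Real.pi * ρ q ^ 2 = volume.real (⋃ q ∈ S, closedBall (c q) (ρ q)) := by
    rw [measureReal_biUnion_finset hd (fun _ _ => measurableSet_closedBall)
      (fun _ _ => measure_closedBall_lt_top.ne)]
    refine Finset.sum_congr rfl fun q hq => ?_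
    rw [Measure.real, Complex.volume_closedBall, ENNReal.toReal_mul, ENNReal.toReal_pow,
      ENNReal.toReal_ofReal (hρ q hq), ENNReal.coe_toReal, NNReal.coe_real_pi, mul_comm]
  rw [h1]
  exact measureReal_mono (iUnion₂_subset hsub) hK.measure_lt_top.ne

theorem h69_summable {K : Set ℂ} (hK : IsCompact K) {c : ℂ → ℂ} {ρ : ℂ → ℝ}
    (hρ : ∀ q ∈ N, 0 ≤ ρ q) (hsub : ∀ q ∈ N, closedBall (c q) (ρ q) ⊆ K)
    (hd : N.PairwiseDisjoint fun q => closedBall (c q) (ρ q)) :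
    Summable fun q : N => ρ q ^ 2 := by
  classical
  refine summable_of_sum_le (c := (volume K).toReal / Real.pi) (fun q => sq_nonneg _) fun T => ?_
  have hS : ((T.map (Function.Embedding.subtype _) : Finset ℂ) : Set ℂ) ⊆ N := by
    intro q hq
    obtain ⟨x, -, rfl⟩ := Finset.mem_map.1 (Finset.mem_coe.1 hq)
    exact x.2
  have h1 := sum_area_le hK (T.map (Function.Embedding.subtype _)) (fun q hq => hρ q (hS hq))
    (fun q hq => hsub q (hS hq)) (hd.subset hS)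
  rw [Finset.sum_map, ← Finset.mul_sum] at h1
  rw [le_div_iff₀ Real.pi_pos, mul_comm]
  exact h1

theorem h69_fin {ρ : ℂ → ℝ} (h : Summable fun q : N => ρ q ^ 2) {η : ℝ} (hη : 0 < η) :
    {q ∈ N | η ≤ ρ q}.Finite := by
  have h1 : ∀ᶠ q : N in cofinite, ρ q ^ 2 < η ^ 2 :=
    h.tendsto_cofinite_zero.eventually (gt_mem_nhds (by positivity))
  refine ((Filter.eventually_cofinite.1 h1).image Subtype.val).subset fun q hq => ?_
  exact ⟨⟨q, hq.1⟩, not_lt.2 (pow_le_pow_left₀ hη.le hq.2 2), rfl⟩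

theorem Pic.summable_r (h : Pic U F N r R) : Summable fun q : N => r q ^ 2 := by
  exact h69_summable (c := fun q => q) h.cpt h.r0 h.sub h.disj

theorem Pic.summable_R (h : Pic U F N r R) : Summable fun q : N => R q ^ 2 := by
  exact h69_summable h.cpt' h.R0 h.sub' h.disj'

theorem Pic.rfin (h : Pic U F N r R) {η : ℝ} (hη : 0 < η) : {q ∈ N | η ≤ r q}.Finite := by
  exact h69_fin h.summable_r hη

theorem Pic.Rfin (h : Pic U F N r R) {η : ℝ} (hη : 0 < η) : {q ∈ N | η ≤ R q}.Finite := by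
  exact h69_fin h.summable_R hη

/-- `2 r R ≤ r² + R²` and `sum_area_le`. -/
theorem Pic.sum_flux_le (h : Pic U F N r R) (S : Finset ℂ) (hS : (S : Set ℂ) ⊆ N) :
    ∑ q ∈ S, 2 * Real.pi * (R q * r q) ≤ (volume Uᶜ).toReal + (volume (F '' U)ᶜ).toReal := by
  have h1 := sum_area_le h.cpt S (c := fun q => q) (fun q hq => h.r0 q (hS hq))
    (fun q hq => h.sub q (hS hq)) (h.disj.subset hS)
  have h2 := sum_area_le h.cpt' S (fun q hq => h.R0 q (hS hq))
    (fun q hq => h.sub' q (hS hq)) (h.disj'.subset hS)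
  refine le_trans ?_ (add_le_add h1 h2)
  rw [← Finset.sum_add_distrib]
  refine Finset.sum_le_sum fun q _ => ?_
  nlinarith [mul_nonneg Real.pi_pos.le (sq_nonneg (r q - R q))]

/-- `F` is locally bounded (`near` at points of a node, `cont` elsewhere); compactness. -/
theorem Pic.bdd (h : Pic U F N r R) (ρ : ℝ) : ∃ C, ∀ z ∈ closedBall (0 : ℂ) ρ, ‖F z‖ ≤ C := by
  have hloc : ∀ z ∈ closedBall (0 : ℂ) ρ, ∃ C : ℝ, ∀ᶠ w in 𝓝 z, ‖F w‖ ≤ C := by
    intro z _
    by_cases hz : ∀ q ∈ N, z ∉ closedBall q (r q)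
    · refine ⟨‖F z‖ + 1, ?_⟩
      exact ((h.cont z hz).norm.eventually (gt_mem_nhds (lt_add_one _))).mono fun w hw => hw.le
    · push Not at hz
      obtain ⟨q, hq, hzq⟩ := hz
      obtain ⟨δ, hδ, hn⟩ := h.near q hq 1 one_pos
      refine ⟨‖F q‖ + (R q + 1), ?_⟩
      have hzb : z ∈ ball q (r q + δ) := closedBall_subset_ball (by linarith) hzq
      filter_upwards [isOpen_ball.mem_nhds hzb] with w hw
      have h1 := hn w hw
      rw [dist_eq_norm] at h1
      have h2 := norm_add_le (F q) (F w - F q)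
      rw [add_sub_cancel] at h2
      linarith
  refine (isCompact_closedBall (0 : ℂ) ρ).induction_on
    (p := fun s => ∃ C : ℝ, ∀ z ∈ s, ‖F z‖ ≤ C) ⟨0, fun z hz => absurd hz (notMem_empty z)⟩
    ?_ ?_ ?_
  · rintro s t hst ⟨C, hC⟩
    exact ⟨C, fun z hz => hC z (hst hz)⟩
  · rintro s t ⟨C, hC⟩ ⟨D, hD⟩
    refine ⟨max C D, ?_⟩
    rintro z (hz | hz)
    · exact (hC z hz).trans (le_max_left _ _)
    · exact (hD z hz).trans (le_max_right _ _)
  · intro z hz
    obtain ⟨C, hC⟩ := hloc z hz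
    exact ⟨_, mem_nhdsWithin_of_mem_nhds hC, C, fun w hw => hw⟩

/-- area formula (`lintegral_image_eq_lintegral_abs_det_fderiv_mul`, see `R162.lintegral_area`). -/
theorem area_formula {f : ℂ → ℂ} {A : Set ℂ} (hU : IsOpen U) (hf : DifferentiableOn ℂ f U)
    (hinj : InjOn f U) (hA : MeasurableSet A) (hAU : A ⊆ U) (g : ℂ → ℝ≥0∞) :
    ∫⁻ z in A, g (f z) * ‖deriv f z‖ₑ ^ 2 = ∫⁻ w in f '' A, g w := by
  rw [lintegral_image_eq_lintegral_abs_det_fderiv_mul (volume : Measure ℂ) hA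
    (f := f) (f' := fun z => (ContinuousLinearMap.toSpanSingleton ℂ (deriv f z)).restrictScalars ℝ)
    (fun z hz => ((hf.differentiableAt
      (hU.mem_nhds (hAU hz))).hasDerivAt.hasFDerivAt.restrictScalars
      ℝ).hasFDerivWithinAt) (hinj.mono hAU)]
  refine lintegral_congr fun z => ?_
  rw [mul_comm, ← ofReal_norm, ← ENNReal.ofReal_pow (norm_nonneg _)]
  congr 2
  simp [ContinuousLinearMap.det, LinearMap.det_restrictScalars, Algebra.norm_complex_eq,
    Complex.normSq_eq_norm_sq]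

theorem Pic.energy (h : Pic U F N r R) (ρ : ℝ) :
    ∫⁻ z in U ∩ ball 0 ρ, ‖deriv F z‖ₑ ^ 2 < ⊤ := by
  obtain ⟨C, hC⟩ := h.bdd ρ
  have h1 := area_formula h.opn h.hol h.inj (h.opn.inter isOpen_ball).measurableSet
    (inter_subset_left (t := ball 0 ρ)) (fun _ => 1)
  simp only [one_mul] at h1
  rw [h1, setLIntegral_one]
  refine (measure_mono (t := closedBall 0 C) ?_).trans_lt measure_closedBall_lt_top
  rintro _ ⟨z, hz, rfl⟩
  exact mem_closedBall_zero_iff.2 (hC z (ball_subset_closedBall hz.2))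

/-- `x ≤ 1 + x²` -/
theorem Pic.energy_one (h : Pic U F N r R) (ρ : ℝ) :
    ∫⁻ z in U ∩ ball 0 ρ, ‖deriv F z‖ₑ < ⊤ := by
  have hle : ∀ x : ℝ≥0∞, x ≤ 1 + x ^ 2 := by
    intro x
    rcases le_total x 1 with hx | hx
    · exact hx.trans le_self_add
    · refine le_trans ?_ le_add_self
      calc x = x * 1 := (mul_one x).symm
        _ ≤ x * x := by gcongr
        _ = x ^ 2 := (sq x).symm
  refine (lintegral_mono fun z => hle _).trans_lt ?_
  rw [lintegral_add_left measurable_const, setLIntegral_one]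
  exact ENNReal.add_lt_top.2
    ⟨(measure_mono inter_subset_right).trans_lt measure_ball_lt_top, h.energy ρ⟩

/-- on `U`: `fderiv ℝ (L ∘ F) z v = L (deriv F z * v)`. -/
theorem Pic.fderiv_comp (h : Pic U F N r R) (L : ℂ →L[ℝ] ℝ) {z : ℂ} (hz : z ∈ U) (v : ℂ) :
    fderiv ℝ (fun w => L (F w)) z v = L (deriv F z * v) := by
  have h1 : HasFDerivAt F ((ContinuousLinearMap.toSpanSingleton ℂ (deriv F z)).restrictScalars ℝ) z :=
    (h.hol.differentiableAt (h.opn.mem_nhds hz)).hasDerivAt.hasFDerivAt.restrictScalars ℝ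
  have h2 := L.hasFDerivAt.comp z h1
  have h3 : fderiv ℝ (fun w => L (F w)) z = _ := h2.fderiv
  rw [h3]
  simp [mul_comm]

theorem Pic.norm_fderiv_comp (h : Pic U F N r R) {L : ℂ →L[ℝ] ℝ} (hL : ‖L‖ ≤ 1) {z : ℂ}
    (hz : z ∈ U) : ‖fderiv ℝ (fun w => L (F w)) z‖ ≤ ‖deriv F z‖ := by
  refine ContinuousLinearMap.opNorm_le_bound _ (norm_nonneg _) fun v => ?_
  rw [h.fderiv_comp L hz v]
  calc ‖L (deriv F z * v)‖ ≤ ‖L‖ * ‖deriv F z * v‖ := L.le_opNorm _
    _ ≤ 1 * ‖deriv F z * v‖ := by gcongr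
    _ = ‖deriv F z‖ * ‖v‖ := by rw [one_mul, norm_mul]

theorem Pic.contDiffOn_comp (h : Pic U F N r R) (L : ℂ →L[ℝ] ℝ) :
    ContDiffOn ℝ ∞ (fun w => L (F w)) U := by
  have h1 : ContDiffOn ℝ ∞ F U :=
    ((h.hol.contDiffOn (n := ∞) h.opn).restrict_scalars ℝ)
  exact L.contDiff.comp_contDiffOn h1

end Crest.Agent.R105
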