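import Mathlib

/-! Row 105: cut-off functions of small Dirichlet energy (points and infinity have capacity 0). -/

set_option autoImplicit false

namespace Crest.Agent.R105

open MeasureTheory Filter Topology Set Metric
open scoped ENNReal ContDiff

/-- Scale invariance of the Dirichlet energy in the plane
(`fderiv_comp`, `Measure.map_addHaar_smul`/`lintegral_comp_smul`, translation invariance). -/
theorem hb_energy_scale {ψ : ℂ → ℝ} (hψ : Differentiable ℝ ψ) (p : ℂ) {s : ℝ} (hs : 0 < s) :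
    ∫⁻ z, ‖fderiv ℝ (fun w => ψ (s⁻¹ • (w - p))) z‖ₑ ^ 2 = ∫⁻ z, ‖fderiv ℝ ψ z‖ₑ ^ 2 := by
  have _ := hψ
  have h1 : ∀ z, fderiv ℝ (fun w => ψ (s⁻¹ • (w - p))) z = s⁻¹ • fderiv ℝ ψ (s⁻¹ • (z - p)) := by
    intro z
    rw [fderiv_comp_sub (f := fun w => ψ (s⁻¹ • w)) p, fderiv_comp_smul]
  have hs' : s⁻¹ ≠ 0 := inv_ne_zero hs.ne'
  have h2 : ∀ F : ℂ → ℝ≥0∞, ∫⁻ z, F (s⁻¹ • (z - p)) = ENNReal.ofReal (s ^ 2) * ∫⁻ z, F z := by
    intro F
    rw [lintegral_sub_right_eq_self (fun z => F (s⁻¹ • z)) p]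
    have h3 := lintegral_map_equiv (μ := (volume : Measure ℂ)) F
      (Homeomorph.smulOfNeZero s⁻¹ hs').toMeasurableEquiv
    have h4 : Measure.map (Homeomorph.smulOfNeZero s⁻¹ hs').toMeasurableEquiv
        (volume : Measure ℂ) = ENNReal.ofReal (s ^ 2) • volume := by
      have h5 := Measure.map_addHaar_smul (volume : Measure ℂ) hs'
      rw [Complex.finrank_real_complex, inv_pow, inv_inv, abs_of_pos (by positivity)] at h5
      exact h5
    rw [h4, lintegral_smul_measure, smul_eq_mul] at h3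
    exact h3.symm
  have h3 : ∀ z, ‖s⁻¹ • fderiv ℝ ψ z‖ₑ ^ 2 = ENNReal.ofReal (s⁻¹ ^ 2) * ‖fderiv ℝ ψ z‖ₑ ^ 2 := by
    intro z
    rw [enorm_smul, mul_pow, Real.enorm_eq_ofReal (inv_nonneg.2 hs.le),
      ENNReal.ofReal_pow (inv_nonneg.2 hs.le)]
  simp only [h1]
  rw [h2 fun z => ‖s⁻¹ • fderiv ℝ ψ z‖ₑ ^ 2]
  simp only [h3]
  rw [lintegral_const_mul' _ _ ENNReal.ofReal_ne_top, ← mul_assoc,
    ← ENNReal.ofReal_mul (by positivity), ← mul_pow, mul_inv_cancel₀ hs.ne', one_pow,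
    ENNReal.ofReal_one, one_mul]

theorem h60_sum_disj {E : Type} [NormedAddCommGroup E] (s : Finset ℕ) (D : ℕ → E)
    (h : ∀ j k, D j ≠ 0 → D k ≠ 0 → j = k) :
    ‖∑ k ∈ s, D k‖ₑ ^ 2 ≤ ∑ k ∈ s, ‖D k‖ₑ ^ 2 := by
  by_cases h0 : ∀ k ∈ s, D k = 0
  · rw [Finset.sum_eq_zero h0]
    simp
  · push Not at h0
    obtain ⟨k, hk, hk0⟩ := h0
    rw [Finset.sum_eq_single k]
    · exact Finset.single_le_sum (f := fun k => ‖D k‖ₑ ^ 2) (fun _ _ => zero_le) hk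
    · intro j _ hjk
      by_contra hj
      exact hjk (h j k hj hk0)
    · intro hk'
      exact absurd hk hk'

theorem h60_bump_supp (b : ContDiffBump (0 : ℂ)) (h1 : b.rIn = 1) (h2 : b.rOut = 2) {s : ℝ}
    (hs : 0 < s) {z : ℂ} (hz : fderiv ℝ (fun w : ℂ => b (s⁻¹ • (w - 0))) z ≠ 0) :
    s ≤ ‖z‖ ∧ ‖z‖ ≤ 2 * s := by
  have hn : ∀ w : ℂ, ‖s⁻¹ • (w - 0)‖ = ‖w‖ / s := by
    intro w
    rw [sub_zero, norm_smul, norm_inv, Real.norm_of_nonneg hs.le, div_eq_inv_mul]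
  constructor
  · by_contra hlt
    push Not at hlt
    apply hz
    have : (fun w : ℂ => b (s⁻¹ • (w - 0))) =ᶠ[𝓝 z] fun _ => (1 : ℝ) := by
      filter_upwards [(isOpen_lt continuous_norm continuous_const).mem_nhds hlt] with w hw
      apply b.one_of_mem_closedBall
      rw [mem_closedBall_zero_iff, hn, h1, div_le_one hs]
      exact le_of_lt hw
    rw [this.fderiv_eq]
    simp
  · by_contra hlt
    push Not at hlt
    apply hz
    have : (fun w : ℂ => b (s⁻¹ • (w - 0))) =ᶠ[𝓝 z] fun _ => (0 : ℝ) := by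
      filter_upwards [(isOpen_lt continuous_const continuous_norm).mem_nhds hlt] with w hw
      apply b.zero_of_le_dist
      rw [dist_zero_right, hn, h2, le_div_iff₀ hs]
      exact le_of_lt hw
    rw [this.fderiv_eq]
    simp

/-- Take a bump `b` (`ContDiffBump (0:ℂ)`, `rIn = 1`, `rOut = 2`), `E = ∫ ‖∇b‖² < ∞`, and
`ψ = N⁻¹ ∑_{k<N} b (3^{-k} z)`.  The gradients have disjoint supports (`3^k ≤ |z| ≤ 2·3^k`), so
`‖∇ψ‖² = N⁻² ∑ ‖∇b_k‖²` pointwise and the energy is `E / N` (`hb_energy_scale`). -/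
theorem hb_log0 {ε : ℝ} (hε : 0 < ε) : ∃ ψ : ℂ → ℝ, ContDiff ℝ ∞ ψ ∧ HasCompactSupport ψ ∧
    (∀ z, 0 ≤ ψ z) ∧ (∀ z, ψ z ≤ 1) ∧ (∀ z ∈ closedBall (0 : ℂ) 1, ψ z = 1) ∧
    ∫⁻ z, ‖fderiv ℝ ψ z‖ₑ ^ 2 ≤ ENNReal.ofReal ε := by
  let b : ContDiffBump (0 : ℂ) := ⟨1, 2, one_pos, one_lt_two⟩
  have hb1 : b.rIn = 1 := rfl
  have hb2 : b.rOut = 2 := rfl
  have hbs : ContDiff ℝ ∞ (b : ℂ → ℝ) := b.contDiff
  have hbd : Differentiable ℝ (b : ℂ → ℝ) := hbs.differentiable (by simp)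
  have hE : ∫⁻ z, ‖fderiv ℝ (b : ℂ → ℝ) z‖ₑ ^ 2 < ⊤ := by
    have hc : Continuous fun z => ‖fderiv ℝ (b : ℂ → ℝ) z‖ ^ 2 :=
      ((hbs.continuous_fderiv (by simp)).norm).pow 2
    have hk : HasCompactSupport fun z => ‖fderiv ℝ (b : ℂ → ℝ) z‖ ^ 2 :=
      (b.hasCompactSupport.fderiv ℝ).comp_left (g := fun L : ℂ →L[ℝ] ℝ => ‖L‖ ^ 2) (by simp)
    have := (hc.integrable_of_hasCompactSupport (μ := volume) hk).2
    unfold HasFiniteIntegral at this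
    simpa only [enorm_pow, enorm_norm] using this
  set E := ∫⁻ z, ‖fderiv ℝ (b : ℂ → ℝ) z‖ₑ ^ 2 with hEdef
  obtain ⟨N, hN⟩ : ∃ N : ℕ, E.toReal / ε < N := exists_nat_gt _
  have hN0 : (0 : ℝ) < N := lt_of_le_of_lt (div_nonneg ENNReal.toReal_nonneg hε.le) hN
  let B : ℕ → ℂ → ℝ := fun k w => b (((3 : ℝ) ^ k)⁻¹ • (w - 0))
  have h3 : ∀ k : ℕ, (0 : ℝ) < 3 ^ k := fun k => by positivity
  have hBs : ∀ k, ContDiff ℝ ∞ (B k) := fun k =>
    hbs.comp ((contDiff_id.sub contDiff_const).const_smul _)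
  have hBd : ∀ k, Differentiable ℝ (B k) := fun k => (hBs k).differentiable (by simp)
  have hn : ∀ (k : ℕ) (w : ℂ), ‖((3 : ℝ) ^ k)⁻¹ • (w - 0)‖ = ‖w‖ / 3 ^ k := by
    intro k w
    rw [sub_zero, norm_smul, norm_inv, Real.norm_of_nonneg (h3 k).le, div_eq_inv_mul]
  refine ⟨fun w => (N : ℝ)⁻¹ * ∑ k ∈ Finset.range N, B k w, ?_, ?_, ?_, ?_, ?_, ?_⟩
  · exact contDiff_const.mul (ContDiff.sum fun k _ => hBs k)
  · apply HasCompactSupport.intro (isCompact_closedBall (0 : ℂ) (2 * 3 ^ N))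
    intro w hw
    rw [mem_closedBall_zero_iff, not_le] at hw
    rw [Finset.sum_eq_zero, mul_zero]
    intro k hk
    apply b.zero_of_le_dist
    rw [dist_zero_right, hn, hb2, le_div_iff₀ (h3 k)]
    have : (3 : ℝ) ^ k ≤ 3 ^ N :=
      pow_le_pow_right₀ (by norm_num) (Finset.mem_range.1 hk).le
    linarith
  · intro w
    exact mul_nonneg (inv_nonneg.2 hN0.le) (Finset.sum_nonneg fun k _ => b.nonneg)
  · intro w
    have : ∑ k ∈ Finset.range N, B k w ≤ N := by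
      have := Finset.sum_le_card_nsmul (Finset.range N) (fun k => B k w) 1 (fun k _ => b.le_one)
      simpa using this
    rw [inv_mul_le_iff₀ hN0]
    linarith
  · intro w hw
    rw [mem_closedBall_zero_iff] at hw
    have : ∑ k ∈ Finset.range N, B k w = N := by
      rw [Finset.sum_congr rfl (g := fun _ => (1 : ℝ))]
      · simp
      · intro k _
        apply b.one_of_mem_closedBall
        rw [mem_closedBall_zero_iff, hn, hb1, div_le_one (h3 k)]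
        exact hw.trans (one_le_pow₀ (by norm_num))
    simp only []
    rw [this, inv_mul_cancel₀ hN0.ne']
  · have hf : ∀ z, fderiv ℝ (fun w => (N : ℝ)⁻¹ * ∑ k ∈ Finset.range N, B k w) z =
        (N : ℝ)⁻¹ • ∑ k ∈ Finset.range N, fderiv ℝ (B k) z := by
      intro z
      have h1 : HasFDerivAt (fun w => ∑ k ∈ Finset.range N, B k w)
          (∑ k ∈ Finset.range N, fderiv ℝ (B k) z) z :=
        HasFDerivAt.fun_sum fun k _ => (hBd k z).hasFDerivAt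
      exact (h1.const_mul _).fderiv
    have hdisj : ∀ z j k, fderiv ℝ (B j) z ≠ 0 → fderiv ℝ (B k) z ≠ 0 → j = k := by
      intro z j k hj hk
      obtain ⟨a1, a2⟩ := h60_bump_supp b hb1 hb2 (h3 j) hj
      obtain ⟨c1, c2⟩ := h60_bump_supp b hb1 hb2 (h3 k) hk
      by_contra hne
      rcases lt_or_gt_of_ne hne with hlt | hlt
      · have : (3 : ℝ) ^ (j + 1) ≤ 3 ^ k := pow_le_pow_right₀ (by norm_num) hlt
        rw [pow_succ] at this
        linarith [h3 j]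
      · have : (3 : ℝ) ^ (k + 1) ≤ 3 ^ j := pow_le_pow_right₀ (by norm_num) hlt
        rw [pow_succ] at this
        linarith [h3 k]
    have hBE : ∀ k, ∫⁻ z, ‖fderiv ℝ (B k) z‖ₑ ^ 2 = E := fun k =>
      hb_energy_scale hbd 0 (h3 k)
    have hm : ∀ k, Measurable fun z => ‖fderiv ℝ (B k) z‖ₑ ^ 2 := fun k =>
      ((measurable_fderiv ℝ (B k)).enorm).pow_const 2
    calc ∫⁻ z, ‖fderiv ℝ (fun w => (N : ℝ)⁻¹ * ∑ k ∈ Finset.range N, B k w) z‖ₑ ^ 2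
        ≤ ∫⁻ z, ENNReal.ofReal ((N : ℝ)⁻¹) ^ 2 *
            ∑ k ∈ Finset.range N, ‖fderiv ℝ (B k) z‖ₑ ^ 2 := by
          apply lintegral_mono
          intro z
          simp only []
          rw [hf, enorm_smul, mul_pow, Real.enorm_eq_ofReal (inv_nonneg.2 hN0.le)]
          gcongr
          exact h60_sum_disj _ _ (hdisj z)
      _ = ENNReal.ofReal ((N : ℝ)⁻¹) ^ 2 * (N * E) := by
          rw [lintegral_const_mul _ (Finset.measurable_sum _ fun k _ => hm k),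
            lintegral_finsetSum _ fun k _ => hm k]
          simp [hBE]
      _ ≤ ENNReal.ofReal ε := by
          rw [← ENNReal.ofReal_toReal hE.ne, ← ENNReal.ofReal_natCast,
            ← ENNReal.ofReal_mul hN0.le, ← ENNReal.ofReal_pow (inv_nonneg.2 hN0.le),
            ← ENNReal.ofReal_mul (by positivity)]
          apply ENNReal.ofReal_le_ofReal
          rw [div_lt_iff₀ hε] at hN
          have : (N : ℝ)⁻¹ ^ 2 * (N * E.toReal) = E.toReal / N := by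
            field_simp
          rw [this, div_le_iff₀ hN0]
          linarith

theorem h67_rescale {ψ : ℂ → ℝ} (h1 : ContDiff ℝ ∞ ψ) (h2 : HasCompactSupport ψ) (p : ℂ) {s : ℝ}
    (hs : 0 < s) : ContDiff ℝ ∞ (fun w => ψ (s⁻¹ • (w - p))) ∧
      HasCompactSupport fun w => ψ (s⁻¹ • (w - p)) :=
  ⟨h1.comp ((contDiff_id.sub contDiff_const).const_smul s⁻¹),
    h2.comp_homeomorph ((Homeomorph.subRight p).trans
      (Homeomorph.smulOfNeZero s⁻¹ (inv_ne_zero hs.ne')))⟩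

theorem h67_norm_rescale (p z : ℂ) {s : ℝ} (hs : 0 < s) : ‖s⁻¹ • (z - p)‖ = s⁻¹ * dist z p := by
  rw [norm_smul, Real.norm_of_nonneg (inv_nonneg.2 hs.le), dist_eq_norm]

/-- cut-off at a point: rescale `hb_log0`. -/
theorem hb_log_pt {ε : ℝ} (hε : 0 < ε) (p : ℂ) {r : ℝ} (hr : 0 < r) :
    ∃ ψ : ℂ → ℝ, ContDiff ℝ ∞ ψ ∧ HasCompactSupport ψ ∧ (∀ z, 0 ≤ ψ z) ∧ (∀ z, ψ z ≤ 1) ∧
      (∃ s > 0, ∀ z ∈ closedBall p s, ψ z = 1) ∧ tsupport ψ ⊆ ball p r ∧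
      ∫⁻ z, ‖fderiv ℝ ψ z‖ₑ ^ 2 ≤ ENNReal.ofReal ε := by
  obtain ⟨ψ, h1, h2, h3, h4, h5, h6⟩ := hb_log0 hε
  obtain ⟨R, hR, hR'⟩ := h2.isCompact.isBounded.subset_closedBall_lt 0 (0 : ℂ)
  have hs : 0 < r / (2 * R) := by positivity
  obtain ⟨k1, k2⟩ := h67_rescale h1 h2 p hs
  refine ⟨_, k1, k2, fun z => h3 _, fun z => h4 _, ⟨_, hs, fun z hz => h5 _ ?_⟩, ?_, ?_⟩
  · rw [mem_closedBall_zero_iff, h67_norm_rescale p z hs, inv_mul_le_iff₀ hs, mul_one]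
    exact hz
  · refine (closure_minimal (fun z hz => ?_) isClosed_closedBall).trans
      (closedBall_subset_ball (half_lt_self hr))
    have h7 := hR' (subset_tsupport ψ hz)
    rw [mem_closedBall_zero_iff, h67_norm_rescale p z hs, inv_mul_le_iff₀ hs] at h7
    refine mem_closedBall.2 (h7.trans (le_of_eq ?_))
    field_simp
  · rw [hb_energy_scale (h1.differentiable (by simp)) p hs]
    exact h6

/-- cut-off at infinity: rescale `hb_log0`. -/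
theorem hb_log_inf {ε : ℝ} (hε : 0 < ε) (R : ℝ) :
    ∃ ψ : ℂ → ℝ, ContDiff ℝ ∞ ψ ∧ HasCompactSupport ψ ∧ (∀ z, 0 ≤ ψ z) ∧ (∀ z, ψ z ≤ 1) ∧
      (∀ z ∈ closedBall (0 : ℂ) R, ψ z = 1) ∧
      ∫⁻ z, ‖fderiv ℝ ψ z‖ₑ ^ 2 ≤ ENNReal.ofReal ε := by
  obtain ⟨ψ, h1, h2, h3, h4, h5, h6⟩ := hb_log0 hε
  have hs : 0 < max R 1 := lt_max_of_lt_right one_pos
  obtain ⟨k1, k2⟩ := h67_rescale h1 h2 0 hs
  refine ⟨_, k1, k2, fun z => h3 _, fun z => h4 _, fun z hz => h5 _ ?_, ?_⟩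
  · rw [mem_closedBall_zero_iff, h67_norm_rescale 0 z hs, inv_mul_le_iff₀ hs, mul_one]
    exact (mem_closedBall.1 hz).trans (le_max_left _ _)
  · rw [hb_energy_scale (h1.differentiable (by simp)) 0 hs]
    exact h6

end Crest.Agent.R105
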