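import Crest.Agent.R105.ADefs
import Crest.Agent.R105.APic
import Crest.Agent.R105.ABoj
import Crest.Agent.R105.HLog

/-! Row 105, block A: choice of the cut-offs. -/

set_option autoImplicit false

namespace Crest.Agent.R105

open MeasureTheory Filter Topology Set Metric Crest.AnalysisR
open scoped ENNReal ContDiff

variable {U : Set ℂ} {F : ℂ → ℂ} {N : Set ℂ} {r R : ℂ → ℝ}

/-- tails: choose a finite set `S` with small tail and `δ` below the positive values of `r` on `S`. -/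
theorem tail_small {f : ℂ → ℝ≥0∞} (hf : ∑' q : N, f q ≠ ⊤) (h0 : ∀ q ∈ N, r q ≤ 0 → f q = 0)
    {γ : ℝ≥0∞} (hγ : 0 < γ) : ∃ δ > 0, ∀ δ' ≤ δ, ∑' q : (N \ {q ∈ N | δ' ≤ r q} : Set ℂ), f q ≤ γ := by
  classical
  obtain ⟨S, hS⟩ := ((ENNReal.tendsto_tsum_compl_atTop_zero (f := fun q : N => f q) hf).eventually
    (ge_mem_nhds hγ)).exists
  obtain ⟨δ, hδ, hδS⟩ : ∃ δ > 0, ∀ x ∈ S, 0 < r x → δ ≤ r x := by
    clear hS
    induction S using Finset.induction_on with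
    | empty => exact ⟨1, one_pos, by simp⟩
    | insert a s _ ih =>
      obtain ⟨δ, h1, h2⟩ := ih
      by_cases ha : 0 < r a
      · refine ⟨min δ (r a), lt_min h1 ha, fun x hx h3 => ?_⟩
        rcases Finset.mem_insert.1 hx with rfl | hx
        · exact min_le_right _ _
        · exact (min_le_left _ _).trans (h2 x hx h3)
      · refine ⟨δ, h1, fun x hx h3 => ?_⟩
        rcases Finset.mem_insert.1 hx with rfl | hx
        · exact absurd h3 ha
        · exact h2 x hx h3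
  refine ⟨δ, hδ, fun δ' hδ' => le_trans ?_ hS⟩
  have e1 : ∑' b : {x : N // x ∉ S}, f b = ∑' x : N, {x : N | x ∉ S}.indicator (fun q => f q) x :=
    tsum_subtype {x : N | x ∉ S} fun q => f q
  rw [e1]
  refine le_trans (ENNReal.tsum_le_tsum fun q => ?_) (ENNReal.tsum_comp_le_tsum_of_injective
    (f := fun q : (N \ {q ∈ N | δ' ≤ r q} : Set ℂ) => (⟨q.1, q.2.1⟩ : N))
    (fun a b h => Subtype.ext (congrArg (fun x : N => (x : ℂ)) h)) _)
  by_cases hq : (⟨q.1, q.2.1⟩ : N) ∈ S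
  · have h1 : r q < δ' := not_le.1 fun h => q.2.2 ⟨q.2.1, h⟩
    rw [h0 q q.2.1 (not_lt.1 fun h => by linarith [hδS _ hq h])]
    exact bot_le
  · exact (indicator_of_mem (s := {x : N | x ∉ S}) hq fun q => f q).ge

/-- scaled bump `b ((z - q) / ρ)`, `b : ContDiffBump (0 : ℂ)` with `rIn = 5/4`, `rOut = 3/2`. -/
theorem exists_bump : ∃ M : ℝ, 0 ≤ M ∧ ∀ (q : ℂ) (ρ : ℝ), 0 < ρ → ∃ ψ : ℂ → ℝ, ContDiff ℝ ∞ ψ ∧
    (∀ z, 0 ≤ ψ z) ∧ (∀ z, ψ z ≤ 1) ∧ (∀ z ∈ ball q (5 / 4 * ρ), ψ z = 1) ∧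
    tsupport ψ ⊆ ball q (2 * ρ) ∧
    ∀ z, ‖fderiv ℝ ψ z‖ₑ ≤ (ball q (2 * ρ)).indicator (fun _ => ENNReal.ofReal (M / ρ)) z := by
  let b : ContDiffBump (0 : ℂ) := ⟨5 / 4, 3 / 2, by norm_num, by norm_num⟩
  have hb : ContDiff ℝ ∞ b := b.contDiff
  obtain ⟨M, hM⟩ := (hb.continuous_fderiv (by simp)).bounded_above_of_compact_support
    (b.hasCompactSupport.fderiv ℝ)
  refine ⟨M, (norm_nonneg _).trans (hM 0), fun q ρ hρ => ?_⟩
  have hn : ∀ z : ℂ, ‖ρ⁻¹ • (z - q)‖ = ρ⁻¹ * dist z q := fun z => by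
    rw [norm_smul, dist_eq_norm, Real.norm_of_nonneg (inv_pos.2 hρ).le]
  have hs : tsupport (fun z => b (ρ⁻¹ • (z - q))) ⊆ ball q (2 * ρ) := by
    refine (closure_minimal (t := closedBall q (3 / 2 * ρ)) (fun z hz => ?_) isClosed_closedBall).trans
      (closedBall_subset_ball (by linarith))
    have h1 : ρ⁻¹ • (z - q) ∈ Function.support b := hz
    rw [b.support_eq, mem_ball_zero_iff, hn, inv_mul_lt_iff₀ hρ] at h1
    have h2 : dist z q < ρ * (3 / 2) := h1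
    rw [mem_closedBall]; linarith
  refine ⟨fun z => b (ρ⁻¹ • (z - q)), hb.comp (by fun_prop), fun z => b.nonneg, fun z => b.le_one,
    fun z hz => b.one_of_mem_closedBall ?_, hs, fun z => ?_⟩
  · rw [mem_closedBall_zero_iff, hn, inv_mul_le_iff₀ hρ]
    change dist z q ≤ ρ * (5 / 4)
    linarith [mem_ball.1 hz]
  · by_cases hz : z ∈ ball q (2 * ρ)
    · rw [indicator_of_mem hz, ← ofReal_norm]
      refine ENNReal.ofReal_le_ofReal ?_
      have h1 : HasFDerivAt (fun z : ℂ => ρ⁻¹ • (z - q)) (ρ⁻¹ • ContinuousLinearMap.id ℝ ℂ) z :=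
        ((hasFDerivAt_id z).sub_const q).const_smul ρ⁻¹
      have h2 := ((hb.differentiable (by simp)) (ρ⁻¹ • (z - q))).hasFDerivAt.comp z h1
      rw [show fderiv ℝ (fun z => b (ρ⁻¹ • (z - q))) z = _ from h2.fderiv]
      refine (ContinuousLinearMap.opNorm_comp_le _ _).trans ?_
      rw [norm_smul, ContinuousLinearMap.norm_id, mul_one, Real.norm_of_nonneg (inv_pos.2 hρ).le,
        div_eq_mul_inv]
      exact mul_le_mul_of_nonneg_right (hM _) (inv_pos.2 hρ).le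
    · rw [fderiv_of_notMem_tsupport ℝ fun h => hz (hs h), ← ofReal_norm, norm_zero,
        ENNReal.ofReal_zero]
      exact bot_le

/-- `(∑ x q)² ≤ (∑ e q) (∑ (x q)² / e q)` -/
theorem tsum_sq_le {ι : Type*} (x e : ι → ℝ≥0∞) (he0 : ∀ i, e i ≠ 0) (he : ∀ i, e i ≠ ⊤) :
    (∑' i, x i) ^ 2 ≤ (∑' i, e i) * ∑' i, x i ^ 2 / e i := by
  let _ : MeasurableSpace ι := ⊤
  have h := ENNReal.lintegral_mul_le_Lp_mul_Lq (Measure.count : Measure ι) Real.HolderConjugate.two_two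
    (f := fun i => e i ^ (1 / 2 : ℝ)) (g := fun i => x i / e i ^ (1 / 2 : ℝ))
    (measurable_from_top.aemeasurable) (measurable_from_top.aemeasurable)
  have sq : ∀ a : ℝ≥0∞, (a ^ (1 / 2 : ℝ)) ^ (2 : ℝ) = a := fun a => by
    rw [← ENNReal.rpow_mul]; norm_num
  have h1 : ∀ i, e i ^ (1 / 2 : ℝ) * (x i / e i ^ (1 / 2 : ℝ)) = x i := fun i =>
    ENNReal.mul_div_cancel (by simp [he0 i, he i]) (by simp [he0 i, he i])
  have h2 : ∀ i, (x i / e i ^ (1 / 2 : ℝ)) ^ (2 : ℝ) = x i ^ 2 / e i := fun i => by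
    rw [ENNReal.div_rpow_of_nonneg _ _ (by norm_num), sq, ENNReal.rpow_two]
  simp only [Pi.mul_apply, h1, h2, sq, lintegral_count] at h
  have h3 := ENNReal.rpow_le_rpow h (z := 2) (by norm_num)
  rwa [ENNReal.mul_rpow_of_nonneg _ _ (by norm_num), sq, sq, ENNReal.rpow_two] at h3

/-- `L¹` norm of the gradient of a cut-off of small energy: `x ≤ t x² + 1 / t` on the ball. -/
theorem l1_of_l2 {ψ : ℂ → ℝ} {q : ℂ} {t : ℝ} (ht : 0 < t) (hs : tsupport ψ ⊆ ball q t)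
    (he : ∫⁻ z, ‖fderiv ℝ ψ z‖ₑ ^ 2 ≤ 1) :
    ∫⁻ z, ‖fderiv ℝ ψ z‖ₑ ≤ ENNReal.ofReal (5 * t) := by
  have h1 : ∀ z, ‖fderiv ℝ ψ z‖ₑ ≤ ENNReal.ofReal t * ‖fderiv ℝ ψ z‖ₑ ^ 2 +
      (ball q t).indicator (fun _ => ENNReal.ofReal (1 / t)) z := by
    intro z
    by_cases hz : z ∈ ball q t
    · rw [indicator_of_mem hz, ← ofReal_norm, ← ENNReal.ofReal_pow (norm_nonneg _),
        ← ENNReal.ofReal_mul ht.le, ← ENNReal.ofReal_add (by positivity) (by positivity)]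
      refine ENNReal.ofReal_le_ofReal ?_
      have h2 : 0 ≤ ‖fderiv ℝ ψ z‖ := norm_nonneg _
      have h3 : t * (1 / t) = 1 := by field_simp
      have h4 : 0 < 1 / t := by positivity
      refine le_of_mul_le_mul_left ?_ ht
      nlinarith [sq_nonneg (t * ‖fderiv ℝ ψ z‖ - 1), mul_nonneg ht.le h2]
    · rw [fderiv_of_notMem_tsupport ℝ fun h => hz (hs h), ← ofReal_norm, norm_zero,
        ENNReal.ofReal_zero]
      exact bot_le
  refine (lintegral_mono h1).trans ?_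
  rw [lintegral_add_right _ (measurable_const.indicator measurableSet_ball),
    lintegral_const_mul' _ _ ENNReal.ofReal_ne_top, lintegral_indicator_const measurableSet_ball,
    Complex.volume_ball]
  have h2 : ENNReal.ofReal (1 / t) * (ENNReal.ofReal t ^ 2 * NNReal.pi) =
      ENNReal.ofReal (Real.pi * t) := by
    rw [← ENNReal.ofReal_pow ht.le, ← ENNReal.ofReal_coe_nnreal, NNReal.coe_real_pi,
      ← ENNReal.ofReal_mul (by positivity), ← ENNReal.ofReal_mul (by positivity)]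
    congr 1; field_simp
  rw [h2]
  refine (add_le_add (mul_le_mul_right he _) le_rfl).trans ?_
  rw [mul_one, ← ENNReal.ofReal_add ht.le (by positivity)]
  exact ENNReal.ofReal_le_ofReal (by nlinarith [Real.pi_le_four])

theorem measurable_Gf {N' : Set ℂ} (hN : N'.Countable) (l : ℂ → ℝ) (ψ : ℂ → ℂ → ℝ) :
    Measurable (Gf N' l ψ) := by
  have := hN.to_subtype
  exact Measurable.ennreal_tsum fun q => (measurable_fderiv ℝ (ψ q)).enorm.const_mul _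

theorem measurable_Ef {N' : Set ℂ} (hN : N'.Countable) (l t : ℂ → ℝ) :
    Measurable (Ef N' l t) := by
  have := hN.to_subtype
  exact Measurable.ennreal_tsum fun q => measurable_const.indicator measurableSet_ball

theorem h22_ell_sq_ne (h : Pic U F N r R) {N' : Set ℂ} (hN' : N' ⊆ N) {ε : ℂ → ℝ}
    (hε0 : ∀ q ∈ N', 0 < ε q) (hε1 : ∀ q ∈ N', ε q ≤ 1)
    (hε : ∑' q : N', ENNReal.ofReal (ε q) ≠ ⊤) :
    ∑' q : N', ENNReal.ofReal (ell R ε q ^ 2) ≠ ⊤ := by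
  have hR : ∑' q : N', ENNReal.ofReal (R q ^ 2) ≠ ⊤ := by
    have h1 : ∑' q : N, ENNReal.ofReal (R q ^ 2) ≠ ⊤ := h.summable_R.tsum_ofReal_ne_top
    exact ne_top_of_le_ne_top h1
      (ENNReal.tsum_mono_subtype (fun q => ENNReal.ofReal (R q ^ 2)) hN')
  have hle : ∀ q : N', ENNReal.ofReal (ell R ε q ^ 2) ≤
      8 * ENNReal.ofReal (R q ^ 2) + 32 * ENNReal.ofReal (ε q) := by
    intro q
    have a0 := hε0 q q.2
    have a1 := hε1 q q.2
    have : ell R ε q ^ 2 ≤ 8 * R q ^ 2 + 32 * ε q := by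
      unfold ell
      nlinarith [sq_nonneg (2 * R q - 4 * ε q), mul_le_mul_of_nonneg_left a1 a0.le]
    calc ENNReal.ofReal (ell R ε q ^ 2) ≤ ENNReal.ofReal (8 * R q ^ 2 + 32 * ε q) :=
          ENNReal.ofReal_le_ofReal this
      _ = _ := by
          rw [ENNReal.ofReal_add (by positivity) (by positivity),
            ENNReal.ofReal_mul (by norm_num), ENNReal.ofReal_mul (by norm_num)]
          simp
  refine ne_top_of_le_ne_top ?_ (ENNReal.tsum_le_tsum hle)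
  rw [ENNReal.tsum_add, ENNReal.tsum_mul_left, ENNReal.tsum_mul_left]
  exact ENNReal.add_ne_top.2 ⟨ENNReal.mul_ne_top (by norm_num) hR,
    ENNReal.mul_ne_top (by norm_num) hε⟩

theorem h22_add_sq_le (x y : ℝ≥0∞) : (x + y) ^ 2 ≤ 4 * x ^ 2 + 4 * y ^ 2 := by
  rcases le_total x y with hxy | hxy
  · calc (x + y) ^ 2 ≤ (y + y) ^ 2 := by gcongr
      _ = 4 * y ^ 2 := by ring
      _ ≤ _ := le_add_self
  · calc (x + y) ^ 2 ≤ (x + x) ^ 2 := by gcongr
      _ = 4 * x ^ 2 := by ring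
      _ ≤ _ := le_self_add

/-- Finite energy: split `N'` into `{0 < r}` (`bojarski` with `a q = l q * M / r q`) and `{r = 0}`
(`tsum_sq_le` with `e q = ofReal (ε q)`); `(x + y)² ≤ 2 x² + 2 y²`; `l q ² ≤ 8 R² + 32 ε²`. -/
theorem Gf_sq_lt (h : Pic U F N r R) {N' : Set ℂ} (hN' : N' ⊆ N) {ψ : ℂ → ℂ → ℝ} {ε : ℂ → ℝ}
    {M : ℝ} (hM : 0 ≤ M) (hε0 : ∀ q ∈ N', 0 < ε q) (hε1 : ∀ q ∈ N', ε q ≤ 1)
    (hε : ∑' q : N', ENNReal.ofReal (ε q) ≠ ⊤)
    (hb : ∀ q ∈ N', 0 < r q → ∀ z, ‖fderiv ℝ (ψ q) z‖ₑ ≤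
      (ball q (2 * r q)).indicator (fun _ => ENNReal.ofReal (M / r q)) z)
    (hl : ∀ q ∈ N', r q ≤ 0 → ∫⁻ z, ‖fderiv ℝ (ψ q) z‖ₑ ^ 2 ≤ ENNReal.ofReal (ε q)) :
    ∫⁻ z, Gf N' (ell R ε) ψ z ^ 2 < ⊤ := by
  have hl2 := h22_ell_sq_ne h hN' hε0 hε1 hε
  have hl0 : ∀ q ∈ N', 0 ≤ ell R ε q := fun q hq => by
    have := h.R0 q (hN' hq)
    have := hε0 q hq
    unfold ell
    positivity
  set A : Set ℂ := {q ∈ N' | 0 < r q} with hA
  set B : Set ℂ := {q ∈ N' | r q ≤ 0} with hB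
  have hAN : A ⊆ N' := fun q hq => hq.1
  have hBN : B ⊆ N' := fun q hq => hq.1
  have hAc : A.Countable := h.cnt.mono (hAN.trans hN')
  have hBc : B.Countable := h.cnt.mono (hBN.trans hN')
  have := hAc.to_subtype
  have := hBc.to_subtype
  set X : ℂ → ℝ≥0∞ := fun z => ∑' q : A, (ball (q : ℂ) (2 * r q)).indicator
    (fun _ => ENNReal.ofReal (ell R ε q * (M / r q))) z with hX
  set E : ℝ≥0∞ := ∑' q : B, ENNReal.ofReal (ε q) with hE
  set Y : ℂ → ℝ≥0∞ := fun z => ∑' q : B,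
    (ENNReal.ofReal (ell R ε q) * ‖fderiv ℝ (ψ q) z‖ₑ) ^ 2 / ENNReal.ofReal (ε q) with hY
  have hEtop : E ≠ ⊤ := ne_top_of_le_ne_top hε
    (ENNReal.tsum_mono_subtype (fun q => ENNReal.ofReal (ε q)) hBN)
  have hpt : ∀ z, Gf N' (ell R ε) ψ z ^ 2 ≤ 4 * X z ^ 2 + 4 * (E * Y z) := by
    intro z
    have hU : N' = A ∪ B := by
      ext q
      constructor
      · intro hq
        rcases lt_or_ge 0 (r q) with h1 | h1
        · exact Or.inl ⟨hq, h1⟩
        · exact Or.inr ⟨hq, h1⟩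
      · rintro (hq | hq)
        · exact hq.1
        · exact hq.1
    have h1 : Gf N' (ell R ε) ψ z ≤
        (∑' q : A, ENNReal.ofReal (ell R ε q) * ‖fderiv ℝ (ψ q) z‖ₑ) +
          ∑' q : B, ENNReal.ofReal (ell R ε q) * ‖fderiv ℝ (ψ q) z‖ₑ := by
      have := ENNReal.tsum_union_le
        (fun q => ENNReal.ofReal (ell R ε q) * ‖fderiv ℝ (ψ q) z‖ₑ) A B
      rw [← hU] at this
      exact this
    have h2 : (∑' q : A, ENNReal.ofReal (ell R ε q) * ‖fderiv ℝ (ψ q) z‖ₑ) ≤ X z := by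
      refine ENNReal.tsum_le_tsum fun q => ?_
      refine (mul_le_mul_right (hb q q.2.1 q.2.2 z) _).trans (le_of_eq ?_)
      by_cases hz : z ∈ ball (q : ℂ) (2 * r q)
      · rw [indicator_of_mem hz, indicator_of_mem hz, ENNReal.ofReal_mul (hl0 q q.2.1)]
      · rw [indicator_of_notMem hz, indicator_of_notMem hz, mul_zero]
    have h3 : (∑' q : B, ENNReal.ofReal (ell R ε q) * ‖fderiv ℝ (ψ q) z‖ₑ) ^ 2 ≤ E * Y z :=
      tsum_sq_le _ (fun q : B => ENNReal.ofReal (ε q))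
        (fun q => (ENNReal.ofReal_pos.2 (hε0 q q.2.1)).ne') (fun q => ENNReal.ofReal_ne_top)
    calc Gf N' (ell R ε) ψ z ^ 2 ≤ _ := pow_le_pow_left' h1 2
      _ ≤ _ := h22_add_sq_le _ _
      _ ≤ _ := by gcongr
  have hXm : Measurable X := Measurable.ennreal_tsum fun q =>
    measurable_const.indicator measurableSet_ball
  have hXi : ∫⁻ z, X z ^ 2 ≠ ⊤ := by
    have hb' := bojarski (A := A) hAc (r := r) (a := fun q => ell R ε q * (M / r q))
      (fun q hq => hq.2)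
      (fun q hq => mul_nonneg (hl0 q hq.1) (div_nonneg hM hq.2.le))
      ((h.disj.subset (hAN.trans hN')).mono fun q => ball_subset_closedBall)
    refine ne_top_of_le_ne_top (ENNReal.mul_ne_top (by norm_num) ?_) hb'
    have he : ∀ q : A, ENNReal.ofReal ((ell R ε q * (M / r q)) ^ 2 * (Real.pi * r q ^ 2)) =
        ENNReal.ofReal (M ^ 2 * Real.pi) * ENNReal.ofReal (ell R ε q ^ 2) := by
      intro q
      have hq : r q ≠ 0 := q.2.2.ne'
      rw [← ENNReal.ofReal_mul (by positivity)]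
      congr 1
      field_simp
    rw [tsum_congr he, ENNReal.tsum_mul_left]
    exact ENNReal.mul_ne_top ENNReal.ofReal_ne_top (ne_top_of_le_ne_top hl2
      (ENNReal.tsum_mono_subtype (fun q => ENNReal.ofReal (ell R ε q ^ 2)) hAN))
  have hm : ∀ q : ℂ, Measurable fun z => ‖fderiv ℝ (ψ q) z‖ₑ ^ 2 := fun q =>
    (measurable_fderiv ℝ (ψ q)).enorm.pow_const 2
  have hYi : ∫⁻ z, Y z ≠ ⊤ := by
    have he : ∀ (q : B) z, (ENNReal.ofReal (ell R ε q) * ‖fderiv ℝ (ψ q) z‖ₑ) ^ 2 /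
        ENNReal.ofReal (ε q) = (ENNReal.ofReal (ell R ε q ^ 2) / ENNReal.ofReal (ε q)) *
          ‖fderiv ℝ (ψ q) z‖ₑ ^ 2 := by
      intro q z
      rw [mul_pow, ← ENNReal.ofReal_pow (hl0 q q.2.1), div_eq_mul_inv, div_eq_mul_inv]
      ring
    simp only [hY, he]
    rw [lintegral_tsum fun q : B => ((hm q).const_mul _).aemeasurable]
    refine ne_top_of_le_ne_top hl2 (le_trans (ENNReal.tsum_le_tsum fun q => ?_)
      (ENNReal.tsum_mono_subtype (fun q => ENNReal.ofReal (ell R ε q ^ 2)) hBN))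
    rw [lintegral_const_mul _ (hm q)]
    refine (mul_le_mul_right (hl q q.2.1 q.2.2) _).trans (le_of_eq ?_)
    exact ENNReal.div_mul_cancel (ENNReal.ofReal_pos.2 (hε0 q q.2.1)).ne' ENNReal.ofReal_ne_top
  refine lt_of_le_of_lt (lintegral_mono hpt) ?_
  rw [lintegral_add_left ((hXm.pow_const 2).const_mul 4), lintegral_const_mul' _ _ (by norm_num),
    lintegral_const_mul' _ _ (by norm_num), lintegral_const_mul' _ _ hEtop]
  exact ENNReal.add_lt_top.2 ⟨ENNReal.mul_lt_top (by norm_num) hXi.lt_top,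
    ENNReal.mul_lt_top (by norm_num) (ENNReal.mul_lt_top hEtop.lt_top hYi.lt_top)⟩

theorem h57_vol_ball (q : ℂ) {t : ℝ} (ht : 0 ≤ t) :
    volume (ball q t) ≤ ENNReal.ofReal (4 * t ^ 2) := by
  rw [Complex.volume_ball, ← ENNReal.ofReal_pow ht, ← ENNReal.ofReal_coe_nnreal,
    ← ENNReal.ofReal_mul (by positivity)]
  refine ENNReal.ofReal_le_ofReal ?_
  have := Real.pi_le_four
  rw [NNReal.coe_real_pi]
  nlinarith [sq_nonneg t]

theorem h57_fin {N' : Set ℂ} {ε : ℂ → ℝ} (hε : ∑' q : N', ENNReal.ofReal (ε q) ≠ ⊤) {η : ℝ}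
    (hη : 0 < η) : {q ∈ N' | η ≤ ε q}.Finite := by
  have := ENNReal.finite_const_le_of_tsum_ne_top hε (ε := ENNReal.ofReal η) (by simpa using hη)
  refine (this.image Subtype.val).subset fun q hq => ⟨⟨q, hq.1⟩, ?_, rfl⟩
  exact ENNReal.ofReal_le_ofReal hq.2

/-- Margins `ε q > 0` with small sum (`ENNReal.exists_pos_sum_of_countable`, made `≤ 1`), `t q = 2 r q` and
`exists_bump` if `0 < r q`, `t q = min (ε q) δ` and `hb_log_pt` (energy `ε q`) if `r q = 0`.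
`∫ ‖∇ψ q‖ ≤ C t q` in both cases (`l1_of_l2`), `R q` is bounded, `tail_small` for
`f q = ofReal (r q ² + R q r q)`. -/
theorem exists_cut (h : Pic U F N r R) {γ : ℝ≥0∞} (hγ : 0 < γ) :
    ∃ δ : ℝ, 0 < δ ∧ δ ≤ 1 ∧ ∃ (ψ : ℂ → ℂ → ℝ) (t ε : ℂ → ℝ),
      Cut (N \ {q ∈ N | δ ≤ r q}) r ψ t ε ∧ (∀ q ∈ N \ {q ∈ N | δ ≤ r q}, t q ≤ 2 * δ) ∧
      ∫⁻ z, Gf (N \ {q ∈ N | δ ≤ r q}) (ell R ε) ψ z ^ 2 < ⊤ ∧
      ∫⁻ z, Gf (N \ {q ∈ N | δ ≤ r q}) (ell R ε) ψ z ≤ γ ∧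
      volume (Tf (N \ {q ∈ N | δ ≤ r q}) t) ≤ γ ∧
      ∑' q : (N \ {q ∈ N | δ ≤ r q} : Set ℂ),
        ENNReal.ofReal (ell R ε q) * ENNReal.ofReal (t q) ≤ γ := by
  classical
  obtain ⟨g, hg, hgγ⟩ : ∃ g : ℝ, 0 < g ∧ ENNReal.ofReal g ≤ γ := by
    obtain ⟨x, hx0, hx⟩ := ENNReal.lt_iff_exists_real_btwn.1 hγ
    exact ⟨x, ENNReal.ofReal_pos.1 hx.1, hx.2.le⟩
  obtain ⟨M, hM, hbump⟩ := exists_bump
  obtain ⟨B, hB0, hB⟩ : ∃ B : ℝ, 0 ≤ B ∧ ∀ q ∈ N, R q ≤ B := by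
    refine ⟨1 + ∑' q : N, R q ^ 2, by positivity, fun q hq => ?_⟩
    have := h.summable_R.le_tsum ⟨q, hq⟩ fun _ _ => sq_nonneg _
    nlinarith [sq_nonneg (R q - 1), sq_nonneg (R q)]
  have : Countable N := h.cnt.to_subtype
  obtain ⟨K, hK⟩ : ∃ K : ℝ, K = 8 * M + 9 := ⟨_, rfl⟩
  have hK0 : 0 < K := by linarith
  obtain ⟨ε', hε'0, hε'⟩ := ENNReal.exists_pos_sum_of_countable
    (ε := ENNReal.ofReal (min 1 (g / (2 * K * (2 * B + 13))))) (by
      have : 0 < min 1 (g / (2 * K * (2 * B + 13))) := by positivity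
      simpa using this) N
  obtain ⟨ε, hεe⟩ : ∃ ε : ℂ → ℝ, ∀ q : N, ε q = ε' q :=
    ⟨fun q => if hq : q ∈ N then (ε' ⟨q, hq⟩ : ℝ) else 1, fun q => dif_pos q.2⟩
  have hεs : ∑' q : N, ENNReal.ofReal (ε q) ≤
      ENNReal.ofReal (min 1 (g / (2 * K * (2 * B + 13)))) := by
    simp only [hεe, ENNReal.ofReal_coe_nnreal]
    exact hε'.le
  have hε0 : ∀ q ∈ N, 0 < ε q := fun q hq => by
    rw [hεe ⟨q, hq⟩]; exact hε'0 _
  have hε1 : ∀ q ∈ N, ε q ≤ 1 := fun q hq => by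
    have := (ENNReal.le_tsum (f := fun q : N => ENNReal.ofReal (ε q)) ⟨q, hq⟩).trans hεs
    rw [ENNReal.ofReal_le_ofReal_iff (by positivity)] at this
    exact this.trans (min_le_left _ _)
  have hfs : Summable fun q : N => r q ^ 2 + R q * r q :=
    Summable.of_nonneg_of_le
      (fun q => add_nonneg (sq_nonneg _) (mul_nonneg (h.R0 q q.2) (h.r0 q q.2)))
      (fun q => by nlinarith [sq_nonneg (R q - r q), sq_nonneg (R q), sq_nonneg (r q)])
      ((h.summable_r.mul_left 2).add h.summable_R)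
  obtain ⟨δ₀, hδ₀, htail⟩ := tail_small (N := N) (r := r)
    (f := fun q => ENNReal.ofReal (r q ^ 2 + R q * r q)) (γ := ENNReal.ofReal (g / (8 * K)))
    (by
      rw [← ENNReal.ofReal_tsum_of_nonneg
        (fun q : N => add_nonneg (sq_nonneg _) (mul_nonneg (h.R0 q q.2) (h.r0 q q.2))) hfs]
      exact ENNReal.ofReal_ne_top)
    (fun q hq hr => by rw [le_antisymm hr (h.r0 q hq)]; simp)
    (ENNReal.ofReal_pos.2 (by positivity))
  obtain ⟨δ, hδ0, hδ1, hδ2⟩ : ∃ δ : ℝ, 0 < δ ∧ δ ≤ 1 ∧ δ ≤ δ₀ :=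
    ⟨min 1 δ₀, by positivity, min_le_left _ _, min_le_right _ _⟩
  have htail' := htail δ hδ2
  obtain ⟨N', hN'⟩ : ∃ N' : Set ℂ, N' = N \ {q ∈ N | δ ≤ r q} := ⟨_, rfl⟩
  rw [← hN'] at htail'
  have hsub : N' ⊆ N := hN' ▸ sdiff_subset
  have hrδ : ∀ q ∈ N', r q < δ := fun q hq => by
    rw [hN'] at hq
    exact not_le.1 fun h' => hq.2 ⟨hq.1, h'⟩
  have hεs' : ∑' q : N', ENNReal.ofReal (ε q) ≤
      ENNReal.ofReal (min 1 (g / (2 * K * (2 * B + 13)))) :=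
    (ENNReal.tsum_mono_subtype (fun q => ENNReal.ofReal (ε q)) hsub).trans hεs
  have hεt : ∑' q : N', ENNReal.ofReal (ε q) ≠ ⊤ := ne_top_of_le_ne_top ENNReal.ofReal_ne_top hεs'
  have hex : ∀ q, ∃ (ψ : ℂ → ℝ) (t : ℝ), q ∈ N' → ContDiff ℝ ∞ ψ ∧ (∀ z, 0 ≤ ψ z) ∧
      (∀ z, ψ z ≤ 1) ∧ (∃ s, r q < s ∧ ∀ z ∈ ball q s, ψ z = 1) ∧ tsupport ψ ⊆ ball q t ∧
      0 ≤ t ∧ (t = 2 * r q ∨ (t ≤ ε q ∧ t ≤ δ)) ∧
      (0 < r q → ∀ z, ‖fderiv ℝ ψ z‖ₑ ≤
        (ball q (2 * r q)).indicator (fun _ => ENNReal.ofReal (M / r q)) z) ∧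
      (r q ≤ 0 → ∫⁻ z, ‖fderiv ℝ ψ z‖ₑ ^ 2 ≤ ENNReal.ofReal (ε q)) ∧
      ∫⁻ z, ‖fderiv ℝ ψ z‖ₑ ≤ ENNReal.ofReal (K * t) := by
    intro q
    by_cases hq : q ∈ N'
    swap
    · exact ⟨0, 0, fun h' => absurd h' hq⟩
    by_cases hr : 0 < r q
    · obtain ⟨ψ, a1, a2, a3, a4, a5, a6⟩ := hbump q (r q) hr
      refine ⟨ψ, 2 * r q, fun _ => ⟨a1, a2, a3, ⟨_, by linarith, a4⟩, a5, by linarith, Or.inl rfl,
        fun _ => a6, fun h' => absurd hr (not_lt.2 h'), ?_⟩⟩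
      refine (lintegral_mono a6).trans ?_
      rw [lintegral_indicator_const measurableSet_ball]
      refine (mul_le_mul_right (h57_vol_ball q (by linarith)) _).trans ?_
      rw [← ENNReal.ofReal_mul (by positivity)]
      refine ENNReal.ofReal_le_ofReal ?_
      rw [show M / r q * (4 * (2 * r q) ^ 2) = 16 * M * r q by field_simp; ring, hK]
      nlinarith
    · have ht : 0 < min (ε q) δ := lt_min (hε0 q (hsub hq)) hδ0
      obtain ⟨ψ, a1, -, a2, a3, ⟨s, hs, a4⟩, a5, a6⟩ := hb_log_pt (hε0 q (hsub hq)) q ht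
      refine ⟨ψ, min (ε q) δ, fun _ => ⟨a1, a2, a3, ⟨s, by linarith [not_lt.1 hr],
        fun z hz => a4 z (ball_subset_closedBall hz)⟩, a5, ht.le,
        Or.inr ⟨min_le_left _ _, min_le_right _ _⟩, fun h' => absurd h' hr, fun _ => a6, ?_⟩⟩
      refine (l1_of_l2 ht a5 (a6.trans ?_)).trans (ENNReal.ofReal_le_ofReal ?_)
      · rw [← ENNReal.ofReal_one]
        exact ENNReal.ofReal_le_ofReal (hε1 q (hsub hq))
      · rw [hK]
        nlinarith
  choose ψ t hψ using hex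
  have hl0 : ∀ q ∈ N', 0 ≤ ell R ε q := fun q hq => by
    have := h.R0 q (hsub hq)
    have := hε0 q (hsub hq)
    unfold ell
    positivity
  have ht0 : ∀ q ∈ N', 0 ≤ t q := fun q hq => (hψ q hq).2.2.2.2.2.1
  have hw : ∑' q : N', ENNReal.ofReal (K * (ell R ε q * t q + t q ^ 2)) ≤ γ := by
    have b1 : ∀ q : N', ENNReal.ofReal (K * (ell R ε q * t q + t q ^ 2)) ≤
        ENNReal.ofReal (4 * K) * ENNReal.ofReal (r q ^ 2 + R q * r q) +
          ENNReal.ofReal (K * (2 * B + 13)) * ENNReal.ofReal (ε q) := by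
      rintro ⟨q, hq⟩
      have c1 := h.R0 q (hsub hq)
      have c2 := h.r0 q (hsub hq)
      have c3 := hε0 q (hsub hq)
      have c4 := hε1 q (hsub hq)
      have c5 := hB q (hsub hq)
      have c6 := hrδ q hq
      have c7 := ht0 q hq
      rw [← ENNReal.ofReal_mul (by positivity), ← ENNReal.ofReal_mul (by positivity),
        ← ENNReal.ofReal_add (by positivity) (by positivity)]
      refine ENNReal.ofReal_le_ofReal ?_
      have c8 : ell R ε q * t q + t q ^ 2 ≤ 4 * (r q ^ 2 + R q * r q) + (2 * B + 13) * ε q := by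
        unfold ell
        rcases (hψ q hq).2.2.2.2.2.2.1 with e | e
        · rw [e]
          nlinarith [mul_nonneg c3.le (sub_nonneg.2 (c6.le.trans hδ1)), mul_nonneg hB0 c3.le]
        · have d1 : R q * t q ≤ B * ε q := mul_le_mul c5 e.1 c7 hB0
          have d2 : ε q * t q ≤ ε q := mul_le_of_le_one_right c3.le (e.1.trans c4)
          have d3 : t q ^ 2 ≤ ε q := by nlinarith [e.1]
          nlinarith [mul_nonneg c1 c2, sq_nonneg (r q)]
      nlinarith [mul_le_mul_of_nonneg_left c8 hK0.le]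
    refine (ENNReal.tsum_le_tsum b1).trans ?_
    rw [ENNReal.tsum_add, ENNReal.tsum_mul_left, ENNReal.tsum_mul_left]
    refine (add_le_add (mul_le_mul_right htail' _) (mul_le_mul_right
      (hεs'.trans (ENNReal.ofReal_le_ofReal (min_le_right _ _))) _)).trans (le_trans ?_ hgγ)
    rw [← ENNReal.ofReal_mul (by positivity), ← ENNReal.ofReal_mul (by positivity),
      ← ENNReal.ofReal_add (by positivity) (by positivity)]
    refine ENNReal.ofReal_le_ofReal (le_of_eq ?_)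
    field_simp
    ring
  have : Countable N' := (h.cnt.mono hsub).to_subtype
  have hK1 : 4 ≤ K := by linarith
  refine ⟨δ, hδ0, hδ1, ψ, t, ε, ?_⟩
  rw [← hN']
  refine ⟨⟨fun q hq => (hψ q hq).1, fun q hq => (hψ q hq).2.1, fun q hq => (hψ q hq).2.2.1,
    fun q hq => (hψ q hq).2.2.2.1, fun q hq => (hψ q hq).2.2.2.2.1, fun q hq => hε0 q (hsub hq),
    fun η hη => ?_, fun η hη => h57_fin hεt hη⟩, fun q hq => ?_, ?_, ?_, ?_, ?_⟩
  · refine ((h.rfin (half_pos hη)).union (h57_fin hεt hη)).subset fun q hq => ?_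
    rcases (hψ q hq.1).2.2.2.2.2.2.1 with e | e
    · exact Or.inl ⟨hsub hq.1, by linarith [hq.2]⟩
    · exact Or.inr ⟨hq.1, hq.2.trans e.1⟩
  · rcases (hψ q hq).2.2.2.2.2.2.1 with e | e
    · linarith [hrδ q hq]
    · linarith [e.2]
  · exact Gf_sq_lt h hsub hM (fun q hq => hε0 q (hsub hq)) (fun q hq => hε1 q (hsub hq)) hεt
      (fun q hq => (hψ q hq).2.2.2.2.2.2.2.1) fun q hq => (hψ q hq).2.2.2.2.2.2.2.2.1
  · unfold Gf
    rw [lintegral_tsum fun q : N' =>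
      ((measurable_fderiv ℝ (ψ q)).enorm.const_mul _).aemeasurable]
    refine le_trans (ENNReal.tsum_le_tsum fun q => ?_) hw
    rw [lintegral_const_mul _ (measurable_fderiv ℝ (ψ q)).enorm]
    refine (mul_le_mul_right (hψ q q.2).2.2.2.2.2.2.2.2.2 _).trans ?_
    rw [← ENNReal.ofReal_mul (hl0 q q.2)]
    refine ENNReal.ofReal_le_ofReal ?_
    nlinarith [sq_nonneg (t q)]
  · unfold Tf
    rw [biUnion_eq_iUnion]
    refine (measure_iUnion_le _).trans (le_trans (ENNReal.tsum_le_tsum fun q => ?_) hw)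
    refine (h57_vol_ball _ (ht0 q q.2)).trans (ENNReal.ofReal_le_ofReal ?_)
    nlinarith [sq_nonneg (t q), mul_nonneg (hl0 q q.2) (ht0 q q.2)]
  · refine le_trans (ENNReal.tsum_le_tsum fun q => ?_) hw
    rw [← ENNReal.ofReal_mul (hl0 q q.2)]
    refine ENNReal.ofReal_le_ofReal ?_
    nlinarith [sq_nonneg (t q), mul_nonneg (hl0 q q.2) (ht0 q q.2)]

end Crest.Agent.R105
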