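import Mathlib
import Crest.Prelude.Def_CircleDomain

/-! Row 105, block A (S0139 from the Cantor-set statement `StB`): definitions. -/

set_option autoImplicit false

namespace Crest.Agent.R105

open MeasureTheory Filter Topology Set Metric Crest.AnalysisR
open scoped ENNReal ContDiff

/-- Statement (B): a removable compact totally disconnected set carries no singular part of the
gradient of a continuous function of finite energy. -/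
def StB : Prop := ∀ E : Set ℂ, IsCompact E → IsTotallyDisconnected E → IsConnected Eᶜ →
  IsConformallyRemovable E → ∀ ρ : ℂ → ℝ, Continuous ρ → HasCompactSupport ρ →
    ContDiffOn ℝ ∞ ρ Eᶜ → IntegrableOn (fun z => ‖fderiv ℝ ρ z‖ ^ 2) Eᶜ →
      ∀ v : ℂ, ∫ z in Eᶜ, fderiv ℝ ρ z v = 0

/-- A conformal map `F` between circle domains, extended to the plane.  `N` is the countable set
of centres of the nodes (components of `Uᶜ` which are discs or correspond to discs); the node `q`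
is the disc `closedBall q (r q)` and corresponds to the disc `closedBall (F q) (R q)`. -/
structure Pic (U : Set ℂ) (F : ℂ → ℂ) (N : Set ℂ) (r R : ℂ → ℝ) : Prop where
  opn : IsOpen U
  conn : IsConnected U
  cpt : IsCompact Uᶜ
  hol : DifferentiableOn ℂ F U
  inj : InjOn F U
  cpt' : IsCompact (F '' U)ᶜ
  cnt : N.Countable
  r0 : ∀ q ∈ N, 0 ≤ r q
  R0 : ∀ q ∈ N, 0 ≤ R q
  sub : ∀ q ∈ N, closedBall q (r q) ⊆ Uᶜ
  disj : N.PairwiseDisjoint fun q => closedBall q (r q)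
  sub' : ∀ q ∈ N, closedBall (F q) (R q) ⊆ (F '' U)ᶜ
  disj' : N.PairwiseDisjoint fun q => closedBall (F q) (R q)
  touch : ∀ q ∈ N, (closedBall q (r q) ∩ closure U).Nonempty
  near : ∀ q ∈ N, ∀ ε > 0, ∃ δ > 0, ∀ z, dist z q < r q + δ → dist (F z) (F q) < R q + ε
  cont : ∀ z, (∀ q ∈ N, z ∉ closedBall q (r q)) → ContinuousAt F z
  dust : Uᶜ \ (⋃ q ∈ N, closedBall q (r q)) ⊆ frontier U
  tdisc : IsTotallyDisconnected (Uᶜ \ ⋃ q ∈ N, closedBall q (r q))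

/-- A family of cut-off functions `ψ q` at the nodes `q ∈ N'`, supported in `ball q (t q)`, with
margins `ε q`. -/
structure Cut (N' : Set ℂ) (r : ℂ → ℝ) (ψ : ℂ → ℂ → ℝ) (t ε : ℂ → ℝ) : Prop where
  smooth : ∀ q ∈ N', ContDiff ℝ ∞ (ψ q)
  nonneg : ∀ q ∈ N', ∀ z, 0 ≤ ψ q z
  le_one : ∀ q ∈ N', ∀ z, ψ q z ≤ 1
  one : ∀ q ∈ N', ∃ s, r q < s ∧ ∀ z ∈ ball q s, ψ q z = 1
  supp : ∀ q ∈ N', tsupport (ψ q) ⊆ ball q (t q)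
  epos : ∀ q ∈ N', 0 < ε q
  tfin : ∀ η > 0, {q ∈ N' | η ≤ t q}.Finite
  efin : ∀ η > 0, {q ∈ N' | η ≤ ε q}.Finite

/-- length of the collapsed interval at the node `q` -/
def ell (R ε : ℂ → ℝ) (q : ℂ) : ℝ := 2 * R q + 4 * ε q

/-- gradient error -/
noncomputable def Gf (N' : Set ℂ) (l : ℂ → ℝ) (ψ : ℂ → ℂ → ℝ) (z : ℂ) : ℝ≥0∞ :=
  ∑' q : N', ENNReal.ofReal (l q) * ‖fderiv ℝ (ψ q) z‖ₑ

/-- value error -/
noncomputable def Ef (N' : Set ℂ) (l t : ℂ → ℝ) (z : ℂ) : ℝ≥0∞ :=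
  ∑' q : N', (ball (q : ℂ) (t q)).indicator (fun _ => ENNReal.ofReal (l q)) z

/-- union of the supports -/
def Tf (N' : Set ℂ) (t : ℂ → ℝ) : Set ℂ := ⋃ q ∈ N', ball q (t q)

/-- `P` is the modification of `L ∘ F` which collapses the oscillation at the nodes outside `Q`. -/
structure Mult (U : Set ℂ) (F : ℂ → ℂ) (N : Set ℂ) (r : ℂ → ℝ) (Q : Set ℂ) (L : ℂ →L[ℝ] ℝ)
    (P : ℂ → ℝ) (O T : Set ℂ) (G Er : ℂ → ℝ≥0∞) : Prop where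
  opn : IsOpen O
  subU : U ⊆ O
  subB : ∀ q ∈ N \ Q, closedBall q (r q) ⊆ O
  cont : ∀ z, (∀ q ∈ Q, z ∉ closedBall q (r q)) → ContinuousAt P z
  smooth : ContDiffOn ℝ ∞ P O
  bd : ∀ z, |P z| ≤ ‖F z‖
  off : ∀ z, z ∉ T → P z = L (F z)
  err : ∀ z, ‖P z - L (F z)‖ₑ ≤ Er z
  dU : ∀ z ∈ U, ‖fderiv ℝ P z - fderiv ℝ (fun w => L (F w)) z‖ₑ ≤
    T.indicator (fun w => ‖deriv F w‖ₑ) z + G z
  dK : ∀ z ∈ O, z ∉ U → ‖fderiv ℝ P z‖ₑ ≤ G z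

/-- collar cut-offs at the big nodes `q ∈ Q` -/
structure Collar (Q : Finset ℂ) (r : ℂ → ℝ) (s : ℝ) (φ : ℂ → ℂ → ℝ) : Prop where
  smooth : ∀ q ∈ Q, ContDiff ℝ ∞ (φ q)
  nonneg : ∀ q ∈ Q, ∀ z, 0 ≤ φ q z
  le_one : ∀ q ∈ Q, ∀ z, φ q z ≤ 1
  one : ∀ q ∈ Q, ∀ z ∈ ball q (r q + s / 2), φ q z = 1
  supp : ∀ q ∈ Q, tsupport (φ q) ⊆ closedBall q (r q + s)
  disj : (Q : Set ℂ).PairwiseDisjoint fun q => closedBall q (r q + s)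
  tot : ∀ q ∈ Q, ∫⁻ z, ‖fderiv ℝ (φ q) z‖ₑ ≤ ENNReal.ofReal (2 * Real.pi * (r q + s))
  loc : ∀ q ∈ Q, ∀ z₀ : ℂ, ∀ t : ℝ, ∫⁻ z in ball z₀ t, ‖fderiv ℝ (φ q) z‖ₑ ≤ ENNReal.ofReal (8 * t)

/-- admissible outer cut-offs -/
structure Outer (η : ℂ → ℝ) (ρ : ℝ) : Prop where
  smooth : ContDiff ℝ ∞ η
  cpt : HasCompactSupport η
  nonneg : ∀ z, 0 ≤ η z
  le_one : ∀ z, η z ≤ 1
  one : ∀ z ∈ ball (0 : ℂ) ρ, η z = 1

/-- the integrand of the weak divergence of `F` -/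
noncomputable def fluxI (F : ℂ → ℂ) (η : ℂ → ℝ) (z : ℂ) : ℝ :=
  η z * (2 * (deriv F z).re) + (F z).re * fderiv ℝ η z 1 + (F z).im * fderiv ℝ η z Complex.I

/-- the exceptional Cantor set -/
def Eset (U O : Set ℂ) (Q : Finset ℂ) (r : ℂ → ℝ) (s : ℝ) : Set ℂ :=
  Uᶜ \ (O ∪ ⋃ q ∈ Q, ball q (r q + s / 2))

/-- the function to which `StB` is applied -/
noncomputable def rhoF (η : ℂ → ℝ) (Q : Finset ℂ) (φ : ℂ → ℂ → ℝ) (P : ℂ → ℝ) (z : ℂ) : ℝ :=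
  η z * (1 - ∑ q ∈ Q, φ q z) * P z

/-- finite multiplier -/
noncomputable def Ms (S : Finset ℂ) (ψ : ℂ → ℂ → ℝ) (θ : ℂ → ℝ → ℝ) (z : ℂ) (x : ℝ) : ℝ :=
  ∏ q ∈ S, (1 - ψ q z * θ q x)

/-- primitive of the finite multiplier -/
noncomputable def Hs (S : Finset ℂ) (ψ : ℂ → ℂ → ℝ) (θ : ℂ → ℝ → ℝ) (z : ℂ) (τ : ℝ) : ℝ :=
  ∫ x in (0 : ℝ)..τ, Ms S ψ θ z x

/-- infinite multiplier -/
noncomputable def mI (N' : Set ℂ) (ψ : ℂ → ℂ → ℝ) (θ : ℂ → ℝ → ℝ) (z : ℂ) (x : ℝ) : ℝ :=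
  ⨅ S : {S : Finset ℂ // (S : Set ℂ) ⊆ N'}, Ms S.1 ψ θ z x

/-- primitive of the infinite multiplier -/
noncomputable def HI (N' : Set ℂ) (ψ : ℂ → ℂ → ℝ) (θ : ℂ → ℝ → ℝ) (z : ℂ) (τ : ℝ) : ℝ :=
  ∫ x in (0 : ℝ)..τ, mI N' ψ θ z x

/-- value cut-offs: `θ q = 1` on `[a q - b q, a q + b q]`, `= 0` off `[a q - c q, a q + c q]` -/
structure Theta (N' : Set ℂ) (θ : ℂ → ℝ → ℝ) (a b c : ℂ → ℝ) : Prop where
  smooth : ∀ q ∈ N', ContDiff ℝ ∞ (θ q)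
  nonneg : ∀ q ∈ N', ∀ x, 0 ≤ θ q x
  le_one : ∀ q ∈ N', ∀ x, θ q x ≤ 1
  one : ∀ q ∈ N', ∀ x, |x - a q| ≤ b q → θ q x = 1
  zero : ∀ q ∈ N', ∀ x, c q ≤ |x - a q| → θ q x = 0
  c0 : ∀ q ∈ N', 0 ≤ c q

end Crest.Agent.R105
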