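import Crest.Agent.R105.ADefs
import Crest.Agent.Lib.RMT.Basic

/-! Row 105, block A: the chart at infinity. -/

set_option autoImplicit false

namespace Crest.Agent.R105

open MeasureTheory Filter Topology Set Metric Crest.AnalysisR
open scoped ENNReal ContDiff

/-- `h w = (f w⁻¹)⁻¹`, `h 0 = 0` has a removable singularity at `0`
(`Complex.differentiableOn_update_limUnder_of_bddAbove` or
`Complex.differentiableOn_compl_singleton_and_continuousAt_iff`). -/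
theorem inf_chart {U : Set ℂ} (hU : IsExteriorDomain U) {f : ℂ → ℂ} (hf : DifferentiableOn ℂ f U)
    (hinj : InjOn f U) (hinf : Tendsto f (cocompact ℂ) (cocompact ℂ)) :
    ∃ ρ > 0, ∃ h : ℂ → ℂ, DifferentiableOn ℂ h (ball 0 ρ) ∧ InjOn h (ball 0 ρ) ∧ h 0 = 0 ∧
      ∀ w ∈ ball (0 : ℂ) ρ, w ≠ 0 → w⁻¹ ∈ U ∧ f w⁻¹ ≠ 0 ∧ h w = (f w⁻¹)⁻¹ := by
  obtain ⟨-, -, R, hR⟩ := hU
  rw [← Metric.cobounded_eq_cocompact] at hinf
  have h1 : Tendsto (fun w : ℂ => w⁻¹) (𝓝[≠] 0) (Bornology.cobounded ℂ) := tendsto_inv₀_nhdsNE_zero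
  have h2 : ∀ᶠ w in 𝓝[≠] (0 : ℂ), w⁻¹ ∈ U ∧ f w⁻¹ ≠ 0 := by
    filter_upwards [((tendsto_norm_cobounded_atTop (E := ℂ)).comp h1).eventually_gt_atTop R,
      ((tendsto_norm_cobounded_atTop (E := ℂ)).comp (hinf.comp h1)).eventually_gt_atTop 0] with w a1 a2
    exact ⟨hR _ a1, norm_pos_iff.1 a2⟩
  obtain ⟨ρ, hρ, h3⟩ := Metric.eventually_nhds_iff_ball.1 (eventually_nhdsWithin_iff.1 h2)
  have h4 : ∀ w : ℂ, w ≠ 0 → Function.update (fun w : ℂ => (f w⁻¹)⁻¹) 0 0 w = (f w⁻¹)⁻¹ :=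
    fun w hw => Function.update_of_ne hw _ _
  refine ⟨ρ, hρ, Function.update (fun w : ℂ => (f w⁻¹)⁻¹) 0 0, ?_, fun w hw w' hw' e => ?_,
    Function.update_self _ _ _, fun w hw h0 => ⟨(h3 w hw h0).1, (h3 w hw h0).2, h4 w h0⟩⟩
  · refine (Complex.differentiableOn_compl_singleton_and_continuousAt_iff
      (ball_mem_nhds 0 hρ)).1 ⟨?_, continuousAt_update_same.2
        (tendsto_inv₀_cobounded.comp (hinf.comp h1))⟩
    refine DifferentiableOn.congr (f := fun w : ℂ => (f w⁻¹)⁻¹) ?_ fun w hw => h4 w hw.2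
    exact (hf.comp (differentiableOn_inv.mono fun w hw => hw.2)
      fun w hw => (h3 w hw.1 hw.2).1).inv fun w hw => (h3 w hw.1 hw.2).2
  · by_cases a : w = 0 <;> by_cases a' : w' = 0
    · rw [a, a']
    · rw [a, Function.update_self, h4 w' a'] at e
      exact absurd (inv_eq_zero.1 e.symm) (h3 w' hw' a').2
    · rw [a', Function.update_self, h4 w a] at e
      exact absurd (inv_eq_zero.1 e) (h3 w hw a).2
    · rw [h4 w a, h4 w' a'] at e
      exact inv_injective (hinj (h3 w hw a).1 (h3 w' hw' a').1 (inv_injective e))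

/-- `h w = w * dslope h 0 w`, `dslope h 0 0 = deriv h 0 ≠ 0` (`Lib.RMT.deriv_ne_zero_of_injOn`), so
`k = (dslope h 0)⁻¹` is holomorphic near `0` and `f z = z * k z⁻¹`.  With `k₁ = dslope k 0`,
`n w = k₁ w - k₁ 0`: `f z = k 0 * z + k₁ 0 + n z⁻¹`, `‖n w‖ ≤ C ‖w‖`, `‖n' w‖ ≤ C` near `0`, and
`deriv f z = k 0 - n' (z⁻¹) / z²`. -/
theorem inf_expansion {U : Set ℂ} (hU : IsExteriorDomain U) {f : ℂ → ℂ}
    (hf : DifferentiableOn ℂ f U) (hinj : InjOn f U)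
    (hinf : Tendsto f (cocompact ℂ) (cocompact ℂ)) :
    ∃ a b : ℂ, a ≠ 0 ∧ ∃ C ρ : ℝ, 0 < ρ ∧ ∀ z : ℂ, ρ ≤ ‖z‖ → z ∈ U ∧
      ‖f z - (a * z + b)‖ ≤ C / ‖z‖ ∧ ‖deriv f z - a‖ ≤ C / ‖z‖ ^ 2 := by
  obtain ⟨ρ, hρ, h, hd, hi, h0, hw⟩ := inf_chart hU hf hinj hinf
  have hb : ball (0 : ℂ) ρ ∈ 𝓝 (0 : ℂ) := ball_mem_nhds 0 hρ
  have hg : DifferentiableOn ℂ (dslope h 0) (ball 0 ρ) := (Complex.differentiableOn_dslope hb).2 hd
  have hgw : ∀ w ∈ ball (0 : ℂ) ρ, w ≠ 0 → dslope h 0 w = w⁻¹ * (f w⁻¹)⁻¹ := by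
    intro w hwb hw0
    rw [dslope_of_ne _ hw0, slope_def_field, h0, (hw w hwb hw0).2.2, sub_zero, sub_zero,
      div_eq_inv_mul]
  have hg0 : ∀ w ∈ ball (0 : ℂ) ρ, dslope h 0 w ≠ 0 := by
    intro w hwb
    by_cases hw0 : w = 0
    · subst hw0
      rw [dslope_same]
      exact Crest.Agent.Lib.RMT.deriv_ne_zero_of_injOn isOpen_ball hd hi hwb
    · rw [hgw w hwb hw0]
      exact mul_ne_zero (inv_ne_zero hw0) (inv_ne_zero (hw w hwb hw0).2.1)
  set k : ℂ → ℂ := fun w => (dslope h 0 w)⁻¹ with hk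
  have hkd : DifferentiableOn ℂ k (ball 0 ρ) := hg.inv hg0
  have hk1 : DifferentiableOn ℂ (dslope k 0) (ball 0 ρ) :=
    (Complex.differentiableOn_dslope hb).2 hkd
  have hk2 : DifferentiableOn ℂ (dslope (dslope k 0) 0) (ball 0 ρ) :=
    (Complex.differentiableOn_dslope hb).2 hk1
  have hk3 : DifferentiableOn ℂ (deriv (dslope k 0)) (ball 0 ρ) := hk1.deriv isOpen_ball
  have hsub : closedBall (0 : ℂ) (ρ / 2) ⊆ ball 0 ρ := closedBall_subset_ball (by linarith)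
  obtain ⟨C1, hC1⟩ := (isCompact_closedBall (0 : ℂ) (ρ / 2)).exists_bound_of_continuousOn
    (hk2.continuousOn.mono hsub)
  obtain ⟨C2, hC2⟩ := (isCompact_closedBall (0 : ℂ) (ρ / 2)).exists_bound_of_continuousOn
    (hk3.continuousOn.mono hsub)
  have hrep : ∀ z : ℂ, z ≠ 0 → z⁻¹ ∈ ball (0 : ℂ) ρ → f z = k 0 * z + dslope k 0 z⁻¹ := by
    intro z hz0 hzb
    have hz1 : z⁻¹ ≠ 0 := inv_ne_zero hz0
    have h1 : k z⁻¹ = z⁻¹ * f z := by
      simp only [hk]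
      rw [hgw _ hzb hz1, inv_inv, mul_inv, inv_inv]
    rw [dslope_of_ne _ hz1, slope_def_field, h1]
    field_simp
    ring
  refine ⟨k 0, dslope k 0 0, inv_ne_zero (hg0 0 (mem_ball_self hρ)), max C1 C2, 2 / ρ,
    by positivity, fun z hz => ?_⟩
  have hzp : 0 < ‖z‖ := lt_of_lt_of_le (by positivity) hz
  have hz0 : z ≠ 0 := norm_pos_iff.1 hzp
  have hz1 : z⁻¹ ≠ 0 := inv_ne_zero hz0
  have hzc : z⁻¹ ∈ closedBall (0 : ℂ) (ρ / 2) := by
    rw [mem_closedBall_zero_iff, norm_inv, inv_le_comm₀ hzp (by positivity), inv_div]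
    exact hz
  have hzb := hsub hzc
  refine ⟨by simpa using (hw _ hzb hz1).1, ?_, ?_⟩
  · have h1 : f z - (k 0 * z + dslope k 0 0) = z⁻¹ * dslope (dslope k 0) 0 z⁻¹ := by
      have h2 := sub_smul_dslope (dslope k 0) 0 z⁻¹
      rw [sub_zero, smul_eq_mul] at h2
      rw [h2, hrep z hz0 hzb]
      ring
    rw [h1, norm_mul, norm_inv, ← div_eq_inv_mul]
    exact div_le_div_of_nonneg_right ((hC1 _ hzc).trans (le_max_left _ _)) hzp.le
  · have hev : f =ᶠ[𝓝 z] fun y => k 0 * y + dslope k 0 y⁻¹ := by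
      have e1 : ∀ᶠ y in 𝓝 z, y ≠ 0 := isOpen_ne.mem_nhds hz0
      have e2 : ∀ᶠ y in 𝓝 z, y⁻¹ ∈ ball (0 : ℂ) ρ :=
        (continuousAt_inv₀ hz0).eventually (isOpen_ball.mem_nhds hzb)
      filter_upwards [e1, e2] with y h1 h2
      exact hrep y h1 h2
    have hD1 : HasDerivAt (dslope k 0) (deriv (dslope k 0) z⁻¹) z⁻¹ :=
      (hk1.differentiableAt (isOpen_ball.mem_nhds hzb)).hasDerivAt
    have hD2 : HasDerivAt (fun y : ℂ => dslope k 0 y⁻¹)
        (deriv (dslope k 0) z⁻¹ * (-(z ^ 2)⁻¹)) z := hD1.comp z (hasDerivAt_inv hz0)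
    have hD3 : HasDerivAt (fun y : ℂ => k 0 * y + dslope k 0 y⁻¹)
        (k 0 * 1 + deriv (dslope k 0) z⁻¹ * (-(z ^ 2)⁻¹)) z :=
      ((hasDerivAt_id z).const_mul (k 0)).add hD2
    rw [hev.deriv_eq, hD3.deriv, mul_one, add_sub_cancel_left, norm_mul, norm_neg, norm_inv,
      norm_pow, ← div_eq_mul_inv]
    exact div_le_div_of_nonneg_right ((hC2 _ hzc).trans (le_max_right _ _)) (by positivity)

/-- circle domains are invariant under affine maps (`Homeomorph.image_connectedComponentIn`). -/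
theorem circle_affine {V : Set ℂ} (hV : IsCircleDomainFinitePart V) {a : ℂ} (ha : a ≠ 0) (b : ℂ) :
    IsCircleDomainFinitePart ((fun w => (w - b) / a) '' V) := by
  obtain ⟨⟨h1, h2, R, hR⟩, h3⟩ := hV
  let e : ℂ ≃ₜ ℂ := (Homeomorph.subRight b).trans (Homeomorph.mulRight₀ a⁻¹ (inv_ne_zero ha))
  have he : (fun w => (w - b) / a) = e := funext fun w => div_eq_mul_inv _ _
  have hn : 0 < ‖a‖ := norm_pos_iff.2 ha
  have hd : ∀ x y, dist (e x) (e y) = dist x y / ‖a‖ := fun x y => by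
    rw [← he, dist_eq_norm, dist_eq_norm, ← norm_div]
    congr 1
    ring
  refine ⟨⟨?_, h2.image _ (by fun_prop), (R + ‖b‖) / ‖a‖, fun z hz => ?_⟩, fun z hz => ?_⟩
  · rw [he]; exact e.isOpenMap _ h1
  · refine ⟨a * z + b, hR _ ?_, by field_simp; ring⟩
    rw [div_lt_iff₀ hn] at hz
    have := norm_sub_le (a * z + b) b
    rw [add_sub_cancel_right, norm_mul] at this
    linarith
  · rw [he] at hz ⊢
    obtain ⟨w, rfl⟩ := e.surjective z
    have hw : w ∉ V := fun h => hz ⟨w, h, rfl⟩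
    obtain ⟨c, r, hr, hc⟩ := h3 w hw
    refine ⟨e c, r / ‖a‖, by positivity, ?_⟩
    rw [← Set.image_compl_eq e.bijective, ← e.image_connectedComponentIn (s := Vᶜ) hw, hc]
    ext y
    obtain ⟨x, rfl⟩ := e.surjective y
    rw [e.injective.mem_set_image, mem_closedBall, mem_closedBall, hd, div_le_div_iff_of_pos_right hn]

theorem removable_mono {E E' : Set ℂ} (hE : IsConformallyRemovable E) (h : E' ⊆ E) :
    IsConformallyRemovable E' := fun φ hφ => hE φ (hφ.mono (compl_subset_compl.2 h))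

end Crest.Agent.R105
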