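import Crest.Agent.R105.ADefs
import Crest.Agent.R105.APic
import Crest.Agent.R105.AInf1

/-! Row 105, block A: the hypotheses of `StB`. -/

set_option autoImplicit false

namespace Crest.Agent.R105

open MeasureTheory Filter Topology Set Metric Crest.AnalysisR
open scoped ENNReal ContDiff

variable {U : Set ℂ} {F : ℂ → ℂ} {N : Set ℂ} {r R : ℂ → ℝ} {Q : Finset ℂ} {O T : Set ℂ}
  {s ρ : ℝ} {φ : ℂ → ℂ → ℝ} {η P : ℂ → ℝ} {G Er : ℂ → ℝ≥0∞} {L : ℂ →L[ℝ] ℝ}

/-- `Eset` is a closed subset of the dust; its complement is the union of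
`closure U ∩ (Eset)ᶜ` (between `U` and its closure, `IsPreconnected.subset_closure`) and of the nodes,
which touch it. -/
theorem Eset_props (h : Pic U F N r R) (hrem : IsConformallyRemovable (frontier U))
    (hO : IsOpen O) (hB : ∀ q ∈ N \ (Q : Set ℂ), closedBall q (r q) ⊆ O) (hs : 0 < s) :
    IsCompact (Eset U O Q r s) ∧ IsTotallyDisconnected (Eset U O Q r s) ∧
      IsConnected (Eset U O Q r s)ᶜ ∧ IsConformallyRemovable (Eset U O Q r s) := by
  have hD : Eset U O Q r s ⊆ Uᶜ \ ⋃ q ∈ N, closedBall q (r q) := by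
    rintro z ⟨hz, hz'⟩
    refine ⟨hz, fun hz2 => hz' ?_⟩
    obtain ⟨q, hq, hzq⟩ := mem_iUnion₂.1 hz2
    by_cases hqQ : q ∈ Q
    · exact Or.inr (mem_biUnion hqQ (closedBall_subset_ball (by linarith) hzq))
    · exact Or.inl (hB q ⟨hq, hqQ⟩ hzq)
  have hU : U ⊆ (Eset U O Q r s)ᶜ := fun z hz hz' => hz'.1 hz
  have hN : ∀ q ∈ N, closedBall q (r q) ⊆ (Eset U O Q r s)ᶜ := fun q hq z hz hz' =>
    (hD hz').2 (mem_biUnion hq hz)
  obtain ⟨x₀, hx₀⟩ := h.conn.nonempty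
  have hC : IsPreconnected (closure U ∩ (Eset U O Q r s)ᶜ) :=
    h.conn.isPreconnected.subset_closure (subset_inter subset_closure hU) inter_subset_left
  refine ⟨h.cpt.diff (hO.union (isOpen_biUnion fun _ _ => isOpen_ball)),
    fun t ht => h.tdisc t (ht.trans hD), ⟨⟨x₀, hU hx₀⟩, isPreconnected_of_forall x₀ fun y hy => ?_⟩,
    removable_mono hrem (hD.trans h.dust)⟩
  by_cases hyc : y ∈ closure U
  · exact ⟨_, inter_subset_right, ⟨subset_closure hx₀, hU hx₀⟩, ⟨hyc, hy⟩, hC⟩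
  · have hy' : y ∈ ⋃ q ∈ N, closedBall q (r q) := by
      by_contra hc
      exact hyc (frontier_subset_closure (h.dust ⟨fun hyU => hyc (subset_closure hyU), hc⟩))
    obtain ⟨q, hq, hyq⟩ := mem_iUnion₂.1 hy'
    obtain ⟨w, hw1, hw2⟩ := h.touch q hq
    exact ⟨_, union_subset inter_subset_right (hN q hq), Or.inl ⟨subset_closure hx₀, hU hx₀⟩,
      Or.inr hyq, hC.union' ⟨w, ⟨hw2, hN q hq hw1⟩, hw1⟩ (convex_closedBall _ _).isPreconnected⟩

theorem Collar.h95_sum (hφ : Collar Q r s φ) {q : ℂ} (hq : q ∈ Q) {z : ℂ} (hz : φ q z ≠ 0) :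
    ∑ q ∈ Q, φ q z = φ q z := by
  refine Finset.sum_eq_single_of_mem q hq fun q' hq' hne => ?_
  by_contra hc
  exact Set.disjoint_left.1 (hφ.disj hq' hq hne) (hφ.supp q' hq' (subset_tsupport _ hc))
    (hφ.supp q hq (subset_tsupport _ hz))

theorem Collar.kappa_mem (hφ : Collar Q r s φ) (z : ℂ) :
    0 ≤ 1 - ∑ q ∈ Q, φ q z ∧ 1 - ∑ q ∈ Q, φ q z ≤ 1 := by
  refine ⟨?_, by linarith [Finset.sum_nonneg fun q hq => hφ.nonneg q hq z]⟩
  by_cases h : ∃ q ∈ Q, φ q z ≠ 0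
  · obtain ⟨q, hq, hz⟩ := h
    rw [hφ.h95_sum hq hz]
    linarith [hφ.le_one q hq z]
  · push Not at h
    rw [Finset.sum_eq_zero h]
    norm_num

/-- on `ball q (r q + s/2)` the sum is `φ q z = 1` (disjoint supports). -/
theorem Collar.kappa_zero (hφ : Collar Q r s φ) (hs : 0 < s) {q : ℂ} (hq : q ∈ Q) {z : ℂ}
    (hz : z ∈ ball q (r q + s / 2)) : 1 - ∑ q ∈ Q, φ q z = 0 := by
  have h1 := hφ.one q hq z hz
  rw [hφ.h95_sum hq (by rw [h1]; exact one_ne_zero), h1, sub_self]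

theorem h95_rhoF_zero (hφ : Collar Q r s φ) (hs : 0 < s) {q : ℂ} (hq : q ∈ Q) {z : ℂ}
    (hz : z ∈ ball q (r q + s / 2)) : rhoF η Q φ P =ᶠ[𝓝 z] fun _ => 0 := by
  filter_upwards [isOpen_ball.mem_nhds hz] with w hw
  rw [rhoF, hφ.kappa_zero hs hq hw, mul_zero, zero_mul]

theorem h95_kappa_smooth (hφ : Collar Q r s φ) (hη : Outer η ρ) :
    ContDiff ℝ ∞ fun z => η z * (1 - ∑ q ∈ Q, φ q z) :=
  hη.smooth.mul (contDiff_const.sub (ContDiff.sum fun q hq => hφ.smooth q hq))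

theorem rhoF_continuous (hm : Mult U F N r Q L P O T G Er) (hφ : Collar Q r s φ) (hs : 0 < s)
    (hη : Outer η ρ) : Continuous (rhoF η Q φ P) := by
  refine continuous_iff_continuousAt.2 fun z => ?_
  by_cases h : ∃ q ∈ Q, z ∈ ball q (r q + s / 2)
  · obtain ⟨q, hq, hz⟩ := h
    exact continuousAt_const.congr (h95_rhoF_zero hφ hs hq hz).symm
  · exact (h95_kappa_smooth hφ hη).continuous.continuousAt.mul
      (hm.cont z fun q hq hz => h ⟨q, hq, closedBall_subset_ball (by linarith) hz⟩)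

theorem rhoF_cpt (hη : Outer η ρ) : HasCompactSupport (rhoF η Q φ P) := by
  exact (hη.cpt.mul_right (f' := fun z => 1 - ∑ q ∈ Q, φ q z)).mul_right (f' := P)

/-- `O'` is a smaller open set (the intersection of the sets `O` of the two coordinates). -/
theorem rhoF_smooth (hm : Mult U F N r Q L P O T G Er) (hφ : Collar Q r s φ) (hs : 0 < s)
    (hη : Outer η ρ) {O' : Set ℂ} (hO' : O' ⊆ O) :
    ContDiffOn ℝ ∞ (rhoF η Q φ P) (Eset U O' Q r s)ᶜ := by
  intro z hz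
  refine ContDiffAt.contDiffWithinAt ?_
  by_cases h : ∃ q ∈ Q, z ∈ ball q (r q + s / 2)
  · obtain ⟨q, hq, hz⟩ := h
    exact contDiffAt_const.congr_of_eventuallyEq (h95_rhoF_zero hφ hs hq hz)
  · have hzO : z ∈ O := by
      by_contra hc
      refine hz ⟨fun hU => hc (hm.subU hU), ?_⟩
      rintro (h1 | h1)
      · exact hc (hO' h1)
      · obtain ⟨q, hq, hzq⟩ := mem_iUnion₂.1 h1
        exact h ⟨q, hq, hzq⟩
    exact (h95_kappa_smooth hφ hη).contDiffAt.mul (hm.smooth.contDiffAt (hm.opn.mem_nhds hzO))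

theorem h50_sq_add {a b : ℂ → ℝ≥0∞} (ha : Measurable a) (h1 : ∫⁻ z, a z ^ 2 < ⊤)
    (h2 : ∫⁻ z, b z ^ 2 < ⊤) : ∫⁻ z, (a z + b z) ^ 2 < ⊤ := by
  have key : ∀ x y : ℝ≥0∞, (x + y) ^ 2 ≤ 4 * (x ^ 2 + y ^ 2) := fun x y => by
    rcases le_total x y with h | h
    · calc (x + y) ^ 2 ≤ (y + y) ^ 2 := by gcongr
        _ = 4 * y ^ 2 := by ring
        _ ≤ _ := by gcongr; exact le_add_self
    · calc (x + y) ^ 2 ≤ (x + x) ^ 2 := by gcongr
        _ = 4 * x ^ 2 := by ring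
        _ ≤ _ := by gcongr; exact le_self_add
  refine (lintegral_mono fun z => key _ _).trans_lt ?_
  rw [lintegral_const_mul' _ _ (by simp), lintegral_add_left (ha.pow_const 2)]
  exact ENNReal.mul_lt_top (by simp) (ENNReal.add_lt_top.2 ⟨h1, h2⟩)

/-- On `(Eset)ᶜ`: `‖∇ρ‖ ≤ C 1_B + 1_B (2 · 1_U ‖F'‖ + G)` for a ball `B ⊇ tsupport η`
(`η κ` is smooth with compact support, `|P| ≤ ‖F‖` is bounded on `B`), `Pic.energy`. -/
theorem rhoF_energy (h : Pic U F N r R) (hL : ‖L‖ ≤ 1) (hm : Mult U F N r Q L P O T G Er)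
    (hφ : Collar Q r s φ) (hs : 0 < s) (hη : Outer η ρ) {O' : Set ℂ} (hO' : O' ⊆ O)
    (hO'o : IsOpen O') (hG : Measurable G) (hG2 : ∫⁻ z, G z ^ 2 < ⊤) :
    IntegrableOn (fun z => ‖fderiv ℝ (rhoF η Q φ P) z‖ ^ 2) (Eset U O' Q r s)ᶜ := by
  obtain ⟨ρ₁, hρ₁⟩ := hη.cpt.isCompact.isBounded.subset_ball (0 : ℂ)
  obtain ⟨C₁, hC₁⟩ := h.bdd ρ₁
  set w : ℂ → ℝ := fun z => η z * (1 - ∑ q ∈ Q, φ q z) with hw
  have hws : ContDiff ℝ ∞ w :=
    hη.smooth.mul (contDiff_const.sub (ContDiff.sum fun q hq => hφ.smooth q hq))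
  have hwc : HasCompactSupport w := hη.cpt.mul_right
  obtain ⟨C₂, hC₂⟩ := (hws.continuous_fderiv (by simp)).bounded_above_of_compact_support
    (hwc.fderiv ℝ)
  have hw1 : ∀ z, |w z| ≤ 1 := fun z => by
    have h1 := hφ.kappa_mem z
    rw [abs_of_nonneg (mul_nonneg (hη.nonneg z) h1.1)]
    exact mul_le_one₀ (hη.le_one z) h1.1 h1.2
  have hD : MeasurableSet (Eset U O' Q r s)ᶜ :=
    (h.opn.measurableSet.compl.diff (hO'o.union
      (isOpen_biUnion fun q _ => isOpen_ball)).measurableSet).compl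
  have hfin : ∫⁻ z, ((ball (0 : ℂ) ρ₁).indicator (fun _ => ENNReal.ofReal (C₁ * C₂)) z +
      ((U ∩ ball (0 : ℂ) ρ₁).indicator (fun z => ‖deriv F z‖ₑ + ‖deriv F z‖ₑ) z + G z)) ^ 2 < ⊤ := by
    have m1 : Measurable fun z => ‖deriv F z‖ₑ := (measurable_deriv F).enorm
    have hU : MeasurableSet (U ∩ ball (0 : ℂ) ρ₁) := (h.opn.inter isOpen_ball).measurableSet
    refine h50_sq_add (measurable_const.indicator measurableSet_ball) ?_
      (h50_sq_add ((m1.add m1).indicator hU) ?_ hG2)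
    · have e : ∀ z, (ball (0 : ℂ) ρ₁).indicator (fun _ => ENNReal.ofReal (C₁ * C₂)) z ^ 2 =
          (ball (0 : ℂ) ρ₁).indicator (fun _ => ENNReal.ofReal (C₁ * C₂) ^ 2) z := fun z => by
        by_cases hz : z ∈ ball (0 : ℂ) ρ₁ <;> simp [hz]
      simp only [e]
      rw [lintegral_indicator measurableSet_ball, setLIntegral_const]
      exact ENNReal.mul_lt_top (ENNReal.pow_lt_top ENNReal.ofReal_lt_top) measure_ball_lt_top
    · have e : ∀ z, (U ∩ ball (0 : ℂ) ρ₁).indicator (fun z => ‖deriv F z‖ₑ + ‖deriv F z‖ₑ) z ^ 2 =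
          (U ∩ ball (0 : ℂ) ρ₁).indicator (fun z => 4 * ‖deriv F z‖ₑ ^ 2) z := fun z => by
        by_cases hz : z ∈ U ∩ ball (0 : ℂ) ρ₁
        · rw [indicator_of_mem hz, indicator_of_mem hz]; ring
        · simp [hz]
      simp only [e]
      rw [lintegral_indicator hU, lintegral_const_mul' _ _ (by simp)]
      exact ENNReal.mul_lt_top (by simp) (h.energy ρ₁)
  refine ⟨((measurable_fderiv ℝ _).norm.pow_const 2).aestronglyMeasurable, ?_⟩
  refine lt_of_le_of_lt ?_ hfin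
  refine (setLIntegral_mono' hD fun z hz => ?_).trans (setLIntegral_le_lintegral _ _)
  rw [enorm_pow, enorm_norm]
  gcongr
  have h0 : rhoF η Q φ P =ᶠ[𝓝 z] (fun _ => 0) → ‖fderiv ℝ (rhoF η Q φ P) z‖ₑ = 0 := fun e => by
    rw [e.fderiv_eq, ← ofReal_norm]; simp
  by_cases hzB : z ∈ ball (0 : ℂ) ρ₁
  swap
  · rw [h0]
    · exact zero_le
    filter_upwards [notMem_tsupport_iff_eventuallyEq.1 fun h' => hzB (hρ₁ h')] with y hy
    simp [rhoF, hy]
  by_cases hzQ : z ∈ ⋃ q ∈ Q, ball q (r q + s / 2)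
  · rw [h0]
    · exact zero_le
    obtain ⟨q, hq, hzq⟩ := mem_iUnion₂.1 hzQ
    filter_upwards [isOpen_ball.mem_nhds hzq] with y hy
    simp [rhoF, hφ.kappa_zero hs hq hy]
  have hzO : z ∈ O := by
    by_contra h'
    exact hz ⟨fun hU => h' (hm.subU hU), fun h'' => h''.elim (fun h₃ => h' (hO' h₃)) hzQ⟩
  have hP : DifferentiableAt ℝ P z :=
    (hm.smooth.contDiffAt (hm.opn.mem_nhds hzO)).differentiableAt (by simp)
  have e : fderiv ℝ (rhoF η Q φ P) z = w z • fderiv ℝ P z + P z • fderiv ℝ w z :=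
    fderiv_fun_mul (hws.differentiable (by simp) z) hP
  have h1 : ‖P z • fderiv ℝ w z‖ₑ ≤ ENNReal.ofReal (C₁ * C₂) := by
    rw [← ofReal_norm, norm_smul]
    have := (hm.bd z).trans (hC₁ z (ball_subset_closedBall hzB))
    exact ENNReal.ofReal_le_ofReal (mul_le_mul this (hC₂ z) (norm_nonneg _)
      ((abs_nonneg _).trans this))
  have h2 : ‖w z • fderiv ℝ P z‖ₑ ≤ ‖fderiv ℝ P z‖ₑ := by
    rw [← ofReal_norm, ← ofReal_norm, norm_smul]
    exact ENNReal.ofReal_le_ofReal (mul_le_of_le_one_left (norm_nonneg _) (hw1 z))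
  have hadd : ∀ a b : ℂ →L[ℝ] ℝ, ‖a + b‖ₑ ≤ ‖a‖ₑ + ‖b‖ₑ := fun a b => by
    rw [← ofReal_norm, ← ofReal_norm, ← ofReal_norm,
      ← ENNReal.ofReal_add (norm_nonneg _) (norm_nonneg _)]
    exact ENNReal.ofReal_le_ofReal (norm_add_le _ _)
  rw [e, indicator_of_mem hzB, add_comm]
  refine (hadd _ _).trans (add_le_add h1 (h2.trans ?_))
  by_cases hzU : z ∈ U
  · rw [indicator_of_mem (show z ∈ U ∩ ball (0 : ℂ) ρ₁ from ⟨hzU, hzB⟩)]
    have h3 : ‖fderiv ℝ (fun w => L (F w)) z‖ₑ ≤ ‖deriv F z‖ₑ := by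
      rw [← ofReal_norm, ← ofReal_norm]
      exact ENNReal.ofReal_le_ofReal (h.norm_fderiv_comp hL hzU)
    have h4 := (hm.dU z hzU).trans (add_le_add (indicator_le_self _ _ z) le_rfl)
    calc ‖fderiv ℝ P z‖ₑ = ‖fderiv ℝ (fun w => L (F w)) z +
          (fderiv ℝ P z - fderiv ℝ (fun w => L (F w)) z)‖ₑ := by rw [add_sub_cancel]
      _ ≤ _ := hadd _ _
      _ ≤ ‖deriv F z‖ₑ + (‖deriv F z‖ₑ + G z) := add_le_add h3 h4
      _ = _ := (add_assoc _ _ _).symm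
  · exact (hm.dK z hzO hzU).trans le_add_self

/-- finite energy and compact support give integrability of the partial derivatives. -/
theorem integrableOn_fderiv_of_energy {f : ℂ → ℝ} (hf : HasCompactSupport f) {D : Set ℂ}
    (hD : MeasurableSet D) (he : IntegrableOn (fun z => ‖fderiv ℝ f z‖ ^ 2) D) (v : ℂ) :
    IntegrableOn (fun z => fderiv ℝ f z v) D := by
  have h1 : IntegrableOn ((tsupport f).indicator fun _ => (1 : ℝ)) D :=
    ((integrable_indicator_iff (isClosed_tsupport f).measurableSet).2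
      (integrableOn_const hf.isCompact.measure_lt_top.ne)).integrableOn
  refine Integrable.mono' ((h1.add he).mul_const ‖v‖)
    (measurable_fderiv_apply_const ℝ f v).aestronglyMeasurable (ae_of_all _ fun z => ?_)
  refine (ContinuousLinearMap.le_opNorm _ _).trans
    (mul_le_mul_of_nonneg_right ?_ (norm_nonneg _))
  by_cases hz : z ∈ tsupport f
  · simp only [Pi.add_apply, indicator_of_mem hz]
    nlinarith [norm_nonneg (fderiv ℝ f z)]
  · rw [(notMem_tsupport_iff_eventuallyEq.1 hz).fderiv_eq]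
    simp only [Pi.add_apply, indicator_of_notMem hz]
    simp

end Crest.Agent.R105
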