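import Crest.Agent.R105.ADefs
import Crest.Agent.R105.AFlux1

/-! Row 105, block A: the flux inequality, core. -/

set_option autoImplicit false

namespace Crest.Agent.R105

open MeasureTheory Filter Topology Set Metric Crest.AnalysisR
open scoped ENNReal ContDiff

variable {U : Set ℂ} {F : ℂ → ℂ} {N : Set ℂ} {r R : ℂ → ℝ} {Q : Finset ℂ} {O₁ O₂ T : Set ℂ}
  {s ρ e : ℝ} {φ : ℂ → ℂ → ℝ} {η P₁ P₂ : ℂ → ℝ} {G Er : ℂ → ℝ≥0∞}

theorem fp_fderiv_zero {f : ℂ → ℝ} {z : ℂ} {c : ℝ} (h : f =ᶠ[𝓝 z] fun _ => c) :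
    fderiv ℝ f z = 0 := by
  rw [h.fderiv_eq]
  exact fderiv_const_apply c

theorem fp_rhoF {P : ℂ → ℝ} {z : ℂ} (hη : DifferentiableAt ℝ η z)
    (hφ : ∀ q ∈ Q, DifferentiableAt ℝ (φ q) z) (hP : DifferentiableAt ℝ P z) (v : ℂ) :
    fderiv ℝ (rhoF η Q φ P) z v = η z * (1 - ∑ q ∈ Q, φ q z) * fderiv ℝ P z v +
      (1 - ∑ q ∈ Q, φ q z) * (P z * fderiv ℝ η z v) -
      η z * (P z * ∑ q ∈ Q, fderiv ℝ (φ q) z v) := by
  have h1 : HasFDerivAt (fun w => 1 - ∑ q ∈ Q, φ q w) (-∑ q ∈ Q, fderiv ℝ (φ q) z) z :=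
    (HasFDerivAt.fun_sum fun q hq => (hφ q hq).hasFDerivAt).const_sub 1
  have h2 := (hη.hasFDerivAt.fun_mul h1).fun_mul hP.hasFDerivAt
  have h3 : rhoF η Q φ P = fun w => η w * (1 - ∑ q ∈ Q, φ q w) * P w := rfl
  rw [h3, h2.fderiv]
  simp only [_root_.add_apply, _root_.smul_apply,
    _root_.neg_apply, _root_.sum_apply, smul_eq_mul]
  ring

theorem fp_err {x : ℝ} {E : ℝ≥0∞} (h : ‖x‖ₑ ≤ E) (D : ℂ →L[ℝ] ℝ) (hE : E * ‖D‖ₑ ≠ ⊤) :
    |x| * ‖D‖ ≤ (E * ‖D‖ₑ).toReal := by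
  have h1 : ‖x‖ₑ * ‖D‖ₑ ≤ E * ‖D‖ₑ := by gcongr
  have h2 := ENNReal.toReal_mono hE h1
  rwa [ENNReal.toReal_mul, toReal_enorm, toReal_enorm, Real.norm_eq_abs] at h2

theorem fp_apply (D : ℂ →L[ℝ] ℝ) (a b : ℝ) (w c : ℂ) :
    -(a * D 1 + b * D Complex.I) ≤
      -D c + ‖w - c‖ * ‖D‖ + |a - w.re| * ‖D‖ + |b - w.im| * ‖D‖ := by
  have h1 : D (w - c) = w.re * D 1 + w.im * D Complex.I - D c := by
    rw [map_sub]
    congr 1
    have : w = w.re • (1 : ℂ) + w.im • Complex.I := by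
      simp [Complex.re_add_im]
    conv_lhs => rw [this]
    rw [map_add, map_smul, map_smul, smul_eq_mul, smul_eq_mul]
  have h2 : |D (w - c)| ≤ ‖D‖ * ‖w - c‖ := D.le_opNorm _
  have h3 : |D 1| ≤ ‖D‖ := by simpa using D.le_opNorm 1
  have h4 : |D Complex.I| ≤ ‖D‖ := by simpa using D.le_opNorm Complex.I
  have h5 : |(a - w.re) * D 1| ≤ |a - w.re| * ‖D‖ := by
    rw [abs_mul]
    gcongr
  have h6 : |(b - w.im) * D Complex.I| ≤ |b - w.im| * ‖D‖ := by
    rw [abs_mul]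
    gcongr
  have := abs_le.1 h2
  have := abs_le.1 h5
  have := abs_le.1 h6
  linarith

theorem fp_dK {D : ℂ →L[ℝ] ℝ} {g : ℝ≥0∞} (h : ‖D‖ₑ ≤ g) (hg : g ≠ ⊤) (v : ℂ) (hv : ‖v‖ = 1) :
    D v ≤ g.toReal := by
  have h2 := ENNReal.toReal_mono hg h
  rw [toReal_enorm] at h2
  have h3 : |D v| ≤ ‖D‖ * ‖v‖ := D.le_opNorm v
  rw [hv, mul_one] at h3
  linarith [le_abs_self (D v)]

theorem fp_dU {D D' : ℂ →L[ℝ] ℝ} {g : ℝ≥0∞} {z : ℂ}
    (h : ‖D - D'‖ₑ ≤ T.indicator (fun w => ‖deriv F w‖ₑ) z + g) (hg : g ≠ ⊤) (v : ℂ)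
    (hv : ‖v‖ = 1) : D v ≤ D' v + T.indicator (fun w => ‖deriv F w‖) z + g.toReal := by
  by_cases hz : z ∈ T
  · rw [indicator_of_mem hz] at h ⊢
    have := fp_dK h (ENNReal.add_ne_top.2 ⟨enorm_ne_top, hg⟩) v hv
    rw [ENNReal.toReal_add enorm_ne_top hg, toReal_enorm, _root_.sub_apply] at this
    linarith
  · rw [indicator_of_notMem hz] at h ⊢
    rw [zero_add] at h
    have := fp_dK h hg v hv
    rw [_root_.sub_apply] at this
    linarith

/-- Pointwise inequality.  In `ball q (r q + s/2)` the left side vanishes.  Elsewhere `P₁, P₂` are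
differentiable and the left side is
`η κ (∂ₓP₁ + ∂_yP₂) + κ (P₁ ∂ₓη + P₂ ∂_yη) - η ∑ (P₁ ∂ₓφ q + P₂ ∂_yφ q)`;
where `∇η ≠ 0`: `z ∈ U`, `z ∉ T`, `κ = 1`; where `∇φ q ≠ 0`: `η = 1`, and
`P₁ ∂ₓφ + P₂ ∂_yφ = Dφ (P₁ + i P₂)`, `‖P₁ + i P₂ - F q‖ ≤ R q + e + 2 Er`. -/
theorem flux_pointwise (h : Pic U F N r R)
    (hm₁ : Mult U F N r Q Complex.reCLM P₁ O₁ T G Er)
    (hm₂ : Mult U F N r Q Complex.imCLM P₂ O₂ T G Er) (hφ : Collar Q r s φ) (hs : 0 < s)
    (hη : Outer η ρ) (hK : Uᶜ ⊆ ball 0 ρ) (hT : T ⊆ ball 0 ρ)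
    (hC : ∀ q ∈ Q, closedBall q (r q + s) ⊆ ball 0 ρ)
    (hR : ∀ q ∈ Q, 0 ≤ R q + e)
    (hnear : ∀ q ∈ Q, ∀ z ∈ closedBall q (r q + s), ‖F z - F q‖ ≤ R q + e)
    {z : ℂ} (hz : z ∈ (Eset U (O₁ ∩ O₂) Q r s)ᶜ) (hGz : G z ≠ ⊤)
    (hEz : ∀ q ∈ Q, Er z * ‖fderiv ℝ (φ q) z‖ₑ ≠ ⊤) :
    fderiv ℝ (rhoF η Q φ P₁) z 1 + fderiv ℝ (rhoF η Q φ P₂) z Complex.I ≤
      U.indicator (fluxI F η) z - ∑ q ∈ Q, fderiv ℝ (φ q) z (F q) +
        ∑ q ∈ Q, (R q + e) * ‖fderiv ℝ (φ q) z‖ +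
        4 * (U ∩ (T ∪ ⋃ q ∈ Q, closedBall q (r q + s))).indicator (fun w => ‖deriv F w‖) z +
        2 * (G z).toReal + 2 * ∑ q ∈ Q, (Er z * ‖fderiv ℝ (φ q) z‖ₑ).toReal := by
  have hη0 : ∀ w ∈ ball (0 : ℂ) ρ, fderiv ℝ η w = 0 := fun w hw =>
    fp_fderiv_zero (c := 1) (by
      filter_upwards [isOpen_ball.mem_nhds hw] with y hy using hη.one y hy)
  have hφ0 : ∀ q ∈ Q, z ∉ closedBall q (r q + s) → fderiv ℝ (φ q) z = 0 := fun q hq hzq =>
    fp_fderiv_zero (c := 0) (notMem_tsupport_iff_eventuallyEq.1 fun h' => hzq (hφ.supp q hq h'))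
  have hφz : ∀ q ∈ Q, z ∉ closedBall q (r q + s) → φ q z = 0 := fun q hq hzq =>
    image_eq_zero_of_notMem_tsupport fun h' => hzq (hφ.supp q hq h')
  have hG0 : 0 ≤ (G z).toReal := ENNReal.toReal_nonneg
  have hre : |(deriv F z).re| ≤ ‖deriv F z‖ := Complex.abs_re_le_norm _
  have hre' := abs_le.1 hre
  by_cases hA : ∃ q₀ ∈ Q, z ∈ ball q₀ (r q₀ + s / 2)
  · obtain ⟨q₀, hq₀, hzq⟩ := hA
    have hzc : z ∈ closedBall q₀ (r q₀ + s) :=
      ball_subset_closedBall.trans (closedBall_subset_closedBall (by linarith)) hzq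
    have hρ0 : ∀ P : ℂ → ℝ, fderiv ℝ (rhoF η Q φ P) z = 0 := fun P =>
      fp_fderiv_zero (c := 0) (by
        filter_upwards [isOpen_ball.mem_nhds hzq] with y hy
        simp only [rhoF, hφ.kappa_zero hs hq₀ hy, mul_zero, zero_mul])
    have hall : ∀ q ∈ Q, fderiv ℝ (φ q) z = 0 := by
      intro q hq
      by_cases hqq : q = q₀
      · subst hqq
        exact fp_fderiv_zero (c := 1) (by
          filter_upwards [isOpen_ball.mem_nhds hzq] with y hy using hφ.one q hq y hy)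
      · exact hφ0 q hq fun h' => Set.disjoint_left.1 (hφ.disj hq hq₀ hqq) h' hzc
    rw [hρ0, hρ0, Finset.sum_eq_zero fun q hq => by rw [hall q hq]; rfl,
      Finset.sum_eq_zero fun q hq => by rw [hall q hq, norm_zero, mul_zero],
      Finset.sum_eq_zero fun q hq => by simp [hall q hq]]
    by_cases hzU : z ∈ U
    · have hmem : z ∈ U ∩ (T ∪ ⋃ q ∈ Q, closedBall q (r q + s)) :=
        ⟨hzU, Or.inr (mem_biUnion hq₀ hzc)⟩
      rw [indicator_of_mem hzU, indicator_of_mem hmem, fluxI, hη0 z (hC q₀ hq₀ hzc),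
        hη.one z (hC q₀ hq₀ hzc)]
      simp only [_root_.zero_apply]
      linarith [norm_nonneg (deriv F z)]
    · rw [indicator_of_notMem hzU, indicator_of_notMem (fun h' => hzU h'.1)]
      simp only [_root_.zero_apply]
      linarith
  have hzO : z ∈ O₁ ∩ O₂ := by
    by_cases hzU : z ∈ U
    · exact ⟨hm₁.subU hzU, hm₂.subU hzU⟩
    · by_contra hO
      refine hz ⟨hzU, ?_⟩
      rintro (h' | h')
      · exact hO h'
      · obtain ⟨q, hq, hzq⟩ := mem_iUnion₂.1 h'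
        exact hA ⟨q, hq, hzq⟩
  have hP₁ : DifferentiableAt ℝ P₁ z :=
    (hm₁.smooth.contDiffAt (hm₁.opn.mem_nhds hzO.1)).differentiableAt (by simp)
  have hP₂ : DifferentiableAt ℝ P₂ z :=
    (hm₂.smooth.contDiffAt (hm₂.opn.mem_nhds hzO.2)).differentiableAt (by simp)
  have hηd : DifferentiableAt ℝ η z := hη.smooth.differentiable (by simp) z
  have hφd : ∀ q ∈ Q, DifferentiableAt ℝ (φ q) z := fun q hq =>
    (hφ.smooth q hq).differentiable (by simp) z
  rw [fp_rhoF hηd hφd hP₁, fp_rhoF hηd hφd hP₂]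
  obtain ⟨hk0, hk1⟩ := hφ.kappa_mem z
  set κ : ℝ := 1 - ∑ q ∈ Q, φ q z with hκ
  have hη0z := hη.nonneg z
  have hη1z := hη.le_one z
  -- the third term
  have h3 : -(η z * (P₁ z * ∑ q ∈ Q, fderiv ℝ (φ q) z 1 +
      P₂ z * ∑ q ∈ Q, fderiv ℝ (φ q) z Complex.I)) ≤
      -∑ q ∈ Q, fderiv ℝ (φ q) z (F q) + ∑ q ∈ Q, (R q + e) * ‖fderiv ℝ (φ q) z‖ +
        2 * ∑ q ∈ Q, (Er z * ‖fderiv ℝ (φ q) z‖ₑ).toReal := by
    rw [Finset.mul_sum, Finset.mul_sum, ← Finset.sum_add_distrib, Finset.mul_sum,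
      ← Finset.sum_neg_distrib, ← Finset.sum_neg_distrib, Finset.mul_sum,
      ← Finset.sum_add_distrib, ← Finset.sum_add_distrib]
    refine Finset.sum_le_sum fun q hq => ?_
    by_cases hzq : z ∈ closedBall q (r q + s)
    swap
    · simp [hφ0 q hq hzq]
    rw [hη.one z (hC q hq hzq), one_mul]
    have e1 := fp_err (hm₁.err z) (fderiv ℝ (φ q) z) (hEz q hq)
    have e2 := fp_err (hm₂.err z) (fderiv ℝ (φ q) z) (hEz q hq)
    have e3 := fp_apply (fderiv ℝ (φ q) z) (P₁ z) (P₂ z) (F z) (F q)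
    have e4 := mul_le_mul_of_nonneg_right (hnear q hq z hzq) (norm_nonneg (fderiv ℝ (φ q) z))
    simp only [Complex.reCLM_apply, Complex.imCLM_apply] at e1 e2
    linarith
  -- the second term
  have h2 : κ * (P₁ z * fderiv ℝ η z 1 + P₂ z * fderiv ℝ η z Complex.I) =
      U.indicator (fun w => (F w).re * fderiv ℝ η w 1 + (F w).im * fderiv ℝ η w Complex.I) z := by
    by_cases hzb : z ∈ ball (0 : ℂ) ρ
    · by_cases hzU : z ∈ U
      · rw [indicator_of_mem hzU, hη0 z hzb]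
        simp
      · rw [indicator_of_notMem hzU, hη0 z hzb]
        simp
    · have hzU : z ∈ U := by
        by_contra h'
        exact hzb (hK h')
      have hzT : z ∉ T := fun h' => hzb (hT h')
      have hκ1 : κ = 1 := by
        rw [hκ, Finset.sum_eq_zero fun q hq => hφz q hq fun h' => hzb (hC q hq h'), sub_zero]
      rw [indicator_of_mem hzU, hκ1, hm₁.off z hzT, hm₂.off z hzT]
      simp
  -- the first term
  have h1 : η z * κ * (fderiv ℝ P₁ z 1 + fderiv ℝ P₂ z Complex.I) ≤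
      U.indicator (fun w => η w * (2 * (deriv F w).re)) z +
        4 * (U ∩ (T ∪ ⋃ q ∈ Q, closedBall q (r q + s))).indicator (fun w => ‖deriv F w‖) z +
        2 * (G z).toReal := by
    have hηκ0 : 0 ≤ η z * κ := mul_nonneg hη0z hk0
    have hηκ1 : η z * κ ≤ 1 := mul_le_one₀ hη1z hk0 hk1
    by_cases hzU : z ∈ U
    · have e1 := fp_dU (hm₁.dU z hzU) hGz 1 (by simp)
      have e2 := fp_dU (hm₂.dU z hzU) hGz Complex.I (by simp)
      rw [h.fderiv_comp _ hzU] at e1 e2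
      simp only [Complex.reCLM_apply, Complex.imCLM_apply, mul_one, Complex.mul_im,
        Complex.I_re, Complex.I_im, mul_zero, add_zero] at e1 e2
      rw [indicator_of_mem hzU]
      set A := T.indicator (fun w => ‖deriv F w‖) z with hAdef
      have hA0 : 0 ≤ A := indicator_nonneg (fun _ _ => norm_nonneg _) _
      have e5 : η z * κ * (fderiv ℝ P₁ z 1 + fderiv ℝ P₂ z Complex.I) ≤
          η z * κ * (2 * (deriv F z).re) + 2 * A + 2 * (G z).toReal := by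
        have e6 : η z * κ * (fderiv ℝ P₁ z 1 + fderiv ℝ P₂ z Complex.I) ≤
            η z * κ * (2 * (deriv F z).re + (2 * A + 2 * (G z).toReal)) :=
          mul_le_mul_of_nonneg_left (by linarith) hηκ0
        have e7 : η z * κ * (2 * A + 2 * (G z).toReal) ≤ 1 * (2 * A + 2 * (G z).toReal) :=
          mul_le_mul_of_nonneg_right hηκ1 (by linarith)
        linarith
      by_cases hmem : z ∈ T ∪ ⋃ q ∈ Q, closedBall q (r q + s)
      · rw [indicator_of_mem (show z ∈ U ∩ _ from ⟨hzU, hmem⟩)]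
        have hA1 : A ≤ ‖deriv F z‖ := indicator_le_self' (fun _ _ => norm_nonneg _) z
        have e8 : η z * (1 - κ) * (-(deriv F z).re) ≤ 1 * ‖deriv F z‖ := by
          calc η z * (1 - κ) * (-(deriv F z).re) ≤ η z * (1 - κ) * ‖deriv F z‖ :=
                mul_le_mul_of_nonneg_left (by linarith) (mul_nonneg hη0z (by linarith))
            _ ≤ 1 * ‖deriv F z‖ := mul_le_mul_of_nonneg_right
                (mul_le_one₀ hη1z (by linarith) (by linarith)) (norm_nonneg _)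
        linarith
      · rw [indicator_of_notMem (fun h' => hmem h'.2)]
        have hκ1 : κ = 1 := by
          rw [hκ, Finset.sum_eq_zero fun q hq => hφz q hq fun h' =>
            hmem (Or.inr (mem_biUnion hq h')), sub_zero]
        have hA1 : A = 0 := indicator_of_notMem (fun h' => hmem (Or.inl h')) _
        rw [hκ1, hA1] at e5
        rw [hκ1]
        linarith
    · rw [indicator_of_notMem hzU, indicator_of_notMem (fun h' => hzU h'.1)]
      have e1 := fp_dK (hm₁.dK z hzO.1 hzU) hGz 1 (by simp)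
      have e2 := fp_dK (hm₂.dK z hzO.2 hzU) hGz Complex.I (by simp)
      have e6 : η z * κ * (fderiv ℝ P₁ z 1 + fderiv ℝ P₂ z Complex.I) ≤
          η z * κ * (2 * (G z).toReal) := mul_le_mul_of_nonneg_left (by linarith) hηκ0
      have e7 : η z * κ * (2 * (G z).toReal) ≤ 1 * (2 * (G z).toReal) :=
        mul_le_mul_of_nonneg_right hηκ1 (by linarith)
      linarith
  have h4 : U.indicator (fluxI F η) z = U.indicator (fun w => η w * (2 * (deriv F w).re)) z +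
      U.indicator (fun w => (F w).re * fderiv ℝ η w 1 + (F w).im * fderiv ℝ η w Complex.I) z := by
    by_cases hzU : z ∈ U
    · simp only [indicator_of_mem hzU, fluxI]
      ring
    · simp only [indicator_of_notMem hzU, add_zero]
  rw [h4, ← h2]
  linarith

theorem integrableOn_fluxI (h : Pic U F N r R) (hη : Outer η ρ) : IntegrableOn (fluxI F η) U := by
  obtain ⟨ρ', hρ'⟩ := hη.cpt.isCompact.isBounded.subset_ball (0 : ℂ)
  obtain ⟨C, hC⟩ := h.bdd ρ'
  have hDc : Continuous (fderiv ℝ η) := hη.smooth.continuous_fderiv (by simp)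
  obtain ⟨M, hM⟩ := (hη.cpt.fderiv ℝ).exists_bound_of_continuous hDc
  have hm : MeasurableSet (U ∩ ball (0 : ℂ) ρ') := h.opn.measurableSet.inter measurableSet_ball
  have hfin : volume (U ∩ ball (0 : ℂ) ρ') ≠ ⊤ :=
    ((measure_mono inter_subset_right).trans_lt measure_ball_lt_top).ne
  have hFm : AEStronglyMeasurable F (volume.restrict (U ∩ ball (0 : ℂ) ρ')) :=
    (h.hol.continuousOn.mono inter_subset_left).aestronglyMeasurable hm
  have h1 : IntegrableOn (deriv F) (U ∩ ball (0 : ℂ) ρ') :=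
    ⟨(measurable_deriv F).aestronglyMeasurable, h.energy_one ρ'⟩
  have h2 : IntegrableOn (fluxI F η) (U ∩ ball (0 : ℂ) ρ') := by
    refine Integrable.mono' ((h1.norm.const_mul 2).add
      (integrableOn_const (C := 2 * (C * M)) hfin)) ?_ ?_
    · refine AEStronglyMeasurable.add (AEStronglyMeasurable.add ?_ ?_) ?_
      · exact hη.smooth.continuous.aestronglyMeasurable.mul
          ((Complex.measurable_re.comp (measurable_deriv F)).const_mul 2).aestronglyMeasurable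
      · exact (Complex.continuous_re.comp_aestronglyMeasurable hFm).mul
          (hDc.clm_apply continuous_const).aestronglyMeasurable
      · exact (Complex.continuous_im.comp_aestronglyMeasurable hFm).mul
          (hDc.clm_apply continuous_const).aestronglyMeasurable
    · refine (ae_restrict_iff' hm).2 (Eventually.of_forall fun z hz => ?_)
      have hFz : ‖F z‖ ≤ C := hC z (ball_subset_closedBall hz.2)
      have hC0 : 0 ≤ C := (norm_nonneg _).trans hFz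
      have e1 : |η z * (2 * (deriv F z).re)| ≤ 2 * ‖deriv F z‖ := by
        rw [abs_mul, abs_mul, abs_of_nonneg (hη.nonneg z), abs_two]
        have := Complex.abs_re_le_norm (deriv F z)
        have := hη.le_one z
        have := hη.nonneg z
        nlinarith [abs_nonneg (deriv F z).re]
      have e2 : |(F z).re * fderiv ℝ η z 1| ≤ C * M := by
        rw [abs_mul]
        refine mul_le_mul ((Complex.abs_re_le_norm _).trans hFz) ?_ (abs_nonneg _) hC0
        have : |fderiv ℝ η z 1| ≤ ‖fderiv ℝ η z‖ := by simpa using (fderiv ℝ η z).le_opNorm 1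
        exact this.trans (hM z)
      have e3 : |(F z).im * fderiv ℝ η z Complex.I| ≤ C * M := by
        rw [abs_mul]
        refine mul_le_mul ((Complex.abs_im_le_norm _).trans hFz) ?_ (abs_nonneg _) hC0
        have : |fderiv ℝ η z Complex.I| ≤ ‖fderiv ℝ η z‖ := by
          simpa using (fderiv ℝ η z).le_opNorm Complex.I
        exact this.trans (hM z)
      have := abs_le.1 e1
      have := abs_le.1 e2
      have := abs_le.1 e3
      simp only [fluxI, Real.norm_eq_abs, Pi.add_apply]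
      rw [abs_le]
      constructor <;> linarith
  refine h2.of_forall_sdiff_eq_zero h.opn.measurableSet fun z hz => ?_
  have hzs : z ∉ tsupport η := fun h' => hz.2 ⟨hz.1, hρ' h'⟩
  rw [fluxI, image_eq_zero_of_notMem_tsupport hzs,
    fp_fderiv_zero (c := 0) (notMem_tsupport_iff_eventuallyEq.1 hzs)]
  simp

theorem fc_toReal {g : ℂ → ℝ≥0∞} (hg : Measurable g) (h : ∫⁻ z, g z ≠ ⊤) (D : Set ℂ) :
    IntegrableOn (fun z => (g z).toReal) D ∧ ∫ z in D, (g z).toReal ≤ (∫⁻ z, g z).toReal := by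
  have h1 : Integrable (fun z => (g z).toReal) :=
    integrable_toReal_of_lintegral_ne_top hg.aemeasurable h
  refine ⟨h1.integrableOn, ?_⟩
  rw [← integral_toReal hg.aemeasurable (ae_lt_top hg h)]
  exact setIntegral_le_integral h1 (Eventually.of_forall fun _ => ENNReal.toReal_nonneg)

/-- Integrate `flux_pointwise` over `D = (Eset)ᶜ ⊇ U`; `StB` for `rhoF η Q φ P₁`, `rhoF η Q φ P₂` and for
the `φ q` (direction `F q`). -/
theorem flux_core (hB : StB) (h : Pic U F N r R) (hrem : IsConformallyRemovable (frontier U))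
    (hm₁ : Mult U F N r Q Complex.reCLM P₁ O₁ T G Er)
    (hm₂ : Mult U F N r Q Complex.imCLM P₂ O₂ T G Er) (hφ : Collar Q r s φ) (hs : 0 < s)
    (hη : Outer η ρ) (hK : Uᶜ ⊆ ball 0 ρ) (hT : T ⊆ ball 0 ρ) (hTm : MeasurableSet T)
    (hC : ∀ q ∈ Q, closedBall q (r q + s) ⊆ ball 0 ρ)
    (hR : ∀ q ∈ Q, 0 ≤ R q + e) (hr : ∀ q ∈ Q, 0 ≤ r q)
    (hnear : ∀ q ∈ Q, ∀ z ∈ closedBall q (r q + s), ‖F z - F q‖ ≤ R q + e)
    (hG : Measurable G) (hEr : Measurable Er) (hG2 : ∫⁻ z, G z ^ 2 < ⊤) {γ : ℝ} (hγ : 0 ≤ γ)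
    (h1 : ∫⁻ z in U ∩ (T ∪ ⋃ q ∈ Q, closedBall q (r q + s)), ‖deriv F z‖ₑ ≤ ENNReal.ofReal γ)
    (h2 : ∫⁻ z, G z ≤ ENNReal.ofReal γ)
    (h3 : ∑ q ∈ Q, ∫⁻ z, Er z * ‖fderiv ℝ (φ q) z‖ₑ ≤ ENNReal.ofReal γ) :
    -(∑ q ∈ Q, (R q + e) * (2 * Real.pi * (r q + s)) + 8 * γ) ≤ ∫ z in U, fluxI F η z := by
  have hO : IsOpen (O₁ ∩ O₂) := hm₁.opn.inter hm₂.opn
  obtain ⟨hE1, hE2, hE3, hE4⟩ := Eset_props (Q := Q) h hrem hO
    (fun q hq => subset_inter (hm₁.subB q hq) (hm₂.subB q hq)) hs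
  set D : Set ℂ := (Eset U (O₁ ∩ O₂) Q r s)ᶜ with hD
  have hDm : MeasurableSet D := hE1.measurableSet.compl
  have hUD : U ⊆ D := fun z hz h' => h'.1 hz
  have en₁ := rhoF_energy h Complex.reCLM_norm.le hm₁ hφ hs hη inter_subset_left hO hG hG2
  have en₂ := rhoF_energy h Complex.imCLM_norm.le hm₂ hφ hs hη inter_subset_right hO hG hG2
  have z₁ := hB _ hE1 hE2 hE3 hE4 _ (rhoF_continuous hm₁ hφ hs hη) (rhoF_cpt hη)
    (rhoF_smooth hm₁ hφ hs hη inter_subset_left) en₁ 1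
  have z₂ := hB _ hE1 hE2 hE3 hE4 _ (rhoF_continuous hm₂ hφ hs hη) (rhoF_cpt hη)
    (rhoF_smooth hm₂ hφ hs hη inter_subset_right) en₂ Complex.I
  have i₁ := integrableOn_fderiv_of_energy (rhoF_cpt hη) hDm en₁ 1
  have i₂ := integrableOn_fderiv_of_energy (rhoF_cpt hη) hDm en₂ Complex.I
  have hφc : ∀ q ∈ Q, HasCompactSupport (φ q) := fun q hq =>
    (isCompact_closedBall q (r q + s)).of_isClosed_subset (isClosed_tsupport _) (hφ.supp q hq)
  have hDφ : ∀ q ∈ Q, Continuous (fderiv ℝ (φ q)) := fun q hq =>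
    (hφ.smooth q hq).continuous_fderiv (by simp)
  have enφ : ∀ q ∈ Q, IntegrableOn (fun z => ‖fderiv ℝ (φ q) z‖ ^ 2) D := by
    intro q hq
    have c1 : Continuous fun z => ‖fderiv ℝ (φ q) z‖ ^ 2 := (hDφ q hq).norm.pow 2
    have c2 : HasCompactSupport fun z => ‖fderiv ℝ (φ q) z‖ ^ 2 := by
      refine (hφc q hq).mono' fun z hz => ?_
      by_contra hzs
      refine hz ?_
      simp [fp_fderiv_zero (c := 0) (notMem_tsupport_iff_eventuallyEq.1 hzs)]
    exact (c1.integrable_of_hasCompactSupport c2).integrableOn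
  have z₃ : ∀ q ∈ Q, ∫ z in D, fderiv ℝ (φ q) z (F q) = 0 := fun q hq =>
    hB _ hE1 hE2 hE3 hE4 _ (hφ.smooth q hq).continuous (hφc q hq) (hφ.smooth q hq).contDiffOn
      (enφ q hq) (F q)
  have i₃ : ∀ q ∈ Q, IntegrableOn (fun z => fderiv ℝ (φ q) z (F q)) D := fun q hq =>
    integrableOn_fderiv_of_energy (hφc q hq) hDm (enφ q hq) (F q)
  -- the error terms
  have i₄ : ∀ q ∈ Q, IntegrableOn (fun z => ‖fderiv ℝ (φ q) z‖) D ∧
      ∫ z in D, ‖fderiv ℝ (φ q) z‖ ≤ 2 * Real.pi * (r q + s) := by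
    intro q hq
    have := fc_toReal (g := fun z => ‖fderiv ℝ (φ q) z‖ₑ) (hDφ q hq).measurable.enorm
      (ne_top_of_le_ne_top ENNReal.ofReal_ne_top (hφ.tot q hq)) D
    simp only [toReal_enorm] at this
    refine ⟨this.1, this.2.trans ?_⟩
    refine ENNReal.toReal_le_of_le_ofReal ?_ (hφ.tot q hq)
    have := hr q hq
    positivity
  set A : Set ℂ := U ∩ (T ∪ ⋃ q ∈ Q, closedBall q (r q + s)) with hA
  have hAm : MeasurableSet A := h.opn.measurableSet.inter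
    (hTm.union (Q.measurableSet_biUnion fun q _ => measurableSet_closedBall))
  have i₅ : IntegrableOn (A.indicator fun w => ‖deriv F w‖) D ∧
      ∫ z in D, A.indicator (fun w => ‖deriv F w‖) z ≤ γ := by
    have hl : ∫⁻ z, A.indicator (fun w => ‖deriv F w‖ₑ) z ≤ ENNReal.ofReal γ := by
      rwa [lintegral_indicator hAm]
    have := fc_toReal (g := A.indicator fun w => ‖deriv F w‖ₑ)
      ((measurable_deriv F).enorm.indicator hAm) (ne_top_of_le_ne_top ENNReal.ofReal_ne_top hl) D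
    have he : (fun z => (A.indicator (fun w => ‖deriv F w‖ₑ) z).toReal) =
        A.indicator fun w => ‖deriv F w‖ := by
      funext z
      by_cases hz : z ∈ A
      · simp only [indicator_of_mem hz, toReal_enorm]
      · simp only [indicator_of_notMem hz, ENNReal.toReal_zero]
    rw [he] at this
    exact ⟨this.1, this.2.trans (ENNReal.toReal_le_of_le_ofReal hγ hl)⟩
  have hGfin : ∫⁻ z, G z ≠ ⊤ := ne_top_of_le_ne_top ENNReal.ofReal_ne_top h2
  have i₆ := fc_toReal hG hGfin D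
  have i₆' : ∫ z in D, (G z).toReal ≤ γ := i₆.2.trans (ENNReal.toReal_le_of_le_ofReal hγ h2)
  have hEm : ∀ q ∈ Q, Measurable fun z => Er z * ‖fderiv ℝ (φ q) z‖ₑ := fun q hq =>
    hEr.mul (hDφ q hq).measurable.enorm
  have hEfin : ∀ q ∈ Q, ∫⁻ z, Er z * ‖fderiv ℝ (φ q) z‖ₑ ≠ ⊤ := fun q hq =>
    ne_top_of_le_ne_top ENNReal.ofReal_ne_top ((Finset.single_le_sum
      (f := fun q => ∫⁻ z, Er z * ‖fderiv ℝ (φ q) z‖ₑ) (fun _ _ => zero_le) hq).trans h3)
  have i₇ := fun q hq => fc_toReal (hEm q hq) (hEfin q hq) D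
  have i₇' : ∑ q ∈ Q, ∫ z in D, (Er z * ‖fderiv ℝ (φ q) z‖ₑ).toReal ≤ γ := by
    refine (Finset.sum_le_sum fun q hq => (i₇ q hq).2).trans ?_
    rw [← ENNReal.toReal_sum hEfin]
    exact ENNReal.toReal_le_of_le_ofReal hγ h3
  have i₈ : IntegrableOn (U.indicator (fluxI F η)) D :=
    ((integrableOn_fluxI h hη).integrable_indicator h.opn.measurableSet).integrableOn
  have i₈' : ∫ z in D, U.indicator (fluxI F η) z = ∫ z in U, fluxI F η z := by
    rw [setIntegral_indicator h.opn.measurableSet, inter_eq_right.2 hUD]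
  have j₃ : IntegrableOn (fun z => ∑ q ∈ Q, fderiv ℝ (φ q) z (F q)) D :=
    integrable_finsetSum Q i₃
  have j₄ : IntegrableOn (fun z => ∑ q ∈ Q, (R q + e) * ‖fderiv ℝ (φ q) z‖) D :=
    integrable_finsetSum Q fun q hq => (i₄ q hq).1.const_mul _
  have j₇ : IntegrableOn (fun z => ∑ q ∈ Q, (Er z * ‖fderiv ℝ (φ q) z‖ₑ).toReal) D :=
    integrable_finsetSum Q fun q hq => (i₇ q hq).1
  have hae : ∀ᵐ z, ∀ q ∈ Q, Er z * ‖fderiv ℝ (φ q) z‖ₑ ≠ ⊤ :=
    (Q.eventually_all).2 fun q hq => (ae_lt_top (hEm q hq) (hEfin q hq)).mono fun _ h => h.ne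
  have k₁ : IntegrableOn (fun z => U.indicator (fluxI F η) z -
      ∑ q ∈ Q, fderiv ℝ (φ q) z (F q)) D := i₈.sub j₃
  have k₂ : IntegrableOn (fun z => U.indicator (fluxI F η) z -
      ∑ q ∈ Q, fderiv ℝ (φ q) z (F q) + ∑ q ∈ Q, (R q + e) * ‖fderiv ℝ (φ q) z‖) D := k₁.add j₄
  have k₃ : IntegrableOn (fun z => U.indicator (fluxI F η) z -
      ∑ q ∈ Q, fderiv ℝ (φ q) z (F q) + ∑ q ∈ Q, (R q + e) * ‖fderiv ℝ (φ q) z‖ +
      4 * A.indicator (fun w => ‖deriv F w‖) z) D := k₂.add (i₅.1.const_mul 4)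
  have k₄ : IntegrableOn (fun z => U.indicator (fluxI F η) z -
      ∑ q ∈ Q, fderiv ℝ (φ q) z (F q) + ∑ q ∈ Q, (R q + e) * ‖fderiv ℝ (φ q) z‖ +
      4 * A.indicator (fun w => ‖deriv F w‖) z + 2 * (G z).toReal) D := k₃.add (i₆.1.const_mul 2)
  have k₀ : IntegrableOn (fun z => fderiv ℝ (rhoF η Q φ P₁) z 1 +
      fderiv ℝ (rhoF η Q φ P₂) z Complex.I) D := i₁.add i₂
  have k₅ : IntegrableOn (fun z => U.indicator (fluxI F η) z -
      ∑ q ∈ Q, fderiv ℝ (φ q) z (F q) + ∑ q ∈ Q, (R q + e) * ‖fderiv ℝ (φ q) z‖ +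
      4 * A.indicator (fun w => ‖deriv F w‖) z + 2 * (G z).toReal +
      2 * ∑ q ∈ Q, (Er z * ‖fderiv ℝ (φ q) z‖ₑ).toReal) D := k₄.add (j₇.const_mul 2)
  have key := setIntegral_mono_on_ae k₀ k₅ hDm (by
    filter_upwards [ae_lt_top hG hGfin, hae] with z hz1 hz2 hz
    exact flux_pointwise h hm₁ hm₂ hφ hs hη hK hT hC hR hnear hz hz1.ne hz2)
  rw [integral_add i₁ i₂, z₁, z₂, integral_add k₄ (j₇.const_mul 2),
    integral_add k₃ (i₆.1.const_mul 2), integral_add k₂ (i₅.1.const_mul 4), integral_add k₁ j₄,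
    integral_sub i₈ j₃, i₈', integral_finsetSum Q i₃, Finset.sum_eq_zero z₃,
    integral_finsetSum Q fun q hq => (i₄ q hq).1.const_mul _, integral_const_mul,
    integral_const_mul, integral_const_mul,
    integral_finsetSum Q fun q hq => (i₇ q hq).1] at key
  have l₄ : ∑ q ∈ Q, ∫ z in D, (R q + e) * ‖fderiv ℝ (φ q) z‖ ≤
      ∑ q ∈ Q, (R q + e) * (2 * Real.pi * (r q + s)) := by
    refine Finset.sum_le_sum fun q hq => ?_
    rw [integral_const_mul]
    exact mul_le_mul_of_nonneg_left (i₄ q hq).2 (hR q hq)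
  linarith [i₅.2]

end Crest.Agent.R105
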