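import Crest.Agent.R105.ADefs

/-! Row 105, block A: the finite multiplier. -/

set_option autoImplicit false

namespace Crest.Agent.R105

open MeasureTheory Filter Topology Set Metric Crest.AnalysisR
open scoped ENNReal ContDiff

variable {N' : Set ℂ} {r : ℂ → ℝ} {ψ : ℂ → ℂ → ℝ} {t ε : ℂ → ℝ} {θ : ℂ → ℝ → ℝ} {a b c : ℂ → ℝ}

/-- `θ q x = smoothTransition ((c q - (x - a q)) / (c q - b q)) * smoothTransition ((c q + (x - a q)) / (c q - b q))`. -/
theorem exists_theta (N' : Set ℂ) (a b c : ℂ → ℝ) (hb : ∀ q ∈ N', 0 ≤ b q)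
    (hbc : ∀ q ∈ N', b q < c q) : ∃ θ : ℂ → ℝ → ℝ, Theta N' θ a b c := by
  refine ⟨fun q x => Real.smoothTransition ((c q - (x - a q)) / (c q - b q)) *
    Real.smoothTransition ((c q + (x - a q)) / (c q - b q)), fun q _ => ?_, fun q _ x => ?_,
    fun q _ x => ?_, fun q hq x hx => ?_, fun q hq x hx => ?_,
    fun q hq => (hb q hq).trans (hbc q hq).le⟩
  · exact (Real.smoothTransition.contDiff.comp (by fun_prop)).mul
      (Real.smoothTransition.contDiff.comp (by fun_prop))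
  · exact mul_nonneg (Real.smoothTransition.nonneg _) (Real.smoothTransition.nonneg _)
  · exact mul_le_one₀ (Real.smoothTransition.le_one _) (Real.smoothTransition.nonneg _)
      (Real.smoothTransition.le_one _)
  · have h0 := sub_pos.2 (hbc q hq)
    obtain ⟨h1, h2⟩ := abs_le.1 hx
    rw [Real.smoothTransition.one_of_one_le ((one_le_div h0).2 (by linarith)),
      Real.smoothTransition.one_of_one_le ((one_le_div h0).2 (by linarith)), mul_one]
  · have h0 := sub_pos.2 (hbc q hq)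
    rcases le_abs.1 hx with h | h
    · rw [Real.smoothTransition.zero_of_nonpos (div_nonpos_of_nonpos_of_nonneg (by linarith) h0.le),
        zero_mul]
    · rw [Real.smoothTransition.zero_of_nonpos (x := (c q + (x - a q)) / (c q - b q))
        (div_nonpos_of_nonpos_of_nonneg (by linarith) h0.le), mul_zero]

private theorem h1_fac (hψ : Cut N' r ψ t ε) (hθ : Theta N' θ a b c) {q : ℂ} (hq : q ∈ N')
    (z : ℂ) (x : ℝ) : 0 ≤ 1 - ψ q z * θ q x ∧ 1 - ψ q z * θ q x ≤ 1 :=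
  ⟨sub_nonneg.2 (mul_le_one₀ (hψ.le_one q hq z) (hθ.nonneg q hq x) (hθ.le_one q hq x)),
    sub_le_self _ (mul_nonneg (hψ.nonneg q hq z) (hθ.nonneg q hq x))⟩

theorem Ms_nonneg (hψ : Cut N' r ψ t ε) (hθ : Theta N' θ a b c) {S : Finset ℂ}
    (hS : (S : Set ℂ) ⊆ N') (z : ℂ) (x : ℝ) : 0 ≤ Ms S ψ θ z x := by
  exact Finset.prod_nonneg fun q hq => (h1_fac hψ hθ (hS hq) z x).1

theorem Ms_le_one (hψ : Cut N' r ψ t ε) (hθ : Theta N' θ a b c) {S : Finset ℂ}
    (hS : (S : Set ℂ) ⊆ N') (z : ℂ) (x : ℝ) : Ms S ψ θ z x ≤ 1 := by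
  exact Finset.prod_le_one (fun q hq => (h1_fac hψ hθ (hS hq) z x).1)
    fun q hq => (h1_fac hψ hθ (hS hq) z x).2

theorem Ms_anti (hψ : Cut N' r ψ t ε) (hθ : Theta N' θ a b c) {S S' : Finset ℂ}
    (hS' : (S' : Set ℂ) ⊆ N') (hSS' : S ⊆ S') (z : ℂ) (x : ℝ) :
    Ms S' ψ θ z x ≤ Ms S ψ θ z x := by
  classical
  have h1 : ((S' \ S : Finset ℂ) : Set ℂ) ⊆ N' := fun q hq => hS' (Finset.mem_sdiff.1 hq).1
  have h2 : (S : Set ℂ) ⊆ N' := fun q hq => hS' (hSS' hq)
  have h3 : Ms S' ψ θ z x = Ms (S' \ S) ψ θ z x * Ms S ψ θ z x := (Finset.prod_sdiff hSS').symm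
  rw [h3]
  exact mul_le_of_le_one_left (Ms_nonneg hψ hθ h2 z x) (Ms_le_one hψ hθ h1 z x)

theorem Ms_continuous (hθ : Theta N' θ a b c) {S : Finset ℂ} (hS : (S : Set ℂ) ⊆ N') (z : ℂ) :
    Continuous (Ms S ψ θ z) := by
  exact continuous_finsetProd S fun q hq =>
    continuous_const.sub (continuous_const.mul (hθ.smooth q (hS hq)).continuous)

private theorem h1_prim {β : ℝ → ℝ} (hβ : ContDiff ℝ ∞ β) :
    ContDiff ℝ ∞ fun τ : ℝ => ∫ x in (0 : ℝ)..τ, β x := by
  rw [contDiff_infty_iff_deriv]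
  refine ⟨fun τ => (hβ.continuous.integral_hasStrictDerivAt 0 τ).hasDerivAt.differentiableAt, ?_⟩
  rw [show (deriv fun τ : ℝ => ∫ x in (0 : ℝ)..τ, β x) = β from
    funext fun τ => hβ.continuous.deriv_integral β 0 τ]
  exact hβ

private theorem h1_gen (hψ : Cut N' r ψ t ε) (hθ : Theta N' θ a b c) (S : Finset ℂ) :
    (S : Set ℂ) ⊆ N' → ∀ β : ℝ → ℝ, ContDiff ℝ ∞ β →
      ContDiff ℝ ∞ fun p : ℂ × ℝ => ∫ x in (0 : ℝ)..p.2, β x * Ms S ψ θ p.1 x := by
  classical
  induction S using Finset.induction_on with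
  | empty =>
    intro _ β hβ
    simp only [Ms, Finset.prod_empty, mul_one]
    exact (h1_prim hβ).comp contDiff_snd
  | insert q S hq ih =>
    intro hS β hβ
    have hqN : q ∈ N' := hS (by simp)
    have hS' : (S : Set ℂ) ⊆ N' := fun x hx => hS (by simp [Finset.mem_coe.1 hx])
    have h1 := ih hS' β hβ
    have h2 := ih hS' (fun x => β x * θ q x) (hβ.mul (hθ.smooth q hqN))
    have h3 := h1.sub (((hψ.smooth q hqN).comp contDiff_fst).mul h2)
    refine (funext fun p => ?_ : (fun p : ℂ × ℝ => ∫ x in (0 : ℝ)..p.2,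
      β x * Ms (insert q S) ψ θ p.1 x) = _) ▸ h3
    have c1 := Ms_continuous (ψ := ψ) hθ hS' p.1
    have c2 : Continuous fun x => β x * Ms S ψ θ p.1 x := hβ.continuous.mul c1
    have c3 : Continuous fun x => (ψ q ∘ Prod.fst) p * (β x * θ q x * Ms S ψ θ p.1 x) :=
      continuous_const.mul ((hβ.continuous.mul (hθ.smooth q hqN).continuous).mul c1)
    rw [← intervalIntegral.integral_const_mul, ← intervalIntegral.integral_sub
      (c2.intervalIntegrable _ _) (c3.intervalIntegrable _ _)]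
    refine intervalIntegral.integral_congr fun x _ => ?_
    simp only [Ms, Finset.prod_insert hq, Function.comp_apply]
    ring

/-- Generalise: for smooth `β : ℝ → ℝ`, `(z, τ) ↦ ∫_0^τ β x * Ms S ψ θ z x` is smooth; induction on `S`
(`Ms (insert q S) = Ms S - ψ q z * (θ q x * Ms S)`), the case `S = ∅` is the smoothness of the primitive
of a smooth function (`contDiff_infty_iff_deriv`, `Continuous.deriv_integral`). -/
theorem Hs_contDiff (hψ : Cut N' r ψ t ε) (hθ : Theta N' θ a b c) {S : Finset ℂ}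
    (hS : (S : Set ℂ) ⊆ N') : ContDiff ℝ ∞ fun p : ℂ × ℝ => Hs S ψ θ p.1 p.2 := by
  simpa only [one_mul, Hs] using h1_gen hψ hθ S hS (fun _ => 1) contDiff_const

theorem h39_prod_sub {ι : Type*} (S : Finset ι) {x y : ι → ℝ} (hx : ∀ q ∈ S, 0 ≤ x q ∧ x q ≤ 1)
    (hy : ∀ q ∈ S, 0 ≤ y q ∧ y q ≤ 1) : |∏ q ∈ S, x q - ∏ q ∈ S, y q| ≤ ∑ q ∈ S, |x q - y q| := by
  classical
  induction S using Finset.induction_on with
  | empty => simp
  | insert p S hp ih =>
    have h1 := ih (fun q hq => hx q (Finset.mem_insert_of_mem hq))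
      fun q hq => hy q (Finset.mem_insert_of_mem hq)
    have h2 := hx p (Finset.mem_insert_self _ _)
    have h3 : 0 ≤ ∏ q ∈ S, y q := Finset.prod_nonneg fun q hq => (hy q (Finset.mem_insert_of_mem hq)).1
    have h4 : ∏ q ∈ S, y q ≤ 1 := Finset.prod_le_one (fun q hq => (hy q (Finset.mem_insert_of_mem hq)).1)
      fun q hq => (hy q (Finset.mem_insert_of_mem hq)).2
    rw [Finset.prod_insert hp, Finset.prod_insert hp, Finset.sum_insert hp,
      show x p * ∏ q ∈ S, x q - y p * ∏ q ∈ S, y q =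
        (x p - y p) * ∏ q ∈ S, y q + x p * (∏ q ∈ S, x q - ∏ q ∈ S, y q) by ring]
    refine (abs_add_le _ _).trans (add_le_add ?_ ?_)
    · rw [abs_mul, abs_of_nonneg h3]
      exact mul_le_of_le_one_right (abs_nonneg _) h4
    · rw [abs_mul, abs_of_nonneg h2.1]
      exact (mul_le_of_le_one_left (abs_nonneg _) h2.2).trans h1

/-- `|∏ x_q - ∏ y_q| ≤ ∑ |x_q - y_q|` for numbers in `[0,1]`, `∫ θ q ≤ 2 c q`. -/
theorem Hs_lip (hψ : Cut N' r ψ t ε) (hθ : Theta N' θ a b c) {S : Finset ℂ}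
    (hS : (S : Set ℂ) ⊆ N') (z w : ℂ) (τ : ℝ) :
    |Hs S ψ θ w τ - Hs S ψ θ z τ| ≤ ∑ q ∈ S, 2 * c q * |ψ q w - ψ q z| := by
  have hi : ∀ q ∈ S, Integrable
      ((Icc (a q - c q) (a q + c q)).indicator fun _ : ℝ => |ψ q w - ψ q z|) := fun q _ =>
    (integrable_indicator_iff measurableSet_Icc).2 (integrableOn_const measure_Icc_lt_top.ne)
  have h01 : ∀ u x, ∀ q ∈ S, 0 ≤ 1 - ψ q u * θ q x ∧ 1 - ψ q u * θ q x ≤ 1 := fun u x q hq =>
    ⟨sub_nonneg.2 (mul_le_one₀ (hψ.le_one q (hS hq) u) (hθ.nonneg q (hS hq) x)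
      (hθ.le_one q (hS hq) x)),
      sub_le_self _ (mul_nonneg (hψ.nonneg q (hS hq) u) (hθ.nonneg q (hS hq) x))⟩
  have hg := integrable_finsetSum S hi
  rw [Hs, Hs, ← intervalIntegral.integral_sub ((Ms_continuous hθ hS w).intervalIntegrable _ _)
    ((Ms_continuous hθ hS z).intervalIntegrable _ _), ← Real.norm_eq_abs,
    intervalIntegral.norm_intervalIntegral_eq]
  refine (norm_integral_le_of_norm_le hg.integrableOn (Eventually.of_forall fun x => ?_)).trans
    ((setIntegral_le_integral hg (Eventually.of_forall fun x => Finset.sum_nonneg fun q _ =>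
      indicator_nonneg (fun _ _ => abs_nonneg _) x)).trans_eq ?_)
  · refine (h39_prod_sub S (h01 w x) (h01 z x)).trans (Finset.sum_le_sum fun q hq => ?_)
    rw [show 1 - ψ q w * θ q x - (1 - ψ q z * θ q x) = -((ψ q w - ψ q z) * θ q x) by ring, abs_neg,
      abs_mul, abs_of_nonneg (hθ.nonneg q (hS hq) x)]
    by_cases hx : x ∈ Icc (a q - c q) (a q + c q)
    · rw [indicator_of_mem hx]
      exact mul_le_of_le_one_right (abs_nonneg _) (hθ.le_one q (hS hq) x)
    · rw [indicator_of_notMem hx, hθ.zero q (hS hq) x, mul_zero]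
      by_contra h
      have := abs_lt.1 (not_le.1 h)
      exact hx ⟨by linarith [this.1], by linarith [this.2]⟩
  · rw [integral_finsetSum S hi]
    refine Finset.sum_congr rfl fun q hq => ?_
    rw [integral_indicator_const _ measurableSet_Icc, Real.volume_real_Icc_of_le
      (by linarith [hθ.c0 q (hS hq)]), smul_eq_mul]
    ring

/-- from `Hs_lip`: compare directional derivatives (slopes along `z + x • v`,
`hasDerivAt_iff_tendsto_slope_zero`, `le_of_tendsto_of_tendsto'`), `ContinuousLinearMap.opNorm_le_bound`. -/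
theorem Hs_fderiv_le (hψ : Cut N' r ψ t ε) (hθ : Theta N' θ a b c) {S : Finset ℂ}
    (hS : (S : Set ℂ) ⊆ N') (z : ℂ) (τ : ℝ) :
    ‖fderiv ℝ (fun w => Hs S ψ θ w τ) z‖ ≤ ∑ q ∈ S, 2 * c q * ‖fderiv ℝ (ψ q) z‖ := by
  have hc : ∀ q ∈ S, 0 ≤ 2 * c q := fun q hq => by linarith [hθ.c0 q (hS hq)]
  have key : ∀ η : ℝ, 0 < η → ‖fderiv ℝ (fun w => Hs S ψ θ w τ) z‖ ≤
      ∑ q ∈ S, 2 * c q * (‖fderiv ℝ (ψ q) z‖ + η) := fun η hη => by
    refine norm_fderiv_le_of_lip' ℝ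
      (Finset.sum_nonneg fun q hq => mul_nonneg (hc q hq) (by positivity)) ?_
    have h1 : ∀ᶠ w in 𝓝 z, ∀ q ∈ S, |ψ q w - ψ q z| ≤ (‖fderiv ℝ (ψ q) z‖ + η) * ‖w - z‖ := by
      refine (Filter.eventually_all_finset S).2 fun q hq => ?_
      have hd := ((hψ.smooth q (hS hq)).differentiable (by simp) z).hasFDerivAt
      filter_upwards [hd.isLittleO.def hη] with w hw
      have h2 := norm_add_le (ψ q w - ψ q z - fderiv ℝ (ψ q) z (w - z)) (fderiv ℝ (ψ q) z (w - z))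
      have h3 := (fderiv ℝ (ψ q) z).le_opNorm (w - z)
      rw [sub_add_cancel, Real.norm_eq_abs] at h2
      linarith
    filter_upwards [h1] with w hw
    rw [Real.norm_eq_abs, Finset.sum_mul]
    refine (Hs_lip hψ hθ hS z w τ).trans (Finset.sum_le_sum fun q hq => ?_)
    rw [mul_assoc (2 * c q)]
    exact mul_le_mul_of_nonneg_left (hw q hq) (hc q hq)
  have hl : Tendsto (fun η : ℝ => ∑ q ∈ S, 2 * c q * (‖fderiv ℝ (ψ q) z‖ + η)) (𝓝[>] 0)
      (𝓝 (∑ q ∈ S, 2 * c q * (‖fderiv ℝ (ψ q) z‖ + 0))) :=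
    (Continuous.tendsto (by fun_prop) 0).mono_left nhdsWithin_le_nhds
  simp only [add_zero] at hl
  exact ge_of_tendsto hl (eventually_nhdsWithin_of_forall key)

/-- chain rule for the smooth function of two variables; the partial derivative in `τ` is `Ms`. -/
theorem Hs_fderiv_comp (hψ : Cut N' r ψ t ε) (hθ : Theta N' θ a b c) {S : Finset ℂ}
    (hS : (S : Set ℂ) ⊆ N') {u : ℂ → ℝ} {z : ℂ} (hu : DifferentiableAt ℝ u z) :
    fderiv ℝ (fun w => Hs S ψ θ w (u w)) z =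
      fderiv ℝ (fun w => Hs S ψ θ w (u z)) z + Ms S ψ θ z (u z) • fderiv ℝ u z := by
  have hd := ((Hs_contDiff hψ hθ hS).differentiable (by simp) (z, u z)).hasFDerivAt
  obtain ⟨D, hD⟩ : ∃ D, D = fderiv ℝ (fun p : ℂ × ℝ => Hs S ψ θ p.1 p.2) (z, u z) := ⟨_, rfl⟩
  rw [← hD] at hd
  have h1 := (hd.comp z ((hasFDerivAt_id z).prodMk hu.hasFDerivAt)).fderiv
  have h2 := (HasFDerivAt.comp (f := fun w : ℂ => (w, u z)) z hd
    ((hasFDerivAt_id z).prodMk (hasFDerivAt_const (u z) z))).fderiv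
  have h3 := hd.comp_hasDerivAt (u z) ((hasDerivAt_const (u z) z).prodMk (hasDerivAt_id (u z)))
  have h4 : HasDerivAt (fun τ => Hs S ψ θ z τ) (Ms S ψ θ z (u z)) (u z) :=
    ((Ms_continuous (ψ := ψ) hθ hS z).integral_hasStrictDerivAt 0 (u z)).hasDerivAt
  have h5 : D (0, 1) = Ms S ψ θ z (u z) := h3.unique h4
  refine h1.trans ?_
  rw [show fderiv ℝ (fun w => Hs S ψ θ w (u z)) z = _ from h2, ← h5]
  ext1 v
  change D (v, fderiv ℝ u z v) = D (v, 0) + D (0, 1) * fderiv ℝ u z v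
  rw [mul_comm, ← smul_eq_mul, ← map_smul, ← map_add]
  simp

end Crest.Agent.R105
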