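import Crest.Agent.R105.ADefs
import Crest.Agent.R105.AMul1

/-! Row 105, block A: the infinite multiplier. -/

set_option autoImplicit false

namespace Crest.Agent.R105

open MeasureTheory Filter Topology Set Metric Crest.AnalysisR
open scoped ENNReal ContDiff

variable {N' : Set ℂ} {r : ℂ → ℝ} {ψ : ℂ → ℂ → ℝ} {t ε : ℂ → ℝ} {θ : ℂ → ℝ → ℝ} {a b c : ℂ → ℝ}

theorem mI_nonneg (hψ : Cut N' r ψ t ε) (hθ : Theta N' θ a b c) (z : ℂ) (x : ℝ) :
    0 ≤ mI N' ψ θ z x := by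
  exact Real.iInf_nonneg (fun S => Ms_nonneg hψ hθ S.2 z x)

theorem mI_le (hψ : Cut N' r ψ t ε) (hθ : Theta N' θ a b c) {S : Finset ℂ}
    (hS : (S : Set ℂ) ⊆ N') (z : ℂ) (x : ℝ) : mI N' ψ θ z x ≤ Ms S ψ θ z x := by
  unfold mI
  refine ciInf_le (f := fun S : {S : Finset ℂ // (S : Set ℂ) ⊆ N'} => Ms S.1 ψ θ z x) ⟨0, ?_⟩ ⟨S, hS⟩
  rintro _ ⟨S', rfl⟩
  exact Ms_nonneg hψ hθ S'.2 z x

theorem mI_le_one (hψ : Cut N' r ψ t ε) (hθ : Theta N' θ a b c) (z : ℂ) (x : ℝ) :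
    mI N' ψ θ z x ≤ 1 := by
  have hS : ((∅ : Finset ℂ) : Set ℂ) ⊆ N' := by simp
  exact (mI_le hψ hθ hS z x).trans (Ms_le_one hψ hθ hS z x)

/-- `Ms S' ≥ Ms (S' ∪ S) = Ms S` -/
theorem mI_eq (hψ : Cut N' r ψ t ε) (hθ : Theta N' θ a b c) {S : Finset ℂ}
    (hS : (S : Set ℂ) ⊆ N') {z : ℂ} {x : ℝ}
    (h : Ms S ψ θ z x = 0 ∨ ∀ q ∈ N', q ∉ S → ψ q z * θ q x = 0) :
    mI N' ψ θ z x = Ms S ψ θ z x := by
  classical
  refine le_antisymm (mI_le hψ hθ hS z x) ?_
  rcases h with h | h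
  · rw [h]; exact mI_nonneg hψ hθ z x
  · haveI : Nonempty {S : Finset ℂ // (S : Set ℂ) ⊆ N'} := ⟨⟨S, hS⟩⟩
    unfold mI
    refine le_ciInf fun S' => ?_
    have hU : ((S'.1 ∪ S : Finset ℂ) : Set ℂ) ⊆ N' := by
      rw [Finset.coe_union]; exact union_subset S'.2 hS
    have e : Ms S ψ θ z x = Ms (S'.1 ∪ S) ψ θ z x := by
      unfold Ms
      refine Finset.prod_subset Finset.subset_union_right fun q hq hqS => ?_
      rw [h q (hU hq) hqS, sub_zero]
    rw [e]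
    exact Ms_anti hψ hθ hU Finset.subset_union_left z x

/-- countable infimum (`Set.countable_setOf_finite_subset`-like, `Measurable.iInf`) -/
theorem mI_measurable (hN : N'.Countable) (hθ : Theta N' θ a b c) (z : ℂ) :
    Measurable (mI N' ψ θ z) := by
  haveI : Countable {s : Set ℂ | s.Finite ∧ s ⊆ N'} :=
    (Set.countable_setOf_finite_subset hN).to_subtype
  haveI : Countable {S : Finset ℂ // (S : Set ℂ) ⊆ N'} :=
    Function.Injective.countable
      (f := fun S : {S : Finset ℂ // (S : Set ℂ) ⊆ N'} =>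
        (⟨(S.1 : Set ℂ), S.1.finite_toSet, S.2⟩ : {s : Set ℂ | s.Finite ∧ s ⊆ N'}))
      (by
        intro S S' h
        exact Subtype.ext (Finset.coe_injective (congrArg Subtype.val h)))
  unfold mI
  exact Measurable.iInf fun S => (Ms_continuous hθ S.2 z).measurable

theorem HI_abs_le (hN : N'.Countable) (hψ : Cut N' r ψ t ε) (hθ : Theta N' θ a b c) (z : ℂ)
    (τ : ℝ) : |HI N' ψ θ z τ| ≤ |τ| := by
  have := intervalIntegral.norm_integral_le_of_norm_le_const (a := (0 : ℝ)) (b := τ) (C := 1)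
    (f := mI N' ψ θ z) (fun x _ => by
      rw [Real.norm_eq_abs, abs_of_nonneg (mI_nonneg hψ hθ z x)]
      exact mI_le_one hψ hθ z x)
  simpa [HI] using this

/-- the integrands lie in `[0,1]` and agree off `J`. -/
theorem HI_sub_Hs (hN : N'.Countable) (hψ : Cut N' r ψ t ε) (hθ : Theta N' θ a b c)
    {S : Finset ℂ} (hS : (S : Set ℂ) ⊆ N') {z : ℂ} {J : Set ℝ} (hJ : MeasurableSet J)
    (h : ∀ x, x ∉ J → mI N' ψ θ z x = Ms S ψ θ z x) (τ : ℝ) :
    ‖HI N' ψ θ z τ - Hs S ψ θ z τ‖ₑ ≤ volume J := by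
  have i1 : IntervalIntegrable (mI N' ψ θ z) volume 0 τ := by
    refine (intervalIntegrable_const (c := (1 : ℝ))).mono_fun'
      (mI_measurable hN hθ z).aestronglyMeasurable (Eventually.of_forall fun x => ?_)
    show ‖mI N' ψ θ z x‖ ≤ 1
    rw [Real.norm_eq_abs, abs_of_nonneg (mI_nonneg hψ hθ z x)]
    exact mI_le_one hψ hθ z x
  have i2 : IntervalIntegrable (Ms S ψ θ z) volume 0 τ :=
    (Ms_continuous hθ hS z).intervalIntegrable _ _
  unfold HI Hs
  rw [← intervalIntegral.integral_sub i1 i2, ← ofReal_norm,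
    intervalIntegral.norm_integral_eq_norm_integral_uIoc, ofReal_norm]
  refine (enorm_integral_le_lintegral_enorm _).trans ?_
  refine (lintegral_mono' Measure.restrict_le_self le_rfl).trans ?_
  rw [← lintegral_indicator_one hJ]
  refine lintegral_mono fun x => ?_
  by_cases hx : x ∈ J
  · rw [indicator_of_mem hx, Pi.one_apply, ← ofReal_norm, ENNReal.ofReal_le_one,
      Real.norm_eq_abs, abs_le]
    have h1 := mI_nonneg hψ hθ z x
    have h2 := mI_le_one hψ hθ z x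
    have h3 := Ms_nonneg hψ hθ hS z x
    have h4 := Ms_le_one hψ hθ hS z x
    constructor <;> linarith
  · simp [h x hx]

/-- `HI_sub_Hs` with `S = ∅`, `J = ⋃_{z ∈ ball q (t q)} Icc (a q - c q) (a q + c q)`. -/
theorem HI_err (hN : N'.Countable) (hψ : Cut N' r ψ t ε) (hθ : Theta N' θ a b c) (z : ℂ) (τ : ℝ) :
    ‖HI N' ψ θ z τ - τ‖ₑ ≤ Ef N' (fun q => 2 * c q) t z := by
  classical
  haveI : Countable N' := hN.to_subtype
  have hS : ((∅ : Finset ℂ) : Set ℂ) ⊆ N' := by simp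
  set J : N' → Set ℝ := fun q =>
    if z ∈ ball (q : ℂ) (t q) then Icc (a q - c q) (a q + c q) else ∅ with hJ
  have mJ : MeasurableSet (⋃ q, J q) := by
    refine MeasurableSet.iUnion fun q => ?_
    simp only [hJ]
    split_ifs
    · exact measurableSet_Icc
    · exact MeasurableSet.empty
  have key := HI_sub_Hs hN hψ hθ hS (z := z) mJ (fun x hx => by
    refine mI_eq hψ hθ hS (Or.inr fun q hq _ => ?_)
    have hxq : x ∉ J ⟨q, hq⟩ := fun h => hx (mem_iUnion.2 ⟨_, h⟩)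
    simp only [hJ] at hxq
    by_cases hz : z ∈ ball q (t q)
    · rw [if_pos hz] at hxq
      rw [hθ.zero q hq x, mul_zero]
      by_contra hc
      rw [not_le, abs_lt] at hc
      exact hxq ⟨by linarith [hc.1], by linarith [hc.2]⟩
    · rw [image_eq_zero_of_notMem_tsupport (fun h => hz (hψ.supp q hq h)), zero_mul]) τ
  have e : Hs ∅ ψ θ z τ = τ := by simp [Hs, Ms]
  rw [e] at key
  refine key.trans ((measure_iUnion_le _).trans (ENNReal.tsum_le_tsum fun q => ?_))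
  simp only [hJ]
  by_cases hz : z ∈ ball (q : ℂ) (t q)
  · rw [if_pos hz, indicator_of_mem hz, Real.volume_Icc]
    exact ENNReal.ofReal_le_ofReal (by linarith)
  · rw [if_neg hz, measure_empty]
    exact zero_le

theorem HI_off (hψ : Cut N' r ψ t ε) (hθ : Theta N' θ a b c) {z : ℂ} (hz : z ∉ Tf N' t) (τ : ℝ) :
    HI N' ψ θ z τ = τ := by
  have hS : ((∅ : Finset ℂ) : Set ℂ) ⊆ N' := by simp
  have e : mI N' ψ θ z = fun _ => 1 := by
    funext x
    rw [mI_eq hψ hθ hS (Or.inr fun q hq _ => ?_)]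
    · simp [Ms]
    · have : z ∉ tsupport (ψ q) := fun h => hz (mem_biUnion hq (hψ.supp q hq h))
      rw [image_eq_zero_of_notMem_tsupport this, zero_mul]
  simp [HI, e]

theorem sum_le_Gf (hθ : Theta N' θ a b c) {S : Finset ℂ} (hS : (S : Set ℂ) ⊆ N') (z : ℂ) :
    ENNReal.ofReal (∑ q ∈ S, 2 * c q * ‖fderiv ℝ (ψ q) z‖) ≤ Gf N' (fun q => 2 * c q) ψ z := by
  classical
  rw [ENNReal.ofReal_sum_of_nonneg (fun q hq =>
    mul_nonneg (mul_nonneg zero_le_two (hθ.c0 q (hS hq))) (norm_nonneg _))]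
  rw [← Finset.sum_subtype_of_mem (p := fun q => q ∈ N') _ (fun q hq => hS hq)]
  refine le_trans (Finset.sum_le_sum fun q _ => ?_) (ENNReal.sum_le_tsum _)
  rw [ENNReal.ofReal_mul (mul_nonneg zero_le_two (hθ.c0 q q.2)), ofReal_norm]

end Crest.Agent.R105
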