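import Crest.Agent.R105.ADefs
import Crest.Agent.R105.AMul2
import Crest.Agent.R105.APic

/-! Row 105, block A: the modified function. -/

set_option autoImplicit false

namespace Crest.Agent.R105

open MeasureTheory Filter Topology Set Metric Crest.AnalysisR
open scoped ENNReal ContDiff

variable {U : Set ℂ} {F : ℂ → ℂ} {N : Set ℂ} {r R : ℂ → ℝ} {N' : Set ℂ} {ψ : ℂ → ℂ → ℝ}
  {t ε : ℂ → ℝ} {θ : ℂ → ℝ → ℝ} {L : ℂ →L[ℝ] ℝ}

theorem h67_near (hψ : Cut N' r ψ t ε) {q z z₀ : ℂ} {η : ℝ} (hq : q ∈ N') (ht : t q < η)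
    (hz : dist z z₀ < η) (h0 : ψ q z ≠ 0) : dist q z₀ < 2 * η := by
  have h1 : dist z q < t q := hψ.supp q hq (subset_tsupport _ h0)
  have h2 := dist_triangle_left q z₀ z
  linarith

/-- Continuity where `F` is continuous.  Given `η`, let `S = {q ∈ N' | η ≤ t q ∨ η ≤ R q ∨ η ≤ ε q}`.
For `dist z z₀ < η`, `q ∉ S`, `ψ q z ≠ 0`: `dist q z₀ < 2 η`, so `θ q` vanishes off
`J = Icc (u₀ - ω - 3η) (u₀ + ω + 3η)`, `ω` the oscillation of `F` on `ball z₀ (2η)`.  `mI_eq`,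
`HI_sub_Hs`, continuity of `z ↦ Hs S ψ θ z (L (F z))` at `z₀` (`Hs_contDiff`). -/
theorem mult_cont (h : Pic U F N r R) (hN' : N' ⊆ N) (hψ : Cut N' r ψ t ε) (hL : ‖L‖ ≤ 1)
    (hθ : Theta N' θ (fun q => L (F q)) (fun q => R q + ε q) (fun q => R q + 2 * ε q)) {z₀ : ℂ}
    (hz : ContinuousAt F z₀) : ContinuousAt (fun z => HI N' ψ θ z (L (F z))) z₀ := by
  rw [ContinuousAt, Metric.tendsto_nhds]
  intro e he
  obtain ⟨δ, hδ, hF⟩ := Metric.continuousAt_iff.1 hz (e / 17) (by positivity)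
  set η := min (δ / 2) (e / 17) with hη
  have hη0 : 0 < η := lt_min (by positivity) (by positivity)
  have hη1 : η ≤ δ / 2 := min_le_left _ _
  have hη2 : η ≤ e / 17 := min_le_right _ _
  have hfin : {q ∈ N' | η ≤ t q ∨ η ≤ R q ∨ η ≤ ε q}.Finite := by
    refine (((hψ.tfin η hη0).union (h.Rfin hη0)).union (hψ.efin η hη0)).subset ?_
    rintro q ⟨hq, h1 | h1 | h1⟩
    exacts [Or.inl (Or.inl ⟨hq, h1⟩), Or.inl (Or.inr ⟨hN' hq, h1⟩), Or.inr ⟨hq, h1⟩]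
  have hS : (hfin.toFinset : Set ℂ) ⊆ N' := fun q hq => (hfin.mem_toFinset.1 hq).1
  have key : ∀ z, dist z z₀ < η → ∀ τ,
      |HI N' ψ θ z τ - Hs hfin.toFinset ψ θ z τ| ≤ 8 * (e / 17) := by
    intro z hz τ
    have h1 := HI_sub_Hs (h.cnt.mono hN') hψ hθ hS (z := z)
      (J := Icc (L (F z₀) - 4 * (e / 17)) (L (F z₀) + 4 * (e / 17))) measurableSet_Icc
      (fun x hx => mI_eq hψ hθ hS (Or.inr fun q hq hqS => ?_)) τ
    · rw [Real.volume_Icc, ← ofReal_norm, ENNReal.ofReal_le_ofReal_iff (by linarith),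
        Real.norm_eq_abs] at h1
      linarith
    · rw [hfin.mem_toFinset] at hqS
      have h2 : t q < η ∧ R q < η ∧ ε q < η := by
        by_contra h2
        refine hqS ⟨hq, ?_⟩
        by_contra h3
        push Not at h3
        exact h2 h3
      by_cases h0 : ψ q z = 0
      · rw [h0, zero_mul]
      have h3 := hF ((h67_near hψ hq h2.1 hz h0).trans_le (by linarith))
      have h4 : |L (F q) - L (F z₀)| ≤ e / 17 := by
        rw [← map_sub, ← Real.norm_eq_abs]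
        refine (L.le_opNorm _).trans ?_
        rw [dist_eq_norm] at h3
        nlinarith [norm_nonneg (F q - F z₀), norm_nonneg L]
      rw [hθ.zero q hq x ?_, mul_zero]
      rw [abs_le] at h4
      rw [mem_Icc, not_and_or, not_le, not_le] at hx
      rw [le_abs]
      rcases hx with hx | hx
      · right; linarith [h2.2.1, h2.2.2]
      · left; linarith [h2.2.1, h2.2.2]
  have hc : ContinuousAt (fun z => Hs hfin.toFinset ψ θ z (L (F z))) z₀ :=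
    ((Hs_contDiff hψ hθ hS).continuous.continuousAt).comp
      (f := fun z => (z, L (F z))) (continuousAt_id.prodMk (L.continuous.continuousAt.comp hz))
  filter_upwards [Metric.tendsto_nhds.1 hc (e / 17) (by positivity), ball_mem_nhds z₀ hη0]
    with z h1 h2
  have h3 := abs_le.1 (key z h2 (L (F z)))
  have h4 := abs_le.1 (key z₀ (by rwa [dist_self]) (L (F z₀)))
  rw [Real.dist_eq, abs_lt] at h1 ⊢
  constructor <;> linarith [h1.1, h1.2]

/-- Local finiteness in `U`: `ball z₀ (2η) ⊆ U`, `S = {q ∈ N' | η ≤ t q}`; the centres lie in `Uᶜ`. -/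
theorem mult_locU (h : Pic U F N r R) (hN' : N' ⊆ N) (hψ : Cut N' r ψ t ε)
    (hθ : Theta N' θ (fun q => L (F q)) (fun q => R q + ε q) (fun q => R q + 2 * ε q)) {z₀ : ℂ}
    (hz : z₀ ∈ U) : ∃ S : Finset ℂ, (S : Set ℂ) ⊆ N' ∧
      ∀ᶠ z in 𝓝 z₀, ∀ τ, HI N' ψ θ z τ = Hs S ψ θ z τ := by
  obtain ⟨δ, hδ, hb⟩ := Metric.isOpen_iff.1 h.opn z₀ hz
  have hfin := hψ.tfin (δ / 2) (by positivity)
  have hS : (hfin.toFinset : Set ℂ) ⊆ N' := fun q hq => (hfin.mem_toFinset.1 hq).1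
  refine ⟨hfin.toFinset, hS, ?_⟩
  filter_upwards [ball_mem_nhds z₀ (half_pos hδ)] with z hz τ
  have key : ∀ x, mI N' ψ θ z x = Ms hfin.toFinset ψ θ z x := fun x => by
    refine mI_eq hψ hθ hS (Or.inr fun q hq hqS => ?_)
    rw [hfin.mem_toFinset] at hqS
    by_cases h0 : ψ q z = 0
    · rw [h0, zero_mul]
    have h1 := h67_near hψ hq (not_le.1 fun h1 => hqS ⟨hq, h1⟩) hz h0
    exact absurd (hb (show dist q z₀ < δ by linarith))
      (h.sub q (hN' hq) (mem_closedBall_self (h.r0 q (hN' hq))))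
  simp only [HI, Hs, key]

theorem h32_L_le (hL : ‖L‖ ≤ 1) (v : ℂ) : |L v| ≤ ‖v‖ :=
  (L.le_opNorm v).trans (mul_le_of_le_one_left (norm_nonneg _) hL)

theorem h32_enorm_add (A B : ℂ →L[ℝ] ℝ) : ‖A + B‖ₑ ≤ ‖A‖ₑ + ‖B‖ₑ := by
  rw [← ofReal_norm, ← ofReal_norm, ← ofReal_norm,
    ← ENNReal.ofReal_add (norm_nonneg _) (norm_nonneg _)]
  exact ENNReal.ofReal_le_ofReal (norm_add_le _ _)

theorem h32_L_sub (hL : ‖L‖ ≤ 1) (v w : ℂ) : |L v - L w| ≤ dist v w := by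
  rw [← map_sub, dist_eq_norm]; exact h32_L_le hL _

theorem h32_ψ_zero (hψ : Cut N' r ψ t ε) {q z : ℂ} (hq : q ∈ N') (hz : z ∉ ball q (t q)) :
    ψ q z = 0 :=
  image_eq_zero_of_notMem_tsupport fun h => hz (hψ.supp q hq h)

/-- Local finiteness near a node `q₀`: `δ` from `near` with `ε q₀ / 4`, `r q₀ + δ ≤ s` (`Cut.one`),
`d = δ / 2`, `S = {q₀} ∪ {q | d ≤ t q ∨ ε q₀ / 4 ≤ R q ∨ ε q₀ / 4 ≤ ε q}`.  For `q ∉ S` with
`ψ q z ≠ 0`, `θ q x ≠ 0` one has `θ q₀ x = 1`, so `Ms S = 0`; and `Ms S ψ θ z` vanishes between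
`L (F q₀)` and `L (F z)`. -/
theorem mult_locB (h : Pic U F N r R) (hN' : N' ⊆ N) (hψ : Cut N' r ψ t ε) (hL : ‖L‖ ≤ 1)
    (hθ : Theta N' θ (fun q => L (F q)) (fun q => R q + ε q) (fun q => R q + 2 * ε q)) {q₀ : ℂ}
    (hq : q₀ ∈ N') : ∃ S : Finset ℂ, (S : Set ℂ) ⊆ N' ∧ ∃ d > 0,
      ∀ z ∈ ball q₀ (r q₀ + d), HI N' ψ θ z (L (F z)) = Hs S ψ θ z (L (F q₀)) := by
  classical
  obtain ⟨s, hs, hs1⟩ := hψ.one q₀ hq
  have he : 0 < ε q₀ / 4 := by linarith [hψ.epos q₀ hq]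
  obtain ⟨δ₁, hδ₁, hnear⟩ := h.near q₀ (hN' hq) _ he
  obtain ⟨d, hd, hd1, hd2⟩ : ∃ d : ℝ, 0 < d ∧ 2 * d ≤ δ₁ ∧ r q₀ + d ≤ s :=
    ⟨min (δ₁ / 2) (s - r q₀), lt_min (by linarith) (by linarith),
      by linarith [min_le_left (δ₁ / 2) (s - r q₀)], by linarith [min_le_right (δ₁ / 2) (s - r q₀)]⟩
  have hfin : {q ∈ N' | q = q₀ ∨ d ≤ t q ∨ ε q₀ / 4 ≤ R q ∨ ε q₀ / 4 ≤ ε q}.Finite := by
    refine ((finite_singleton q₀).union ((hψ.tfin d hd).union
      ((h.Rfin he).union (hψ.efin _ he)))).subset ?_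
    rintro q ⟨h1, h2 | h2 | h2 | h2⟩
    · exact Or.inl h2
    · exact Or.inr (Or.inl ⟨h1, h2⟩)
    · exact Or.inr (Or.inr (Or.inl ⟨hN' h1, h2⟩))
    · exact Or.inr (Or.inr (Or.inr ⟨h1, h2⟩))
  have hS : (hfin.toFinset : Set ℂ) ⊆ N' := fun q hq' => (hfin.mem_toFinset.1 hq').1
  refine ⟨hfin.toFinset, hS, d, hd, fun z hz => ?_⟩
  have hz' : dist z q₀ < r q₀ + d := hz
  have hψ1 : ψ q₀ z = 1 := hs1 z (hz'.trans_le hd2)
  have hM0 : ∀ x, |x - L (F q₀)| ≤ R q₀ + ε q₀ → Ms hfin.toFinset ψ θ z x = 0 := fun x hx =>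
    Finset.prod_eq_zero (hfin.mem_toFinset.2 ⟨hq, Or.inl rfl⟩)
      (by rw [hψ1, hθ.one q₀ hq x hx]; ring)
  have hm : ∀ x, mI N' ψ θ z x = Ms hfin.toFinset ψ θ z x := by
    intro x
    refine mI_eq hψ hθ hS ?_
    by_cases hx : |x - L (F q₀)| ≤ R q₀ + ε q₀
    · exact Or.inl (hM0 x hx)
    refine Or.inr fun q hq' hqS => ?_
    have h1 : ¬ (q = q₀ ∨ d ≤ t q ∨ ε q₀ / 4 ≤ R q ∨ ε q₀ / 4 ≤ ε q) := fun h1 =>
      hqS (hfin.mem_toFinset.2 ⟨hq', h1⟩)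
    simp only [not_or, not_le] at h1
    obtain ⟨-, h2, h3, h4⟩ := h1
    by_cases h5 : z ∈ ball q (t q)
    · have h6 : dist q q₀ < r q₀ + δ₁ := by
        have h7 : dist z q < t q := h5
        linarith [dist_triangle_left q q₀ z]
      have h7 := (h32_L_sub hL _ _).trans_lt (hnear q h6)
      have h8 := abs_sub_le x (L (F q)) (L (F q₀))
      rw [hθ.zero q hq' x (by simp only [not_le] at hx ⊢; linarith), mul_zero]
    · rw [h32_ψ_zero hψ hq' h5, zero_mul]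
  have hc := Ms_continuous (ψ := ψ) hθ hS z
  have h1 := (h32_L_sub hL _ _).trans_lt (hnear z (by linarith))
  have h2 : ∫ x in L (F q₀)..L (F z), Ms hfin.toFinset ψ θ z x = 0 := by
    rw [intervalIntegral.integral_congr (g := fun _ => 0) fun x hx => hM0 x
      ((abs_sub_left_of_mem_uIcc hx).trans (by linarith)), intervalIntegral.integral_zero]
  unfold HI Hs
  simp only [hm]
  rw [← intervalIntegral.integral_add_adjacent_intervals (hc.intervalIntegrable 0 (L (F q₀)))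
    (hc.intervalIntegrable _ _), h2, add_zero]

/-- `P z = HI N' ψ θ z (L (F z))`, `O = U ∪ ⋃ ball q (r q + d q)`; `ell R ε = fun q => 2 * (R q + 2 ε q)`.
`dU`: `Hs_fderiv_comp`, `Hs_fderiv_le`, `sum_le_Gf`, and `Ms S ψ θ z _ = 1` off `Tf`. -/
theorem exists_mult (h : Pic U F N r R) {Q : Set ℂ} (hψ : Cut (N \ Q) r ψ t ε) (hL : ‖L‖ ≤ 1) :
    ∃ (P : ℂ → ℝ) (O : Set ℂ), Mult U F N r Q L P O (Tf (N \ Q) t) (Gf (N \ Q) (ell R ε) ψ)
      (Ef (N \ Q) (ell R ε) t) := by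
  have hN' : N \ Q ⊆ N := sdiff_subset
  have hcnt : (N \ Q).Countable := h.cnt.mono hN'
  obtain ⟨θ, hθ⟩ := exists_theta (N \ Q) (fun q => L (F q)) (fun q => R q + ε q)
    (fun q => R q + 2 * ε q) (fun q hq => by linarith [h.R0 q hq.1, hψ.epos q hq])
    (fun q hq => by linarith [hψ.epos q hq])
  have hell : ell R ε = fun q => 2 * (R q + 2 * ε q) := by
    funext q; unfold ell; ring
  choose! S hS d hd hB using fun q (hq : q ∈ N \ Q) => mult_locB h hN' hψ hL hθ hq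
  have hBe : ∀ q ∈ N \ Q, ∀ z ∈ ball q (r q + d q), (fun w => HI (N \ Q) ψ θ w (L (F w))) =ᶠ[𝓝 z]
      fun w => Hs (S q) ψ θ w (L (F q)) := fun q hq z hz => by
    filter_upwards [isOpen_ball.mem_nhds hz] with w hw using hB q hq w hw
  have hsubB : ∀ q ∈ N \ Q, closedBall q (r q) ⊆ U ∪ ⋃ q ∈ N \ Q, ball q (r q + d q) :=
    fun q hq z hz => Or.inr (mem_biUnion hq (closedBall_subset_ball (by linarith [hd q hq]) hz))
  have hu : ∀ z ∈ U, ContDiffAt ℝ ∞ (fun w => L (F w)) z := fun z hz =>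
    (h.contDiffOn_comp L).contDiffAt (h.opn.mem_nhds hz)
  have hsm : ∀ z ∈ U ∪ ⋃ q ∈ N \ Q, ball q (r q + d q),
      ContDiffAt ℝ ∞ (fun w => HI (N \ Q) ψ θ w (L (F w))) z := by
    rintro z (hz | hz)
    · obtain ⟨T, hT, hT'⟩ := mult_locU h hN' hψ hθ hz
      refine ContDiffAt.congr_of_eventuallyEq (f := fun w => Hs T ψ θ w (L (F w))) ?_
        (hT'.mono fun w hw => hw _)
      exact (Hs_contDiff hψ hθ hT).contDiffAt.comp z (contDiffAt_id.prodMk (hu z hz))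
    · obtain ⟨q, hq, hz⟩ := mem_iUnion₂.1 hz
      refine ContDiffAt.congr_of_eventuallyEq ?_ (hBe q hq z hz)
      exact (Hs_contDiff hψ hθ (hS q hq)).contDiffAt.comp z (contDiffAt_id.prodMk contDiffAt_const)
  have hG : ∀ T : Finset ℂ, (T : Set ℂ) ⊆ N \ Q → ∀ z τ,
      ‖fderiv ℝ (fun w => Hs T ψ θ w τ) z‖ₑ ≤ Gf (N \ Q) (ell R ε) ψ z := fun T hT z τ => by
    rw [hell, ← ofReal_norm]
    exact (ENNReal.ofReal_le_ofReal (Hs_fderiv_le hψ hθ hT z τ)).trans (sum_le_Gf hθ hT z)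
  refine ⟨fun w => HI (N \ Q) ψ θ w (L (F w)), U ∪ ⋃ q ∈ N \ Q, ball q (r q + d q),
    h.opn.union (isOpen_biUnion fun _ _ => isOpen_ball), subset_union_left, hsubB,
    fun z hz => ?_, fun z hz => (hsm z hz).contDiffWithinAt,
    fun z => (HI_abs_le hcnt hψ hθ z _).trans (h32_L_le hL _), fun z hz => HI_off hψ hθ hz _,
    fun z => hell ▸ HI_err hcnt hψ hθ z _, fun z hz => ?_, fun z hz hzU => ?_⟩
  · by_cases h1 : ∃ q ∈ N, z ∈ closedBall q (r q)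
    · obtain ⟨q, hq, h1⟩ := h1
      exact (hsm z (hsubB q ⟨hq, fun hQ => hz q hQ h1⟩ h1)).continuousAt
    · exact mult_cont h hN' hψ hL hθ (h.cont z fun q hq h2 => h1 ⟨q, hq, h2⟩)
  · obtain ⟨T, hT, hT'⟩ := mult_locU h hN' hψ hθ hz
    have h1 : (fun w => HI (N \ Q) ψ θ w (L (F w))) =ᶠ[𝓝 z] fun w => Hs T ψ θ w (L (F w)) :=
      hT'.mono fun w hw => hw _
    rw [h1.fderiv_eq, Hs_fderiv_comp hψ hθ hT ((hu z hz).differentiableAt (by simp)),
      add_sub_assoc]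
    refine ((h32_enorm_add _ _).trans (add_le_add (hG T hT z _) ?_)).trans_eq (add_comm _ _)
    by_cases h2 : z ∈ Tf (N \ Q) t
    · rw [indicator_of_mem h2, ← ofReal_norm, ← ofReal_norm]
      refine ENNReal.ofReal_le_ofReal (le_trans ?_ (h.norm_fderiv_comp hL hz))
      nth_rewrite 2 [← one_smul ℝ (fderiv ℝ (fun w => L (F w)) z)]
      rw [← sub_smul, norm_smul]
      refine mul_le_of_le_one_left (norm_nonneg _) (abs_le.2 ⟨?_, ?_⟩)
      · linarith [Ms_nonneg hψ hθ hT z (L (F z))]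
      · linarith [Ms_le_one hψ hθ hT z (L (F z))]
    · have h3 : Ms T ψ θ z (L (F z)) = 1 := Finset.prod_eq_one fun q hq => by
        rw [h32_ψ_zero hψ (hT hq) fun h4 => h2 (mem_biUnion (hT hq) h4)]; ring
      rw [h3, one_smul, sub_self, ← ofReal_norm, norm_zero, ENNReal.ofReal_zero]
      exact zero_le
  · obtain ⟨q, hq, hz⟩ := mem_iUnion₂.1 (hz.resolve_left hzU)
    rw [(hBe q hq z hz).fderiv_eq]
    exact hG _ (hS q hq) z _

end Crest.Agent.R105
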