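import Crest.Agent.R105.ADefs
import Crest.Agent.R105.AFlux2
import Crest.Agent.R105.ACut
import Crest.Agent.R105.AMul3
import Crest.Agent.R105.ACollar

/-! Row 105, block A: the flux inequality. -/

set_option autoImplicit false

namespace Crest.Agent.R105

open MeasureTheory Filter Topology Set Metric Crest.AnalysisR
open scoped ENNReal ContDiff

variable {U : Set ℂ} {F : ℂ → ℂ} {N : Set ℂ} {r R : ℂ → ℝ}

/-- packing: each of the discs contains a disc of radius `δ` inside `ball z (5 δ)`; compare areas. -/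
theorem packing (Q : Finset ℂ) {δ : ℝ} (hδ : 0 < δ) (hr : ∀ q ∈ Q, δ ≤ r q)
    (hd : (Q : Set ℂ).PairwiseDisjoint fun q => closedBall q (r q)) (z : ℂ)
    (hz : ∀ q ∈ Q, dist z q < r q + 3 * δ) : Q.card ≤ 25 := by
  have hc : ∀ q ∈ Q, ∃ c, dist z c ≤ 4 * δ ∧ dist c q ≤ r q - δ := fun q hq =>
    exists_dist_le_le (by positivity) (sub_nonneg.2 (hr q hq)) (by linarith [hz q hq])
  choose! c h1 h2 using hc
  have hsub : ∀ q ∈ Q, ball (c q) δ ⊆ closedBall q (r q) := fun q hq =>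
    ball_subset_closedBall.trans (closedBall_subset_closedBall' (by linarith [h2 q hq]))
  have h3 : volume (⋃ q ∈ Q, ball (c q) δ) = ∑ q ∈ Q, volume (ball (c q) δ) :=
    measure_biUnion_finset (fun q hq q' hq' hne => (hd hq hq' hne).mono (hsub q hq) (hsub q' hq'))
      fun _ _ => measurableSet_ball
  have h4 : volume (⋃ q ∈ Q, ball (c q) δ) ≤ volume (ball z (5 * δ)) :=
    measure_mono (iUnion₂_subset fun q hq =>
      ball_subset_ball' (by rw [dist_comm]; linarith [h1 q hq]))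
  simp only [h3, Complex.volume_ball, Finset.sum_const, nsmul_eq_mul] at h4
  rw [ENNReal.ofReal_mul (by norm_num), mul_pow, mul_assoc] at h4
  have h5 := (ENNReal.mul_le_mul_iff_left (c := ENNReal.ofReal δ ^ 2 * NNReal.pi)
    (mul_ne_zero (pow_ne_zero _ (by simpa using hδ)) (by simp [NNReal.pi_ne_zero]))
    (ENNReal.mul_ne_top (ENNReal.pow_ne_top ENNReal.ofReal_ne_top) ENNReal.coe_ne_top)).1 h4
  rw [show ENNReal.ofReal 5 ^ 2 = ((25 : ℕ) : ℝ≥0∞) by norm_num] at h5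
  exact_mod_cast h5

/-- `lintegral_tsum`; for each small node `q'` at most `25` collars meet `ball q' (t q')`, each
contributes at most `8 t q'` (`Collar.loc`), the others nothing (`Collar.supp`). -/
theorem err_collar {N' : Set ℂ} (hN : N'.Countable) {Q : Finset ℂ} {δ s : ℝ} (hδ : 0 < δ)
    (hs : 0 < s) (hsδ : s ≤ δ) (hr : ∀ q ∈ Q, δ ≤ r q) {φ : ℂ → ℂ → ℝ} (hφ : Collar Q r s φ)
    {l t : ℂ → ℝ} (ht : ∀ q ∈ N', t q ≤ 2 * δ) :
    ∑ q ∈ Q, ∫⁻ z, Ef N' l t z * ‖fderiv ℝ (φ q) z‖ₑ ≤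
      200 * ∑' q : N', ENNReal.ofReal (l q) * ENNReal.ofReal (t q) := by
  classical
  have := hN.to_subtype
  have h1 : ∀ q, ∫⁻ z, Ef N' l t z * ‖fderiv ℝ (φ q) z‖ₑ =
      ∑' q' : N', ENNReal.ofReal (l q') * ∫⁻ z in ball (q' : ℂ) (t q'), ‖fderiv ℝ (φ q) z‖ₑ := by
    intro q
    have hm : Measurable fun z => ‖fderiv ℝ (φ q) z‖ₑ := (measurable_fderiv ℝ (φ q)).enorm
    simp only [Ef, ← ENNReal.tsum_mul_right]
    rw [lintegral_tsum fun q' =>
      ((measurable_const.indicator measurableSet_ball).fun_mul hm).aemeasurable]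
    refine tsum_congr fun q' => ?_
    rw [← lintegral_const_mul _ hm, ← lintegral_indicator measurableSet_ball]
    refine lintegral_congr fun z => ?_
    rw [indicator_mul_left]
  simp only [h1]
  rw [← Summable.tsum_finsetSum fun _ _ => ENNReal.summable, ← ENNReal.tsum_mul_left]
  refine ENNReal.tsum_le_tsum fun q' => ?_
  rw [← Finset.mul_sum, mul_left_comm]
  refine mul_le_mul_right ?_ _
  have h2 := packing (r := r) (Q.filter fun q => dist (q' : ℂ) q < r q + 3 * δ) hδ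
    (fun q hq => hr q (Finset.mem_filter.1 hq).1)
    (fun a ha b hb hne => (hφ.disj (Finset.mem_filter.1 ha).1 (Finset.mem_filter.1 hb).1 hne).mono
      (closedBall_subset_closedBall (by linarith)) (closedBall_subset_closedBall (by linarith)))
    q' fun q hq => (Finset.mem_filter.1 hq).2
  rw [← Finset.sum_filter_of_ne (p := fun q => dist (q' : ℂ) q < r q + 3 * δ)]
  · refine (Finset.sum_le_card_nsmul _ _ _ fun q hq =>
      hφ.loc q (Finset.mem_filter.1 hq).1 q' (t q')).trans ?_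
    rw [nsmul_eq_mul, ENNReal.ofReal_mul (by norm_num), ← mul_assoc]
    refine mul_le_mul_left ?_ _
    calc _ ≤ ((25 : ℕ) : ℝ≥0∞) * ENNReal.ofReal 8 := mul_le_mul_left (by exact_mod_cast h2) _
      _ = 200 := by norm_num
  · intro q hq hne
    by_contra hlt
    refine hne (setLIntegral_eq_zero measurableSet_ball fun z hz => ?_)
    have h3 : z ∉ tsupport (φ q) := fun h => by
      have h4 : dist z q ≤ r q + s := hφ.supp q hq h
      have h5 : dist z q' < t q' := hz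
      have h6 := dist_triangle_left (q' : ℂ) q z
      exact hlt (by linarith [ht q' q'.2])
    show ‖fderiv ℝ (φ q) z‖ₑ = 0
    rw [fderiv_of_notMem_tsupport ℝ h3]
    rw [← ofReal_norm, norm_zero, ENNReal.ofReal_zero]

/-- all small `s` work: finitely many conditions, each holds eventually in `𝓝[>] 0`;
`U ∩ closedBall q (r q + s) ⊆ closedBall q (r q + s) \ closedBall q (r q)`. -/
theorem exists_width (h : Pic U F N r R) {Q : Finset ℂ} (hQ : (Q : Set ℂ) ⊆ N) {e : ℝ}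
    (he : 0 < e) {γ : ℝ≥0∞} (hγ : 0 < γ) :
    ∀ᶠ s in 𝓝[>] (0 : ℝ), ((Q : Set ℂ).PairwiseDisjoint fun q => closedBall q (r q + s)) ∧
      (∀ q ∈ Q, ∀ z ∈ closedBall q (r q + s), ‖F z - F q‖ ≤ R q + e) ∧
      volume (U ∩ ⋃ q ∈ Q, closedBall q (r q + s)) ≤ γ := by
  have h0 : ∀ c : ℝ, 0 < c → ∀ᶠ s in 𝓝[>] (0 : ℝ), s < c := fun c hc =>
    mem_nhdsWithin_of_mem_nhds (gt_mem_nhds hc)
  have h1 : ∀ᶠ s in 𝓝[>] (0 : ℝ), ∀ q ∈ Q, ∀ q' ∈ Q, q ≠ q' →
      Disjoint (closedBall q (r q + s)) (closedBall q' (r q' + s)) := by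
    simp only [Filter.eventually_all_finset]
    intro q hq q' hq'
    by_cases hne : q = q'
    · exact Eventually.of_forall fun _ h => absurd hne h
    have h2 := (disjoint_closedBall_closedBall_iff (h.r0 q (hQ hq)) (h.r0 q' (hQ hq'))).1
      (h.disj (hQ hq) (hQ hq') hne)
    filter_upwards [h0 ((dist q q' - (r q + r q')) / 2) (by linarith)] with s hs _
    exact closedBall_disjoint_closedBall (by linarith)
  have h2 : ∀ᶠ s in 𝓝[>] (0 : ℝ), ∀ q ∈ Q, ∀ z ∈ closedBall q (r q + s),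
      ‖F z - F q‖ ≤ R q + e := by
    rw [Filter.eventually_all_finset]
    intro q hq
    obtain ⟨δ, hδ, hn⟩ := h.near q (hQ hq) e he
    filter_upwards [h0 δ hδ] with s hs z hz
    rw [← dist_eq_norm]
    exact (hn z (by linarith [mem_closedBall.1 hz])).le
  have h3 : Tendsto (fun s : ℝ => ∑ q ∈ Q,
      (volume (closedBall q (r q + s)) - volume (closedBall q (r q)))) (𝓝[>] 0) (𝓝 0) := by
    refine (tendsto_finsetSum (a := fun _ => 0) _ fun q _ => ?_).mono_right (by simp)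
    have h4 : Tendsto (fun s : ℝ => volume (closedBall q (r q + s))) (𝓝 0)
        (𝓝 (volume (closedBall q (r q + 0)))) := by
      simp only [Complex.volume_closedBall]
      exact ((ENNReal.continuous_mul_const ENNReal.coe_ne_top).comp ((ENNReal.continuous_pow 2).comp
        (ENNReal.continuous_ofReal.comp (continuous_const_add (r q))))).tendsto 0
    rw [add_zero] at h4
    have h5 := ENNReal.Tendsto.sub h4 (tendsto_const_nhds (x := volume (closedBall q (r q))))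
      (Or.inl measure_closedBall_lt_top.ne)
    rw [tsub_self] at h5
    exact h5.mono_left nhdsWithin_le_nhds
  filter_upwards [h1, h2, h3.eventually (ge_mem_nhds hγ), self_mem_nhdsWithin] with s a b c hs
  refine ⟨fun q hq q' hq' hne => a q hq q' hq' hne, b, le_trans ?_ c⟩
  rw [inter_iUnion₂]
  refine (measure_biUnion_finset_le _ _).trans (Finset.sum_le_sum fun q hq => ?_)
  rw [← measure_sdiff (closedBall_subset_closedBall (le_add_of_nonneg_right (le_of_lt hs)))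
    measurableSet_closedBall.nullMeasurableSet measure_closedBall_lt_top.ne]
  exact measure_mono fun z hz => ⟨hz.2, fun h' => h.sub q (hQ hq) h' hz.1⟩

/-- Given `γ > 0`: absolute continuity of `∫⁻ ‖F'‖` on `U ∩ ball 0 ρ` (`Pic.energy_one`,
`exists_pos_setLIntegral_lt_of_measure_lt` for the restricted measure), `exists_cut`,
`Q = (h.rfin _).toFinset`, `exists_mult` twice, `e, s` small, `exists_collar`, `flux_core`,
`Pic.sum_flux_le`. -/
theorem flux (hB : StB) (h : Pic U F N r R) (hrem : IsConformallyRemovable (frontier U))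
    {ρ : ℝ} (hK : Uᶜ ⊆ ball 0 (ρ - 3)) {η : ℂ → ℝ} (hη : Outer η ρ) :
    -((volume Uᶜ).toReal + (volume (F '' U)ᶜ).toReal) ≤ ∫ z in U, fluxI F η z := by
  set A := (volume Uᶜ).toReal + (volume (F '' U)ᶜ).toReal with hA
  refine le_of_forall_pos_le_add fun γ₀ hγ₀ => ?_
  set γ : ℝ := γ₀ / 10 with hγdef
  have hγ : 0 < γ := by positivity
  have hγ' : (0 : ℝ≥0∞) < ENNReal.ofReal γ := ENNReal.ofReal_pos.2 hγ
  -- absolute continuity
  obtain ⟨d₀, hd₀0, hd₀⟩ := exists_pos_setLIntegral_lt_of_measure_lt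
    (μ := volume.restrict (U ∩ ball 0 ρ)) (f := fun z => ‖deriv F z‖ₑ) (h.energy_one ρ).ne hγ'.ne'
  set d : ℝ≥0∞ := min d₀ 1 with hddef
  have hd0 : 0 < d := lt_min hd₀0 one_pos
  have hdtop : d ≠ ⊤ := ne_top_of_le_ne_top ENNReal.one_ne_top (min_le_right _ _)
  have hd : ∀ s, (volume.restrict (U ∩ ball 0 ρ)) s < d →
      ∫⁻ x in s, ‖deriv F x‖ₑ ∂(volume.restrict (U ∩ ball 0 ρ)) < ENNReal.ofReal γ :=
    fun s hs => hd₀ s (hs.trans_le (min_le_left _ _))
  set γ₁ : ℝ≥0∞ := min (d / 2 / 2) (ENNReal.ofReal (γ / 200)) with hγ₁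
  have hd4 : 0 < d / 2 / 2 := ENNReal.half_pos (ENNReal.half_pos hd0.ne').ne'
  have hγ₁0 : 0 < γ₁ := lt_min hd4 (ENNReal.ofReal_pos.2 (by positivity))
  obtain ⟨δ, hδ0, hδ1, ψ, t, ε, hcut, ht, hG2, hG1, hT, hlt⟩ := exists_cut h hγ₁0
  set Q : Finset ℂ := (h.rfin hδ0).toFinset with hQ
  have hQc : (Q : Set ℂ) = {q ∈ N | δ ≤ r q} := by simp [hQ]
  have hQN : (Q : Set ℂ) ⊆ N := by rw [hQc]; exact fun q hq => hq.1
  have hQr : ∀ q ∈ Q, δ ≤ r q := fun q hq => by
    have : q ∈ (Q : Set ℂ) := hq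
    rw [hQc] at this; exact this.2
  rw [← hQc] at hcut ht hG2 hG1 hT hlt
  obtain ⟨P₁, O₁, hm₁⟩ := exists_mult h hcut (L := Complex.reCLM) Complex.reCLM_norm.le
  obtain ⟨P₂, O₂, hm₂⟩ := exists_mult h hcut (L := Complex.imCLM) Complex.imCLM_norm.le
  -- choice of `e` and `s`
  have hcont : Tendsto (fun p : ℝ => ∑ q ∈ Q, (R q + p) * (2 * Real.pi * (r q + p))) (𝓝 0)
      (𝓝 (∑ q ∈ Q, (R q + 0) * (2 * Real.pi * (r q + 0)))) := by
    refine Continuous.tendsto ?_ 0
    fun_prop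
  have hsumlt : ∑ q ∈ Q, (R q + 0) * (2 * Real.pi * (r q + 0)) < A + γ := by
    have h1 := h.sum_flux_le Q hQN
    have e : ∑ q ∈ Q, (R q + 0) * (2 * Real.pi * (r q + 0)) =
        ∑ q ∈ Q, 2 * Real.pi * (R q * r q) := Finset.sum_congr rfl fun q _ => by ring
    rw [e]; linarith
  obtain ⟨e, he1, he0⟩ : ∃ e : ℝ, ∑ q ∈ Q, (R q + e) * (2 * Real.pi * (r q + e)) < A + γ ∧ 0 < e :=
    (((hcont.eventually (gt_mem_nhds hsumlt)).filter_mono nhdsWithin_le_nhds).and
      (self_mem_nhdsWithin (s := Ioi (0 : ℝ)))).exists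
  have hsm : ∀ᶠ s in 𝓝[>] (0 : ℝ), s < min δ e :=
    (gt_mem_nhds (lt_min hδ0 he0)).filter_mono nhdsWithin_le_nhds
  obtain ⟨s, ⟨⟨hdisj, hnear, hvol⟩, hslt⟩, hs0⟩ :=
    (((exists_width h hQN he0 hγ₁0).and hsm).and (self_mem_nhdsWithin (s := Ioi (0 : ℝ)))).exists
  have hs : 0 < s := hs0
  have hsδ : s ≤ δ := (hslt.trans_le (min_le_left _ _)).le
  have hse : s ≤ e := (hslt.trans_le (min_le_right _ _)).le
  obtain ⟨φ, hφ⟩ := exists_collar Q (fun q hq => hδ0.trans_le (hQr q hq)) hs hdisj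
  have hNc : (N \ (Q : Set ℂ)).Countable := h.cnt.mono diff_subset
  have hKρ : Uᶜ ⊆ ball 0 ρ := hK.trans (ball_subset_ball (by linarith))
  have hTρ : Tf (N \ (Q : Set ℂ)) t ⊆ ball 0 ρ := by
    intro z hz
    simp only [Tf, mem_iUnion] at hz
    obtain ⟨q, hq, hz⟩ := hz
    have h1 := hK (h.sub q hq.1 (mem_closedBall_self (h.r0 q hq.1)))
    have h2 := ht q hq
    rw [mem_ball] at h1 hz ⊢
    linarith [dist_triangle z q 0]
  have hTm : MeasurableSet (Tf (N \ (Q : Set ℂ)) t) :=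
    (isOpen_biUnion fun q _ => isOpen_ball).measurableSet
  have hC : ∀ q ∈ Q, closedBall q (r q + s) ⊆ ball 0 ρ := by
    intro q hq z hz
    have hq' := hQN hq
    have h1 : z ∈ cthickening s (closedBall q (r q)) := by
      rw [cthickening_closedBall hs.le (h.r0 q hq'), add_comm]; exact hz
    have h2 : z ∈ thickening 2 (closedBall q (r q)) :=
      cthickening_subset_thickening' (by norm_num) (by linarith) _ h1
    obtain ⟨w, hw, hzw⟩ := mem_thickening_iff.1 h2
    have h3 := hK (h.sub q hq' hw)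
    rw [mem_ball] at h3 ⊢
    linarith [dist_triangle z w 0]
  have hR : ∀ q ∈ Q, 0 ≤ R q + e := fun q hq => add_nonneg (h.R0 q (hQN hq)) he0.le
  have hr : ∀ q ∈ Q, 0 ≤ r q := fun q hq => h.r0 q (hQN hq)
  have hγ₁γ : γ₁ ≤ ENNReal.ofReal γ :=
    (min_le_right _ _).trans (ENNReal.ofReal_le_ofReal (by linarith))
  set B := U ∩ (Tf (N \ (Q : Set ℂ)) t ∪ ⋃ q ∈ Q, closedBall q (r q + s)) with hBdef
  have hBm : MeasurableSet B := h.opn.measurableSet.inter
    (hTm.union (Finset.measurableSet_biUnion Q fun q _ => measurableSet_closedBall))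
  have hBsub : B ⊆ U ∩ ball 0 ρ := by
    rintro z ⟨hzU, hz | hz⟩
    · exact ⟨hzU, hTρ hz⟩
    · simp only [mem_iUnion] at hz
      obtain ⟨q, hq, hz⟩ := hz
      exact ⟨hzU, hC q hq hz⟩
  have hBvol : volume B < d := by
    have h1 : B ⊆ Tf (N \ (Q : Set ℂ)) t ∪ (U ∩ ⋃ q ∈ Q, closedBall q (r q + s)) := by
      rintro z ⟨hzU, hz | hz⟩
      · exact Or.inl hz
      · exact Or.inr ⟨hzU, hz⟩
    calc volume B ≤ γ₁ + γ₁ := (measure_mono h1).trans ((measure_union_le _ _).trans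
          (add_le_add hT hvol))
      _ ≤ d / 2 / 2 + d / 2 / 2 := add_le_add (min_le_left _ _) (min_le_left _ _)
      _ = d / 2 := ENNReal.add_halves _
      _ < d := ENNReal.half_lt_self hd0.ne' hdtop
  have h1 : ∫⁻ z in B, ‖deriv F z‖ₑ ≤ ENNReal.ofReal γ := by
    have h2 := hd B (lt_of_le_of_lt (Measure.restrict_apply_le _ _) hBvol)
    rw [Measure.restrict_restrict hBm, inter_eq_left.2 hBsub] at h2
    exact h2.le
  have h3 : ∑ q ∈ Q, ∫⁻ z, Ef (N \ (Q : Set ℂ)) (ell R ε) t z * ‖fderiv ℝ (φ q) z‖ₑ ≤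
      ENNReal.ofReal γ := by
    refine (err_collar hNc hδ0 hs hsδ hQr hφ ht).trans ?_
    calc _ ≤ 200 * ENNReal.ofReal (γ / 200) :=
          mul_le_mul_right (hlt.trans (min_le_right _ _)) _
      _ = ENNReal.ofReal γ := by
          rw [← ENNReal.ofReal_ofNat, ← ENNReal.ofReal_mul (by norm_num)]
          congr 1; ring
  have key := flux_core hB h hrem hm₁ hm₂ hφ hs hη hKρ hTρ hTm hC hR hr hnear
    (measurable_Gf hNc _ _) (measurable_Ef hNc _ _) hG2 hγ.le h1 (hG1.trans hγ₁γ) h3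
  have h4 : ∑ q ∈ Q, (R q + e) * (2 * Real.pi * (r q + s)) ≤
      ∑ q ∈ Q, (R q + e) * (2 * Real.pi * (r q + e)) :=
    Finset.sum_le_sum fun q hq => mul_le_mul_of_nonneg_left
      (mul_le_mul_of_nonneg_left (by linarith) (by positivity)) (hR q hq)
  linarith

end Crest.Agent.R105
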