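import Crest.Agent.R105.ADefs
import Crest.Agent.R105.APic

/-! Row 105, block A: the energy inequality at infinity. -/

set_option autoImplicit false

namespace Crest.Agent.R105

open MeasureTheory Filter Topology Set Metric Crest.AnalysisR
open scoped ENNReal ContDiff

variable {U : Set ℂ} {F : ℂ → ℂ} {N : Set ℂ} {r R : ℂ → ℝ}

/-- scaled bumps: `η z = g (z / ρ)` with `g : ContDiffBump (0 : ℂ)`, `rIn = 1`, `rOut = 2`;
`fderiv g` is bounded and Lipschitz (`ContDiff.lipschitzWith_of_hasCompactSupport`). -/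
theorem exists_outer : ∃ M : ℝ, 0 ≤ M ∧ ∀ ρ > 0, ∃ η : ℂ → ℝ, Outer η ρ ∧
    tsupport η ⊆ closedBall 0 (2 * ρ) ∧ (∀ z, ‖fderiv ℝ η z‖ ≤ M / ρ) ∧
    ∀ z w, ‖fderiv ℝ η z - fderiv ℝ η w‖ ≤ M / ρ ^ 2 * ‖z - w‖ := by
  let g : ContDiffBump (0 : ℂ) := ⟨1, 2, one_pos, one_lt_two⟩
  have hg : ContDiff ℝ ∞ g := g.contDiff
  have hg' : ContDiff ℝ 1 (fderiv ℝ g) := (contDiff_infty_iff_fderiv.1 hg).2.of_le (by simp)
  obtain ⟨A, hA⟩ := (g.hasCompactSupport.fderiv ℝ).exists_bound_of_continuous hg'.continuous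
  obtain ⟨B, hB⟩ := hg'.lipschitzWith_of_hasCompactSupport (g.hasCompactSupport.fderiv ℝ)
    one_ne_zero
  refine ⟨max A B, le_max_of_le_right B.2, fun ρ hρ => ?_⟩
  have hρ' : 0 < ρ⁻¹ := inv_pos.2 hρ
  have hd : ∀ z, fderiv ℝ (fun z : ℂ => g (ρ⁻¹ • z)) z = ρ⁻¹ • fderiv ℝ g (ρ⁻¹ • z) := fun z => by
    have h1 := ((hg.differentiable (by simp)) (ρ⁻¹ • z)).hasFDerivAt.comp z
      ((hasFDerivAt_id z).const_smul ρ⁻¹)
    refine h1.fderiv.trans ?_
    ext v
    simp only [ContinuousLinearMap.comp_apply, smul_apply,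
      ContinuousLinearMap.id_apply, map_smul]
  have hs : tsupport (fun z : ℂ => g (ρ⁻¹ • z)) ⊆ closedBall 0 (2 * ρ) := by
    refine closure_minimal (fun z hz => ?_) isClosed_closedBall
    have h1 : ρ⁻¹ • z ∈ Function.support g := hz
    rw [g.support_eq, mem_ball_zero_iff, norm_smul, Real.norm_eq_abs, abs_of_pos hρ',
      inv_mul_lt_iff₀ hρ] at h1
    rw [mem_closedBall_zero_iff, mul_comm]
    exact h1.le
  refine ⟨fun z => g (ρ⁻¹ • z), ⟨hg.comp (contDiff_id.const_smul _),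
    (isCompact_closedBall _ _).of_isClosed_subset isClosed_closure hs, fun _ => g.nonneg,
    fun _ => g.le_one, fun z hz => g.one_of_mem_closedBall ?_⟩, hs, fun z => ?_, fun z w => ?_⟩
  · rw [mem_closedBall_zero_iff, norm_smul, Real.norm_eq_abs, abs_of_pos hρ',
      inv_mul_le_iff₀ hρ]
    exact (mem_ball_zero_iff.1 hz).le.trans (mul_one ρ).ge
  · rw [hd, norm_smul, Real.norm_eq_abs, abs_of_pos hρ', div_eq_inv_mul]
    exact mul_le_mul_of_nonneg_left ((hA _).trans (le_max_left _ _)) hρ'.le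
  · rw [hd, hd, ← smul_sub, norm_smul, Real.norm_eq_abs, abs_of_pos hρ']
    have h1 := hB.dist_le_mul (ρ⁻¹ • z) (ρ⁻¹ • w)
    rw [dist_eq_norm, dist_eq_norm, ← smul_sub, norm_smul, Real.norm_eq_abs, abs_of_pos hρ'] at h1
    calc _ ≤ ρ⁻¹ * (max A B * (ρ⁻¹ * ‖z - w‖)) :=
          mul_le_mul_of_nonneg_left (h1.trans (mul_le_mul_of_nonneg_right (le_max_right _ _)
            (by positivity))) hρ'.le
      _ = _ := by field_simp

/-- `∫ div (η z · z) = 0` (`integral_fderiv_eq_zero`-type lemma / integration by parts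
`integral_mul_fderiv_eq_neg_fderiv_mul_of_integrable`). -/
theorem outer_ibp {η : ℂ → ℝ} {ρ : ℝ} (hη : Outer η ρ) :
    ∫ z, fderiv ℝ η z z = -2 * ∫ z, η z := by
  have hd : Differentiable ℝ η := hη.smooth.differentiable (by simp)
  have hc : Continuous (fderiv ℝ η) := hη.smooth.continuous_fderiv (by simp)
  have hi : Integrable η := hη.smooth.continuous.integrable_of_hasCompactSupport hη.cpt
  have key : ∀ (L : ℂ →L[ℝ] ℝ) (v : ℂ), L v = 1 →
      Integrable (fun z => L z * fderiv ℝ η z v) ∧ ∫ z, L z * fderiv ℝ η z v = -∫ z, η z := by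
    intro L v hv
    have h1 : Integrable fun z => L z * fderiv ℝ η z v :=
      (L.continuous.mul (hc.clm_apply continuous_const)).integrable_of_hasCompactSupport
        (hη.cpt.fderiv_apply ℝ v).mul_left
    have h2 : ∀ z, fderiv ℝ L z v * η z = η z := fun z => by rw [L.fderiv, hv, one_mul]
    refine ⟨h1, ?_⟩
    rw [integral_mul_fderiv_eq_neg_fderiv_mul_of_integrable (by simpa only [h2] using hi) h1
      ((L.continuous.mul hη.smooth.continuous).integrable_of_hasCompactSupport hη.cpt.mul_left)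
      (fun x _ => L.differentiableAt) fun x _ => hd x]
    simp only [h2]
  obtain ⟨a1, a2⟩ := key Complex.reCLM 1 rfl
  obtain ⟨b1, b2⟩ := key Complex.imCLM Complex.I rfl
  have e : ∀ z : ℂ, fderiv ℝ η z z = Complex.reCLM z * fderiv ℝ η z 1 +
      Complex.imCLM z * fderiv ℝ η z Complex.I := fun z => by
    rw [← smul_eq_mul, ← smul_eq_mul, ← map_smul, ← map_smul, ← map_add]
    congr 1
    simp
  simp only [e]
  rw [integral_add a1 b1, a2, b2]
  ring

/-- Second order Taylor estimate.  For `‖z‖ < ρ / 2` all terms vanish (`‖F z‖ < ρ`); for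
`‖z‖ > 3 ρ` too; in between use `Convex.norm_image_sub_le_of_norm_fderiv_le'`:
`(η z - η (z + e) + Dη z e) ‖F'‖² + Dη z e (1 - ‖F'‖²)`, both terms are `O(ρ⁻⁴)`. -/
theorem taylor_bound {C ρ₀ M : ℝ} (hM : 0 ≤ M) (hρ₀ : 0 < ρ₀)
    (he0 : ∀ z ∈ U, ‖F z - z‖ ≤ C)
    (he : ∀ z : ℂ, ρ₀ ≤ ‖z‖ → ‖F z - z‖ ≤ C / ‖z‖ ∧ ‖deriv F z - 1‖ ≤ C / ‖z‖ ^ 2) :
    ∃ C' ρ₁ : ℝ, ∀ ρ ≥ ρ₁, ∀ η : ℂ → ℝ, Outer η ρ → tsupport η ⊆ closedBall 0 (2 * ρ) →
      (∀ z, ‖fderiv ℝ η z‖ ≤ M / ρ) →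
      (∀ z w, ‖fderiv ℝ η z - fderiv ℝ η w‖ ≤ M / ρ ^ 2 * ‖z - w‖) →
      ∀ z ∈ U, (η z - η (F z)) * ‖deriv F z‖ ^ 2 + fderiv ℝ η z (F z - z) ≤
        (closedBall (0 : ℂ) (3 * ρ)).indicator (fun _ => C' / ρ ^ 4) z := by
  have hC : 0 ≤ C := by
    have h1 := (he ρ₀ (by simp [abs_of_pos hρ₀])).1
    have h2 : 0 ≤ C / ‖(ρ₀ : ℂ)‖ := (norm_nonneg _).trans h1
    have h3 : 0 < ‖(ρ₀ : ℂ)‖ := by simpa using hρ₀.ne'
    by_contra hc
    exact absurd h2 (not_le.2 (div_neg_of_neg_of_pos (not_le.1 hc) h3))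
  refine ⟨40 * M * C ^ 2, max (2 * ρ₀) (2 * C + 2), fun ρ hρ η hη hs hD hL z hz => ?_⟩
  have hρ1 : 2 * ρ₀ ≤ ρ := (le_max_left _ _).trans hρ
  have hρ2 : 2 * C + 2 ≤ ρ := (le_max_right _ _).trans hρ
  have hρ0 : 0 < ρ := by linarith
  have hind : 0 ≤ (closedBall (0 : ℂ) (3 * ρ)).indicator (fun _ => 40 * M * C ^ 2 / ρ ^ 4) z :=
    indicator_nonneg (fun _ _ => by positivity) _
  have h0 := he0 z hz
  by_cases h1 : ‖z‖ < ρ / 2
  · have hF : ‖F z‖ < ρ := by
      have := norm_add_le (F z - z) z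
      rw [sub_add_cancel] at this; linarith
    have hzb : z ∈ ball (0 : ℂ) ρ := mem_ball_zero_iff.2 (by linarith)
    have hd : fderiv ℝ η z = 0 := by
      have : η =ᶠ[𝓝 z] fun _ => 1 := by
        filter_upwards [isOpen_ball.mem_nhds hzb] with w hw using hη.one w hw
      rw [this.fderiv_eq]; simp
    rw [hη.one z hzb, hη.one _ (mem_ball_zero_iff.2 hF), hd]
    simpa using hind
  by_cases h2 : 3 * ρ < ‖z‖
  · have hF : 2 * ρ < ‖F z‖ := by
      have := norm_sub_le (F z) (F z - z)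
      rw [sub_sub_cancel] at this; linarith
    have hn : ∀ w : ℂ, 2 * ρ < ‖w‖ → w ∉ tsupport η := fun w hw hw' =>
      absurd (mem_closedBall_zero_iff.1 (hs hw')) (not_le.2 hw)
    have hz' := hn z (by linarith)
    have hd : fderiv ℝ η z = 0 := by
      rw [(notMem_tsupport_iff_eventuallyEq.1 hz').fderiv_eq]; simp
    rw [image_eq_zero_of_notMem_tsupport hz', image_eq_zero_of_notMem_tsupport (hn _ hF), hd]
    simpa using hind
  push Not at h1 h2
  rw [indicator_of_mem (mem_closedBall_zero_iff.2 h2)]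
  obtain ⟨h3, h4⟩ := he z (by linarith)
  have hz0 : 0 < ‖z‖ := by linarith
  have he1 : ‖F z - z‖ ≤ 2 * C / ρ := by
    refine h3.trans ?_
    rw [div_le_div_iff₀ hz0 hρ0]; nlinarith
  have he2 : ‖deriv F z - 1‖ ≤ 4 * C / ρ ^ 2 := by
    refine h4.trans ?_
    rw [div_le_div_iff₀ (by positivity) (by positivity)]
    have : ρ ^ 2 ≤ 4 * ‖z‖ ^ 2 := by nlinarith
    nlinarith
  have hd1 : 4 * C / ρ ^ 2 ≤ 1 := by
    rw [div_le_one (by positivity)]; nlinarith
  have hT : ‖η (F z) - η z - fderiv ℝ η z (F z - z)‖ ≤ M / ρ ^ 2 * ‖F z - z‖ * ‖F z - z‖ := by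
    refine Convex.norm_image_sub_le_of_norm_fderiv_le' (s := closedBall z ‖F z - z‖)
      (fun w _ => hη.smooth.differentiable (by simp) w) (fun w hw => (hL w z).trans ?_)
      (convex_closedBall _ _) (mem_closedBall_self (norm_nonneg _))
      (by rw [mem_closedBall, dist_eq_norm])
    rw [mem_closedBall, dist_eq_norm] at hw
    exact mul_le_mul_of_nonneg_left hw (by positivity)
  have hT2 : |η (F z) - η z - fderiv ℝ η z (F z - z)| ≤ M / ρ ^ 2 * (2 * C / ρ) * (2 * C / ρ) := by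
    refine hT.trans ?_
    gcongr
  have hT3 : |fderiv ℝ η z (F z - z)| ≤ M / ρ * (2 * C / ρ) := by
    refine ((fderiv ℝ η z).le_opNorm _).trans ?_
    exact mul_le_mul (hD z) he1 (norm_nonneg _) (by positivity)
  have hn1 : |‖deriv F z‖ - 1| ≤ 4 * C / ρ ^ 2 := by
    have := abs_norm_sub_norm_le (deriv F z) 1
    rw [norm_one] at this; exact this.trans he2
  have hn2 : ‖deriv F z‖ ≤ 2 := by linarith [(abs_le.1 hn1).2]
  have hn3 : ‖deriv F z‖ ^ 2 ≤ 4 := by nlinarith [norm_nonneg (deriv F z)]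
  have hn4 : |1 - ‖deriv F z‖ ^ 2| ≤ 4 * C / ρ ^ 2 * 3 := by
    have : 1 - ‖deriv F z‖ ^ 2 = -((‖deriv F z‖ - 1) * (‖deriv F z‖ + 1)) := by ring
    rw [this, abs_neg, abs_mul]
    refine mul_le_mul hn1 ?_ (abs_nonneg _) (by positivity)
    rw [abs_of_nonneg (by positivity)]; linarith
  have e : (η z - η (F z)) * ‖deriv F z‖ ^ 2 + fderiv ℝ η z (F z - z) =
      -(η (F z) - η z - fderiv ℝ η z (F z - z)) * ‖deriv F z‖ ^ 2 +
        fderiv ℝ η z (F z - z) * (1 - ‖deriv F z‖ ^ 2) := by ring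
  have b1 : -(η (F z) - η z - fderiv ℝ η z (F z - z)) * ‖deriv F z‖ ^ 2 ≤
      M / ρ ^ 2 * (2 * C / ρ) * (2 * C / ρ) * 4 :=
    mul_le_mul ((neg_le_abs _).trans hT2) hn3 (by positivity) (by positivity)
  have b2 : fderiv ℝ η z (F z - z) * (1 - ‖deriv F z‖ ^ 2) ≤
      M / ρ * (2 * C / ρ) * (4 * C / ρ ^ 2 * 3) := by
    refine (le_abs_self _).trans ?_
    rw [abs_mul]
    exact mul_le_mul hT3 hn4 (abs_nonneg _) (by positivity)
  rw [e]
  refine (add_le_add b1 b2).trans (le_of_eq ?_)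
  field_simp
  ring

/-- `∫_U η(F) ‖F'‖² = ∫ η - |Vᶜ|` if `η = 1` on `Vᶜ` (`area_formula`), with integrability. -/
theorem area_outer (h : Pic U F N r R) {η : ℂ → ℝ} {ρ : ℝ} (hη : Outer η ρ)
    (hK' : (F '' U)ᶜ ⊆ ball 0 ρ) :
    IntegrableOn (fun z => η (F z) * ‖deriv F z‖ ^ 2) U ∧
      ∫ z in U, η (F z) * ‖deriv F z‖ ^ 2 = (∫ z, η z) - (volume (F '' U)ᶜ).toReal := by
  have hi : Integrable η := hη.smooth.continuous.integrable_of_hasCompactSupport hη.cpt
  have hf : ∀ z ∈ U, HasFDerivWithinAt F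
      ((ContinuousLinearMap.toSpanSingleton ℂ (deriv F z)).restrictScalars ℝ) U z := fun z hz =>
    ((h.hol.differentiableAt (h.opn.mem_nhds hz)).hasDerivAt.hasFDerivAt.restrictScalars
      ℝ).hasFDerivWithinAt
  have e : ∀ z, |((ContinuousLinearMap.toSpanSingleton ℂ (deriv F z)).restrictScalars ℝ).det| •
      η (F z) = η (F z) * ‖deriv F z‖ ^ 2 := fun z => by
    rw [smul_eq_mul, mul_comm]
    congr 1
    simp [ContinuousLinearMap.det, LinearMap.det_restrictScalars, Algebra.norm_complex_eq,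
      Complex.normSq_eq_norm_sq]
  have h1 := (integrableOn_image_iff_integrableOn_abs_det_fderiv_smul volume
    h.opn.measurableSet hf h.inj η).1 hi.integrableOn
  have h2 := integral_image_eq_integral_abs_det_fderiv_smul volume h.opn.measurableSet hf h.inj η
  simp only [e] at h1 h2
  refine ⟨h1, ?_⟩
  have h3 := integral_add_compl h.cpt'.measurableSet hi
  rw [compl_compl, setIntegral_congr_fun h.cpt'.measurableSet
    (g := fun _ => (1 : ℝ)) fun z hz => hη.one z (hK' hz), setIntegral_const, smul_eq_mul,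
    mul_one] at h3
  rw [← h2, ← h3, Measure.real]
  ring

theorem h33_fderiv_zero {η : ℂ → ℝ} {ρ : ℝ} (hη : Outer η ρ) {z : ℂ} (hz : z ∈ ball (0 : ℂ) ρ) :
    fderiv ℝ η z = 0 := by
  have : η =ᶠ[𝓝 z] fun _ => (1 : ℝ) := by
    filter_upwards [isOpen_ball.mem_nhds hz] with w hw using hη.one w hw
  rw [this.fderiv_eq]
  simp

theorem h33_fderiv_cont {η : ℂ → ℝ} {ρ : ℝ} (hη : Outer η ρ) : Continuous (fderiv ℝ η) :=
  hη.smooth.continuous_fderiv (by simp)

theorem h33_apply (L : ℂ →L[ℝ] ℝ) (w : ℂ) : L w = w.re * L 1 + w.im * L Complex.I := by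
  have : w = w.re • (1 : ℂ) + w.im • Complex.I := by
    apply Complex.ext <;> simp
  conv_lhs => rw [this]
  rw [map_add, map_smul, map_smul]
  simp

theorem h33_flux_int (h : Pic U F N r R) {η : ℂ → ℝ} {ρ : ℝ} (hρ : 0 < ρ)
    (hη : Outer η ρ) (hs : tsupport η ⊆ closedBall 0 (2 * ρ)) :
    IntegrableOn (fluxI F η) U := by
  have hUm : MeasurableSet U := h.opn.measurableSet
  have hFc : ContinuousOn F U := h.hol.continuousOn
  have hF'c : ContinuousOn (deriv F) U :=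
    (h.hol.deriv h.opn).continuousOn
  have hηc : Continuous η := hη.smooth.continuous
  have hDc := h33_fderiv_cont hη
  have hcont : ContinuousOn (fluxI F η) U := by
    unfold fluxI
    refine ((hηc.continuousOn.mul (continuousOn_const.mul
      (Complex.continuous_re.comp_continuousOn hF'c))).add
      ((Complex.continuous_re.comp_continuousOn hFc).mul ?_)).add
      ((Complex.continuous_im.comp_continuousOn hFc).mul ?_)
    · exact (hDc.clm_apply continuous_const).continuousOn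
    · exact (hDc.clm_apply continuous_const).continuousOn
  obtain ⟨C, hC⟩ := h.bdd (3 * ρ)
  obtain ⟨M, hM⟩ := (hη.cpt.fderiv ℝ).exists_bound_of_continuous hDc
  have hM0 : 0 ≤ M := (norm_nonneg _).trans (hM 0)
  have hzero : ∀ z ∈ U \ (U ∩ ball 0 (3 * ρ)), fluxI F η z = 0 := by
    intro z hz
    have hz' : z ∉ tsupport η := by
      intro hz'
      have := hs hz'
      apply hz.2
      refine ⟨hz.1, ?_⟩
      rw [mem_closedBall] at this
      rw [mem_ball]
      linarith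
    have h1 : η z = 0 := image_eq_zero_of_notMem_tsupport hz'
    have h2 : fderiv ℝ η z = 0 := by
      by_contra hne
      exact hz' (support_fderiv_subset ℝ (Function.mem_support.2 hne))
    simp [fluxI, h1, h2]
  have hWm : MeasurableSet (U ∩ ball (0 : ℂ) (3 * ρ)) := hUm.inter measurableSet_ball
  refine IntegrableOn.of_forall_sdiff_eq_zero (s := U ∩ ball 0 (3 * ρ)) ?_ hUm hzero
  have hd : IntegrableOn (fun z => ‖deriv F z‖) (U ∩ ball 0 (3 * ρ)) := by
    refine ⟨((hF'c.mono inter_subset_left).norm).aestronglyMeasurable hWm, ?_⟩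
    have := h.energy_one (3 * ρ)
    simpa [HasFiniteIntegral] using this
  have hfin : volume (U ∩ ball (0 : ℂ) (3 * ρ)) < ⊤ :=
    (measure_mono inter_subset_right).trans_lt measure_ball_lt_top
  have hc : IntegrableOn (fun _ : ℂ => 2 * (C * M)) (U ∩ ball 0 (3 * ρ)) :=
    integrableOn_const hfin.ne
  refine Integrable.mono' ((hd.const_mul 2).add hc)
    ((hcont.mono inter_subset_left).aestronglyMeasurable hWm) ?_
  filter_upwards [ae_restrict_mem hWm] with z hz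
  have hFz : ‖F z‖ ≤ C := hC z (ball_subset_closedBall hz.2)
  have e1 : |η z * (2 * (deriv F z).re)| ≤ 2 * ‖deriv F z‖ := by
    rw [abs_mul, abs_mul, abs_of_nonneg (hη.nonneg z), abs_two]
    have := Complex.abs_re_le_norm (deriv F z)
    have h2 := hη.le_one z
    have h3 := hη.nonneg z
    have h4 := abs_nonneg (deriv F z).re
    nlinarith
  have e2 : |(F z).re * fderiv ℝ η z 1| ≤ C * M := by
    rw [abs_mul]
    refine mul_le_mul ((Complex.abs_re_le_norm _).trans hFz) ?_ (abs_nonneg _)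
      ((norm_nonneg _).trans hFz)
    have := (fderiv ℝ η z).le_opNorm 1
    rw [norm_one, mul_one] at this
    exact this.trans (hM z)
  have e3 : |(F z).im * fderiv ℝ η z Complex.I| ≤ C * M := by
    rw [abs_mul]
    refine mul_le_mul ((Complex.abs_im_le_norm _).trans hFz) ?_ (abs_nonneg _)
      ((norm_nonneg _).trans hFz)
    have := (fderiv ℝ η z).le_opNorm Complex.I
    rw [Complex.norm_I, mul_one] at this
    exact this.trans (hM z)
  rw [Real.norm_eq_abs]
  unfold fluxI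
  have := abs_add_three (η z * (2 * (deriv F z).re)) ((F z).re * fderiv ℝ η z 1)
    ((F z).im * fderiv ℝ η z Complex.I)
  simp only [Pi.add_apply]
  linarith

/-- `η ‖F' - 1‖² = [(η - η(F)) ‖F'‖² + Dη (F - z)] + η(F) ‖F'‖² - fluxI + Dη z + η` on `U`
(`Dη z (F z) = Re F ∂ₓη + Im F ∂_yη`); integrate over `U` (all terms are integrable: `Pic.energy`,
`Pic.bdd`), `∫_U η = ∫ η - |Uᶜ|`, `∫_U Dη z z = ∫ Dη z z = -2 ∫ η`. -/
theorem energy_le (h : Pic U F N r R) {η : ℂ → ℝ} {ρ c : ℝ} (hρ : 0 < ρ) (hc : 0 ≤ c)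
    (hη : Outer η ρ) (hs : tsupport η ⊆ closedBall 0 (2 * ρ)) (hK : Uᶜ ⊆ ball 0 ρ)
    (hK' : (F '' U)ᶜ ⊆ ball 0 ρ)
    (hT : ∀ z ∈ U, (η z - η (F z)) * ‖deriv F z‖ ^ 2 + fderiv ℝ η z (F z - z) ≤
        (closedBall (0 : ℂ) (3 * ρ)).indicator (fun _ => c) z)
    (hflux : -((volume Uᶜ).toReal + (volume (F '' U)ᶜ).toReal) ≤ ∫ z in U, fluxI F η z) :
    ∫⁻ z in U ∩ ball 0 ρ, ‖deriv F z - 1‖ₑ ^ 2 ≤ ENNReal.ofReal (c * (Real.pi * (3 * ρ) ^ 2)) := by
  have hUm : MeasurableSet U := h.opn.measurableSet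
  have hηc : Continuous η := hη.smooth.continuous
  have hDc := h33_fderiv_cont hη
  obtain ⟨hA1, hA2⟩ := area_outer h hη hK'
  have hfl := h33_flux_int h hρ hη hs
  have hηi : Integrable η := hηc.integrable_of_hasCompactSupport hη.cpt
  have hDi : Integrable (fun z => fderiv ℝ η z z) := by
    refine (hDc.clm_apply continuous_id).integrable_of_hasCompactSupport ?_
    refine (hη.cpt.fderiv ℝ).mono ?_
    intro z hz
    rw [Function.mem_support] at hz ⊢
    intro h0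
    exact hz (by rw [h0]; simp)
  have hIi : Integrable ((closedBall (0 : ℂ) (3 * ρ)).indicator (fun _ => c)) :=
    (integrable_indicator_iff measurableSet_closedBall).2
      (integrableOn_const measure_closedBall_lt_top.ne)
  set G : ℂ → ℝ := fun z => (closedBall (0 : ℂ) (3 * ρ)).indicator (fun _ => c) z +
    η (F z) * ‖deriv F z‖ ^ 2 - fluxI F η z + fderiv ℝ η z z + η z with hG
  have hGi : IntegrableOn G U :=
    (((hIi.integrableOn.add hA1).sub hfl).add hDi.integrableOn).add hηi.integrableOn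
  have hpt : ∀ z ∈ U, η z * ‖deriv F z - 1‖ ^ 2 ≤ G z := by
    intro z hz
    have h1 := hT z hz
    have h2 := h33_apply (fderiv ℝ η z) (F z)
    have h3 : ‖deriv F z - 1‖ ^ 2 = ‖deriv F z‖ ^ 2 - 2 * (deriv F z).re + 1 := by
      rw [Complex.sq_norm, Complex.sq_norm, Complex.normSq_apply, Complex.normSq_apply]
      simp
      ring
    rw [map_sub] at h1
    simp only [hG, fluxI]
    rw [h3]
    linarith
  have hη1 : ∫ z in U, η z = (∫ z, η z) - (volume Uᶜ).toReal := by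
    have e := integral_add_compl hUm hηi
    have e2 : ∫ z in Uᶜ, η z = (volume Uᶜ).toReal := by
      rw [setIntegral_congr_fun hUm.compl (g := fun _ => (1 : ℝ)) (fun z hz => hη.one z (hK hz))]
      simp [Measure.real]
    linarith
  have hD1 : ∫ z in U, fderiv ℝ η z z = -2 * ∫ z, η z := by
    have e := integral_add_compl hUm hDi
    have e2 : ∫ z in Uᶜ, fderiv ℝ η z z = 0 := by
      rw [setIntegral_congr_fun hUm.compl (g := fun _ => (0 : ℝ))
        (fun z hz => by simp [h33_fderiv_zero hη (hK hz)])]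
      simp
    rw [← outer_ibp hη]
    linarith
  have hI1 : ∫ z in U, (closedBall (0 : ℂ) (3 * ρ)).indicator (fun _ => c) z ≤
      c * (Real.pi * (3 * ρ) ^ 2) := by
    have e : ∫ z, (closedBall (0 : ℂ) (3 * ρ)).indicator (fun _ => c) z =
        c * (Real.pi * (3 * ρ) ^ 2) := by
      rw [integral_indicator measurableSet_closedBall, setIntegral_const, Measure.real,
        Complex.volume_closedBall]
      simp [ENNReal.toReal_ofReal hρ.le]
      ring
    rw [← e]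
    refine setIntegral_le_integral hIi (Eventually.of_forall fun z => ?_)
    exact indicator_nonneg (fun _ _ => hc) z
  have hGint : ∫ z in U, G z ≤ c * (Real.pi * (3 * ρ) ^ 2) := by
    have e : ∫ z in U, G z = (∫ z in U, (closedBall (0 : ℂ) (3 * ρ)).indicator (fun _ => c) z) +
        (∫ z in U, η (F z) * ‖deriv F z‖ ^ 2) - (∫ z in U, fluxI F η z) +
        (∫ z in U, fderiv ℝ η z z) + ∫ z in U, η z := by
      have a1 := integral_add (((hIi.integrableOn.add hA1).sub hfl).add hDi.integrableOn)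
        (hηi.integrableOn (s := U))
      have a2 := integral_add ((hIi.integrableOn.add hA1).sub hfl) (hDi.integrableOn (s := U))
      have a3 := integral_sub (hIi.integrableOn.add hA1) hfl
      have a4 := integral_add (hIi.integrableOn (s := U)) hA1
      simp only [Pi.add_apply, Pi.sub_apply] at a1 a2 a3 a4
      simp only [hG]
      rw [a1, a2, a3, a4]
    rw [e, hA2, hD1, hη1]
    linarith
  have hG0 : 0 ≤ᵐ[volume.restrict U] G := by
    filter_upwards [ae_restrict_mem hUm] with z hz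
    exact (mul_nonneg (hη.nonneg z) (sq_nonneg _)).trans (hpt z hz)
  calc ∫⁻ z in U ∩ ball 0 ρ, ‖deriv F z - 1‖ₑ ^ 2
      ≤ ∫⁻ z in U ∩ ball 0 ρ, ENNReal.ofReal (G z) := by
        refine setLIntegral_mono' (hUm.inter measurableSet_ball) fun z hz => ?_
        have := hpt z hz.1
        rw [hη.one z hz.2, one_mul] at this
        rw [← ofReal_norm, ← ENNReal.ofReal_pow (norm_nonneg _)]
        exact ENNReal.ofReal_le_ofReal this
    _ ≤ ∫⁻ z in U, ENNReal.ofReal (G z) := lintegral_mono_set inter_subset_left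
    _ = ENNReal.ofReal (∫ z in U, G z) := (ofReal_integral_eq_lintegral_ofReal hGi hG0).symm
    _ ≤ _ := ENNReal.ofReal_le_ofReal hGint

/-- Let `ρ → ∞` in `energy_le` (`‖F z - z‖` is bounded on `U` by `Pic.bdd` and `he`): the
continuous function `‖F' - 1‖²` has integral zero on the open set `U ∩ ball 0 ρ`. -/
theorem deriv_eq_one (h : Pic U F N r R) {C ρ₀ ρ₂ : ℝ} (hρ₀ : 0 < ρ₀)
    (he : ∀ z : ℂ, ρ₀ ≤ ‖z‖ → ‖F z - z‖ ≤ C / ‖z‖ ∧ ‖deriv F z - 1‖ ≤ C / ‖z‖ ^ 2)
    (hflux : ∀ ρ ≥ ρ₂, ∀ η : ℂ → ℝ, Outer η ρ →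
      -((volume Uᶜ).toReal + (volume (F '' U)ᶜ).toReal) ≤ ∫ z in U, fluxI F η z) :
    ∀ z ∈ U, deriv F z = 1 := by
  obtain ⟨B, hB⟩ := h.bdd ρ₀
  obtain ⟨C₂, hC1, hC2, hC3⟩ : ∃ C₂ : ℝ, C ≤ C₂ ∧ B + ρ₀ ≤ C₂ ∧ |C| / ρ₀ ≤ C₂ :=
    ⟨max C (max (B + ρ₀) (|C| / ρ₀)), le_max_left _ _, (le_max_left _ _).trans (le_max_right _ _),
      (le_max_right _ _).trans (le_max_right _ _)⟩
  have he0 : ∀ z ∈ U, ‖F z - z‖ ≤ C₂ := by
    intro z _
    by_cases hz : ‖z‖ ≤ ρ₀
    · have := hB z (mem_closedBall_zero_iff.2 hz)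
      linarith [norm_sub_le (F z) z]
    · have hz' := (not_le.1 hz).le
      refine (he z hz').1.trans (le_trans ?_ hC3)
      exact div_le_div₀ (abs_nonneg _) (le_abs_self _) hρ₀ hz'
  have he' : ∀ z : ℂ, ρ₀ ≤ ‖z‖ → ‖F z - z‖ ≤ C₂ / ‖z‖ ∧ ‖deriv F z - 1‖ ≤ C₂ / ‖z‖ ^ 2 :=
    fun z hz => ⟨(he z hz).1.trans (div_le_div_of_nonneg_right hC1 (norm_nonneg _)),
      (he z hz).2.trans (div_le_div_of_nonneg_right hC1 (by positivity))⟩
  obtain ⟨M, hM, hη⟩ := exists_outer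
  obtain ⟨C', ρ₁, hT⟩ := taylor_bound (U := U) hM hρ₀ he0 he'
  obtain ⟨ρ₃, h3⟩ := h.cpt.isBounded.subset_ball 0
  obtain ⟨ρ₄, h4⟩ := h.cpt'.isBounded.subset_ball 0
  intro z hz
  set a : ℝ := ‖z‖ + 1 with ha
  have ha0 : 0 < a := by positivity
  have key : ∀ᶠ ρ : ℝ in atTop, ∫⁻ w in U ∩ ball 0 a, ‖deriv F w - 1‖ₑ ^ 2 ≤
      ENNReal.ofReal (|C'| * Real.pi * 9 * (ρ ^ 2)⁻¹) := by
    filter_upwards [eventually_ge_atTop a, eventually_ge_atTop ρ₁, eventually_ge_atTop ρ₂,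
      eventually_ge_atTop ρ₃, eventually_ge_atTop ρ₄] with ρ h0 h1 h2 h3' h4'
    have hρ : 0 < ρ := ha0.trans_le h0
    obtain ⟨η, hη1, hη2, hη3, hη4⟩ := hη ρ hρ
    have hE := energy_le (c := |C'| / ρ ^ 4) h hρ (by positivity) hη1 hη2
      (h3.trans (ball_subset_ball h3')) (h4.trans (ball_subset_ball h4'))
      (fun w hw => (hT ρ h1 η hη1 hη2 hη3 hη4 w hw).trans
        (indicator_le_indicator (div_le_div_of_nonneg_right (le_abs_self _) (by positivity))))
      (hflux ρ h2 η hη1)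
    refine (lintegral_mono_set (inter_subset_inter_right _ (ball_subset_ball h0))).trans
      (hE.trans (le_of_eq ?_))
    congr 1
    field_simp
    ring
  have hlim : Tendsto (fun ρ : ℝ => ENNReal.ofReal (|C'| * Real.pi * 9 * (ρ ^ 2)⁻¹)) atTop
      (𝓝 0) := by
    have h1 : Tendsto (fun ρ : ℝ => |C'| * Real.pi * 9 * (ρ ^ 2)⁻¹) atTop
        (𝓝 (|C'| * Real.pi * 9 * 0)) :=
      (tendsto_inv_atTop_zero.comp (tendsto_pow_atTop two_ne_zero)).const_mul _
    rw [mul_zero] at h1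
    simpa using ENNReal.tendsto_ofReal h1
  have h0 : ∫⁻ w in U ∩ ball 0 a, ‖deriv F w - 1‖ₑ ^ 2 = 0 :=
    le_antisymm (ge_of_tendsto hlim key) bot_le
  rw [lintegral_eq_zero_iff (((measurable_deriv F).sub_const 1).enorm.pow_const 2)] at h0
  have ho : IsOpen (U ∩ ball (0 : ℂ) a) := h.opn.inter isOpen_ball
  have hae : deriv F =ᵐ[volume.restrict (U ∩ ball 0 a)] fun _ => 1 := by
    filter_upwards [h0] with w hw
    simpa [sub_eq_zero] using hw
  exact Measure.eqOn_open_of_ae_eq hae ho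
    ((h.hol.deriv h.opn).continuousOn.mono inter_subset_left) continuousOn_const
    ⟨hz, mem_ball_zero_iff.2 (by linarith)⟩

end Crest.Agent.R105
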