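import Crest.Agent.R105.ADefs
import Crest.Agent.R193.Unicoh

/-! Row 105, block A: lumps. -/

set_option autoImplicit false

namespace Crest.Agent.R105

open MeasureTheory Filter Topology Set Metric Crest.AnalysisR
open scoped ENNReal ContDiff

/-- Janiszewski for disjoint closed sets.  Work in `OnePoint ℂ ≃ₜ sphere`
(`onePointEquivSphereOfFinrankEq`), apply `R193.phragmen_brouwer` to `F₁ = (↑) '' (Uᶜ ∩ closure W)`
(compact, `= Uᶜ ∩ W`), `F₂ = ((↑) '' W)ᶜ`, `C₁ = (↑) '' U`, `C₂ = (↑) '' W`: any two points of `W ∩ U`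
are joined in `(F₁ ∪ F₂)ᶜ = (↑) '' (W ∩ U)`; pull back along the open embedding. -/
theorem lump_preconnected {U W : Set ℂ} (hU : IsOpen U) (hUc : IsPreconnected U)
    (hK : IsCompact Uᶜ) (hW : IsOpen W) (hWc : IsPreconnected W)
    (hfr : Disjoint (frontier W) Uᶜ) : IsPreconnected (W ∩ U) := by
  obtain ⟨j, hj⟩ : ∃ j : ℂ → sphere (0 : EuclideanSpace ℝ (Fin 3)) 1, IsOpenEmbedding j :=
    ⟨_, (onePointEquivSphereOfFinrankEq (ι := Fin 3) (V := ℂ) (by simp)).isOpenEmbedding.comp
      OnePoint.isOpenEmbedding_coe⟩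
  have hi := hj.injective
  have hc : Uᶜ ∩ closure W ⊆ W := fun z hz => by
    by_contra h
    exact Set.disjoint_left.1 hfr ⟨hz.2, fun h' => h (interior_subset h')⟩ hz.1
  have e : (j '' (Uᶜ ∩ closure W) ∪ (j '' W)ᶜ)ᶜ = j '' (W ∩ U) := by
    ext y
    simp only [compl_union, compl_compl, mem_inter_iff, mem_compl_iff]
    constructor
    · rintro ⟨h1, z, hz, rfl⟩
      refine ⟨z, ⟨hz, ?_⟩, rfl⟩
      by_contra h
      exact h1 ⟨z, ⟨h, subset_closure hz⟩, rfl⟩
    · rintro ⟨z, hz, rfl⟩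
      refine ⟨?_, z, hz.1, rfl⟩
      rintro ⟨z', hz', e⟩
      exact hz'.1 (hi e ▸ hz.2)
  rw [← hj.isInducing.isPreconnected_image]
  refine isPreconnected_of_forall_pair ?_
  rintro _ ⟨a, ha, rfl⟩ _ ⟨b, hb, rfl⟩
  have h := Crest.Agent.R193.phragmen_brouwer (Homeomorph.refl _)
    (F₁ := j '' (Uᶜ ∩ closure W)) (F₂ := (j '' W)ᶜ) (C₁ := j '' U) (C₂ := j '' W)
    ((hK.inter_right isClosed_closure).image hj.continuous).isClosed
    (hj.isOpenMap _ hW).isClosed_compl
    (Set.disjoint_left.2 fun y hy hy' => hy' (image_mono hc hy))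
    (hUc.image _ hj.continuous.continuousOn) (hWc.image _ hj.continuous.continuousOn)
    ⟨a, ha.2, rfl⟩ ⟨b, hb.2, rfl⟩ ⟨a, ha.1, rfl⟩ ⟨b, hb.1, rfl⟩
    (Set.disjoint_left.2 <| by
      rintro _ ⟨z, hz, rfl⟩ ⟨z', hz', e⟩
      exact hz'.1 (hi e ▸ hz))
    disjoint_compl_right
  rw [e] at h
  obtain ⟨γ, hγ⟩ := h
  exact ⟨range γ, range_subset_iff.2 hγ, γ.source_mem_range, γ.target_mem_range,
    isPreconnected_range γ.continuous⟩

/-- A component of a compact set `K` is an intersection of relatively clopen sets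
(`connectedComponent_eq_iInter_isClopen` in the compact space `K`, compactness of `K \ G`). -/
theorem exists_clopen_piece {K G : Set ℂ} (hK : IsCompact K) {p : ℂ} (hp : p ∈ K) (hG : IsOpen G)
    (hpG : connectedComponentIn K p ⊆ G) :
    ∃ K₁ K₂ : Set ℂ, IsCompact K₁ ∧ IsCompact K₂ ∧ Disjoint K₁ K₂ ∧ K₁ ∪ K₂ = K ∧
      connectedComponentIn K p ⊆ K₁ ∧ K₁ ⊆ G := by
  have : CompactSpace K := isCompact_iff_compactSpace.1 hK
  rw [connectedComponentIn_eq_image hp] at hpG ⊢
  have hT : IsCompact ((↑) ⁻¹' G : Set K)ᶜ :=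
    (hG.preimage continuous_subtype_val).isClosed_compl.isCompact
  obtain ⟨t, ht⟩ := hT.elim_finite_subfamily_closed
    (fun s : {s : Set K // IsClopen s ∧ (⟨p, hp⟩ : K) ∈ s} => s.1) (fun s => s.2.1.isClosed) (by
      rw [← connectedComponent_eq_iInter_isClopen]
      exact eq_empty_of_forall_notMem fun x hx => hx.1 (hpG ⟨x, hx.2, rfl⟩))
  set Z : Set K := ⋂ s ∈ t, s.1 with hZ
  have hZc : IsClopen Z := isClopen_biInter_finset fun s _ => s.2.1
  have hpZ : (⟨p, hp⟩ : K) ∈ Z := mem_iInter₂.2 fun s _ => s.2.2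
  refine ⟨(↑) '' Z, (↑) '' Zᶜ, hZc.isClosed.isCompact.image continuous_subtype_val,
    hZc.compl.isClosed.isCompact.image continuous_subtype_val,
    (disjoint_image_iff Subtype.val_injective).2 disjoint_compl_right, ?_,
    image_mono (hZc.connectedComponent_subset hpZ), ?_⟩
  · rw [← image_union, union_compl_self, image_univ, Subtype.range_coe]
  · rintro _ ⟨x, hx, rfl⟩
    by_contra h
    exact (eq_empty_iff_forall_notMem.1 ht x) ⟨h, hx⟩

/-- Lumps: take `K₁, K₂` from `exists_clopen_piece`, `W₀ = thickening d K₁` with `d` small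
(`cthickening d K₁ ⊆ G \ K₂`), `W = connectedComponentIn W₀ p`.  A frontier point of `W` is not in
`W₀` (components of open sets are open and relatively closed) and lies in `cthickening d K₁`. -/
theorem exists_lump {K G : Set ℂ} (hK : IsCompact K) {p : ℂ} (hp : p ∈ K) (hG : IsOpen G)
    (hpG : connectedComponentIn K p ⊆ G) :
    ∃ W : Set ℂ, IsOpen W ∧ IsPreconnected W ∧ connectedComponentIn K p ⊆ W ∧ W ⊆ G ∧
      Disjoint (frontier W) K := by
  obtain ⟨K₁, K₂, h1, h2, hd, hu, hp1, h1G⟩ := exists_clopen_piece hK hp hG hpG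
  obtain ⟨d, hd0, hdG⟩ := h1.exists_cthickening_subset_open (hG.sdiff h2.isClosed)
    fun z hz => ⟨h1G hz, disjoint_left.1 hd hz⟩
  have hW₀ : IsOpen (thickening d K₁) := isOpen_thickening
  have hK₁ : K₁ ⊆ thickening d K₁ := self_subset_thickening hd0 _
  have hsub : connectedComponentIn (thickening d K₁) p ⊆ thickening d K₁ :=
    connectedComponentIn_subset _ _
  have hWo : IsOpen (connectedComponentIn (thickening d K₁) p) := hW₀.connectedComponentIn
  refine ⟨connectedComponentIn (thickening d K₁) p, hWo, isPreconnected_connectedComponentIn,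
    isPreconnected_connectedComponentIn.subset_connectedComponentIn (mem_connectedComponentIn hp)
      (hp1.trans hK₁),
    fun z hz => (hdG (thickening_subset_cthickening _ _ (hsub hz))).1,
    disjoint_left.2 fun z hz hzK => ?_⟩
  have hzc : z ∈ closure (connectedComponentIn (thickening d K₁) p) := frontier_subset_closure hz
  have hz1 : z ∈ cthickening d K₁ :=
    closure_minimal (hsub.trans (thickening_subset_cthickening _ _)) isClosed_cthickening hzc
  have hz2 : z ∈ K₁ := by
    rw [← hu] at hzK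
    exact hzK.resolve_right (hdG hz1).2
  obtain ⟨y, hy1, hy2⟩ := mem_closure_iff.1 hzc _ hW₀.connectedComponentIn
    (mem_connectedComponentIn (hK₁ hz2))
  have e : connectedComponentIn (thickening d K₁) z = connectedComponentIn (thickening d K₁) p :=
    (connectedComponentIn_eq hy1).trans (connectedComponentIn_eq hy2).symm
  rw [hWo.frontier_eq] at hz
  exact hz.2 (e ▸ mem_connectedComponentIn (hK₁ hz2))

end Crest.Agent.R105
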