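import Crest.Agent.R105.ADefs
import Crest.Agent.R105.ATop1

/-! Row 105, block A: correspondence of ends. -/

set_option autoImplicit false

namespace Crest.Agent.R105

open MeasureTheory Filter Topology Set Metric Crest.AnalysisR
open scoped ENNReal ContDiff

/-- Properness: near `Uᶜ` the map `f` is near `Vᶜ`.  (If `z n ∈ U`, `z n → p ∉ U`, then `f (z n)` is
bounded because `g → ∞` at `∞`, and a limit point `w ∈ V` would give `z n = g (f (z n)) → g w ∈ U`.
Directly: `{w | w ∉ G'}` is closed in `V`; split it into a compact part, whose image under `g` is a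
compact subset of `U`, and a part near infinity.) -/
theorem end_proper {U V : Set ℂ} (hU : IsOpen U) (hK : IsCompact Uᶜ) (hV : IsOpen V)
    (hK' : IsCompact Vᶜ) {f g : ℂ → ℂ} (hfV : MapsTo f U V) (hg : ContinuousOn g V)
    (hgU : MapsTo g V U) (hgf : ∀ z ∈ U, g (f z) = z)
    (hginf : Tendsto g (cocompact ℂ) (cocompact ℂ)) {G' : Set ℂ} (hG' : IsOpen G')
    (hKG' : Vᶜ ⊆ G') : ∃ G : Set ℂ, IsOpen G ∧ Uᶜ ⊆ G ∧ MapsTo f (G ∩ U) G' := by
  have hKc : IsCompact (cthickening 1 Uᶜ) := hK.cthickening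
  obtain ⟨T, hT, hTg⟩ := mem_cocompact.1 (hginf hKc.compl_mem_cocompact)
  have hAV : T ∩ G'ᶜ ⊆ V := fun w hw => by
    by_contra h
    exact hw.2 (hKG' h)
  have hB : IsCompact (g '' (T ∩ G'ᶜ)) :=
    (hT.inter_right hG'.isClosed_compl).image_of_continuousOn (hg.mono hAV)
  refine ⟨(g '' (T ∩ G'ᶜ))ᶜ ∩ thickening 1 Uᶜ, hB.isClosed.isOpen_compl.inter isOpen_thickening,
    fun p hp => ⟨?_, self_subset_thickening one_pos _ hp⟩, fun z hz => ?_⟩
  · rintro ⟨w, hw, rfl⟩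
    exact hp (hgU (hAV hw))
  · by_contra h
    by_cases hz' : f z ∈ T
    · exact hz.1.1 ⟨f z, ⟨hz', h⟩, hgf z hz.2⟩
    · have h1 : g (f z) ∈ (cthickening 1 Uᶜ)ᶜ := hTg hz'
      rw [hgf z hz.2] at h1
      exact h1 (thickening_subset_cthickening _ _ hz.1.2)

/-- Every component of `Uᶜ` contains a point of `closure U` (else it is open and closed: the
component of a point `p` of the interior; use a boundary point of `Uᶜ` on a ray from `p`, the first
exit point `x` of the segment, `segment p x ⊆ Uᶜ`). -/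
theorem comp_touch {U : Set ℂ} (hU : IsOpen U) (hK : IsCompact Uᶜ) {p : ℂ} (hp : p ∈ Uᶜ) :
    (connectedComponentIn Uᶜ p ∩ closure U).Nonempty := by
  by_contra h
  rw [not_nonempty_iff_eq_empty] at h
  have hpC : p ∈ connectedComponentIn Uᶜ p := mem_connectedComponentIn hp
  have hcl : IsClosed (connectedComponentIn Uᶜ p) := by
    refine closure_subset_iff_isClosed.1 ?_
    exact isPreconnected_connectedComponentIn.closure.subset_connectedComponentIn
      (subset_closure hpC)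
      (closure_minimal (connectedComponentIn_subset _ _) hU.isClosed_compl)
  have hop : IsOpen (connectedComponentIn Uᶜ p) := by
    refine Metric.isOpen_iff.2 fun x hx => ?_
    have hx' : x ∈ (closure U)ᶜ := fun h' => (h ▸ (⟨hx, h'⟩ : x ∈ _ ∩ closure U) : x ∈ (∅ : Set ℂ))
    obtain ⟨ε, hε, hb⟩ := Metric.isOpen_iff.1 isClosed_closure.isOpen_compl x hx'
    refine ⟨ε, hε, ?_⟩
    rw [connectedComponentIn_eq hx]
    exact (convex_ball x ε).isPreconnected.subset_connectedComponentIn (mem_ball_self hε)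
      (hb.trans (compl_subset_compl.2 subset_closure))
  have huniv : connectedComponentIn Uᶜ p = univ := IsClopen.eq_univ ⟨hcl, hop⟩ ⟨p, hpC⟩
  have : (Uᶜ : Set ℂ) = univ := eq_univ_of_univ_subset (huniv ▸ connectedComponentIn_subset _ _)
  exact noncompact_univ ℂ (this ▸ hK)

/-- The end map.  For `p ∈ Uᶜ` take `x ∈ comp p ∩ closure U` (`comp_touch`) and let `Φ p` be a
cluster point of `f` along `𝓝[U] x` (exists in the compact set `cthickening 1 Vᶜ`, lies in `Vᶜ`,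
both by `end_proper`); this is the last conjunct.  Given `G' ⊇ comp (Φ p)` take `K₁', K₂'` from
`exists_clopen_piece`, disjoint open `G₁ ⊇ K₁'`, `G₂ ⊇ K₂'` with disjoint closures, `G₁ ⊆ G'`, `G` from
`end_proper` for `G₁ ∪ G₂`, a lump `W ⊆ G` (`exists_lump`): `f '' (W ∩ U)` is preconnected
(`lump_preconnected`), so lies in `G₁` (it clusters at `Φ p`).  For `y ∈ W ∩ Uᶜ` the component of
`y` lies in `W` (it misses `frontier W`), so `Φ y ∈ closure G₁ ∩ Vᶜ ⊆ K₁'` and `comp (Φ y) ⊆ K₁'`. -/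
theorem exists_end_map {U V : Set ℂ} (hU : IsOpen U) (hUc : IsConnected U) (hK : IsCompact Uᶜ)
    (hV : IsOpen V) (hK' : IsCompact Vᶜ) {f g : ℂ → ℂ} (hf : ContinuousOn f U)
    (hfV : MapsTo f U V) (hg : ContinuousOn g V) (hgU : MapsTo g V U)
    (hgf : ∀ z ∈ U, g (f z) = z) (hginf : Tendsto g (cocompact ℂ) (cocompact ℂ)) :
    ∃ Φ : ℂ → ℂ, ∀ p ∈ Uᶜ, Φ p ∈ Vᶜ ∧
      (∀ G' : Set ℂ, IsOpen G' → connectedComponentIn Vᶜ (Φ p) ⊆ G' →
        ∃ G : Set ℂ, IsOpen G ∧ connectedComponentIn Uᶜ p ⊆ G ∧ MapsTo f (G ∩ U) G' ∧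
          ∀ y ∈ G ∩ Uᶜ, connectedComponentIn Vᶜ (Φ y) ⊆ G') ∧
      (∃ x ∈ connectedComponentIn Uᶜ p, ∀ A ∈ 𝓝 x, Φ p ∈ closure (f '' (A ∩ U))) := by
  have step : ∀ p ∈ Uᶜ, ∃ w, w ∈ Vᶜ ∧
      ∃ x ∈ connectedComponentIn Uᶜ p, ∀ A ∈ 𝓝 x, w ∈ closure (f '' (A ∩ U)) := by
    intro p hp
    obtain ⟨x, hxc, hxU⟩ := comp_touch hU hK hp
    have hxK : x ∈ Uᶜ := connectedComponentIn_subset _ _ hxc
    have : (𝓝[U] x).NeBot := mem_closure_iff_nhdsWithin_neBot.1 hxU
    have hl : ∀ G' : Set ℂ, IsOpen G' → Vᶜ ⊆ G' → G' ∈ map f (𝓝[U] x) := by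
      intro G' hG' hKG'
      obtain ⟨G, hG, hKG, hm⟩ := end_proper hU hK hV hK' hfV hg hgU hgf hginf hG' hKG'
      rw [mem_map]
      filter_upwards [mem_nhdsWithin_of_mem_nhds (hG.mem_nhds (hKG hxK)), self_mem_nhdsWithin]
        with z h1 h2 using hm ⟨h1, h2⟩
    obtain ⟨w, -, hw⟩ := (hK'.cthickening (r := 1)).exists_clusterPt (f := map f (𝓝[U] x))
      (le_principal_iff.2 (mem_of_superset
        (hl _ isOpen_thickening (self_subset_thickening one_pos _))
        (thickening_subset_cthickening _ _)))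
    rw [clusterPt_iff_nonempty] at hw
    refine ⟨w, fun hwV => ?_, x, hxc, fun A hA => mem_closure_iff_nhds.2 fun t ht => hw ht ?_⟩
    · obtain ⟨δ, hδ, hb⟩ := nhds_basis_closedBall.mem_iff.1 (hV.mem_nhds hwV)
      obtain ⟨z, h1, h2⟩ := hw (closedBall_mem_nhds w hδ)
        (hl _ (isClosed_closedBall (x := w) (ε := δ)).isOpen_compl (compl_subset_compl.2 hb))
      exact h2 h1
    · exact image_mem_map (inter_mem (mem_nhdsWithin_of_mem_nhds hA) self_mem_nhdsWithin)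
  choose! Φ hΦ1 hΦ2 using step
  refine ⟨Φ, fun p hp => ⟨hΦ1 p hp, fun G' hG' hsub => ?_, hΦ2 p hp⟩⟩
  obtain ⟨K₁, K₂, hK₁, hK₂, hd, hun, hc1, h1G⟩ := exists_clopen_piece hK' (hΦ1 p hp) hG' hsub
  obtain ⟨G₁, hG₁, hKG₁, hcl⟩ := normal_exists_closure_subset hK₁.isClosed
    (hG'.inter hK₂.isClosed.isOpen_compl)
    (subset_inter h1G (disjoint_left.1 hd : K₁ ⊆ K₂ᶜ))
  have hG₂ : IsOpen (closure G₁)ᶜ := isClosed_closure.isOpen_compl
  have hdis : Disjoint G₁ (closure G₁)ᶜ := disjoint_compl_right_iff_subset.2 subset_closure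
  have hcov : Vᶜ ⊆ G₁ ∪ (closure G₁)ᶜ := by
    rw [← hun]
    exact union_subset_union hKG₁ fun z hz h => (hcl h).2 hz
  have hG₁G' : G₁ ⊆ G' := fun z hz => (hcl (subset_closure hz)).1
  obtain ⟨G, hG, hKG, hm⟩ := end_proper hU hK hV hK' hfV hg hgU hgf hginf (hG₁.union hG₂) hcov
  obtain ⟨W, hW, hWc, hpW, hWG, hfr⟩ := exists_lump hK hp hG
    ((connectedComponentIn_subset _ _).trans hKG)
  have hS : f '' (W ∩ U) ⊆ G₁ := by
    refine ((lump_preconnected hU hUc.isPreconnected hK hW hWc hfr).image f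
      (hf.mono inter_subset_right)).subset_left_of_subset_union hG₁ hG₂ hdis ?_ ?_
    · rintro _ ⟨z, hz, rfl⟩
      exact hm ⟨hWG hz.1, hz.2⟩
    · obtain ⟨x, hx, hxA⟩ := hΦ2 p hp
      have := mem_closure_iff_nhds.1 (hxA W (hW.mem_nhds (hpW hx))) G₁
        (hG₁.mem_nhds (hKG₁ (hc1 (mem_connectedComponentIn (hΦ1 p hp)))))
      rwa [inter_comm] at this
  refine ⟨W, hW, hpW, fun z hz => hG₁G' (hS ⟨z, hz, rfl⟩), fun y hy => ?_⟩
  have hyW : connectedComponentIn Uᶜ y ⊆ W := by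
    refine isPreconnected_connectedComponentIn.subset_left_of_subset_union hW
      (isClosed_closure (s := W)).isOpen_compl
      (disjoint_compl_right_iff_subset.2 subset_closure) (fun z hz => ?_)
      ⟨y, mem_connectedComponentIn hy.2, hy.1⟩
    by_contra hcon
    rw [mem_union, not_or, mem_compl_iff, not_not] at hcon
    refine disjoint_left.1 hfr ?_ (connectedComponentIn_subset _ _ hz)
    rw [hW.frontier_eq]
    exact ⟨hcon.2, hcon.1⟩
  obtain ⟨x, hx, hxA⟩ := hΦ2 y hy.2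
  have h1 : Φ y ∈ closure G₁ := closure_mono hS (hxA W (hW.mem_nhds (hyW hx)))
  have h2 : Φ y ∈ G₁ := (hcov (hΦ1 y hy.2)).resolve_right fun h => h h1
  exact (isPreconnected_connectedComponentIn.subset_left_of_subset_union hG₁ hG₂ hdis
    ((connectedComponentIn_subset _ _).trans hcov)
    ⟨Φ y, mem_connectedComponentIn (hΦ1 y hy.2), h2⟩).trans hG₁G'

end Crest.Agent.R105
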