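import Crest.Agent.R105.ADefs
import Crest.Agent.R105.ATop2
import Crest.Agent.R105.AInf1

/-! Row 105, block A: the picture attached to a conformal map of circle domains. -/

set_option autoImplicit false

namespace Crest.Agent.R105

open MeasureTheory Filter Topology Set Metric Crest.AnalysisR
open scoped ENNReal ContDiff

/-- The inverse map: `g = Function.invFunOn f U` is continuous on `V` (open mapping,
`Lib.RMT.isOpen_image_of_injOn`) and tends to infinity at infinity: for a ball `D ⊇ Uᶜ` the set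
`V \ f '' (U \ D')`... Directly: if `w n → ∞` and `g (w n)` stays in a compact ball, then
`f (g (w n)) = w n` is unbounded on a bounded part of `U`; but `f (U ∩ closedBall 0 ρ)` is bounded:
`f '' {ρ < |z|}` is a neighbourhood of infinity (`inf_chart`: the image under `h` of a small ball
is open and contains `0`), and `f` is injective on `U`. -/
theorem exists_inverse {U V : Set ℂ} (hU : IsExteriorDomain U) (hV : IsExteriorDomain V)
    {f : ℂ → ℂ} (hf : DifferentiableOn ℂ f U) (hinj : InjOn f U) (hsurj : f '' U = V)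
    (hinf : Tendsto f (cocompact ℂ) (cocompact ℂ)) :
    ∃ g : ℂ → ℂ, ContinuousOn g V ∧ MapsTo g V U ∧ (∀ z ∈ U, g (f z) = z) ∧
      (∀ w ∈ V, f (g w) = w) ∧ Tendsto g (cocompact ℂ) (cocompact ℂ) := by
  subst hsurj
  have hl : ∀ z ∈ U, Function.invFunOn f U (f z) = z := fun z hz => hinj.leftInvOn_invFunOn hz
  refine ⟨Function.invFunOn f U, ?_, ?_, hl, ?_, ?_⟩
  · rintro _ ⟨a, ha, rfl⟩
    exact (Lib.RMT.hasStrictDerivAt_invFunOn hU.1 hf hinj ha).hasDerivAt.continuousAt.continuousWithinAt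
  · rintro _ ⟨a, ha, rfl⟩
    rw [hl a ha]; exact ha
  · rintro _ ⟨a, ha, rfl⟩
    rw [hl a ha]
  · obtain ⟨ρ, hρ, h, hh, hhi, h0, hw⟩ := inf_chart hU hf hinj hinf
    rw [← Metric.cobounded_eq_cocompact (α := ℂ), ← tendsto_norm_atTop_iff_cobounded,
      Metric.cobounded_eq_cocompact]
    refine tendsto_atTop.2 fun b => ?_
    set δ : ℝ := min ρ (max b 1)⁻¹ with hδ
    have hb1 : 0 < max b 1 := lt_max_of_lt_right one_pos
    have hδ0 : 0 < δ := lt_min hρ (inv_pos.2 hb1)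
    have hsub : ball (0 : ℂ) δ ⊆ ball 0 ρ := ball_subset_ball (min_le_left _ _)
    have ho := Lib.RMT.isOpen_image_of_injOn isOpen_ball (hh.mono hsub) (hhi.mono hsub)
    obtain ⟨η, hη, hηs⟩ := Metric.isOpen_iff.1 ho 0 ⟨0, mem_ball_self hδ0, h0⟩
    filter_upwards [(tendsto_norm_cocompact_atTop (E := ℂ)).eventually (eventually_gt_atTop η⁻¹)]
      with w hwη
    have hwpos : 0 < ‖w‖ := (inv_pos.2 hη).trans hwη
    have hw0 : w ≠ 0 := norm_pos_iff.1 hwpos
    obtain ⟨ζ, hζ, hζe⟩ := hηs (show w⁻¹ ∈ ball (0 : ℂ) η by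
      rw [mem_ball_zero_iff, norm_inv]
      exact inv_lt_of_inv_lt₀ hη hwη)
    have hζ0 : ζ ≠ 0 := by
      rintro rfl
      rw [h0] at hζe
      exact inv_ne_zero hw0 hζe.symm
    obtain ⟨hζU, -, hζh⟩ := hw ζ (hsub hζ) hζ0
    have hfw : f ζ⁻¹ = w := by
      rw [hζh] at hζe
      exact inv_injective hζe
    rw [← hfw, hl _ hζU, norm_inv]
    have h1 : ‖ζ‖ < (max b 1)⁻¹ := (mem_ball_zero_iff.1 hζ).trans_le (min_le_right _ _)
    exact (le_max_left b 1).trans (lt_inv_of_lt_inv₀ (norm_pos_iff.2 hζ0) h1).le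

theorem isCompact_compl_of_ext {U : Set ℂ} (hU : IsExteriorDomain U) : IsCompact Uᶜ := by
  obtain ⟨ho, -, R, hR⟩ := hU
  refine (isCompact_closedBall (0 : ℂ) R).of_isClosed_subset ho.isClosed_compl fun z hz => ?_
  rw [mem_closedBall_zero_iff]
  by_contra h
  exact hz (hR z (not_le.1 h))

theorem h62_mem_comp {K : Set ℂ} (hK : IsClosed K) {p x : ℂ} (hp : p ∈ K)
    (h : ∀ G : Set ℂ, IsOpen G → connectedComponentIn K p ⊆ G → x ∈ closure G) :
    x ∈ connectedComponentIn K p := by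
  have hc : closure (connectedComponentIn K p) ⊆ connectedComponentIn K p :=
    (isPreconnected_connectedComponentIn.closure).subset_connectedComponentIn
      (subset_closure (mem_connectedComponentIn hp))
      (closure_minimal (connectedComponentIn_subset _ _) hK)
  refine hc ?_
  rw [closure_eq_iInter_cthickening]
  refine mem_iInter₂.2 fun δ hδ => ?_
  exact closure_thickening_subset_cthickening _ _
    (h _ isOpen_thickening (self_subset_thickening hδ _))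

theorem h62_resp {U V : Set ℂ} (hV : IsOpen V) {f Φ : ℂ → ℂ}
    (hΦ : ∀ p ∈ Uᶜ, Φ p ∈ Vᶜ ∧
      (∀ G' : Set ℂ, IsOpen G' → connectedComponentIn Vᶜ (Φ p) ⊆ G' →
        ∃ G : Set ℂ, IsOpen G ∧ connectedComponentIn Uᶜ p ⊆ G ∧ MapsTo f (G ∩ U) G' ∧
          ∀ y ∈ G ∩ Uᶜ, connectedComponentIn Vᶜ (Φ y) ⊆ G') ∧
      (∃ x ∈ connectedComponentIn Uᶜ p, ∀ A ∈ 𝓝 x, Φ p ∈ closure (f '' (A ∩ U))))
    {p p' : ℂ} (hp : p ∈ Uᶜ) (hp' : p' ∈ Uᶜ)
    (h : connectedComponentIn Uᶜ p = connectedComponentIn Uᶜ p') :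
    connectedComponentIn Vᶜ (Φ p) = connectedComponentIn Vᶜ (Φ p') := by
  refine connectedComponentIn_eq (h62_mem_comp hV.isClosed_compl (hΦ p hp).1 fun G' hG' hs => ?_)
  obtain ⟨G, -, hs', -, hy⟩ := (hΦ p hp).2.1 G' hG' hs
  exact subset_closure (hy p' ⟨hs' (h ▸ mem_connectedComponentIn hp'), hp'⟩
    (mem_connectedComponentIn (hΦ p' hp').1))

/-- The end maps `Φ` of `f` and `Ψ` of `g` are inverse to each other on components; in particular
`Φ` respects and separates components.  (`comp p = comp p'` gives `comp (Φ p) = comp (Φ p')`: for every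
open `G' ⊇ comp (Φ p)` we get `comp (Φ p') ⊆ G'`, and a closed set is the intersection of its open
neighbourhoods.  Conversely, if `G ⊇ comp (Ψ (Φ p))` is open, `G' ⊇ comp (Φ p)` the open set given by
`Ψ` for a smaller `G₀` with `closure G₀ ⊆ G`, then points `f z` with `z ∈ U` near `x ∈ comp p` lie in
`G'`, so `x ∈ closure G₀`; hence `comp p = comp (Ψ (Φ p))`.) -/
theorem end_map_iff {U V : Set ℂ} (hU : IsOpen U) (hUc : IsConnected U) (hK : IsCompact Uᶜ)
    (hV : IsOpen V) (hVc : IsConnected V) (hK' : IsCompact Vᶜ) {f g : ℂ → ℂ}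
    (hf : ContinuousOn f U) (hfV : MapsTo f U V) (hg : ContinuousOn g V) (hgU : MapsTo g V U)
    (hgf : ∀ z ∈ U, g (f z) = z) (hfg : ∀ w ∈ V, f (g w) = w)
    (hfinf : Tendsto f (cocompact ℂ) (cocompact ℂ)) {Φ : ℂ → ℂ}
    (hΦ : ∀ p ∈ Uᶜ, Φ p ∈ Vᶜ ∧
      (∀ G' : Set ℂ, IsOpen G' → connectedComponentIn Vᶜ (Φ p) ⊆ G' →
        ∃ G : Set ℂ, IsOpen G ∧ connectedComponentIn Uᶜ p ⊆ G ∧ MapsTo f (G ∩ U) G' ∧
          ∀ y ∈ G ∩ Uᶜ, connectedComponentIn Vᶜ (Φ y) ⊆ G') ∧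
      (∃ x ∈ connectedComponentIn Uᶜ p, ∀ A ∈ 𝓝 x, Φ p ∈ closure (f '' (A ∩ U))))
    {p p' : ℂ} (hp : p ∈ Uᶜ) (hp' : p' ∈ Uᶜ) :
    connectedComponentIn Vᶜ (Φ p) = connectedComponentIn Vᶜ (Φ p') ↔
      connectedComponentIn Uᶜ p = connectedComponentIn Uᶜ p' := by
  obtain ⟨Ψ, hΨ⟩ := exists_end_map hV hVc hK' hU hK hg hgU hf hfV hfg hfinf
  refine ⟨fun h => ?_, fun h => h62_resp hV hΦ hp hp' h⟩
  have key : ∀ q ∈ Uᶜ, connectedComponentIn Uᶜ (Ψ (Φ q)) = connectedComponentIn Uᶜ q := by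
    intro q hq
    obtain ⟨hq1, -, x, hx, hxA⟩ := hΦ q hq
    obtain ⟨hq2, hq3, -⟩ := hΨ (Φ q) hq1
    have hxm : x ∈ connectedComponentIn Uᶜ (Ψ (Φ q)) := by
      refine h62_mem_comp hU.isClosed_compl hq2 fun G hG hs => ?_
      obtain ⟨G', hG', hs', hm, -⟩ := hq3 G hG hs
      refine mem_closure_iff_nhds.2 fun A hA => ?_
      obtain ⟨w, hwG, z, hz, rfl⟩ := mem_closure_iff.1 (hxA A hA) G' hG'
        (hs' (mem_connectedComponentIn hq1))
      refine ⟨z, hz.1, ?_⟩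
      have := hm ⟨hwG, hfV hz.2⟩
      rwa [hgf z hz.2] at this
    rw [connectedComponentIn_eq hxm, connectedComponentIn_eq hx]
  rw [← key p hp, ← key p' hp']
  exact h62_resp hU hΨ (hΦ p hp).1 (hΦ p' hp').1 h

end Crest.Agent.R105
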