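import Crest.Agent.R105.ADefs
import Crest.Agent.R105.ATop3

/-! Row 105, block A: existence of the picture. -/

set_option autoImplicit false

namespace Crest.Agent.R105

open MeasureTheory Filter Topology Set Metric Crest.AnalysisR
open scoped ENNReal ContDiff

/-- A family of pairwise disjoint discs of positive radius is countable
(`Set.PairwiseDisjoint.countable_of_nonempty_interior` or `countable_of_isOpen`). -/
theorem countable_discs {A : Set ℂ} {c : ℂ → ℂ} {ρ : ℂ → ℝ} (hρ : ∀ q ∈ A, 0 < ρ q)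
    (hd : A.PairwiseDisjoint fun q => closedBall (c q) (ρ q)) : A.Countable := by
  refine hd.countable_of_nonempty_interior fun q hq => ⟨c q, ?_⟩
  exact interior_mono ball_subset_closedBall
    (by rw [isOpen_ball.interior_eq]; exact mem_ball_self (hρ q hq))

theorem h2_exists_cen : ∃ (cen : Set ℂ → ℂ) (rad : Set ℂ → ℝ), ∀ S : Set ℂ,
    (∃ c : ℂ, ∃ r : ℝ, 0 ≤ r ∧ S = closedBall c r) → 0 ≤ rad S ∧ S = closedBall (cen S) (rad S) := by
  have h : ∀ S : Set ℂ, ∃ (c : ℂ) (r : ℝ), (∃ c : ℂ, ∃ r : ℝ, 0 ≤ r ∧ S = closedBall c r) →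
      0 ≤ r ∧ S = closedBall c r := fun S => by
    by_cases h : ∃ c : ℂ, ∃ r : ℝ, 0 ≤ r ∧ S = closedBall c r
    · obtain ⟨c, r, h⟩ := h
      exact ⟨c, r, fun _ => h⟩
    · exact ⟨0, 0, fun h' => absurd h' h⟩
  choose cen rad h using h
  exact ⟨cen, rad, h⟩

/-- Choose `c p, r p` with `comp p = closedBall (c p) (r p)` for `p ∈ Uᶜ` (centre and radius of a
closed ball are unique, so `c (c p) = c p`, `r (c p) = r p`), `c' p, R p` for `comp (Φ p)` in `Vᶜ`
(they only depend on `comp p`, `end_map_iff`); `F = f` on `U`, `F p = c' p` on `Uᶜ`,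
`N = {p ∈ Uᶜ | c p = p ∧ (0 < r p ∨ 0 < R p)}`.  A point of `Uᶜ` outside the nodes is a one-point
component with one-point image.  `near`: `G' = ball (F q) (R q + ε)`, the open set `G` of
`exists_end_map` contains `ball q (r q + δ)` (compactness, `IsCompact.exists_thickening_subset_open`,
`thickening_closedBall`).  Note `F '' U = V`, `deriv`-statements are local on the open set `U`. -/
theorem exists_pic {U V : Set ℂ} (hU : IsCircleDomainFinitePart U)
    (hV : IsCircleDomainFinitePart V) {f : ℂ → ℂ} (hf : DifferentiableOn ℂ f U) (hinj : InjOn f U)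
    (hsurj : f '' U = V) (hinf : Tendsto f (cocompact ℂ) (cocompact ℂ)) :
    ∃ (F : ℂ → ℂ) (N : Set ℂ) (r R : ℂ → ℝ), Pic U F N r R ∧ EqOn F f U := by
  classical
  obtain ⟨g, hg, hgU, hgf, hfg, hginf⟩ := exists_inverse hU.1 hV.1 hf hinj hsurj hinf
  have hUo := hU.1.1
  have hK := isCompact_compl_of_ext hU.1
  have hK' := isCompact_compl_of_ext hV.1
  have hfV : MapsTo f U V := fun z hz => hsurj ▸ mem_image_of_mem f hz
  obtain ⟨Φ, hΦ⟩ := exists_end_map hUo hU.1.2.1 hK hV.1.1 hK' hf.continuousOn hfV hg hgU hgf hginf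
  have hiff := fun p p' (hp : p ∈ Uᶜ) (hp' : p' ∈ Uᶜ) => end_map_iff hUo hU.1.2.1 hK hV.1.1
    hV.1.2.1 hK' hf.continuousOn hfV hg hgU hgf hfg hinf hΦ hp hp'
  obtain ⟨cen, rad, hcr⟩ := h2_exists_cen
  set c : ℂ → ℂ := fun p => cen (connectedComponentIn Uᶜ p) with hc
  set r : ℂ → ℝ := fun p => rad (connectedComponentIn Uᶜ p) with hr
  set R : ℂ → ℝ := fun p => rad (connectedComponentIn Vᶜ (Φ p)) with hR
  set F : ℂ → ℂ := fun p => if p ∈ U then f p else cen (connectedComponentIn Vᶜ (Φ p)) with hF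
  set N : Set ℂ := {p | p ∈ Uᶜ ∧ c p = p ∧ (0 < r p ∨ 0 < R p)} with hN
  have hFU : EqOn F f U := fun z hz => if_pos hz
  have hFim : F '' U = V := by rw [← hsurj]; exact hFU.image_eq
  have h1 : ∀ p ∈ Uᶜ, 0 ≤ r p ∧ connectedComponentIn Uᶜ p = closedBall (c p) (r p) :=
    fun p hp => hcr _ (hU.2 p hp)
  have h2 : ∀ p ∈ Uᶜ, 0 ≤ R p ∧ connectedComponentIn Vᶜ (Φ p) = closedBall (F p) (R p) :=
    fun p hp => by
      have e : F p = cen (connectedComponentIn Vᶜ (Φ p)) := if_neg hp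
      rw [e]; exact hcr _ (hV.2 _ (hΦ p hp).1)
  have h3 : ∀ q ∈ N, connectedComponentIn Uᶜ q = closedBall q (r q) := fun q hq => by
    rw [(h1 q hq.1).2, hq.2.1]
  have h4 : ∀ q ∈ N, ∀ q' ∈ N, connectedComponentIn Uᶜ q = connectedComponentIn Uᶜ q' →
      q = q' := fun q hq q' hq' e => by
    rw [← hq.2.1, ← hq'.2.1]; simp only [hc]; rw [e]
  have hdisj : N.PairwiseDisjoint fun q => closedBall q (r q) := by
    intro q hq q' hq' hne
    refine Set.disjoint_left.2 fun z hz hz' => hne (h4 q hq q' hq' ?_)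
    beta_reduce at hz hz'
    rw [← h3 q hq] at hz
    rw [← h3 q' hq'] at hz'
    rw [connectedComponentIn_eq hz, connectedComponentIn_eq hz']
  have hdisj' : N.PairwiseDisjoint fun q => closedBall (F q) (R q) := by
    intro q hq q' hq' hne
    refine Set.disjoint_left.2 fun z hz hz' => hne (h4 q hq q' hq' ((hiff q q' hq.1 hq'.1).1 ?_))
    beta_reduce at hz hz'
    rw [← (h2 q hq.1).2] at hz
    rw [← (h2 q' hq'.1).2] at hz'
    rw [connectedComponentIn_eq hz, connectedComponentIn_eq hz']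
  have hnear : ∀ p ∈ Uᶜ, ∀ ε > 0, ∃ G : Set ℂ, IsOpen G ∧ connectedComponentIn Uᶜ p ⊆ G ∧
      MapsTo F G (ball (F p) (R p + ε)) := fun p hp ε hε => by
    obtain ⟨G, hGo, hG1, hG2, hG3⟩ := (hΦ p hp).2.1 (ball (F p) (R p + ε)) isOpen_ball (by
      rw [(h2 p hp).2]; exact closedBall_subset_ball (by linarith))
    refine ⟨G, hGo, hG1, fun y hy => ?_⟩
    by_cases hyU : y ∈ U
    · rw [hFU hyU]; exact hG2 ⟨hy, hyU⟩
    · refine hG3 y ⟨hy, hyU⟩ ?_
      rw [(h2 y hyU).2]; exact mem_closedBall_self (h2 y hyU).1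
  have hdust : ∀ z ∈ Uᶜ, (∀ q ∈ N, z ∉ closedBall q (r q)) →
      connectedComponentIn Uᶜ z = {z} ∧ R z = 0 := fun z hz hzN => by
    have hz1 : z ∈ closedBall (c z) (r z) := (h1 z hz).2 ▸ mem_connectedComponentIn hz
    have hcz : c z ∈ connectedComponentIn Uᶜ z := by
      rw [(h1 z hz).2]; exact mem_closedBall_self (h1 z hz).1
    have hcU : c z ∈ Uᶜ := connectedComponentIn_subset _ _ hcz
    have e : connectedComponentIn Uᶜ (c z) = connectedComponentIn Uᶜ z :=
      (connectedComponentIn_eq hcz).symm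
    have e1 : c (c z) = c z := by simp only [hc] at e ⊢; rw [e]
    have e2 : r (c z) = r z := by simp only [hr]; rw [e]
    have e3 : R (c z) = R z := by simp only [hR]; rw [(hiff _ _ hcU hz).2 e]
    have h0 : ¬ (0 < r z ∨ 0 < R z) := fun h =>
      hzN (c z) ⟨hcU, e1, by rw [e2, e3]; exact h⟩ (by rw [e2]; exact hz1)
    rw [not_or, not_lt, not_lt] at h0
    have r0 : r z = 0 := le_antisymm h0.1 (h1 z hz).1
    refine ⟨?_, le_antisymm h0.2 (h2 z hz).1⟩
    rw [r0, closedBall_zero, mem_singleton_iff] at hz1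
    rw [(h1 z hz).2, r0, closedBall_zero, ← hz1]
  have hmem : ∀ z ∈ Uᶜ \ (⋃ q ∈ N, closedBall q (r q)), ∀ q ∈ N, z ∉ closedBall q (r q) :=
    fun z hz q hq h => hz.2 (mem_biUnion hq h)
  refine ⟨F, N, r, R, ⟨hUo, hU.1.2.1, hK, hf.congr hFU, hinj.congr hFU.symm, hFim ▸ hK', ?_,
    fun q hq => (h1 q hq.1).1, fun q hq => (h2 q hq.1).1, fun q hq => ?_, hdisj,
    fun q hq => ?_, hdisj', fun q hq => ?_, fun q hq ε hε => ?_, fun z hz => ?_,
    fun z hz => ?_, fun t ht htc x hx y hy => ?_⟩, hFU⟩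
  · have c1 : {q | q ∈ N ∧ 0 < r q}.Countable :=
      countable_discs (c := fun q => q) (fun q hq => hq.2) (hdisj.subset fun q hq => hq.1)
    have c2 : {q | q ∈ N ∧ 0 < R q}.Countable :=
      countable_discs (c := F) (fun q hq => hq.2) (hdisj'.subset fun q hq => hq.1)
    refine (c1.union c2).mono fun q hq => ?_
    rcases hq.2.2 with h | h
    · exact Or.inl ⟨hq, h⟩
    · exact Or.inr ⟨hq, h⟩
  · rw [← h3 q hq]; exact connectedComponentIn_subset _ _
  · rw [hFim, ← (h2 q hq.1).2]; exact connectedComponentIn_subset _ _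
  · rw [← h3 q hq]; exact comp_touch hUo hK hq.1
  · obtain ⟨G, hGo, hG1, hG2⟩ := hnear q hq.1 ε hε
    rw [h3 q hq] at hG1
    obtain ⟨δ, hδ, hδG⟩ := (isCompact_closedBall q (r q)).exists_thickening_subset_open hGo hG1
    rw [thickening_closedBall hδ (h1 q hq.1).1] at hδG
    exact ⟨δ, hδ, fun z hz => hG2 (hδG (by rw [mem_ball]; linarith))⟩
  · by_cases hzU : z ∈ U
    · refine (hf.continuousOn.continuousAt (hUo.mem_nhds hzU)).congr ?_
      filter_upwards [hUo.mem_nhds hzU] with w hw using (hFU hw).symm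
    · rw [Metric.continuousAt_iff']
      intro ε hε
      obtain ⟨G, hGo, hG1, hG2⟩ := hnear z hzU ε hε
      rw [(hdust z hzU hz).2, zero_add] at hG2
      filter_upwards [hGo.mem_nhds (hG1 (mem_connectedComponentIn hzU))] with w hw using hG2 hw
  · obtain ⟨w, hw1, hw2⟩ := comp_touch hUo hK hz.1
    rw [(hdust z hz.1 (hmem z hz)).1, mem_singleton_iff] at hw1
    rw [hUo.frontier_eq]
    exact ⟨hw1 ▸ hw2, hz.1⟩
  · have := htc.subset_connectedComponentIn hx (fun w hw => (ht hw).1) hy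
    rw [(hdust x (ht hx).1 (hmem x (ht hx))).1, mem_singleton_iff] at this
    exact this.symm

end Crest.Agent.R105
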