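import Crest.Agent.R105.ADefs
import Crest.Agent.R105.AFlux3
import Crest.Agent.R105.AInf2
import Crest.Agent.R105.ATop4

/-! Row 105, block A: rigidity from `StB`. -/

set_option autoImplicit false

namespace Crest.Agent.R105

open MeasureTheory Filter Topology Set Metric Crest.AnalysisR
open scoped ENNReal ContDiff

/-- Normalise `f₁ = (f - b) / a` (`inf_expansion`, `circle_affine`), `exists_pic`, `flux`,
`deriv_eq_one`; `F z - z` has derivative zero on the connected open set `U`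
(`IsOpen.is_const_of_deriv_eq_zero`). -/
theorem rigid_of_stB (hB : StB) (U V : Set ℂ) (hU : IsCircleDomainFinitePart U)
    (hV : IsCircleDomainFinitePart V) (hE : IsConformallyRemovable (frontier U)) (f : ℂ → ℂ)
    (hf : DifferentiableOn ℂ f U) (hinj : InjOn f U) (hsurj : f '' U = V)
    (hinf : Tendsto f (cocompact ℂ) (cocompact ℂ)) :
    ∃ a b : ℂ, a ≠ 0 ∧ ∀ z ∈ U, f z = a * z + b := by
  obtain ⟨a, b, ha, C, ρ₀, hρ₀, hexp⟩ := inf_expansion hU.1 hf hinj hinf
  have hUo : IsOpen U := hU.1.1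
  set f₁ : ℂ → ℂ := fun z => (f z - b) / a with hf₁
  have hd₁ : DifferentiableOn ℂ f₁ U := (hf.sub_const b).div_const a
  have hi₁ : InjOn f₁ U := fun x hx y hy hxy => hinj hx hy (by
    have : (f x - b) / a = (f y - b) / a := hxy
    have h2 := (div_left_inj' ha).1 this
    linear_combination h2)
  have hs₁ : f₁ '' U = (fun w => (w - b) / a) '' V := by
    rw [← hsurj, image_image]
  have hhom : Tendsto (fun w : ℂ => (w - b) / a) (cocompact ℂ) (cocompact ℂ) := by
    have e : (fun w : ℂ => (w - b) / a) =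
        ((Homeomorph.subRight b).trans (Homeomorph.mulRight₀ a⁻¹ (inv_ne_zero ha))) := by
      funext w; simp [div_eq_mul_inv]
    rw [e]
    exact (Homeomorph.map_cocompact _).le
  have hinf₁ : Tendsto f₁ (cocompact ℂ) (cocompact ℂ) := hhom.comp hinf
  obtain ⟨F, N, r, R, hP, hF⟩ := exists_pic hU (circle_affine hV ha b) hd₁ hi₁ hs₁ hinf₁
  have ha' : 0 < ‖a‖ := norm_pos_iff.2 ha
  have hdF : ∀ z ∈ U, deriv F z = deriv f z / a := fun z hz => by
    have h1 : F =ᶠ[𝓝 z] f₁ := hF.eventuallyEq_of_mem (hUo.mem_nhds hz)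
    rw [h1.deriv_eq, hf₁]
    simp only [deriv_div_const, deriv_sub_const]
  have he : ∀ z : ℂ, ρ₀ ≤ ‖z‖ →
      ‖F z - z‖ ≤ (C / ‖a‖) / ‖z‖ ∧ ‖deriv F z - 1‖ ≤ (C / ‖a‖) / ‖z‖ ^ 2 := fun z hz => by
    obtain ⟨hzU, h1, h2⟩ := hexp z hz
    constructor
    · have e : F z - z = (f z - (a * z + b)) / a := by
        rw [hF hzU, hf₁]; field_simp; ring
      rw [e, norm_div, div_right_comm]
      exact div_le_div_of_nonneg_right h1 ha'.le
    · have e : deriv F z - 1 = (deriv f z - a) / a := by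
        rw [hdF z hzU]; field_simp
      rw [e, norm_div, div_right_comm]
      exact div_le_div_of_nonneg_right h2 ha'.le
  obtain ⟨ρ₁, hρ₁⟩ := hP.cpt.isBounded.subset_ball (0 : ℂ)
  have hone := deriv_eq_one hP (ρ₂ := ρ₁ + 3) hρ₀ he fun ρ hρ η hη =>
    flux hB hP hE (hρ₁.trans (ball_subset_ball (by linarith))) hη
  have hdiff : DifferentiableOn ℂ (fun z => F z - z) U := hP.hol.sub differentiableOn_id
  have hz0 : U.EqOn (deriv fun z => F z - z) 0 := fun z hz => by
    have h1 := (hP.hol.differentiableAt (hUo.mem_nhds hz)).hasDerivAt.sub (hasDerivAt_id z)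
    have h2 : deriv (fun z => F z - z) z = deriv F z - 1 := h1.deriv
    rw [h2, hone z hz]; simp
  obtain ⟨z₀, hz₀⟩ := hP.conn.nonempty
  refine ⟨a, a * (F z₀ - z₀) + b, ha, fun z hz => ?_⟩
  have h3 : F z - z = F z₀ - z₀ :=
    hUo.is_const_of_deriv_eq_zero hP.conn.isPreconnected hdiff hz0 hz hz₀
  have h4 : F z = (f z - b) / a := hF hz
  rw [← h3, h4]; field_simp; ring

end Crest.Agent.R105
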