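import Crest.Agent.R105.NT3

/-! Row 105 (B): if the picture is a translation then the given function has no singular
derivative. -/

set_option autoImplicit false

open MeasureTheory Set Filter Topology
open scoped ENNReal

namespace Crest.Agent.R105

variable {U : Set ℂ}

theorem bf_lin (hU : IsOpen U) (Λ : Lumps U) {ρ : ℂ → ℝ} (hρ : XX U ρ) (hs : HasCompactSupport ρ)
    (ℓ : ℂ →L[ℝ] ℝ)
    (h : ∀ ε > 0, ∃ r, XX U r ∧ En U (fun z => r z - ρ z) ≤ ENNReal.ofReal ε ∧
      ∀ φ : ℂ → ℝ, ContDiff ℝ 1 φ → HasCompactSupport φ → om U (fun z => r z * φ z) ℓ = 0) :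
    IntegrableOn (wd ρ ℓ) U ∧ om U ρ ℓ = 0 := by
  obtain ⟨R₀, hR₀⟩ := hs.isCompact.isBounded.subset_closedBall (0 : ℂ)
  set R := max (max R₀ Λ.R) 0 + 1 with hR
  have hR1 : R₀ < R := by
    have := (le_max_left R₀ Λ.R).trans (le_max_left _ 0); linarith
  have hR2 : Λ.R < R := by
    have := (le_max_right R₀ Λ.R).trans (le_max_left _ 0); linarith
  have hR0 : 0 < R := by have := le_max_right (max R₀ Λ.R) 0; linarith
  let η : ContDiffBump (0 : ℂ) := ⟨R, R + 1, hR0, by linarith⟩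
  let η₂ : ContDiffBump (0 : ℂ) := ⟨R + 2, R + 3, by linarith, by linarith⟩
  have hη : ContDiff ℝ 1 (η : ℂ → ℝ) := η.contDiff
  have hηA : A0 U η := by
    refine A0.of_smooth hU hη η.hasCompactSupport ?_
    have h1 : Function.support (fderiv ℝ (η : ℂ → ℝ)) ⊆ {z | R ≤ ‖z‖} := by
      intro z hz
      by_contra hc
      refine hz ?_
      have : (η : ℂ → ℝ) =ᶠ[𝓝 z] fun _ => 1 :=
        η.eventuallyEq_one_of_mem_ball (mem_ball_zero_iff.2 (not_le.1 hc))
      rw [this.fderiv_eq]; simp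
    exact (closure_minimal h1 (isClosed_le continuous_const continuous_norm)).trans
      fun z hz => Λ.far z (hR2.le.trans hz)
  set c : ℂ → ℝ := fun z => ℓ z * η₂ z with hc
  have hc1 : ContDiff ℝ 1 c := ℓ.contDiff.mul η₂.contDiff
  have hc2 : HasCompactSupport c := η₂.hasCompactSupport.mul_left
  have hcx : XX U c := by
    refine ⟨hc1.locallyLipschitz.locallyLipschitzOn, ⟨R + 3, 0, fun z hz => ?_⟩, ?_⟩
    · have : η₂ z = 0 := η₂.zero_of_le_dist (by simpa using hz)
      simp [hc, this]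
    · have h1 : MemLp (fderiv ℝ c) 2 volume :=
        (hc1.continuous_fderiv one_ne_zero).memLp_of_hasCompactSupport (hc2.fderiv ℝ)
      have h2 := lintegral_rpow_enorm_lt_top_of_eLpNorm_lt_top two_ne_zero ENNReal.ofNat_ne_top h1.2
      refine (setLIntegral_le_lintegral _ _).trans_lt ?_
      simpa using h2
  have hwd : ∀ u : ℂ → ℝ, (∀ z, R + 1 ≤ ‖z‖ → u z = 0) → wd u ℓ = wd u c := by
    intro u hu
    funext z
    by_cases hz : ‖z‖ < R + 2
    · have : c =ᶠ[𝓝 z] ℓ := by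
        filter_upwards [η₂.eventuallyEq_one_of_mem_ball (mem_ball_zero_iff.2 hz)] with w hw
        simp [hc, hw]
      simp only [wd, this.fderiv_eq]
    · have : u =ᶠ[𝓝 z] fun _ => 0 := by
        filter_upwards [(isOpen_lt continuous_const continuous_norm).mem_nhds
          (show R + 1 < ‖z‖ by linarith)] with w hw
        exact hu w (le_of_lt hw)
      simp [wd, this.fderiv_eq]
  have hη0 : ∀ (u : ℂ → ℝ) z, R + 1 ≤ ‖z‖ → u z * η z = 0 := fun u z hz => by
    rw [η.zero_of_le_dist (by simpa using hz), mul_zero]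
  have hρη : (fun z => ρ z * η z) = ρ := by
    funext z
    by_cases hz : ρ z = 0
    · simp [hz]
    · have := hR₀ (subset_tsupport _ hz)
      rw [η.one_of_mem_closedBall (Metric.closedBall_subset_closedBall hR1.le this), mul_one]
  have e0 : wd ρ ℓ = wd ρ c := hwd ρ fun z hz => by rw [← hρη]; exact hη0 ρ z hz
  refine ⟨e0 ▸ wd_integrableOn hρ.en hcx.en, ?_⟩
  have hcη := hcx.mul_A0 hU Λ hηA
  set A := Real.sqrt (En U fun z => c z * η z).toReal with hA
  have hA0 : 0 ≤ A := Real.sqrt_nonneg _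
  refine abs_nonpos_iff.1 (le_of_forall_pos_le_add fun δ hδ => ?_)
  have hδ' : 0 < δ / (A + 1) := by positivity
  obtain ⟨r, hr, hE, h1⟩ := h _ (pow_pos hδ' 2)
  have h2 := h1 η hη η.hasCompactSupport
  have h3 : om U (fun z => r z * η z) ℓ = om U r fun z => c z * η z := by
    rw [← om_mul_swap hU Λ hr hcx hηA, om, hwd _ (hη0 r), om]
  have h4 : om U ρ ℓ = om U ρ fun z => c z * η z := by
    rw [← om_mul_swap hU Λ hρ hcx hηA, hρη, om, e0, om]
  have h5 := abs_om_le (hr.sub hU hρ).en hcη.en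
  rw [om_sub_left hU hr hρ hcη, ← h3, h2, ← h4, zero_sub, abs_neg] at h5
  have e3 : Real.sqrt (En U fun z => r z - ρ z).toReal ≤ δ / (A + 1) := by
    rw [Real.sqrt_le_left hδ'.le]
    exact ENNReal.toReal_le_of_le_ofReal (by positivity) hE
  calc |om U ρ ℓ| ≤ δ / (A + 1) * A := h5.trans (mul_le_mul_of_nonneg_right e3 hA0)
    _ ≤ δ / (A + 1) * (A + 1) := by gcongr; linarith
    _ = 0 + δ := by field_simp; ring

/-- final step of (B) -/
theorem b_final (hU : IsOpen U) (Λ : Lumps U) {ρ : ℂ → ℝ} (hρ : XX U ρ) (hs : HasCompactSupport ρ)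
    (h : ∀ ε > 0, ∃ r, XX U r ∧ En U (fun z => r z - ρ z) ≤ ENNReal.ofReal ε ∧
      ∃ (f : ℂ → ℂ) (b : ℂ), (∀ z ∈ U, f z = z + b) ∧
        ∀ φ : ℂ → ℝ, ContDiff ℝ 1 φ → HasCompactSupport φ →
          om U (fun z => r z * φ (f z)) (fun z => (f z).im) = 0 ∧
          om U (fun z => r z * φ (f z)) (fun z => (f z).re) = 0) (v : ℂ) :
    ∫ z in U, fderiv ℝ ρ z v = 0 := by
  have key : ∀ ℓ : ℂ →L[ℝ] ℝ, (ℓ = Complex.imCLM ∨ ℓ = Complex.reCLM) →
      IntegrableOn (wd ρ ℓ) U ∧ om U ρ ℓ = 0 := by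
    intro ℓ hℓ
    refine bf_lin hU Λ hρ hs ℓ fun ε hε => ?_
    obtain ⟨r, h1, h2, f, b, h3, h4⟩ := h ε hε
    refine ⟨r, h1, h2, fun φ hφ hφc => ?_⟩
    have h5 := h4 (fun w => φ (w - b)) (hφ.comp (contDiff_id.sub contDiff_const))
      (hφc.comp_homeomorph (Homeomorph.subRight b))
    have h6 : om U (fun z => r z * φ (f z - b)) (fun z => ℓ (f z)) = 0 := by
      rcases hℓ with rfl | rfl
      exacts [h5.1, h5.2]
    rw [om_congr hU (u' := fun z => r z * φ z) (c' := fun z => ℓ z + ℓ b)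
      (fun z hz => by simp [h3 z hz]) (fun z hz => by simp [h3 z hz])] at h6
    simpa only [om, wd, fderiv_add_const] using h6
  obtain ⟨i1, e1⟩ := key _ (Or.inl rfl)
  obtain ⟨i2, e2⟩ := key _ (Or.inr rfl)
  have e : ∀ z, fderiv ℝ ρ z v = v.re * wd ρ Complex.imCLM z - v.im * wd ρ Complex.reCLM z := by
    intro z
    conv_lhs => rw [show v = v.re • (1 : ℂ) + v.im • Complex.I by
      simp]
    simp [wd, ContinuousLinearMap.fderiv, -Complex.real_smul]
  simp only [e]
  rw [integral_sub (i1.const_mul _) (i2.const_mul _), integral_const_mul, integral_const_mul]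
  change v.re * om U ρ _ - v.im * om U ρ _ = 0
  rw [e1, e2]; simp

end Crest.Agent.R105
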