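import Crest.Agent.R105.NT2
import Crest.Agent.Lib.Brouwer.Basic

/-! Row 105: behaviour at infinity and the circle domain from `EndOut`. -/

set_option autoImplicit false

open MeasureTheory Set Filter Topology

namespace Crest.Agent.R105

variable {U : Set ℂ}

/-- Brouwer for `z ↦ w - (f z - z)` on `closedBall (w - b) 1`. -/
theorem image_far {f : ℂ → ℂ} {R : ℝ} (hfar : ∀ z : ℂ, R ≤ ‖z‖ → z ∈ U)
    (hf : ContinuousOn f U) {b : ℂ} (hb : Tendsto (fun z => f z - z) (cocompact ℂ) (𝓝 b))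
    (R' : ℝ) : ∃ R'' : ℝ, ∀ w : ℂ, R'' ≤ ‖w‖ → ∃ z, R' ≤ ‖z‖ ∧ z ∈ U ∧ f z = w := by
  have h1 : {z : ℂ | ‖f z - z - b‖ ≤ 1} ∈ cocompact ℂ := by
    filter_upwards [hb (Metric.closedBall_mem_nhds b one_pos)] with z hz
    exact mem_closedBall_iff_norm.1 hz
  obtain ⟨r, hr⟩ := Metric.closedBall_compl_subset_of_mem_cocompact h1 0
  refine ⟨max (max R R') (r + 1) + ‖b‖ + 1, fun w hw => ?_⟩
  have hK : ∀ z ∈ Metric.closedBall (w - b) 1, max (max R R') (r + 1) ≤ ‖z‖ := by
    intro z hz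
    have h2 : ‖w‖ ≤ ‖z‖ + ‖b‖ + ‖z - (w - b)‖ := by
      calc ‖w‖ = ‖z + b - (z - (w - b))‖ := by congr 1; ring
        _ ≤ _ := (norm_sub_le _ _).trans (by gcongr; exact norm_add_le _ _)
    have h3 := mem_closedBall_iff_norm.1 hz
    linarith
  have hU : Metric.closedBall (w - b) 1 ⊆ U := fun z hz =>
    hfar z ((le_max_left _ _).trans ((le_max_left _ _).trans (hK z hz)))
  obtain ⟨z, hz, he⟩ := Crest.Agent.Lib.Brouwer.brouwer (K := Metric.closedBall (w - b) 1)
    (Metric.nonempty_closedBall.2 zero_le_one) (isCompact_closedBall _ _) (convex_closedBall _ _)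
    (fun z => w - (f z - z)) (continuousOn_const.sub ((hf.mono hU).sub continuousOn_id))
    (fun z hz => by
      have h2 : z ∈ (Metric.closedBall (0 : ℂ) r)ᶜ := by
        have := (le_max_right _ _).trans (hK z hz)
        simp only [mem_compl_iff, mem_closedBall_zero_iff, not_le]
        linarith
      have h3 : ‖f z - z - b‖ ≤ 1 := hr h2
      have h4 : w - (f z - z) - (w - b) = -(f z - z - b) := by ring
      rwa [mem_closedBall_iff_norm, h4, norm_neg])
  refine ⟨z, (le_max_right _ _).trans ((le_max_left _ _).trans (hK z hz)), hU hz, ?_⟩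
  linear_combination -he

theorem tendsto_cocompact_of_sub {f : ℂ → ℂ} {b : ℂ}
    (hb : Tendsto (fun z => f z - z) (cocompact ℂ) (𝓝 b)) :
    Tendsto f (cocompact ℂ) (cocompact ℂ) := by
  refine tendsto_cocompact_of_tendsto_dist_comp_atTop 0 ?_
  simp only [dist_zero_right]
  refine tendsto_atTop_mono (f := fun z => ‖z‖ + -‖f z - z‖) (fun z => ?_)
    (Tendsto.atTop_add tendsto_norm_cocompact_atTop hb.norm.neg)
  have := norm_sub_le (f z) (f z - z)
  rw [sub_sub_cancel] at this
  linarith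

/-- injectivity and `image_far` with `R' = Λ.R`: the lumps have bounded image -/
theorem EndOut.bdd {Λ : Lumps U} {M : Set (ℂ → ℝ)} {f : ℂ → ℂ} {c : Λ.E → ℂ} {ρ : Λ.E → ℝ}
    (h : EndOut Λ M f c ρ) : ∃ S : ℝ, ∀ z ∈ U, ‖z‖ < Λ.R → ‖f z‖ ≤ S := by
  obtain ⟨b, hb⟩ := h.inf
  obtain ⟨S, hS⟩ := image_far Λ.far h.hol.continuousOn hb Λ.R
  refine ⟨S, fun z hz hR => ?_⟩
  by_contra hc
  obtain ⟨z', h1, h2, h3⟩ := hS (f z) (not_le.1 hc).le
  rw [h.inj h2 hz h3] at h1
  exact h1.not_gt hR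

/-- nested compact sets: the cluster set is nonempty and the images of the lumps shrink to it -/
theorem EndOut.near {Λ : Lumps U} {M : Set (ℂ → ℝ)} {f : ℂ → ℂ} {c : Λ.E → ℂ} {ρ : Λ.E → ℝ}
    (h : EndOut Λ M f c ρ) (q : Λ.E) : (Crest.Agent.R105.clus Λ f q).Nonempty ∧
      ∀ η > 0, ∃ n, ∀ z ∈ Λ.W n q, ‖f z - c q‖ < ρ q + η := by
  obtain ⟨S, hS⟩ := h.bdd
  have hc : ∀ n, IsCompact (closure (f '' Λ.W n q)) := fun n =>
    (isCompact_closedBall (0 : ℂ) S).closure_of_subset (by
      rintro _ ⟨z, hz, rfl⟩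
      exact mem_closedBall_zero_iff.2 (hS z (Λ.sub n q hz).1 (mem_ball_zero_iff.1 (Λ.sub n q hz).2)))
  have ha : Antitone fun n => closure (f '' Λ.W n q) := fun n m hnm =>
    closure_mono (image_mono (Λ.W_mono hnm q))
  refine ⟨IsCompact.nonempty_iInter_of_sequence_nonempty_isCompact_isClosed _
    (fun n => ha (Nat.le_succ n)) (fun n => ((Λ.conn n q).nonempty.image f).closure) (hc 0)
    fun n => isClosed_closure, fun η hη => ?_⟩
  obtain ⟨n, hn⟩ := exists_subset_nhds_of_isCompact' (U := Metric.ball (c q) (ρ q + η))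
    ha.directed_ge hc (fun n => isClosed_closure) fun x hx =>
      Metric.isOpen_ball.mem_nhds (Metric.closedBall_subset_ball (by linarith) (h.clus q hx))
  exact ⟨n, fun z hz => mem_ball_iff_norm.1 (hn (subset_closure (mem_image_of_mem f hz)))⟩

/-- The image is open (open mapping theorem for the injective `f` on the connected `U`),
connected, contains the far points (`image_far`); the component of a point of the disc of `q` in
the complement contains the disc and lies, for every `n`, in the union of the discs of the ends in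
the lump `W n q` (`sepa`, `fin`, `disj`: two disjoint closed sets), hence in the disc (`sep`). -/
theorem EndOut.circle (hU : Crest.AnalysisR.IsExteriorDomain U) {Λ : Lumps U} {M : Set (ℂ → ℝ)}
    {f : ℂ → ℂ} {c : Λ.E → ℂ} {ρ : Λ.E → ℝ} (h : EndOut Λ M f c ρ) :
    Crest.AnalysisR.IsCircleDomainFinitePart (f '' U) := by
  obtain ⟨hUo, hUc, -⟩ := hU
  obtain ⟨b, hb⟩ := h.inf
  refine ⟨⟨?_, hUc.image f h.hol.continuousOn, ?_⟩, ?_⟩
  · rcases (h.hol.analyticOnNhd hUo).is_constant_or_isOpen hUc.isPreconnected with ⟨w, hw⟩ | hw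
    · exfalso
      have h1 : (((|Λ.R| : ℝ) : ℂ)) ∈ U := Λ.far _ (by
        rw [Complex.norm_real, Real.norm_eq_abs, abs_abs]; exact le_abs_self _)
      have h2 : (((|Λ.R| + 1 : ℝ) : ℂ)) ∈ U := Λ.far _ (by
        rw [Complex.norm_real, Real.norm_eq_abs]
        exact (le_abs_self _).trans ((le_add_of_nonneg_right zero_le_one).trans (le_abs_self _)))
      have h3 := h.inj h1 h2 ((hw _ h1).trans (hw _ h2).symm)
      have h4 : (|Λ.R| : ℝ) = |Λ.R| + 1 := by exact_mod_cast h3
      linarith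
    · exact hw U subset_rfl hUo
  · obtain ⟨R'', hR⟩ := image_far Λ.far h.hol.continuousOn hb 0
    refine ⟨R'', fun w hw => ?_⟩
    obtain ⟨z, -, hz, hzw⟩ := hR w hw.le
    exact ⟨z, hz, hzw⟩
  · intro z hz
    have hz' : z ∈ (f '' U)ᶜ := hz
    rw [h.compl] at hz' ⊢
    obtain ⟨q, hq⟩ := mem_iUnion.1 hz'
    refine ⟨c q, ρ q, h.l2.1 q, Subset.antisymm ?_ ?_⟩
    · intro w hw
      obtain ⟨q', hq'⟩ := mem_iUnion.1 (connectedComponentIn_subset _ _ hw)
      by_cases hqq : q = q'
      · rw [hqq]; exact hq'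
      exfalso
      obtain ⟨n, hn⟩ := Λ.sep q q' hqq
      have hne : Λ.W n q' ≠ Λ.W n q := by
        intro e
        rw [e, disjoint_self] at hn
        exact (Λ.conn n q).nonempty.ne_empty hn
      set A : Set ℂ := ⋃ p ∈ {p | Λ.W n p = Λ.W n q}, Metric.closedBall (c p) (ρ p) with hA
      set B : Set ℂ := ⋃ p ∈ {p | Λ.W n p ≠ Λ.W n q}, Metric.closedBall (c p) (ρ p) with hB
      have hAc : IsClosed A := h.sepa n q
      have hBc : IsClosed B := by
        have e : B = ⋃ S ∈ range (Λ.W n) \ {Λ.W n q},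
            ⋃ p ∈ {p | Λ.W n p = S}, Metric.closedBall (c p) (ρ p) := by
          ext x
          simp only [hB, mem_iUnion, mem_setOf_eq, mem_diff, mem_range, mem_singleton_iff,
            exists_prop]
          constructor
          · rintro ⟨p, hp, hx⟩
            exact ⟨Λ.W n p, ⟨⟨p, rfl⟩, hp⟩, p, rfl, hx⟩
          · rintro ⟨S, ⟨-, hS⟩, p, rfl, hx⟩
            exact ⟨p, hS, hx⟩
        rw [e]
        refine ((Λ.fin n).subset diff_subset).isClosed_biUnion ?_
        rintro S ⟨⟨p, rfl⟩, -⟩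
        exact h.sepa n p
      have hK : IsPreconnected (connectedComponentIn (⋃ q, Metric.closedBall (c q) (ρ q)) z) :=
        isPreconnected_connectedComponentIn
      obtain ⟨x, -, hxA, hxB⟩ := isPreconnected_closed_iff.1 hK A B hAc hBc
        (fun x hx => by
          obtain ⟨p, hp⟩ := mem_iUnion.1 (connectedComponentIn_subset _ _ hx)
          by_cases e : Λ.W n p = Λ.W n q
          · exact Or.inl (mem_biUnion (s := {p | Λ.W n p = Λ.W n q}) e hp)
          · exact Or.inr (mem_biUnion (s := {p | Λ.W n p ≠ Λ.W n q}) e hp))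
        ⟨z, mem_connectedComponentIn hz', mem_biUnion (s := {p | Λ.W n p = Λ.W n q}) rfl hq⟩
        ⟨w, hw, mem_biUnion (s := {p | Λ.W n p ≠ Λ.W n q}) hne hq'⟩
      obtain ⟨p, hp, hxp⟩ := mem_iUnion₂.1 hxA
      obtain ⟨p', hp', hxp'⟩ := mem_iUnion₂.1 hxB
      have hpp : p ≠ p' := by
        rintro rfl
        exact hp' hp
      exact Set.disjoint_left.1 (h.disj p p' hpp) hxp hxp'
    · exact (convex_closedBall (c q) (ρ q)).isPreconnected.subset_connectedComponentIn hq
        (subset_iUnion (fun q => Metric.closedBall (c q) (ρ q)) q)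

end Crest.Agent.R105
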