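import Crest.Agent.R105.BTop2
import Crest.Agent.R105.BTop3

/-! Row 105 (B), topology 4: the homeomorphic extension over a dust. -/

set_option autoImplicit false

open MeasureTheory Set Filter Topology

namespace Crest.Agent.R105

/-- For `p ∈ E` let `q p` be given by `end_of_pt`; it is the only end with `p` in the closure of all
its lumps (`nbhd_lump`, `sep`), and every end arises (`dust_pt`).  Put `F = f` off `E`,
`F p = c (q p)`.  Continuity at `p ∈ E`: `EndOut.near` gives `n`, `nbhd_lump` gives a ball; for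
`p'` in `E` and in the ball, `W m (q p') ⊆ ball` for large `m`, so `c (q p')` (the cluster set is
nonempty and inside `{c}`) lies in the closure of `f '' W n (q p)`.  Bijective by `inj`, `compl`,
`disj`; proper by `tendsto_cocompact_of_sub`, hence closed, hence a homeomorphism. -/
theorem ext_homeo {E : Set ℂ} (hE : IsCompact E) (hd : IsTotallyDisconnected E)
    (hc : IsConnected Eᶜ) {Λ : Lumps Eᶜ} {M : Set (ℂ → ℝ)} {f : ℂ → ℂ} {c : Λ.E → ℂ}
    {ρ : Λ.E → ℝ} (h : EndOut Λ M f c ρ) (h0 : ∀ q, ρ q = 0) :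
    ∃ φ : ℂ ≃ₜ ℂ, EqOn φ f Eᶜ := by
  classical
  have hU : IsOpen Eᶜ := hE.isClosed.isOpen_compl
  have hdense : ∀ p : ℂ, p ∈ closure Eᶜ := by
    intro p
    by_contra hp
    rw [Metric.mem_closure_iff] at hp
    push Not at hp
    obtain ⟨η, hη, hp⟩ := hp
    have hsub : Metric.ball p η ⊆ E := by
      intro z hz
      by_contra hzE
      have h1 := hp z hzE
      have h2 := Metric.mem_ball'.1 hz
      linarith
    have hs := hd _ hsub (convex_ball p η).isPreconnected
    have h1 : p + ((η / 2 : ℝ) : ℂ) ∈ Metric.ball p η := by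
      rw [mem_ball_iff_norm, add_sub_cancel_left, Complex.norm_real, Real.norm_eq_abs,
        abs_of_pos (half_pos hη)]
      linarith
    have h2 := hs h1 (Metric.mem_ball_self hη)
    have h3 : ((η / 2 : ℝ) : ℂ) = 0 := by simpa using h2
    have h4 : η / 2 = 0 := by exact_mod_cast h3
    linarith
  have anti : ∀ q n m, n ≤ m → Λ.W m q ⊆ Λ.W n q := fun q n m hnm =>
    antitone_nat_of_succ_le (f := fun k => Λ.W k q) (fun k => Λ.anti k q) hnm
  have hQex : ∀ p, p ∈ E → ∃ q, ∀ n, p ∈ closure (Λ.W n q) := fun p hp =>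
    end_of_pt Λ (fun hh => hh hp) (hdense p)
  choose Q hQ using hQex
  have huniq : ∀ p, p ∈ E → ∀ q q', (∀ n, p ∈ closure (Λ.W n q)) →
      (∀ n, p ∈ closure (Λ.W n q')) → q = q' := by
    intro p hp q q' h1 h2
    by_contra hne
    obtain ⟨n, hn⟩ := Λ.sep q q' hne
    obtain ⟨η, hη, hb⟩ := nbhd_lump hE hd hc Λ hp h1 n
    obtain ⟨z, hz, hzd⟩ := Metric.mem_closure_iff.1 (h2 n) η hη
    exact Set.disjoint_left.1 hn (hb ⟨Metric.mem_ball'.2 hzd, (Λ.sub n q' hz).1⟩) hz
  have hsmall : ∀ q p, (∀ n, p ∈ closure (Λ.W n q)) →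
      ∀ η > 0, ∃ n, Λ.W n q ⊆ Metric.ball p η := by
    intro q p hp
    obtain ⟨p0, -, hp0⟩ := dust_pt hE hd Λ q
    have : p = p0 := by
      refine eq_of_forall_dist_le fun η hη => ?_
      obtain ⟨n, hn⟩ := hp0 η hη
      exact Metric.mem_closedBall.1
        (closure_minimal (hn.trans Metric.ball_subset_closedBall) Metric.isClosed_closedBall (hp n))
    rw [this]
    exact hp0
  have hsurjQ : ∀ q, ∃ p, ∃ hp : p ∈ E, Q p hp = q := by
    intro q
    obtain ⟨p, hp, hp0⟩ := dust_pt hE hd Λ q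
    have hpE : p ∈ E := not_not.1 hp
    refine ⟨p, hpE, huniq p hpE _ _ (hQ p hpE) fun n => ?_⟩
    refine Metric.mem_closure_iff.2 fun η hη => ?_
    obtain ⟨m, hm⟩ := hp0 η hη
    obtain ⟨z, hz⟩ := (Λ.conn (max n m) q).nonempty
    exact ⟨z, anti q n _ (le_max_left _ _) hz,
      Metric.mem_ball'.1 (hm (anti q m _ (le_max_right _ _) hz))⟩
  have hinjQ : ∀ p hp p' hp', Q p hp = Q p' hp' → p = p' := by
    intro p hp p' hp' he
    refine eq_of_forall_dist_le fun η hη => ?_
    obtain ⟨n, hn⟩ := hsmall _ p' (hQ p' hp') η hη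
    have h1 := hQ p hp n
    rw [he] at h1
    exact Metric.mem_closedBall.1
      (closure_minimal (hn.trans Metric.ball_subset_closedBall) Metric.isClosed_closedBall h1)
  have hcq : ∀ q n, c q ∈ closure (f '' Λ.W n q) := by
    intro q n
    obtain ⟨y, hy⟩ := (h.near q).1
    have h1 := h.clus q hy
    rw [h0 q, Metric.closedBall_zero, mem_singleton_iff] at h1
    rw [← h1]
    exact mem_iInter.1 hy n
  have hcmem : ∀ q, c q ∈ Metric.closedBall (c q) (ρ q) := fun q =>
    Metric.mem_closedBall_self (h0 q).ge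
  obtain ⟨F, hF⟩ : ∃ F : ℂ → ℂ, F = fun z => if hz : z ∈ E then c (Q z hz) else f z := ⟨_, rfl⟩
  have hFE : ∀ z (hz : z ∈ E), F z = c (Q z hz) := fun z hz => by rw [hF]; exact dif_pos hz
  have hFU : ∀ z, z ∉ E → F z = f z := fun z hz => by rw [hF]; exact dif_neg hz
  have hcont : Continuous F := by
    rw [continuous_iff_continuousAt]
    intro p
    by_cases hp : p ∈ E
    · rw [Metric.continuousAt_iff]
      intro ε hε
      obtain ⟨n, hn⟩ := (h.near (Q p hp)).2 (ε / 2) (half_pos hε)
      rw [h0, zero_add] at hn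
      obtain ⟨η, hη, hb⟩ := nbhd_lump hE hd hc Λ hp (hQ p hp) n
      refine ⟨η, hη, fun z hz => ?_⟩
      rw [hFE p hp]
      by_cases hzE : z ∈ E
      · rw [hFE z hzE]
        obtain ⟨m, hm⟩ := hsmall _ z (hQ z hzE) (η - dist z p) (sub_pos.2 hz)
        have h1 : f '' Λ.W m (Q z hzE) ⊆ Metric.closedBall (c (Q p hp)) (ε / 2) := by
          rintro _ ⟨w, hw, rfl⟩
          have h2 : w ∈ Metric.ball p η := by
            have h3 := Metric.mem_ball.1 (hm hw)
            have h4 := dist_triangle w z p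
            rw [Metric.mem_ball]
            linarith
          rw [Metric.mem_closedBall, dist_eq_norm]
          exact (hn w (hb ⟨h2, (Λ.sub m _ hw).1⟩)).le
        have h5 := Metric.mem_closedBall.1
          (closure_minimal h1 Metric.isClosed_closedBall (hcq (Q z hzE) m))
        linarith
      · rw [hFU z hzE, dist_eq_norm]
        have := hn z (hb ⟨hz, hzE⟩)
        linarith
    · have h1 : ContinuousAt f p := h.hol.continuousOn.continuousAt (hU.mem_nhds hp)
      refine h1.congr ?_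
      filter_upwards [hU.mem_nhds hp] with z hz
      exact (hFU z hz).symm
  have hnot : ∀ q z, z ∉ E → c q ≠ f z := by
    intro q z hz he
    have h1 : c q ∈ (f '' Eᶜ)ᶜ := by
      rw [h.compl]
      exact mem_iUnion.2 ⟨q, hcmem q⟩
    exact h1 ⟨z, hz, he.symm⟩
  have hinj : Function.Injective F := by
    intro z w hzw
    by_cases hz : z ∈ E <;> by_cases hw : w ∈ E
    · rw [hFE z hz, hFE w hw] at hzw
      refine hinjQ z hz w hw ?_
      by_contra hne
      refine Set.disjoint_left.1 (h.disj _ _ hne) (hcmem _) ?_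
      rw [hzw]
      exact hcmem _
    · rw [hFE z hz, hFU w hw] at hzw
      exact absurd hzw (hnot _ w hw)
    · rw [hFU z hz, hFE w hw] at hzw
      exact absurd hzw.symm (hnot _ z hz)
    · rw [hFU z hz, hFU w hw] at hzw
      exact h.inj hz hw hzw
  have hsurj : Function.Surjective F := by
    intro y
    by_cases hy : y ∈ f '' Eᶜ
    · obtain ⟨z, hz, rfl⟩ := hy
      exact ⟨z, hFU z hz⟩
    · have h1 : y ∈ (f '' Eᶜ)ᶜ := hy
      rw [h.compl] at h1
      obtain ⟨q, hq⟩ := mem_iUnion.1 h1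
      rw [h0 q, Metric.closedBall_zero, mem_singleton_iff] at hq
      obtain ⟨p, hp, hpq⟩ := hsurjQ q
      exact ⟨p, by rw [hFE p hp, hpq, hq]⟩
  have hprop : IsProperMap F := by
    rw [isProperMap_iff_tendsto_cocompact]
    refine ⟨hcont, ?_⟩
    obtain ⟨b, hb⟩ := h.inf
    refine (tendsto_cocompact_of_sub hb).congr' ?_
    filter_upwards [hE.compl_mem_cocompact] with z hz
    exact (hFU z hz).symm
  refine ⟨(Equiv.ofBijective F ⟨hinj, hsurj⟩).toHomeomorphOfContinuousClosed hcont
    hprop.isClosedMap, fun z hz => ?_⟩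
  exact hFU z hz

end Crest.Agent.R105
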