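import Crest.Agent.R105.CMain

/-! Row 105, block CH: the chain lemma `CH Λ M` for monotone and for continuous generators. -/

set_option autoImplicit false

noncomputable section

namespace Crest.Agent.R105

open MeasureTheory Filter Topology Set Metric Complex
open scoped ContDiff Classical

variable {U : Set ℂ}

/-- localisation to a lump: `(u a) χ = u (a χ)`, `A0.mul`; `val (a χ) = val a * val χ`. -/
theorem Ch.adm1_loc (hU : IsOpen U) {Λ : Lumps U} {F : Finset Λ.E} {r u a : ℂ → ℝ} {e : Λ.E → ℝ}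
    (h : Ch.Adm1 Λ F r u e) (ha : A0 U a) (h01 : ∀ q, Λ.val a q = 0 ∨ Λ.val a q = 1) :
    Ch.Adm1 Λ (F.filter fun p => Λ.val a p = 1) r (fun z => u z * a z)
      (fun q => e q * Λ.val a q) := by
  intro θ hθ χ hχ hF
  obtain ⟨h1, h2⟩ := A0.mul hU Λ ha hχ
  have h3 := h θ hθ _ h1 fun p hp => by
    rw [h2]
    rcases h01 p with h0 | h0
    · rw [h0, zero_mul]
    · rw [hF p (Finset.mem_filter.2 ⟨hp, h0⟩), mul_zero]
  simp only [mul_assoc]
  refine h3.trans_eq (tsum_congr fun q => ?_)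
  rw [h2, abs_mul, mul_assoc]
  rcases h01 q with h0 | h0 <;> simp [h0]

/-- the chain lemma for a family of generators -/
theorem ch_of_gen (hU : IsOpen U) (Λ : Lumps U) {M : Set (ℂ → ℝ)} (hM : ∀ r ∈ M, Ch.Gen Λ r) :
    CH Λ M := by
  intro F u₁ u₂ e₁ e₂ G L₁ L₂ Bc h₁ h₂ hA₁ hA₂ hL₁ hL₂ hBc hG hF
  have heh := Ch.l2_hat F hA₁.l2 hA₂.l2 hL₁ hL₂ hBc
  refine ⟨heh, fun r hrM H hH χ hχ _ => ?_⟩
  have hg := hM r hrM
  have hr := hg.reg.xx
  have hb := hg.reg.bdd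
  have hθ : Continuous (deriv H) := hH.continuous_deriv le_rfl
  have hc : XX U (fun z => H (r z)) := XX.comp_C1 hU hH hr hb
  obtain ⟨N, hN⟩ := hχ.eq_val Λ
  obtain ⟨Q, hQ1, hQ2⟩ := Λ.exists_reps N
  choose a ha _ using fun p => exists_Ind hU Λ N p
  have ha01 : ∀ p q, Λ.val (a p) q = 0 ∨ Λ.val (a p) q = 1 := fun p q => by
    rw [(ha p).2 q]
    split_ifs <;> simp
  have hvalχ : ∀ q p, Λ.W N q = Λ.W N p → Λ.val χ q = Λ.val χ p := fun q p h => by
    obtain ⟨z, hz⟩ := (Λ.conn N q).nonempty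
    rw [← hN N le_rfl q z hz, ← hN N le_rfl p z (h ▸ hz)]
  have huniq : ∀ q, ∃ p₀ ∈ Q, Λ.W N q = Λ.W N p₀ ∧ Λ.val (a p₀) q = 1 ∧
      ∀ p ∈ Q, p ≠ p₀ → Λ.val (a p) q = 0 := fun q => by
    obtain ⟨p₀, hp₀, h⟩ := hQ1 q
    refine ⟨p₀, hp₀, h, by rw [(ha p₀).2 q, if_pos h], fun p hp hne => ?_⟩
    rw [(ha p).2 q, if_neg]
    intro h'
    have hd := hQ2 p hp p₀ hp₀ hne
    rw [← h', ← h] at hd
    exact (Λ.conn N q).nonempty.ne_empty (disjoint_self.1 hd)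
  set f : Λ.E → ℂ → ℝ := fun p z => G (u₁ z * a p z) (u₂ z * a p z) with hfdef
  have hx1 : ∀ p, XX U fun z => u₁ z * a p z := fun p => XX.mul_A0 hU Λ h₁ (ha p).1
  have hx2 : ∀ p, XX U fun z => u₂ z * a p z := fun p => XX.mul_A0 hU Λ h₂ (ha p).1
  have hf : ∀ p, XX U (f p) := fun p => XX.comp2 hU hG (hx1 p) (hx2 p)
  have hl : ∀ {e : Λ.E → ℝ}, L2w e → ∀ p, L2w fun q => e q * Λ.val (a p) q := fun {e} he p =>
    (he.of_le (fun q => by rcases ha01 p q with h | h <;> simp [h, he.1 q])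
      (fun q => by rcases ha01 p q with h | h <;> simp [h, he.1 q])).1
  set eh : Λ.E → ℝ := fun q => if q ∈ F then Bc else L₁ * e₁ q + L₂ * e₂ q with hehdef
  have hpiece : ∀ p, |om U (f p) (fun z => H (r z))| ≤
      ∑' q, eh q * Λ.val (a p) q * Ch.iq Λ r (deriv H) q := fun p => by
    rw [om_comp_right hU hH hr.lip]
    have := Ch.core hU hg (hx1 p) (hx2 p) (hl hA₁.l2 p) (hl hA₂.l2 p)
      (Ch.adm1_loc hU (Ch.adm1_of_adm hU hA₁ hrM hr) (ha p).1 (ha01 p))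
      (Ch.adm1_loc hU (Ch.adm1_of_adm hU hA₂ hrM hr) (ha p).1 (ha01 p)) hL₁ hL₂ hBc hG
      (hF.imp (fun h => by simp [h]) id) hθ
    refine this.trans (le_of_eq (tsum_congr fun q => ?_))
    congr 1
    by_cases hq : q ∈ F <;> rcases ha01 p q with h | h <;> simp [hehdef, hq, h]
  have hgerm : om U (fun z => G (u₁ z) (u₂ z) * χ z) (fun z => H (r z)) =
      om U (fun z => ∑ p ∈ Q, Λ.val χ p * f p z) (fun z => H (r z)) := by
    refine om_germ_congr hU Λ (XX.mul_A0 hU Λ (XX.comp2 hU hG h₁ h₂) hχ)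
      (XX.sum hU Q fun p _ => (hf p).smul _) hc hc fun q => ?_
    obtain ⟨p₀, hp₀, hW, h1, h0⟩ := huniq q
    choose Na hNa using fun p => (ha p).1.eq_val Λ
    refine ⟨max N (Q.sup Na), -∑ p ∈ Q.erase p₀, Λ.val χ p * G 0 0, 0, fun z hz => ?_,
      fun z _ => by simp⟩
    have hav : ∀ p ∈ Q, a p z = Λ.val (a p) q := fun p hp =>
      hNa p _ ((Finset.le_sup hp).trans (le_max_right _ _)) q z hz
    rw [← Finset.add_sum_erase Q _ hp₀, hN _ (le_max_left _ _) q z hz, hvalχ q p₀ hW]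
    have : ∑ p ∈ Q.erase p₀, Λ.val χ p * f p z = ∑ p ∈ Q.erase p₀, Λ.val χ p * G 0 0 :=
      Finset.sum_congr rfl fun p hp => by
        simp [hfdef, hav p (Finset.mem_of_mem_erase hp),
          h0 p (Finset.mem_of_mem_erase hp) (Finset.ne_of_mem_erase hp)]
    rw [this]
    simp only [hfdef, hav p₀ hp₀, h1, mul_one]
    ring
  rw [hgerm, om_sum_left hU Q (fun p _ => (hf p).smul _) hc]
  have hs : ∀ p, Summable fun q => eh q * Λ.val (a p) q * Ch.iq Λ r (deriv H) q := fun p =>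
    ((hl heh p).summable_mul (Ch.iq_l2 hg.reg hθ)).1
  calc |∑ p ∈ Q, om U (fun z => Λ.val χ p * f p z) (fun z => H (r z))|
      ≤ ∑ p ∈ Q, |Λ.val χ p| * ∑' q, eh q * Λ.val (a p) q * Ch.iq Λ r (deriv H) q := by
        refine (Finset.abs_sum_le_sum_abs _ _).trans (Finset.sum_le_sum fun p _ => ?_)
        rw [om_smul_left, abs_mul]
        exact mul_le_mul_of_nonneg_left (hpiece p) (abs_nonneg _)
    _ = ∑' q, ∑ p ∈ Q, |Λ.val χ p| * (eh q * Λ.val (a p) q * Ch.iq Λ r (deriv H) q) := by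
        rw [Summable.tsum_finsetSum fun p _ => (hs p).mul_left _]
        exact Finset.sum_congr rfl fun p _ => tsum_mul_left.symm
    _ = ∑' q, eh q * wt Λ r H χ q := by
        refine tsum_congr fun q => ?_
        obtain ⟨p₀, hp₀, hW, h1, h0⟩ := huniq q
        rw [Finset.sum_eq_single_of_mem p₀ hp₀ fun p hp hne => by simp [h0 p hp hne], h1,
          ← hvalχ q p₀ hW]
        simp only [wt, Ch.iq]
        ring

/-- the chain lemma for monotone generators -/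
theorem ch_mono (hU : IsOpen U) (Λ : Lumps U) {M : Set (ℂ → ℝ)} (hM : ∀ r ∈ M, Mono Λ r) :
    CH Λ M :=
  ch_of_gen hU Λ fun r hr => Ch.Gen.of_mono hU (hM r hr)

/-- the chain lemma for `C¹` generators that are continuous at all ends -/
theorem ch_cont (hU : IsOpen U) (hc : IsPreconnected U) (Λ : Lumps U) {M : Set (ℂ → ℝ)}
    (hM : ∀ r ∈ M, Reg Λ r ∧ ContDiffOn ℝ 1 r U ∧ ∀ q, Λ.osc r q = 0) : CH Λ M :=
  ch_of_gen hU Λ fun r hr => Ch.Gen.of_cont hU hc (hM r hr).1 (hM r hr).2.1 (hM r hr).2.2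

end Crest.Agent.R105
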