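import Mathlib

/-! Row 105, block GR: the abstract greedy construction. -/

set_option autoImplicit false

open Set Filter Topology

namespace Crest.Agent.R105

/-- At stage `n` the list has entries `0, …, n`.  If some list within cost `3/4 · ε/4^n`
together with a new entry satisfying `Tg n` exists, take it; otherwise keep the list and add
`o`.  In the second case the limit list is within `ε/4^(n+1)` of the stage `n` list, so a
competitor for the limit list is a competitor at stage `n`. -/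
theorem greedy_abs {α : Type*} {P : α → Prop} {R : α → α → Prop} {Nr : ℕ → ℝ → α → α → Prop}
    (Tg : ℕ → α → Prop) {o x₀ : α} {ε : ℝ} (hε : 0 < ε) (hx : P x₀) (ho : P o)
    (hRo : ∀ x, P x → R x o) (hRr : ∀ x, P x → R x x)
    (hRs : ∀ x y, P x → P y → R x y → R y x)
    (hrefl : ∀ n η x, 0 ≤ η → Nr n η x x)
    (hmono : ∀ n m a b x y, Nr m a x y → n ≤ m → 0 ≤ a → a ≤ b → Nr n b x y)
    (htrans : ∀ n a b x y z, P x → P y → P z → 0 ≤ a → 0 ≤ b → Nr n a x y → Nr n b y z →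
      Nr n (a + b) x z)
    (hlim : ∀ (x : ℕ → α) (t : ℕ → ℝ), (∀ k, P (x k)) → (∀ k, 0 ≤ t k) → (∀ k, t (k + 1) ≤ t k) →
      Tendsto t atTop (𝓝 0) → (∀ k, Nr k (t k - t (k + 1)) (x k) (x (k + 1))) →
      ∃ y, P y ∧ ∀ k, Nr k (t k) (x k) y)
    (hRlim : ∀ (x x' : ℕ → α) (y y' : α) (t : ℕ → ℝ), P y → P y' → (∀ k, P (x k)) →
      (∀ k, P (x' k)) → Tendsto t atTop (𝓝 0) → (∀ k, Nr k (t k) (x k) y) →
      (∀ k, Nr k (t k) (x' k) y') → (∀ᶠ k in atTop, R (x k) (x' k)) → R y y') :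
    ∃ L : ℕ → α, (∀ j, P (L j)) ∧ (∀ i j, R (L i) (L j)) ∧ Nr 0 ε x₀ (L 0) ∧
      ∀ (n : ℕ) (l' : ℕ → α) (y : α), (∀ j ≤ n, P (l' j)) →
        (∀ j ≤ n, Nr n (ε / 4 ^ n / 2) (L j) (l' j)) → (∀ i ≤ n, ∀ j ≤ n, R (l' i) (l' j)) →
        (∀ j ≤ n, R (l' j) y) → P y → Tg n y →
        ∃ y', P y' ∧ Tg n y' ∧ Nr (n + 1) (ε / 4 ^ (n + 1)) y' (L (n + 1)) := by
  classical
  let t : ℕ → ℝ := fun k => ε / 4 ^ k
  have t0 : ∀ k, 0 ≤ t k := fun k => by positivity
  have ts : ∀ k, t (k + 1) = t k / 4 := fun k => by simp only [t, pow_succ, div_div]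
  have td : ∀ k, t (k + 1) ≤ t k := fun k => by linarith [ts k, t0 k]
  have tl : Tendsto t atTop (𝓝 0) :=
    tendsto_const_nhds.div_atTop (tendsto_pow_atTop_atTop_of_one_lt (by norm_num))
  let Inv : ℕ → (ℕ → α) → Prop := fun n l =>
    (∀ j ≤ n, P (l j)) ∧ ∀ i ≤ n, ∀ j ≤ n, R (l i) (l j)
  have hext : ∀ n l y, Inv n l → P y → (∀ j ≤ n, R (l j) y) →
      Inv (n + 1) fun j => if j ≤ n then l j else y := fun n l y h hy hR => by
    refine ⟨fun j _ => ?_, fun i _ j _ => ?_⟩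
    · by_cases hj : j ≤ n
      · simpa only [if_pos hj] using h.1 j hj
      · simpa only [if_neg hj] using hy
    · by_cases hi : i ≤ n <;> by_cases hj : j ≤ n
      · simpa only [if_pos hi, if_pos hj] using h.2 i hi j hj
      · simpa only [if_pos hi, if_neg hj] using hR i hi
      · simpa only [if_neg hi, if_pos hj] using hRs _ _ (h.1 j hj) hy (hR j hj)
      · simpa only [if_neg hi, if_neg hj] using hRr y hy
  have step : ∀ n l, Inv n l → ∃ l₁, Inv (n + 1) l₁ ∧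
      (∀ j ≤ n, Nr n (t n - t (n + 1)) (l j) (l₁ j)) ∧ (Tg n (l₁ (n + 1)) ∨
        ((∀ j ≤ n, l₁ j = l j) ∧ ¬ ∃ (l' : ℕ → α) (y : α), Inv n l' ∧
          (∀ j ≤ n, Nr n (t n - t (n + 1)) (l j) (l' j)) ∧ (∀ j ≤ n, R (l' j) y) ∧ P y ∧
            Tg n y)) := fun n l h => by
    by_cases hc : ∃ (l' : ℕ → α) (y : α), Inv n l' ∧
        (∀ j ≤ n, Nr n (t n - t (n + 1)) (l j) (l' j)) ∧ (∀ j ≤ n, R (l' j) y) ∧ P y ∧ Tg n y
    · obtain ⟨l', y, h1, h2, h3, h4, h5⟩ := hc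
      exact ⟨_, hext n l' y h1 h4 h3, fun j hj => by simpa only [if_pos hj] using h2 j hj,
        Or.inl (by simpa using h5)⟩
    · exact ⟨_, hext n l o h ho fun j hj => hRo _ (h.1 j hj),
        fun j hj => by simpa only [if_pos hj] using hrefl n _ _ (sub_nonneg.2 (td n)),
        Or.inr ⟨fun j hj => if_pos hj, hc⟩⟩
  have : Nonempty α := ⟨o⟩
  choose! f hf using step
  let S : ℕ → ℕ → α := fun n => Nat.rec (fun _ => x₀) f n
  have hS : ∀ n, S (n + 1) = f n (S n) := fun _ => rfl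
  have hI : ∀ n, Inv n (S n) := fun n => by
    induction n with
    | zero => exact ⟨fun _ _ => hx, fun _ _ _ _ => hRr _ hx⟩
    | succ n ih => exact (hf n _ ih).1
  have hP : ∀ j k, P (S (max k j) j) := fun j k => (hI _).1 j (le_max_right _ _)
  have hL : ∀ j, ∃ y, P y ∧ ∀ k, Nr k (t k) (S (max k j) j) y := fun j =>
    hlim (fun k => S (max k j) j) t (hP j) t0 td tl fun k => by
      by_cases hk : j ≤ k
      · simp only [max_eq_left hk, max_eq_left (hk.trans (Nat.le_succ k))]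
        exact (hf k _ (hI k)).2.1 j hk
      · simp only [max_eq_right (not_le.1 hk).le, max_eq_right (Nat.succ_le_of_lt (not_le.1 hk))]
        exact hrefl _ _ _ (sub_nonneg.2 (td k))
  choose L hLP hLN using hL
  refine ⟨L, hLP, fun i j => ?_, by simpa [t, S] using hLN 0 0, fun n l' y h1 h2 h3 h4 h5 h6 => ?_⟩
  · refine hRlim _ _ _ _ t (hLP i) (hLP j) (hP i) (hP j) tl (hLN i) (hLN j) ?_
    filter_upwards [eventually_ge_atTop i, eventually_ge_atTop j] with k hi hj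
    rw [max_eq_left hi, max_eq_left hj]
    exact (hI k).2 i hi j hj
  · rcases (hf n _ (hI n)).2.2 with h | ⟨e, h⟩
    · exact ⟨S (n + 1) (n + 1), (hI (n + 1)).1 _ le_rfl, h, by simpa [t] using hLN (n + 1) (n + 1)⟩
    · refine absurd ⟨l', y, ⟨h1, h3⟩, fun j hj => ?_, h4, h5, h6⟩ h
      have a1 := hLN j (n + 1)
      rw [max_eq_left (hj.trans (Nat.le_succ n)), hS, e j hj] at a1
      have a2 := htrans n _ _ _ _ _ ((hI n).1 j hj) (hLP j) (h1 j hj) (t0 _) (by positivity)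
        (hmono n _ _ _ _ _ a1 (Nat.le_succ n) (t0 _) le_rfl) (h2 j hj)
      have a3 : t (n + 1) + ε / 4 ^ n / 2 = t n - t (n + 1) := by
        rw [ts]; simp only [t]; ring
      rwa [a3] at a2

end Crest.Agent.R105
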