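import Crest.Agent.R105.GKill
import Crest.Agent.R105.GAbs

/-! Row 105, block GR: the greedy family of continuous generators and claim M. -/

set_option autoImplicit false

open MeasureTheory Set Filter Topology
open scoped ENNReal

namespace Crest.Agent.R105

variable {U : Set ℂ}

/-- `greedy_abs` with targets `Cl y (d k) (2 / (m + 1))`, `n = Nat.pair k m`, competitor
from `g_kill`. -/
theorem gr_seq (hU : IsOpen U) (Λ : Lumps U) (hd : Dust Λ) {r : ℂ → ℝ} (hr : Cts Λ r) {ε : ℝ}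
    (hε : 0 < ε) : ∃ L : ℕ → ℂ → ℝ, (∀ j, Cts Λ (L j)) ∧ (∀ i j, Isot U (L i) (L j)) ∧
      Nr Λ 0 ε r (L 0) ∧ ∀ β, Good U β → (Summable fun p => Λ.osc β p ^ 2) →
        (∀ j, Isot U (L j) β) → ∀ δ > 0, ∃ j, Cl U (L j) β δ := by
  obtain ⟨d, hd1, hd2⟩ := g_sep hU
  have ho : Cts Λ (fun _ => 0) := by
    have hb : Bdd U (fun _ => (0 : ℝ)) := ⟨0, fun _ _ => by simp⟩
    refine ⟨⟨XX.const 0, hb, contDiffOn_const⟩, fun q => ?_⟩
    obtain ⟨h1, h2⟩ := val_eq Λ hb (q := q) (n := 0) (a := 0) fun _ _ => rfl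
    rw [Lumps.osc, h2, sub_eq_zero]
    exact h1.symm
  obtain ⟨L, hL1, hL2, hL3, hL4⟩ := greedy_abs (P := Cts Λ) (R := Isot U) (Nr := Nr Λ)
    (fun n y => Cl U y (d n.unpair.1) (2 / ((n.unpair.2 : ℝ) + 1))) hε hr ho
    (fun x _ => Isot.const x 0) (fun x hx => Isot.self hU Λ hx.good.xx hx.good.bdd)
    (fun x y hx hy h => h.symm hU Λ hx.good.xx hx.good.bdd hy.good.xx hy.good.bdd)
    (fun n η x h => Nr.refl Λ n h x) (fun n m a b x y h h1 h2 h3 => h.mono h1 h2 h3)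
    (fun n a b x y z hx hy hz ha hb h1 h2 =>
      Nr.trans hU hx.good.xx hy.good.xx hz.good.xx ha hb h1 h2)
    (fun x t h1 h2 h3 h4 h5 => g_lim_cts hU Λ h1 h2 h3 h4 h5)
    (fun x x' y y' t hy hy' hx hx' ht h1 h2 h3 => Isot.lim_nr hU Λ hy.good hy'.good
      (fun k => (hx k).good) (fun k => (hx' k).good) ht h1 h2 h3)
  refine ⟨L, hL1, hL2, hL3, fun β hβ hs hi δ hδ => ?_⟩
  obtain ⟨m, hm⟩ := exists_nat_gt ((3 + ε) / δ)
  have hm1 : (0 : ℝ) < m + 1 := by positivity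
  obtain ⟨k, hk⟩ := hd2 β hβ.xx (1 / ((m : ℝ) + 1)) (by positivity)
  set n := Nat.pair k m with hn
  have hc : 0 < ε / 4 ^ n / 2 := by positivity
  obtain ⟨l', β', h1, h2, h3, h4⟩ := g_kill hU Λ hd (N := n) (l := L) (β := β)
    ⟨fun j _ => hL1 j, fun i _ j _ => hL2 i j, hβ, fun j _ => hi j⟩ hs n
    (η := min (ε / 4 ^ n / 2) (1 / ((m : ℝ) + 1))) (lt_min hc (by positivity))
  have hmin : 0 ≤ min (ε / 4 ^ n / 2) (1 / ((m : ℝ) + 1)) := le_min hc.le (by positivity)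
  obtain ⟨y, hy1, hy2, hy3⟩ := hL4 n l' β' h1.cts
    (fun j hj => (h2 j hj).mono le_rfl hmin (min_le_left _ _)) h1.iso h1.isob ⟨h1.good, h3⟩ (by
      simp only [hn, Nat.unpair_pair]
      have := Cl.trans hU h1.good.xx hβ.xx (hd1 k) (by positivity) (by positivity)
        (h4.mono hmin (min_le_right _ _)) hk
      rwa [← add_div, one_add_one_eq_two] at this)
  simp only [hn, Nat.unpair_pair] at hy2
  refine ⟨n + 1, ?_⟩
  have e1 := Cl.trans hU (hL1 (n + 1)).good.xx hy1.good.xx (hd1 k) (by positivity)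
    (by positivity) hy3.cl hy2
  have e2 := Cl.trans hU (hL1 (n + 1)).good.xx (hd1 k) hβ.xx (by positivity) (by positivity) e1
    hk.symm
  refine e2.mono (by positivity) ?_
  have e3 : (m : ℝ) + 1 ≤ 4 ^ (n + 1) := by
    have a1 : m ≤ n := Nat.right_le_pair k m
    have a2 : n + 1 < 4 ^ (n + 1) := Nat.lt_pow_self (by norm_num)
    exact_mod_cast (by omega : m + 1 ≤ 4 ^ (n + 1))
  have e4 : ε / 4 ^ (n + 1) ≤ ε / (m + 1) := div_le_div_of_nonneg_left hε.le hm1 e3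
  have e5 : (3 + ε) / (m + 1) ≤ δ := by
    rw [div_lt_iff₀ hδ] at hm
    rw [div_le_iff₀ hm1]
    nlinarith
  calc ε / 4 ^ (n + 1) + 2 / ((m : ℝ) + 1) + 1 / (m + 1)
      ≤ ε / (m + 1) + 2 / ((m : ℝ) + 1) + 1 / (m + 1) := by gcongr
    _ = (3 + ε) / (m + 1) := by ring
    _ ≤ δ := e5

theorem gr_main (hU : IsOpen U) (Λ : Lumps U) (hd : Dust Λ)
    (hch : ∀ c, Reg Λ c → (∀ q, Λ.osc c q = 0) → ContDiffOn ℝ 1 c U → CH Λ {c})
    {ρ : ℂ → ℝ} (hρ : XX U ρ) (hb : Bdd U ρ) (ho : ∀ q, Λ.osc ρ q = 0) {ε : ℝ} (hε : 0 < ε) :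
    ∃ M : Set (ℂ → ℝ), Fam Λ M ∧ CH Λ M ∧ (∀ m ∈ M, ∀ q, Λ.osc m q = 0) ∧
      (∀ β, Reg Λ β → TT Λ M β → ContDiffOn ℝ 1 β U → ∀ δ > 0,
        ∃ m ∈ M, En U (fun z => m z - β z) ≤ ENNReal.ofReal δ) ∧
      ∃ r ∈ M, En U (fun z => r z - ρ z) ≤ ENNReal.ofReal ε ∧ ∀ z ∈ U, |r z - ρ z| ≤ ε := by
  set a := min ε (Real.sqrt ε) / 2 with ha
  have ha0 : 0 < a := half_pos (lt_min hε (Real.sqrt_pos.2 hε))
  have ha1 : a + a ≤ ε := by linarith [min_le_left ε (Real.sqrt ε)]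
  have ha2 : a + a ≤ Real.sqrt ε := by linarith [min_le_right ε (Real.sqrt ε)]
  obtain ⟨r, hr1, hr2, hr3, hr4, hr5⟩ := exists_smooth hU Λ hρ (ε := min a (a ^ 2))
    (lt_min ha0 (by positivity))
  have hrb : Bdd U r := by
    obtain ⟨B, hB⟩ := hb
    refine ⟨B + min a (a ^ 2), fun z hz => ?_⟩
    have e1 := abs_le.1 (hr3 z hz)
    have e2 := abs_le.1 (hB z hz)
    exact abs_le.2 ⟨by linarith [e1.1, e2.1], by linarith [e1.2, e2.2]⟩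
  have hrc : Cts Λ r := by
    refine ⟨⟨hr1, hrb, hr2.of_le (by exact_mod_cast le_top)⟩, fun q => ?_⟩
    obtain ⟨e1, e2⟩ := Λ.lo_congr hrb hb (hr5 q)
    rw [Lumps.osc, e1, e2]
    exact ho q
  obtain ⟨L, hL1, hL2, hL3, hL4⟩ := gr_seq hU Λ hd hrc ha0
  have hreg : ∀ j, Reg Λ (L j) := fun j =>
    ⟨(hL1 j).good.xx, (hL1 j).good.bdd, by simp [(hL1 j).osc, summable_zero]⟩
  have hC : ∀ j, CH Λ {L j} := fun j => hch _ (hreg j) (hL1 j).osc (hL1 j).good.c1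
  have hsub : ∀ (j) {F u e}, Adm Λ (range L) F u e → Adm Λ {L j} F u e := fun j F u e h =>
    ⟨h.l2, fun c hc => h.le c ⟨j, (mem_singleton_iff.1 hc).symm⟩⟩
  refine ⟨range L, ⟨?_, ?_⟩, ?_, ?_, fun β hβ hT hβ1 δ hδ => ?_, L 0, mem_range_self 0, ?_, ?_⟩
  · rintro _ ⟨j, rfl⟩
    exact hreg j
  · rintro _ ⟨j, rfl⟩
    refine ⟨⟨fun q => ((hL1 j).osc q).ge, (hreg j).sq⟩, ?_⟩
    rintro _ ⟨i, rfl⟩ H hH χ hχ -
    have := hL2 j i id H contDiff_id hH χ hχ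
    simp only [id] at this
    simp only [this, (hL1 j).osc, zero_mul, tsum_zero, abs_zero, le_refl]
  · intro F u₁ u₂ e₁ e₂ G L₁ L₂ B h1 h2 h3 h4 h5 h6 h7 h8 h9
    refine ⟨(hC 0 F u₁ u₂ e₁ e₂ G L₁ L₂ B h1 h2 (hsub 0 h3) (hsub 0 h4) h5 h6 h7 h8 h9).l2, ?_⟩
    rintro _ ⟨j, rfl⟩
    exact (hC j F u₁ u₂ e₁ e₂ G L₁ L₂ B h1 h2 (hsub j h3) (hsub j h4) h5 h6 h7 h8 h9).le _ rfl
  · rintro _ ⟨j, rfl⟩
    exact (hL1 j).osc
  · obtain ⟨e, he⟩ := hT.2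
    obtain ⟨j, hj⟩ := hL4 β ⟨hβ.xx, hβ.bdd, hβ1⟩ hβ.sq (fun j =>
      (Isot.of_CH hU Λ (hC j) (hL1 j).osc hβ.xx hβ.bdd (hsub j he)).symm hU Λ hβ.xx hβ.bdd
        (hL1 j).good.xx (hL1 j).good.bdd) (Real.sqrt δ) (Real.sqrt_pos.2 hδ)
    refine ⟨L j, mem_range_self j, ?_⟩
    rwa [Cl, Real.sq_sqrt hδ.le] at hj
  · have e1 : Cl U r ρ a := hr4.trans (ENNReal.ofReal_le_ofReal (min_le_right _ _))
    have e2 := (Cl.trans hU (hL1 0).good.xx hr1 hρ ha0.le ha0.le hL3.cl e1).mono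
      (by positivity) ha2
    rwa [Cl, Real.sq_sqrt hε.le] at e2
  · intro z hz
    have e1 := abs_le.1 ((hr3 z hz).trans (min_le_left _ _))
    have e2 := abs_le.1 (hL3.sup z hz)
    exact abs_le.2 ⟨by linarith [e1.1, e2.1], by linarith [e1.2, e2.2]⟩

end Crest.Agent.R105
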