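import Crest.Agent.R105.NT3

/-! Row 105: consequences of claim M for a family of generators that are continuous at the ends. -/

set_option autoImplicit false

open MeasureTheory Set Filter Topology BoundedContinuousFunction
open scoped ENNReal

namespace Crest.Agent.R105

variable {U : Set ℂ}

/-- claim M: smooth regular elements of `T` are energy limits of generators -/
def ClM (Λ : Lumps U) (M : Set (ℂ → ℝ)) : Prop :=
  ∀ β, Reg Λ β → TT Λ M β → ContDiffOn ℝ 1 β U → ∀ ε > 0, ∃ r ∈ M,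
    En U (fun z => r z - β z) ≤ ENNReal.ofReal ε

theorem gi_wt_zero (Λ : Lumps U) {r : ℂ → ℝ} {q : Λ.E} (h : Λ.osc r q = 0) (H : ℝ → ℝ)
    (χ : ℂ → ℝ) : wt Λ r H χ q = 0 := by
  have : Λ.hi r q = Λ.lo r q := sub_eq_zero.1 h
  simp [wt, this]

/-- for continuous generators admissibility is exact orthogonality -/
theorem gi_adm_zero {Λ : Lumps U} {M : Set (ℂ → ℝ)} (h0 : ∀ r ∈ M, ∀ q, Λ.osc r q = 0)
    {F : Finset Λ.E} {u : ℂ → ℝ} {e : Λ.E → ℝ} (h : Adm Λ M F u e) {r : ℂ → ℝ} (hr : r ∈ M)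
    {H : ℝ → ℝ} (hH : ContDiff ℝ 1 H) {χ : ℂ → ℝ} (hχ : A0 U χ) (hF : ∀ p ∈ F, Λ.val χ p = 0) :
    om U (fun z => u z * χ z) (fun z => H (r z)) = 0 := by
  have := h.le r hr H hH χ hχ hF
  simp only [gi_wt_zero Λ (h0 r hr _), mul_zero, tsum_zero] at this
  exact abs_nonpos_iff.1 this

theorem gi_TT_lip (hU : IsOpen U) {Λ : Lumps U} {M : Set (ℂ → ℝ)} (hC : CH Λ M) {u : ℂ → ℝ}
    (hu : TT Λ M u) {T : ℝ → ℝ} {L : ℝ} (hL : 0 ≤ L) (hT : ∀ s s', |T s - T s'| ≤ L * |s - s'|) :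
    TT Λ M (fun z => T (u z)) := by
  obtain ⟨hx, e, he⟩ := hu
  exact ⟨hx.comp_lip hU hT, _, hC ∅ u u e e (fun s _ => T s) L 0 0 hx hx he he hL le_rfl le_rfl
    (fun s t s' t' => by simpa using hT s s') (Or.inl rfl)⟩

theorem gi_Reg_lip (hU : IsOpen U) {Λ : Lumps U} {u : ℂ → ℝ} (hu : Reg Λ u) {T : ℝ → ℝ} {L : ℝ}
    (hL : 0 ≤ L) (hT : ∀ s s', |T s - T s'| ≤ L * |s - s'|) : Reg Λ (fun z => T (u z)) := by
  have hb : Bdd U fun z => T (u z) := by
    obtain ⟨B, hB⟩ := hu.bdd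
    refine ⟨|T 0| + L * B, fun z hz => ?_⟩
    have h1 := hT (u z) 0
    rw [sub_zero] at h1
    have h2 := mul_le_mul_of_nonneg_left (hB z hz) hL
    have h3 := abs_add_le (T (u z) - T 0) (T 0)
    rw [sub_add_cancel] at h3
    linarith
  refine ⟨hu.xx.comp_lip hU hT, hb, ?_⟩
  refine Summable.of_nonneg_of_le (fun q => sq_nonneg _) (fun q => ?_) (hu.sq.mul_left (L ^ 2))
  have h1 := Λ.osc_comp2_le hu.bdd hu.bdd (G := fun s _ => T s) hL le_rfl
    (fun s t s' t' => by simpa using hT s s') q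
  rw [← mul_pow]
  exact pow_le_pow_left₀ (Λ.osc_nonneg hb q) (by simpa using h1) 2

theorem gi_perp (hU : IsOpen U) {Λ : Lumps U} {M : Set (ℂ → ℝ)} (hM : Fam Λ M)
    (h0 : ∀ r ∈ M, ∀ q, Λ.osc r q = 0) (hc : ClM Λ M) {β : ℂ → ℝ} (h1 : Reg Λ β)
    (h2 : TT Λ M β) (h3 : ContDiffOn ℝ 1 β U) {u : ℂ → ℝ} (hu : TT Λ M u) : om U u β = 0 := by
  obtain ⟨hx, e, he⟩ := hu
  set A := Real.sqrt (En U u).toReal with hA
  have hA0 : 0 ≤ A := Real.sqrt_nonneg _
  refine abs_nonpos_iff.1 (le_of_forall_pos_le_add fun η hη => ?_)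
  have hδ : 0 < η / (A + 1) := by positivity
  obtain ⟨r, hr, hE⟩ := hc β h1 h2 h3 _ (pow_pos hδ 2)
  have hrx := (hM.reg r hr).xx
  have e1 : om U u r = 0 := by
    simpa using gi_adm_zero h0 he hr (H := id) contDiff_id (A0.const 1) (by simp)
  have e2 := abs_om_le hx.en (hrx.sub hU h1.xx).en
  rw [om_sub_right hU hx hrx h1.xx, e1, zero_sub, abs_neg] at e2
  have e3 : Real.sqrt (En U fun z => r z - β z).toReal ≤ η / (A + 1) := by
    rw [Real.sqrt_le_left hδ.le]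
    exact ENNReal.toReal_le_of_le_ofReal (by positivity) hE
  calc |om U u β| ≤ A * (η / (A + 1)) := e2.trans (mul_le_mul_of_nonneg_left e3 hA0)
    _ ≤ (A + 1) * (η / (A + 1)) := by gcongr; linarith
    _ = 0 + η := by field_simp; ring

theorem max_of_clM (hU : IsOpen U) {Λ : Lumps U} {M : Set (ℂ → ℝ)} (hM : Fam Λ M)
    (h0 : ∀ r ∈ M, ∀ q, Λ.osc r q = 0) (hc : ClM Λ M) : MAX Λ M := by
  intro β k h1 h2 h3 hk _ u n hx hn
  rw [gi_perp hU hM h0 hc h1 h2 h3 ⟨hx, n, hn⟩, abs_zero]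
  exact tsum_nonneg fun q => mul_nonneg (hn.l2.1 q) (hk.1 q)

/-- a signed measure on the plane that kills products of bounded continuous functions is zero -/
theorem gi_int_zero {α : Type*} [MeasurableSpace α] {μ : Measure α} {w a b : α → ℝ}
    (hw : Integrable w μ) (ha : AEMeasurable a μ) (hb : AEMeasurable b μ)
    (h : ∀ f g : ℝ →ᵇ ℝ, ∫ z, w z * (f (a z) * g (b z)) ∂μ = 0) {g : ℝ × ℝ → ℝ}
    (hg : Measurable g) {C : ℝ} (hC : ∀ y, |g y| ≤ C) : ∫ z, w z * g (a z, b z) ∂μ = 0 := by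
  let ν : (α → ℝ) → Measure (ℝ × ℝ) := fun v =>
    (μ.withDensity fun z => ((v z).toNNReal : ℝ≥0∞)).map fun z => (a z, b z)
  have hfin : ∀ v, Integrable v μ → IsFiniteMeasure (ν v) := fun v hv => by
    have := isFiniteMeasure_withDensity_ofReal hv.2
    exact Measure.isFiniteMeasure_map (μ.withDensity fun z => ENNReal.ofReal (v z)) _
  have hint : ∀ v, Integrable v μ → ∀ k : ℝ × ℝ → ℝ, Measurable k →
      ∫ p, k p ∂ν v = ∫ z, max (v z) 0 * k (a z, b z) ∂μ := fun v hv k hk => by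
    rw [integral_map ((ha.prodMk hb).mono_ac (withDensity_absolutelyContinuous _ _))
      hk.aestronglyMeasurable,
      integral_withDensity_eq_integral_smul₀ hv.aemeasurable.real_toNNReal]
    rfl
  have hdiff : ∀ k : ℝ × ℝ → ℝ, Measurable k → ∀ D, (∀ y, |k y| ≤ D) →
      ∫ z, w z * k (a z, b z) ∂μ = ∫ p, k p ∂ν w - ∫ p, k p ∂ν (-w) := fun k hk D hD => by
    have hm : AEStronglyMeasurable (fun z => k (a z, b z)) μ :=
      (hk.comp_aemeasurable (ha.prodMk hb)).aestronglyMeasurable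
    rw [hint w hw k hk, hint _ hw.neg k hk, ← integral_sub
      (hw.pos_part.mul_bdd hm (Eventually.of_forall fun z => hD _))
      (hw.neg.pos_part.mul_bdd hm (Eventually.of_forall fun z => hD _))]
    refine integral_congr_ae (Eventually.of_forall fun z => ?_)
    simp only [Pi.neg_apply]
    rw [← sub_mul, max_zero_sub_max_neg_zero_eq_self]
  have := hfin w hw
  have := hfin _ hw.neg
  have hν : ν w = ν (-w) := by
    refine Measure.ext_of_integral_mul_boundedContinuousFunction fun f g => ?_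
    have := hdiff (fun p => f p.1 * g p.2) (by fun_prop) (‖f‖ * ‖g‖) fun y => by
      rw [abs_mul]
      exact mul_le_mul (f.norm_coe_le_norm _) (g.norm_coe_le_norm _) (abs_nonneg _) (norm_nonneg _)
    rw [h f g] at this
    linarith
  rw [hdiff g hg C hC, hν, sub_self]

theorem gi_prim (f : ℝ →ᵇ ℝ) : ∃ F : ℝ → ℝ, ContDiff ℝ 1 F ∧ (∀ s, deriv F s = f s) ∧
    ∀ s s', |F s - F s'| ≤ ‖f‖ * |s - s'| := by
  have hd : ∀ s, HasDerivAt (fun u => ∫ t in (0 : ℝ)..u, f t) (f s) s := fun s =>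
    (f.continuous.integral_hasStrictDerivAt 0 s).hasDerivAt
  refine ⟨fun u => ∫ t in (0 : ℝ)..u, f t, ?_, fun s => (hd s).deriv, fun s s' => ?_⟩
  · rw [contDiff_one_iff_deriv]
    refine ⟨fun s => (hd s).differentiableAt, ?_⟩
    rw [show deriv (fun u => ∫ t in (0 : ℝ)..u, f t) = f from funext fun s => (hd s).deriv]
    exact f.continuous
  · rw [intervalIntegral.integral_interval_sub_left (f.continuous.intervalIntegrable _ _)
      (f.continuous.intervalIntegrable _ _)]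
    exact intervalIntegral.norm_integral_le_of_norm_le_const fun t _ => f.norm_coe_le_norm t

theorem iso_of_clM (hU : IsOpen U) {Λ : Lumps U} {M : Set (ℂ → ℝ)} (hM : Fam Λ M) (hC : CH Λ M)
    (h0 : ∀ r ∈ M, ∀ q, Λ.osc r q = 0) (hc : ClM Λ M) : ISO Λ M := by
  intro a b c ρ ha hTa hb hTb hb1 _ _ g hg ⟨C, hgC⟩ _
  have hma : AEMeasurable a (volume.restrict U) :=
    ha.xx.lip.continuousOn.aemeasurable hU.measurableSet
  have hmb : AEMeasurable b (volume.restrict U) :=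
    hb.xx.lip.continuousOn.aemeasurable hU.measurableSet
  refine gi_int_zero (wd_integrableOn ha.xx.en hb.xx.en) hma hmb (fun f k => ?_)
    (g := fun p => g ⟨p.1, p.2⟩) (hg.comp Complex.measurableEquivRealProd.symm.measurable)
    fun y => hgC _
  obtain ⟨F, hF1, hF2, hF3⟩ := gi_prim f
  obtain ⟨K, hK1, hK2, hK3⟩ := gi_prim k
  have h1 := gi_perp hU hM h0 hc (gi_Reg_lip hU hb (norm_nonneg _) hK3)
    (gi_TT_lip hU hC hTb (norm_nonneg _) hK3) (hK1.comp_contDiffOn hb1)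
    (gi_TT_lip hU hC hTa (norm_nonneg _) hF3)
  rw [om_comp_right hU hK1 hb.xx.lip] at h1
  rw [← h1]
  refine setIntegral_congr_ae hU.measurableSet ?_
  filter_upwards [ae_diff hU ha.xx.lip] with z hz hzU
  have h2 : fderiv ℝ (fun z => F (a z)) z = f (a z) • fderiv ℝ a z := by
    have := ((hF1.differentiable one_ne_zero (a z)).hasDerivAt).comp_hasFDerivAt z
      (hz hzU).hasFDerivAt
    rw [hF2] at this
    exact this.fderiv
  simp only [wd, h2, hK2, _root_.smul_apply, smul_eq_mul]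
  ring

/-- smoothing inside `Reg ∩ T` -/
theorem gi_smooth (hU : IsOpen U) {Λ : Lumps U} {M : Set (ℂ → ℝ)} (hM : Fam Λ M) {r : ℂ → ℝ}
    (hr : Reg Λ r) (hT : TT Λ M r) {ε : ℝ} (hε : 0 < ε) : ∃ u, Reg Λ u ∧ TT Λ M u ∧
      ContDiffOn ℝ 1 u U ∧ (∀ q, Λ.osc u q = Λ.osc r q) ∧ (∀ z ∈ U, |u z - r z| ≤ ε) ∧
      En U (fun z => u z - r z) ≤ ENNReal.ofReal ε := by
  obtain ⟨u, h1, h2, h3, h4, h5⟩ := exists_smooth hU Λ hr.xx hε
  have hb : Bdd U u := by
    obtain ⟨B, hB⟩ := hr.bdd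
    refine ⟨B + ε, fun z hz => ?_⟩
    have := abs_add_le (u z - r z) (r z)
    rw [sub_add_cancel] at this
    linarith [h3 z hz, hB z hz]
  have ho : ∀ q, Λ.osc u q = Λ.osc r q := fun q => by
    obtain ⟨e1, e2⟩ := Λ.lo_congr hb hr.bdd (h5 q)
    simp only [Lumps.osc, e1, e2]
  refine ⟨u, ⟨h1, hb, by simpa only [ho] using hr.sq⟩, ⟨h1, ?_⟩, h2.of_le (by simp), ho, h3, h4⟩
  obtain ⟨_, e, he⟩ := hT
  refine ⟨e, he.l2, fun c hc H hH χ hχ hF => ?_⟩
  have hHc := (hM.reg c hc).xx.comp_C1 hU hH (hM.reg c hc).bdd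
  have hd := (h1.sub hU hr.xx).mul_A0 hU Λ hχ
  have e1 : om U (fun z => (u z - r z) * χ z) (fun z => H (c z)) = 0 := by
    refine om_vanish hU Λ hd hHc fun q η hη => ?_
    obtain ⟨B, hB⟩ := hχ.bdd Λ
    have hB1 : 0 < |B| + 1 := by positivity
    obtain ⟨n, hn⟩ := h5 q (η / (|B| + 1)) (by positivity)
    refine ⟨n, fun z hz => ?_⟩
    rw [abs_mul]
    calc |u z - r z| * |χ z| ≤ η / (|B| + 1) * (|B| + 1) :=
          mul_le_mul (hn z hz) ((hB z (Λ.sub n q hz).1).trans (by linarith [le_abs_self B]))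
            (abs_nonneg _) (by positivity)
      _ = η := by field_simp
  have e2 : (fun z => u z * χ z) = fun z => (u z - r z) * χ z + r z * χ z := by
    funext z; ring
  rw [e2, om_add_left hU hd (hr.xx.mul_A0 hU Λ hχ) hHc, e1, zero_add]
  exact he.le c hc H hH χ hχ hF

theorem gi_En_tri (hU : IsOpen U) {u v w : ℂ → ℝ} (hu : XX U u) (hv : XX U v) (hw : XX U w)
    {ε : ℝ} (hε : 0 ≤ ε) (h1 : En U (fun z => u z - v z) ≤ ENNReal.ofReal (ε / 4))
    (h2 : En U (fun z => v z - w z) ≤ ENNReal.ofReal (ε / 4)) :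
    En U (fun z => u z - w z) ≤ ENNReal.ofReal ε := by
  have h3 := sqrt_En_add_le hU (hu.sub hU hv) (hv.sub hU hw)
  simp only [sub_add_sub_cancel] at h3
  have h4 : ∀ x : ℝ≥0∞, x ≤ ENNReal.ofReal (ε / 4) → Real.sqrt x.toReal ≤ Real.sqrt ε / 2 := by
    intro x hx
    rw [Real.sqrt_le_left (by positivity), div_pow, Real.sq_sqrt hε]
    exact (ENNReal.toReal_le_of_le_ofReal (by positivity) hx).trans_eq (by norm_num)
  rw [ENNReal.le_ofReal_iff_toReal_le (hu.sub hU hw).en.ne hε,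
    ← Real.sqrt_le_sqrt_iff hε]
  linarith [h4 _ h1, h4 _ h2]

/-- the hypothesis of `EndOut.nonode` -/
theorem nonode_of_clM (hU : IsOpen U) {Λ : Lumps U} {M : Set (ℂ → ℝ)} (hM : Fam Λ M)
    (h0 : ∀ r ∈ M, ∀ q, Λ.osc r q = 0) (hc : ClM Λ M) :
    ∀ r, Reg Λ r → TT Λ M r → ∀ ε > 0, ∃ r', Reg Λ r' ∧ TT Λ M r' ∧
      (∀ q, Λ.osc r' q = 0) ∧ En U (fun z => r' z - r z) ≤ ENNReal.ofReal ε := by
  intro r hr hT ε hε
  have h4 : 0 < ε / 4 := by positivity
  obtain ⟨u, h1, h2, h3, -, -, h6⟩ := gi_smooth hU hM hr hT h4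
  obtain ⟨r', hr', h7⟩ := hc u h1 h2 h3 _ h4
  have hx := hM.reg r' hr'
  exact ⟨r', hx, ⟨hx.xx, _, hM.compat r' hr'⟩, h0 r' hr', gi_En_tri hU hx.xx h1.xx hr.xx hε.le h7 h6⟩

end Crest.Agent.R105
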