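import Crest.Agent.R105.NDefs

/-! Row 105: existence of the lump structure (Freudenthal ends). -/

set_option autoImplicit false

open MeasureTheory Set Filter Topology
open scoped ENNReal

namespace Crest.Agent.R105

variable {U : Set ℂ}

/-- the points of `U` close to the complement -/
def h48G (U : Set ℂ) (n : ℕ) : Set ℂ := U ∩ Metric.thickening (1 / ((n : ℝ) + 1)) Uᶜ

/-- the exhaustion -/
def h48K (U : Set ℂ) (R : ℝ) (n : ℕ) : Set ℂ :=
  Metric.closedBall 0 R \ Metric.thickening (1 / ((n : ℝ) + 1)) Uᶜ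

/-- the component of `z` reaches the boundary -/
def h48D (U : Set ℂ) (n : ℕ) (z : ℂ) : Prop :=
  z ∈ h48G U n ∧ ∀ m, (connectedComponentIn (h48G U n) z ∩ h48G U m).Nonempty

theorem h48_th {m n : ℕ} (h : m ≤ n) :
    Metric.thickening (1 / ((n : ℝ) + 1)) Uᶜ ⊆ Metric.thickening (1 / ((m : ℝ) + 1)) Uᶜ :=
  Metric.thickening_mono (Nat.one_div_le_one_div h) _

theorem h48G_anti {m n : ℕ} (h : m ≤ n) : h48G U n ⊆ h48G U m := inter_subset_inter_right _ (h48_th h)

theorem h48G_open (hU : IsOpen U) (n : ℕ) : IsOpen (h48G U n) := hU.inter Metric.isOpen_thickening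

theorem h48K_cpt (R : ℝ) (n : ℕ) : IsCompact (h48K U R n) :=
  (isCompact_closedBall 0 R).diff Metric.isOpen_thickening

theorem h48K_sub (R : ℝ) (n : ℕ) : h48K U R n ⊆ U := fun z hz => by
  by_contra h
  exact hz.2 (Metric.self_subset_thickening Nat.one_div_pos_of_nat _ h)

theorem h48_clos (hU : IsOpen U) {n : ℕ} {z w : ℂ} (hw : w ∈ h48G U n)
    (h : w ∈ closure (connectedComponentIn (h48G U n) z)) :
    w ∈ connectedComponentIn (h48G U n) z := by
  obtain ⟨y, h1, h2⟩ := mem_closure_iff.1 h _ (h48G_open hU n).connectedComponentIn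
    (mem_connectedComponentIn hw)
  rw [connectedComponentIn_eq h2, ← connectedComponentIn_eq h1]
  exact mem_connectedComponentIn hw

theorem h48_finite (hU : IsOpen U) (hc : IsPreconnected U) {R : ℝ} (hR : ∀ n, h48G U n ⊆ Metric.ball 0 R)
    {z₀ : ℂ} (h0 : z₀ ∈ U) (h1 : z₀ ∉ Metric.ball 0 R) (n : ℕ) :
    {A | (∃ z, A = connectedComponentIn (h48G U n) z) ∧ (A ∩ h48G U (n + 1)).Nonempty}.Finite := by
  have hct : Metric.cthickening (1 / (((n + 1 : ℕ) : ℝ) + 1)) Uᶜ ⊆
      Metric.thickening (1 / ((n : ℝ) + 1)) Uᶜ :=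
    Metric.cthickening_subset_thickening' Nat.one_div_pos_of_nat
      (Nat.one_div_lt_one_div (Nat.lt_succ_self n)) _
  have hS : IsCompact (h48K U R (n + 1) ∩ Metric.cthickening (1 / (((n + 1 : ℕ) : ℝ) + 1)) Uᶜ) :=
    (h48K_cpt R _).inter_right Metric.isClosed_cthickening
  obtain ⟨t, ht⟩ := hS.elim_finite_subcover (fun z => connectedComponentIn (h48G U n) z)
    (fun z => (h48G_open hU n).connectedComponentIn) fun z hz =>
      mem_iUnion.2 ⟨z, mem_connectedComponentIn ⟨h48K_sub R _ hz.1, hct hz.2⟩⟩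
  refine (t.finite_toSet.image fun z => connectedComponentIn (h48G U n) z).subset ?_
  rintro A ⟨⟨z, rfl⟩, hne⟩
  by_contra hA
  refine h1 (hR (n + 1) (hc.subset_of_closure_inter_subset
    ((h48G_open hU n).connectedComponentIn.inter (h48G_open hU (n + 1)))
    (hne.mono fun y hy => ⟨hy.2.1, hy⟩) (fun w hw => ?_) h0).2)
  have h2 : w ∈ Metric.cthickening (1 / (((n + 1 : ℕ) : ℝ) + 1)) Uᶜ :=
    Metric.closure_thickening_subset_cthickening _ _ (closure_mono (fun y hy => hy.2.2) hw.1)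
  have h3 : w ∈ h48G U n := ⟨hw.2, hct h2⟩
  have h4 := h48_clos hU h3 (closure_mono inter_subset_left hw.1)
  refine ⟨h4, hw.2, ?_⟩
  by_contra h5
  obtain ⟨y, hy, h6⟩ := mem_iUnion₂.1 (ht ⟨⟨Metric.ball_subset_closedBall (hR n h3), h5⟩, h2⟩)
  exact hA ⟨y, hy, (connectedComponentIn_eq h6).trans (connectedComponentIn_eq h4).symm⟩

theorem h48_level {n : ℕ} (hf : {A | (∃ z, A = connectedComponentIn (h48G U n) z) ∧
      (A ∩ h48G U (n + 1)).Nonempty}.Finite) : ∃ M, n ≤ M ∧ ∀ z ∈ h48G U M, h48D U n z := by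
  have h1 : ∀ᶠ M in atTop, ∀ A ∈ {A | (∃ z, A = connectedComponentIn (h48G U n) z) ∧
      (A ∩ h48G U (n + 1)).Nonempty}, (A ∩ h48G U M).Nonempty → ∀ m, (A ∩ h48G U m).Nonempty := by
    refine (eventually_all_finite hf).2 fun A _ => ?_
    by_cases h : ∀ m, (A ∩ h48G U m).Nonempty
    · exact Eventually.of_forall fun _ _ => h
    · obtain ⟨m, hm⟩ := not_forall.1 h
      filter_upwards [eventually_ge_atTop m] with M hM hne
      exact absurd (hne.mono (inter_subset_inter_right _ (h48G_anti hM))) hm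
  obtain ⟨M, h2, h3⟩ := (h1.and (eventually_ge_atTop (n + 1))).exists
  refine ⟨M, by omega, fun z hz => ?_⟩
  have h4 : z ∈ h48G U n := h48G_anti (by omega) hz
  exact ⟨h4, h2 _ ⟨⟨z, rfl⟩, z, mem_connectedComponentIn h4, h48G_anti h3 hz⟩
    ⟨z, mem_connectedComponentIn h4, hz⟩⟩

theorem h48_end (hM : ∀ n, ∃ M, n ≤ M ∧ ∀ z ∈ h48G U M, h48D U n z) {n : ℕ} {z : ℂ}
    (hz : h48D U n z) : ∃ W : ℕ → Set ℂ,
      ((∀ m, ∃ y, h48D U m y ∧ W m = connectedComponentIn (h48G U m) y) ∧ ∀ m, W (m + 1) ⊆ W m) ∧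
        W n = connectedComponentIn (h48G U n) z := by
  have step : ∀ m y, ∃ y', h48D U m y →
      h48D U (m + 1) y' ∧ y' ∈ connectedComponentIn (h48G U m) y := by
    intro m y
    by_cases hy : h48D U m y
    · obtain ⟨M, -, h⟩ := hM (m + 1)
      obtain ⟨y', h1, h2⟩ := hy.2 M
      exact ⟨y', fun _ => ⟨h y' h2, h1⟩⟩
    · exact ⟨y, fun h => absurd h hy⟩
  choose nx hnx using step
  let p : ℕ → ℂ := fun k => Nat.rec z (fun k y => nx (n + k) y) k
  have hp : ∀ k, h48D U (n + k) (p k) := fun k => by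
    induction k with
    | zero => exact hz
    | succ k ih => exact (hnx _ _ ih).1
  have hp' : ∀ k m, m ≤ n + k → connectedComponentIn (h48G U m) (p k) =
      connectedComponentIn (h48G U m) (p (k + 1)) := fun k m hm =>
    connectedComponentIn_eq (connectedComponentIn_mono _ (h48G_anti hm) (hnx _ _ (hp k)).2)
  refine ⟨fun m => connectedComponentIn (h48G U m) (p m), ⟨fun m => ⟨p m, ⟨h48G_anti
    (Nat.le_add_left _ _) (hp m).1, fun l => ((hp m).2 l).mono (inter_subset_inter_left _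
      (connectedComponentIn_mono _ (h48G_anti (Nat.le_add_left _ _))))⟩, rfl⟩, fun m => ?_⟩, ?_⟩
  · dsimp only
    rw [hp' m m (Nat.le_add_left _ _)]
    exact connectedComponentIn_mono _ (h48G_anti (Nat.le_succ m))
  · have : ∀ k, connectedComponentIn (h48G U n) (p k) = connectedComponentIn (h48G U n) z := by
      intro k
      induction k with
      | zero => rfl
      | succ k ih => rw [← hp' k n (Nat.le_add_right _ _), ih]
    exact this n

/-- Let `K n = {z | ‖z‖ ≤ R, 1/(n+1) ≤ infDist z Uᶜ}` (compact in `U`; if `Uᶜ = ∅` take `E`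
empty), `G n = (U ∩ ball 0 R) \ K n` (choose `R` with `Uᶜ ⊆ ball 0 (R-2)`, so `G n` stays in
`closedBall 0 (R-1)`).  Call a component of `G n` big if it is contained in no `K m`.
`E` = sequences of big components `W n`, decreasing.  Only finitely many components of `G n`
are not contained in `K (n+1)` (each meets the compact set `{infDist = 1/(n+2)}`-level inside
`G n` because `U` is connected; the components are open and disjoint).  `C n` = `K m` for `m`
so large that it contains all components of `G n` that are not big.  Every big component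
contains a big component of the next level, König's lemma by finite branching. -/
theorem exists_lumps (hU : Crest.AnalysisR.IsExteriorDomain U) : Nonempty (Lumps U) := by
  obtain ⟨hU, hc, R₀, hR₀⟩ := hU
  have hfar : ∀ z : ℂ, |R₀| + 1 ≤ ‖z‖ → z ∈ U := fun z hz => hR₀ z (by linarith [le_abs_self R₀])
  have hR : ∀ n, h48G U n ⊆ Metric.ball 0 (|R₀| + 1) := by
    intro n z hz
    obtain ⟨w, hw, hd⟩ := Metric.mem_thickening_iff.1 hz.2
    have h1 : ‖w‖ ≤ R₀ := not_lt.1 fun h => hw (hR₀ w h)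
    have h2 : 1 / ((n : ℝ) + 1) ≤ 1 :=
      (div_le_one (by positivity)).2 (by linarith [Nat.cast_nonneg (α := ℝ) n])
    have h3 := dist_triangle z w 0
    rw [dist_zero_right w] at h3
    rw [Metric.mem_ball]
    linarith [le_abs_self R₀]
  have hn : ‖((|R₀| + 1 : ℝ) : ℂ)‖ = |R₀| + 1 := by
    rw [Complex.norm_real, Real.norm_of_nonneg (by positivity)]
  have hfin := h48_finite hU hc.isPreconnected hR (hfar _ hn.ge)
    (by rw [mem_ball_zero_iff, hn]; exact lt_irrefl _)
  have hM := fun n => h48_level (hfin n)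
  have hend := fun n z (hz : h48D U n z) => h48_end hM hz
  choose M hM1 hM2 using hM
  let E := {W : ℕ → Set ℂ // (∀ m, ∃ y, h48D U m y ∧ W m = connectedComponentIn (h48G U m) y) ∧
    ∀ m, W (m + 1) ⊆ W m}
  have hsub : ∀ n (q : E), q.1 n ⊆ h48G U n := fun n q => by
    obtain ⟨y, -, e⟩ := q.2.1 n
    rw [e]
    exact connectedComponentIn_subset _ _
  have hpart : ∀ n (q q' : E), q.1 n = q'.1 n ∨ Disjoint (q.1 n) (q'.1 n) := by
    intro n q q'
    obtain ⟨y, -, e⟩ := q.2.1 n
    obtain ⟨y', -, e'⟩ := q'.2.1 n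
    rw [e, e', or_iff_not_imp_right, not_disjoint_iff]
    rintro ⟨w, h1, h2⟩
    exact (connectedComponentIn_eq h1).trans (connectedComponentIn_eq h2).symm
  have hrange : ∀ n, (Set.range fun q : E => q.1 n).Finite := by
    intro n
    refine (hfin n).subset ?_
    rintro _ ⟨q, rfl⟩
    obtain ⟨y, hy, e⟩ := q.2.1 n
    exact ⟨⟨y, e⟩, by rw [show (fun q : E => q.1 n) q = _ from e]; exact hy.2 _⟩
  refine ⟨⟨|R₀| + 1, E, fun n q => q.1 n, fun n => h48K U (|R₀| + 1) (M n), hfar, fun n q => ?_,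
    fun n q => ?_, fun n q z hz => ⟨(hsub n q hz).1, hR n (hsub n q hz)⟩, hpart, hrange,
    fun n q => q.2.2 n, fun q q' hne => ?_, fun f => ?_, fun n => h48K_cpt _ _,
    fun n => h48K_sub _ _, fun n z hz hzC => ?_, fun n q z hz hcl => ?_, fun K hK hKU => ?_⟩⟩
  · obtain ⟨y, -, e⟩ := q.2.1 n
    rw [e]
    exact (h48G_open hU n).connectedComponentIn
  · obtain ⟨y, hy, e⟩ := q.2.1 n
    rw [e]
    exact isConnected_connectedComponentIn_iff.2 hy.1
  · by_contra h
    exact hne (Subtype.ext (funext fun n => (hpart n q q').resolve_right fun h' => h ⟨n, h'⟩))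
  · by_contra h
    push Not at h
    choose q hq using h
    have h1 : ∀ n, ∃ A, ∀ᶠ N in (hyperfilter ℕ : Filter ℕ), (q N).1 n = A := by
      intro n
      obtain ⟨A, -, hA⟩ := ((hyperfilter ℕ).map fun N => (q N).1 n).eq_pure_of_finite_mem
        (hrange n) (Ultrafilter.mem_map.2 (univ_mem' fun N => ⟨q N, rfl⟩))
      refine ⟨A, ?_⟩
      have h2 : {A} ∈ (hyperfilter ℕ).map fun N => (q N).1 n := by
        rw [hA]
        exact Ultrafilter.mem_pure.2 rfl
      exact h2
    choose A hA using h1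
    let q' : E := ⟨A, fun m => by
      obtain ⟨N, hN⟩ := (hA m).exists
      exact hN ▸ (q N).2.1 m, fun m => by
      obtain ⟨N, h1, h2⟩ := ((hA m).and (hA (m + 1))).exists
      exact h1 ▸ h2 ▸ (q N).2.2 m⟩
    obtain ⟨N, h1, h2⟩ := ((hA (f q')).and
      ((eventually_ge_atTop (f q')).filter_mono Nat.hyperfilter_le_atTop)).exists
    exact hq N q' h2 h1
  · rw [or_iff_not_imp_left, not_le]
    intro hlt
    have h1 : z ∈ h48G U (M n) := ⟨hz, by
      by_contra h
      exact hzC ⟨mem_closedBall_zero_iff.2 hlt.le, h⟩⟩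
    obtain ⟨W, hW, e⟩ := hend n z (hM2 n z h1)
    exact ⟨⟨W, hW⟩, by
      change z ∈ W n
      rw [e]
      exact mem_connectedComponentIn (hM2 n z h1).1⟩
  · by_cases h : z ∈ h48G U n
    · obtain ⟨y, -, e⟩ := q.2.1 n
      left
      rw [e] at hcl ⊢
      exact h48_clos hU h hcl
    · exact Or.inr ⟨Metric.closure_ball_subset_closedBall
        (closure_mono ((hsub n q).trans (hR n)) hcl), fun h' => h ⟨hz, h48_th (hM1 n) h'⟩⟩
  · obtain ⟨δ, hδ, h⟩ := hK.exists_thickening_subset_open hU hKU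
    obtain ⟨n, hn⟩ := exists_nat_one_div_lt hδ
    refine ⟨n, fun q => disjoint_left.2 fun z hz hzK => ?_⟩
    obtain ⟨w, hw, hd⟩ := Metric.mem_thickening_iff.1 (hsub n q hz).2
    exact hw (h (Metric.mem_thickening_iff.2 ⟨z, hzK, by rw [dist_comm]; exact hd.trans hn⟩))

end Crest.Agent.R105
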