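import Crest.Agent.R105.ADefs
import Crest.Agent.R105.BTop4
import Crest.Agent.R105.BFin
import Crest.Agent.R105.GRIso
import Crest.Agent.R105.GMain
import Crest.Agent.R105.CH
import Crest.Agent.R105.NLump

/-! Row 105 (B): `StB` from the main approximation theorem and the final minimisation. -/

set_option autoImplicit false

open MeasureTheory Set Filter Topology Crest.AnalysisR
open scoped ENNReal

namespace Crest.Agent.R105

/-- block MAIN -/
def BlkMAIN : Prop := ∀ U : Set ℂ, IsExteriorDomain U → ∀ (Λ : Lumps U) (M : Set (ℂ → ℝ)),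
  Fam Λ M → CH Λ M → MAX Λ M → MAIN Λ M

/-- block END -/
def BlkEND : Prop := ∀ U : Set ℂ, IsExteriorDomain U → ∀ (Λ : Lumps U) (M : Set (ℂ → ℝ)),
  Fam Λ M → CH Λ M → MAIN Λ M → ISO Λ M → ∃ f c ρ, EndOut Λ M f c ρ

theorem bp_affine {a b b' : ℂ} {f : ℂ → ℂ} {R : ℝ} (h : ∀ z : ℂ, R ≤ ‖z‖ → f z = a * z + b)
    (hb : Tendsto (fun z => f z - z) (cocompact ℂ) (𝓝 b')) : a = 1 := by
  by_contra ha
  have ha' : 0 < ‖a - 1‖ := norm_pos_iff.2 (sub_ne_zero.2 ha)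
  have h1 := (Metric.tendsto_nhds.1 hb) 1 one_pos
  have h2 : ∀ᶠ z : ℂ in cocompact ℂ, max R ((‖b‖ + ‖b'‖ + 1) / ‖a - 1‖) ≤ ‖z‖ :=
    (tendsto_norm_cocompact_atTop (E := ℂ)).eventually (eventually_ge_atTop _)
  obtain ⟨z, hz1, hz2⟩ := (h1.and h2).exists
  rw [h z ((le_max_left _ _).trans hz2), dist_eq_norm] at hz1
  have h3 := (div_le_iff₀ ha').1 ((le_max_right _ _).trans hz2)
  have h4 : (a - 1) * z = (a * z + b - z - b') - b + b' := by ring
  have h5 : ‖(a - 1) * z‖ ≤ ‖a * z + b - z - b'‖ + ‖b‖ + ‖b'‖ := by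
    rw [h4]
    exact (norm_add_le _ _).trans (by gcongr; exact norm_sub_le _ _)
  rw [norm_mul] at h5
  linarith

theorem stB_of (h1 : BlkMAIN) (h2 : BlkEND) : StB := by
  intro E hE hd hc hrem ρ hρc hρs hρ1 hρe v
  have hUo : IsOpen Eᶜ := hE.isClosed.isOpen_compl
  have hU : IsExteriorDomain Eᶜ := by
    obtain ⟨R, hR⟩ := hE.isBounded.subset_closedBall 0
    refine ⟨hUo, hc, R, fun z hz hzE => ?_⟩
    have := hR hzE
    simp only [mem_closedBall_zero_iff] at this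
    linarith
  obtain ⟨Λ⟩ := exists_lumps hU
  have hdust : Dust Λ := fun q => dust_pt hE hd Λ q
  have hρ1' : ContDiffOn ℝ 1 ρ Eᶜ := hρ1.of_le (by exact_mod_cast le_top)
  have hX : XX Eᶜ ρ := by
    refine ⟨fun z hz => ?_, ?_, ?_⟩
    · obtain ⟨K, t, ht, hK⟩ := (hρ1'.contDiffAt (hUo.mem_nhds hz)).exists_lipschitzOnWith
      exact ⟨K, t, mem_nhdsWithin_of_mem_nhds ht, hK⟩
    · obtain ⟨R, hR⟩ := hρs.isCompact.isBounded.subset_ball 0
      refine ⟨R, 0, fun z hz => ?_⟩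
      by_contra h
      have := hR (subset_tsupport _ h)
      simp only [mem_ball_zero_iff] at this
      linarith
    · refine lt_of_le_of_lt (le_of_eq ?_) hρe.2
      refine lintegral_congr fun z => ?_
      rw [enorm_pow, enorm_norm]
  have hb : Bdd Eᶜ ρ := by
    obtain ⟨C, hC⟩ := hρc.bounded_above_of_compact_support hρs
    exact ⟨C, fun z _ => hC z⟩
  have ho : ∀ q, Λ.osc ρ q = 0 := by
    intro q
    refine le_antisymm (Λ.osc_le hb fun η hη => ?_) (Λ.osc_nonneg hb q)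
    obtain ⟨p, -, hp⟩ := hdust q
    obtain ⟨δ, hδ, h⟩ := Metric.continuousAt_iff.1 (hρc.continuousAt (x := p)) (η / 2) (by linarith)
    obtain ⟨n, hn⟩ := hp δ hδ
    refine ⟨n, fun z hz z' hz' => ?_⟩
    have a1 := abs_lt.1 (h (hn hz))
    have a2 := abs_lt.1 (h (hn hz'))
    linarith [a1.2, a2.1]
  refine b_final hUo Λ hX hρs (fun ε hε => ?_) v
  obtain ⟨M, hF, hC, h0, hM, r, hr, hr1, -⟩ := gr_main hUo Λ hdust
    (fun c c1 c2 c3 => ch_cont hUo hc.isPreconnected Λ fun r hr => by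
      rw [mem_singleton_iff.1 hr]; exact ⟨c1, c3, c2⟩) hX hb ho hε
  obtain ⟨f, c, ρ', hO⟩ := h2 _ hU Λ M hF hC (h1 _ hU Λ M hF hC (max_of_clM hUo hF h0 hM))
    (iso_of_clM hUo hF hC h0 hM)
  obtain ⟨n1, n2⟩ := hO.nonode (nonode_of_clM hUo hF h0 hM)
  obtain ⟨φ, hφ⟩ := ext_homeo hE hd hc hO n1
  obtain ⟨a, b, hab⟩ := hrem φ (hO.hol.congr hφ)
  have hf : ∀ z ∈ Eᶜ, f z = a * z + b := fun z hz => (hφ hz).symm.trans (hab z)
  obtain ⟨b', hb'⟩ := hO.inf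
  have ha : a = 1 := bp_affine (fun z hz => hf z (Λ.far z hz)) hb'
  have hrR := hF.reg r hr
  exact ⟨r, hrR.xx, hr1, f, b, fun z hz => by rw [hf z hz, ha, one_mul],
    n2 r ⟨hrR.xx, _, hF.compat r hr⟩ hrR.bdd⟩

end Crest.Agent.R105
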