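import Crest.Agent.R105.NDefs

/-! Row 105 (B), topology 1: unicoherence of the plane, dust does not separate locally. -/

set_option autoImplicit false

open MeasureTheory Set Filter Topology

namespace Crest.Agent.R105

theorem bt52_const {s : Set ℂ} (hs : IsPreconnected s) {g : ℂ → ℂ} (hg : ContinuousOn g s) {c : ℂ}
    (h : ∀ z ∈ s, Complex.exp (g z) = c) {a b : ℂ} (ha : a ∈ s) (hb : b ∈ s) : g a = g b :=
  Complex.isCoveringMap_exp.constOn_of_comp hs hg
    (fun x hx y hy => Subtype.ext (by simp only [h x hx, h y hy])) ha hb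

theorem bt52_log {f : ℂ → ℂ} (hf : Continuous f) (h0 : ∀ z, f z ≠ 0) :
    ∃ L : ℂ → ℂ, Continuous L ∧ ∀ z, Complex.exp (L z) = f z := by
  obtain ⟨F, ⟨-, hF⟩, -⟩ := Complex.isCoveringMapOn_exp.existsUnique_continuousMap_lifts
    (⟨f, hf⟩ : C(ℂ, ℂ)) (a₀ := 0) (e₀ := Complex.log (f 0)) (Complex.exp_log (h0 _)) h0
  exact ⟨F, F.continuous, fun z => congrFun hF z⟩

open Metric in
/-- Phragmén–Brouwer in the plane -/
theorem bt52_pb {F₁ F₂ C₁ C₂ : Set ℂ} (h₁ : IsClosed F₁) (h₂ : IsClosed F₂)
    (hd : Disjoint F₁ F₂) {a b : ℂ} (hC₁ : IsPreconnected C₁) (hC₂ : IsPreconnected C₂)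
    (ha₁ : a ∈ C₁) (hb₁ : b ∈ C₁) (ha₂ : a ∈ C₂) (hb₂ : b ∈ C₂)
    (hd₁ : Disjoint C₁ F₁) (hd₂ : Disjoint C₂ F₂) :
    b ∈ connectedComponentIn (F₁ ∪ F₂)ᶜ a := by
  classical
  have hW : IsOpen (F₁ ∪ F₂)ᶜ := (h₁.union h₂).isOpen_compl
  have haW : a ∈ (F₁ ∪ F₂)ᶜ := fun h => h.elim (disjoint_left.1 hd₁ ha₁) (disjoint_left.1 hd₂ ha₂)
  have hbW : b ∈ (F₁ ∪ F₂)ᶜ := fun h => h.elim (disjoint_left.1 hd₁ hb₁) (disjoint_left.1 hd₂ hb₂)
  set U := connectedComponentIn (F₁ ∪ F₂)ᶜ a with hU
  have hUo : IsOpen U := hW.connectedComponentIn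
  by_contra hb
  rcases F₁.eq_empty_or_nonempty with rfl | n₁
  · exact hb (hC₂.subset_connectedComponentIn (F := (∅ ∪ F₂)ᶜ) ha₂
      (fun z hz h => Or.elim h id (disjoint_left.1 hd₂ hz)) hb₂)
  rcases F₂.eq_empty_or_nonempty with rfl | n₂
  · exact hb (hC₁.subset_connectedComponentIn (F := (F₁ ∪ ∅)ᶜ) ha₁
      (fun z hz h => Or.elim h (disjoint_left.1 hd₁ hz) id) hb₁)
  have p₁ : ∀ z, z ∉ F₁ → 0 < infDist z F₁ := fun z hz => (h₁.notMem_iff_infDist_pos n₁).1 hz
  have p₂ : ∀ z, z ∉ F₂ → 0 < infDist z F₂ := fun z hz => (h₂.notMem_iff_infDist_pos n₂).1 hz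
  set m : ℂ → ℝ := fun z => infDist z F₁ * infDist z F₂ with hm
  have hmc : Continuous m := (continuous_infDist_pt F₁).mul (continuous_infDist_pt F₂)
  have hm0 : ∀ z ∈ (F₁ ∪ F₂)ᶜ, 0 < m z := fun z hz =>
    mul_pos (p₁ z fun h => hz (Or.inl h)) (p₂ z fun h => hz (Or.inr h))
  set s : ℂ → ℝ := fun z => if z ∈ U then m z else -m z with hs
  have hsc : Continuous s := by
    rw [continuous_iff_continuousAt]
    intro z
    by_cases hzU : z ∈ U
    · refine hmc.continuousAt.congr ?_
      filter_upwards [hUo.mem_nhds hzU] with w hw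
      simp only [hs, if_pos hw]
    by_cases hzW : z ∈ (F₁ ∪ F₂)ᶜ
    · refine hmc.neg.continuousAt.congr ?_
      filter_upwards [hW.connectedComponentIn.mem_nhds (mem_connectedComponentIn hzW)] with w hw
      have hw' : w ∉ U := fun h => hzU (by
        rw [hU, connectedComponentIn_eq h, ← connectedComponentIn_eq hw]
        exact mem_connectedComponentIn hzW)
      simp only [hs, if_neg hw', Pi.neg_apply]
    · have hz0 : m z = 0 := by
        rcases not_not.1 hzW with h | h
        · simp [hm, infDist_zero_of_mem h]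
        · simp [hm, infDist_zero_of_mem h]
      have hsz : s z = 0 := by simp [hs, hz0]
      rw [ContinuousAt, hsz]
      have h1 : Tendsto (fun w => |m w|) (𝓝 z) (𝓝 0) := by
        have := hmc.abs.continuousAt (x := z)
        rwa [ContinuousAt, hz0, abs_zero] at this
      refine squeeze_zero_norm (fun w => ?_) h1
      simp only [hs]
      split_ifs <;> simp
  have hs0 : ∀ z ∈ (F₁ ∪ F₂)ᶜ, s z ≠ 0 := fun z hz => by
    have := hm0 z hz
    simp only [hs]
    split_ifs
    · exact this.ne'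
    · exact (neg_neg_iff_pos.2 this).ne
  set g : ℂ → ℂ := fun z => ((infDist z F₂ - infDist z F₁ : ℝ) : ℂ) + (s z : ℂ) * Complex.I with hg
  have hgc : Continuous g := by
    have := continuous_infDist_pt F₁
    have := continuous_infDist_pt F₂
    simp only [hg]
    fun_prop
  have hre : ∀ z, (g z).re = infDist z F₂ - infDist z F₁ := fun z => by simp [hg]
  have him : ∀ z, (g z).im = s z := fun z => by simp [hg]
  have g2 : ∀ z, z ∉ F₂ → g z ∈ Complex.slitPlane := fun z hz => by
    by_cases h : z ∈ F₁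
    · left
      rw [hre, infDist_zero_of_mem h, sub_zero]
      exact p₂ z hz
    · right
      rw [him]
      exact hs0 z fun h' => h'.elim h hz
  have g1 : ∀ z, z ∉ F₁ → -g z ∈ Complex.slitPlane := fun z hz => by
    by_cases h : z ∈ F₂
    · left
      rw [Complex.neg_re, hre, infDist_zero_of_mem h, zero_sub, neg_neg]
      exact p₁ z hz
    · right
      rw [Complex.neg_im, him]
      exact neg_ne_zero.2 (hs0 z fun h' => h'.elim hz h)
  have g0 : ∀ z, g z ≠ 0 := fun z => by
    by_cases h : z ∈ F₂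
    · exact neg_ne_zero.1 (Complex.slitPlane_ne_zero (g1 z fun h' => disjoint_left.1 hd h' h))
    · exact Complex.slitPlane_ne_zero (g2 z h)
  obtain ⟨L, hL, hE⟩ := bt52_log hgc g0
  have e2 := bt52_const hC₂ (g := fun z => L z - Complex.log (g z)) (c := 1)
    (hL.continuousOn.sub (hgc.continuousOn.clog fun z hz => g2 z (disjoint_left.1 hd₂ hz)))
    (fun z _ => by rw [Complex.exp_sub, hE, Complex.exp_log (g0 z), div_self (g0 z)]) ha₂ hb₂
  have e1 := bt52_const hC₁ (g := fun z => L z - Complex.log (-g z)) (c := -1)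
    (hL.continuousOn.sub (hgc.neg.continuousOn.clog fun z hz => g1 z (disjoint_left.1 hd₁ hz)))
    (fun z _ => by
      rw [Complex.exp_sub, hE, Complex.exp_log (neg_ne_zero.2 (g0 z)), div_neg, div_self (g0 z)])
    ha₁ hb₁
  have e3 : Complex.log (g a) - Complex.log (-g a) = Complex.log (g b) - Complex.log (-g b) := by
    linear_combination e1 - e2
  have e4 := congrArg Complex.im e3
  have ia : 0 < (g a).im := by
    rw [him]
    have haU : a ∈ U := mem_connectedComponentIn haW
    simp only [hs, if_pos haU]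
    exact hm0 a haW
  have ib : (g b).im < 0 := by
    rw [him]
    simp only [hs, if_neg hb]
    exact neg_neg_iff_pos.2 (hm0 b hbW)
  rw [Complex.sub_im, Complex.sub_im, Complex.log_im, Complex.log_im, Complex.log_im,
    Complex.log_im, Complex.arg_neg_eq_arg_sub_pi_of_im_pos ia,
    Complex.arg_neg_eq_arg_add_pi_of_im_neg ib] at e4
  linarith [Real.pi_pos]

/-- Unicoherence of the plane for open sets.  If `A ∩ B = O₁ ⊔ O₂` (open, nonempty), let
`θ = d(z,Aᶜ)/(d(z,Aᶜ)+d(z,Bᶜ))` (or Urysohn), `g = exp (π i θ)` off `O₂`, `exp (-π i θ)` on `O₂`;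
`g` is continuous, has a continuous logarithm `L` (ℂ is contractible); on `A` we have `g ≠ 1`, on `B`
we have `g ≠ -1`, so `L` differs by a constant from `log (-g)` on `A` and from `log g` on `B`;
compare on `O₁` and on `O₂` (see the end of `Crest.Agent.R193.phragmen_brouwer`). -/
theorem unicoh_open {A B : Set ℂ} (hA : IsOpen A) (hB : IsOpen B) (hAc : IsPreconnected A)
    (hBc : IsPreconnected B) (hAB : A ∪ B = univ) : IsPreconnected (A ∩ B) := by
  refine isPreconnected_of_forall_pair fun a ha b hb => ?_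
  have hd : Disjoint Aᶜ Bᶜ := by
    rw [disjoint_iff_inter_eq_empty, ← compl_union, hAB, compl_univ]
  have h := bt52_pb hA.isClosed_compl hB.isClosed_compl hd hAc hBc ha.1 hb.1 ha.2 hb.2
    disjoint_compl_right disjoint_compl_right
  rw [compl_union, compl_compl, compl_compl] at h
  exact ⟨_, connectedComponentIn_subset _ _, mem_connectedComponentIn ha, h,
    isPreconnected_connectedComponentIn⟩

/-- a totally disconnected set has empty interior -/
theorem dust_dense {E : Set ℂ} (hd : IsTotallyDisconnected E) : Dense Eᶜ := by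
  rw [← interior_eq_empty_iff_dense_compl, eq_empty_iff_forall_notMem]
  intro z hz
  obtain ⟨ε, hε, hb⟩ := Metric.isOpen_iff.1 isOpen_interior z hz
  have h := hd _ (hb.trans interior_subset) (convex_ball z ε).isPreconnected
    (Metric.mem_ball_self hε) (show z + (ε / 2 : ℝ) ∈ Metric.ball z ε by
      rw [mem_ball_iff_norm, add_sub_cancel_left, Complex.norm_real, Real.norm_eq_abs,
        abs_of_pos (half_pos hε)]
      exact half_lt_self hε)
  have h2 : ((ε / 2 : ℝ) : ℂ) = 0 := by linear_combination -h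
  exact (half_pos hε).ne' (by exact_mod_cast h2)

/-- Take a relatively clopen piece `E₁ ∋ p` of `E` inside `ball p η` (compact totally disconnected
Hausdorff spaces have a clopen basis), `N` = component of `p` in `ball p η \ (E \ E₁)`,
`E₁' = E ∩ N` (compact: `N` is relatively clopen in that open set), `A = E₁'ᶜ` is preconnected
(contains the dense connected `Eᶜ`), `A ∪ N = univ`, `A ∩ N = N \ E`; use `unicoh_open`. -/
theorem dust_local {E : Set ℂ} (hE : IsCompact E) (hd : IsTotallyDisconnected E)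
    (hc : IsConnected Eᶜ) {p : ℂ} (hp : p ∈ E) {η : ℝ} (hη : 0 < η) :
    ∃ N : Set ℂ, IsOpen N ∧ p ∈ N ∧ N ⊆ Metric.ball p η ∧ IsPreconnected (N \ E) := by
  have : CompactSpace E := isCompact_iff_compactSpace.1 hE
  have : TotallyDisconnectedSpace E := totallyDisconnectedSpace_subtype_iff.2 hd
  obtain ⟨V, hV, hpV, hVb⟩ := compact_exists_isClopen_in_isOpen (x := (⟨p, hp⟩ : E))
    (Metric.isOpen_ball.preimage continuous_subtype_val :
      IsOpen (Subtype.val ⁻¹' Metric.ball p η : Set E)) (Metric.mem_ball_self hη)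
  have h₁ : IsClosed (Subtype.val '' V : Set ℂ) :=
    (hV.isClosed.isCompact.image continuous_subtype_val).isClosed
  have h₂ : IsClosed (Subtype.val '' Vᶜ : Set ℂ) :=
    (hV.compl.isClosed.isCompact.image continuous_subtype_val).isClosed
  set O : Set ℂ := Metric.ball p η \ Subtype.val '' Vᶜ with hO
  have hOo : IsOpen O := Metric.isOpen_ball.sdiff h₂
  have hVO : Subtype.val '' V ⊆ O := by
    rintro _ ⟨x, hx, rfl⟩
    refine ⟨hVb hx, ?_⟩
    rintro ⟨y, hy, e⟩
    exact hy (Subtype.ext e ▸ hx)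
  have hEO : ∀ z ∈ E, z ∈ O → z ∈ Subtype.val '' V := fun z hz hzO => by
    by_contra h
    exact hzO.2 ⟨⟨z, hz⟩, fun h' => h ⟨_, h', rfl⟩, rfl⟩
  have hpO : p ∈ O := hVO ⟨_, hpV, rfl⟩
  have hNO := connectedComponentIn_subset O p
  have hA : IsOpen (E ∩ connectedComponentIn O p)ᶜ := by
    refine isOpen_iff_forall_mem_open.2 fun z hz => ?_
    by_cases h : z ∈ Subtype.val '' V
    · refine ⟨connectedComponentIn O z, fun w hw hw' => hz ⟨?_, ?_⟩, hOo.connectedComponentIn,
        mem_connectedComponentIn (hVO h)⟩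
      · obtain ⟨x, -, rfl⟩ := h
        exact x.2
      · rw [connectedComponentIn_eq hw'.2, ← connectedComponentIn_eq hw]
        exact mem_connectedComponentIn (hVO h)
    · exact ⟨(Subtype.val '' V)ᶜ, fun w hw hw' => hw (hEO w hw'.1 (hNO hw'.2)), h₁.isOpen_compl, h⟩
  have hAc : IsPreconnected (E ∩ connectedComponentIn O p)ᶜ :=
    hc.isPreconnected.subset_closure (compl_subset_compl.2 inter_subset_left)
      (by rw [(dust_dense hd).closure_eq]; exact subset_univ _)
  refine ⟨connectedComponentIn O p, hOo.connectedComponentIn, mem_connectedComponentIn hpO,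
    hNO.trans sdiff_subset, ?_⟩
  have h := unicoh_open hA hOo.connectedComponentIn hAc isPreconnected_connectedComponentIn
    (eq_univ_of_forall fun z => by
      by_cases hz : z ∈ connectedComponentIn O p
      · exact Or.inr hz
      · exact Or.inl fun h => hz h.2)
  convert h using 1
  ext z
  exact ⟨fun h => ⟨fun h' => h.2 h'.1, h.1⟩, fun h => ⟨h.2, fun h' => h.1 ⟨h', h.2⟩⟩⟩

end Crest.Agent.R105
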