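import Crest.Agent.R105.NT1

/-! Row 105 toolkit 2: cluster intervals, `A0`, lump cutoffs. -/

set_option autoImplicit false

open MeasureTheory Set Filter Topology
open scoped ENNReal

namespace Crest.Agent.R105

variable {U : Set ℂ}

theorem Lumps.W_mono (Λ : Lumps U) {n m : ℕ} (h : n ≤ m) (q : Λ.E) : Λ.W m q ⊆ Λ.W n q := by
  exact antitone_nat_of_succ_le (f := fun n => Λ.W n q) (fun n => Λ.anti n q) h

/-- two ends in the same lump of level `m` are in the same lump of every lower level -/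
theorem Lumps.W_eq_of_le (Λ : Lumps U) {n m : ℕ} (h : n ≤ m) {q q' : Λ.E}
    (e : Λ.W m q = Λ.W m q') : Λ.W n q = Λ.W n q' := by
  rcases Λ.part n q q' with h1 | h1
  · exact h1
  · obtain ⟨z, hz⟩ := (Λ.conn m q).nonempty
    exact absurd (Λ.W_mono h q' (e ▸ hz)) (Set.disjoint_left.1 h1 (Λ.W_mono h q hz))

theorem Lumps.W_eq_of_subset (Λ : Lumps U) {n m : ℕ} (h : n ≤ m) {q q' : Λ.E}
    (e : Λ.W m q' ⊆ Λ.W n q) : Λ.W n q' = Λ.W n q := by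
  rcases Λ.part n q' q with h1 | h1
  · exact h1
  · obtain ⟨z, hz⟩ := (Λ.conn m q').nonempty
    exact absurd (e hz) (Set.disjoint_left.1 h1 (Λ.W_mono h q' hz))

/-- a finite set of representatives of the lumps of level `n` -/
theorem Lumps.exists_reps (Λ : Lumps U) (n : ℕ) : ∃ Q : Finset Λ.E,
    (∀ q, ∃ p ∈ Q, Λ.W n q = Λ.W n p) ∧
      ∀ p ∈ Q, ∀ p' ∈ Q, p ≠ p' → Disjoint (Λ.W n p) (Λ.W n p') := by
  classical
  rcases isEmpty_or_nonempty Λ.E with hE | hE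
  · exact ⟨∅, fun q => hE.elim q, fun p hp => absurd hp (Finset.notMem_empty p)⟩
  have hc : ∀ s ∈ Set.range (Λ.W n), ∃ q, Λ.W n q = s := fun s hs => hs
  choose! g hg using hc
  refine ⟨(Λ.fin n).toFinset.image g, fun q => ?_, ?_⟩
  · refine ⟨g (Λ.W n q), Finset.mem_image_of_mem _ ((Set.Finite.mem_toFinset _).2 ⟨q, rfl⟩), ?_⟩
    exact (hg _ ⟨q, rfl⟩).symm
  · intro p hp p' hp' hne
    obtain ⟨s, hs, rfl⟩ := Finset.mem_image.1 hp
    obtain ⟨s', hs', rfl⟩ := Finset.mem_image.1 hp'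
    rw [Set.Finite.mem_toFinset] at hs hs'
    rcases Λ.part n (g s) (g s') with h | h
    · rw [hg s hs, hg s' hs'] at h
      exact absurd (by rw [h]) hne
    · exact h

/-- a finite set of ends is separated at all large levels, and representatives may contain it -/
theorem Lumps.exists_reps_of (Λ : Lumps U) (Y : Finset Λ.E) : ∃ N, ∀ n ≥ N, ∃ Q : Finset Λ.E,
    Y ⊆ Q ∧ (∀ q, ∃ p ∈ Q, Λ.W n q = Λ.W n p) ∧
      ∀ p ∈ Q, ∀ p' ∈ Q, p ≠ p' → Disjoint (Λ.W n p) (Λ.W n p') := by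
  classical
  have hs : ∀ x : Λ.E × Λ.E, ∃ n, x.1 ≠ x.2 → Disjoint (Λ.W n x.1) (Λ.W n x.2) := by
    intro x
    by_cases h : x.1 = x.2
    · exact ⟨0, fun h' => absurd h h'⟩
    · obtain ⟨n, hn⟩ := Λ.sep _ _ h
      exact ⟨n, fun _ => hn⟩
  choose f hf using hs
  refine ⟨(Y ×ˢ Y).sup f, fun n hn => ?_⟩
  have hY : ∀ p ∈ Y, ∀ p' ∈ Y, p ≠ p' → Disjoint (Λ.W n p) (Λ.W n p') := by
    intro p hp p' hp' hne
    have h1 : f (p, p') ≤ n :=
      (Finset.le_sup (f := f) (Finset.mem_product.2 ⟨hp, hp'⟩ : (p, p') ∈ Y ×ˢ Y)).trans hn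
    exact (hf (p, p') hne).mono (Λ.W_mono h1 p) (Λ.W_mono h1 p')
  obtain ⟨Q, hQ1, hQ2⟩ := Λ.exists_reps n
  refine ⟨Y ∪ Q.filter fun p => ∀ y ∈ Y, Λ.W n p ≠ Λ.W n y, Finset.subset_union_left,
    fun q => ?_, ?_⟩
  · obtain ⟨p, hp, e⟩ := hQ1 q
    by_cases h : ∀ y ∈ Y, Λ.W n p ≠ Λ.W n y
    · exact ⟨p, Finset.mem_union_right _ (Finset.mem_filter.2 ⟨hp, h⟩), e⟩
    · push Not at h
      obtain ⟨y, hy, e'⟩ := h
      exact ⟨y, Finset.mem_union_left _ hy, e.trans e'⟩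
  · intro p hp p' hp' hne
    rcases Finset.mem_union.1 hp with hp | hp <;> rcases Finset.mem_union.1 hp' with hp' | hp'
    · exact hY p hp p' hp' hne
    · exact (Λ.part n p p').resolve_left fun e => (Finset.mem_filter.1 hp').2 p hp e.symm
    · exact (Λ.part n p p').resolve_left fun e => (Finset.mem_filter.1 hp).2 p' hp' e
    · exact hQ2 p (Finset.mem_filter.1 hp).1 p' (Finset.mem_filter.1 hp').1 hne

/-- König, for properties that persist in smaller lumps -/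
theorem Lumps.koenig' (Λ : Lumps U) (P : Set ℂ → Prop) (hP : ∀ s t, s ⊆ t → P t → P s)
    (h : ∀ q, ∃ n, P (Λ.W n q)) : ∃ N, ∀ n ≥ N, ∀ q, P (Λ.W n q) := by
  choose f hf using h
  obtain ⟨N, hN⟩ := Λ.koenig f
  refine ⟨N, fun n hn q => ?_⟩
  obtain ⟨q', h1, h2⟩ := hN q
  exact hP _ _ (Λ.W_mono (h1.trans hn) q) (h2 ▸ hf q')

private theorem h1_bb (Λ : Lumps U) {u : ℂ → ℝ} (hu : Bdd U u) (q : Λ.E) (n : ℕ) :
    BddBelow (u '' Λ.W n q) ∧ BddAbove (u '' Λ.W n q) ∧ (u '' Λ.W n q).Nonempty := by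
  obtain ⟨B, hB⟩ := hu
  refine ⟨⟨-B, ?_⟩, ⟨B, ?_⟩, (Λ.conn n q).nonempty.image u⟩
  · rintro _ ⟨z, hz, rfl⟩
    exact (abs_le.1 (hB z (Λ.sub n q hz).1)).1
  · rintro _ ⟨z, hz, rfl⟩
    exact (abs_le.1 (hB z (Λ.sub n q hz).1)).2

private theorem h1_is (Λ : Lumps U) {u : ℂ → ℝ} (hu : Bdd U u) (q : Λ.E) (n m : ℕ) :
    sInf (u '' Λ.W n q) ≤ sSup (u '' Λ.W m q) := by
  obtain ⟨z, hz⟩ := (Λ.conn (max n m) q).nonempty
  exact (csInf_le (h1_bb Λ hu q n).1 ⟨z, Λ.W_mono (le_max_left _ _) q hz, rfl⟩).trans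
    (le_csSup (h1_bb Λ hu q m).2.1 ⟨z, Λ.W_mono (le_max_right _ _) q hz, rfl⟩)

private theorem h1_le_lo (Λ : Lumps U) {u : ℂ → ℝ} (hu : Bdd U u) (q : Λ.E) (n : ℕ) :
    sInf (u '' Λ.W n q) ≤ Λ.lo u q :=
  le_ciSup (f := fun n => sInf (u '' Λ.W n q))
    ⟨sSup (u '' Λ.W 0 q), by rintro _ ⟨m, rfl⟩; exact h1_is Λ hu q m 0⟩ n

private theorem h1_hi_le (Λ : Lumps U) {u : ℂ → ℝ} (hu : Bdd U u) (q : Λ.E) (n : ℕ) :
    Λ.hi u q ≤ sSup (u '' Λ.W n q) :=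
  ciInf_le (f := fun n => sSup (u '' Λ.W n q))
    ⟨sInf (u '' Λ.W 0 q), by rintro _ ⟨m, rfl⟩; exact h1_is Λ hu q 0 m⟩ n

theorem Lumps.lo_le_hi (Λ : Lumps U) {u : ℂ → ℝ} (hu : Bdd U u) (q : Λ.E) :
    Λ.lo u q ≤ Λ.hi u q := by
  exact ciSup_le fun n => le_ciInf fun m => h1_is Λ hu q n m

theorem Lumps.osc_nonneg (Λ : Lumps U) {u : ℂ → ℝ} (hu : Bdd U u) (q : Λ.E) :
    0 ≤ Λ.osc u q := by
  exact sub_nonneg.2 (Λ.lo_le_hi hu q)

theorem Lumps.near (Λ : Lumps U) {u : ℂ → ℝ} (hu : Bdd U u) (q : Λ.E) {η : ℝ} (hη : 0 < η) :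
    ∃ n, ∀ z ∈ Λ.W n q, u z ∈ Icc (Λ.lo u q - η) (Λ.hi u q + η) := by
  obtain ⟨n, hn⟩ := exists_lt_of_lt_ciSup (f := fun n => sInf (u '' Λ.W n q))
    (sub_lt_self (Λ.lo u q) hη)
  obtain ⟨m, hm⟩ := exists_lt_of_ciInf_lt (f := fun n => sSup (u '' Λ.W n q))
    (lt_add_of_pos_right (Λ.hi u q) hη)
  refine ⟨max n m, fun z hz => ⟨hn.le.trans ?_, le_trans ?_ hm.le⟩⟩
  · exact csInf_le (h1_bb Λ hu q n).1 ⟨z, Λ.W_mono (le_max_left _ _) q hz, rfl⟩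
  · exact le_csSup (h1_bb Λ hu q m).2.1 ⟨z, Λ.W_mono (le_max_right _ _) q hz, rfl⟩

theorem Lumps.le_lo (Λ : Lumps U) {u : ℂ → ℝ} (hu : Bdd U u) {q : Λ.E} {n : ℕ} {A : ℝ}
    (h : ∀ z ∈ Λ.W n q, A ≤ u z) : A ≤ Λ.lo u q := by
  refine le_trans (le_csInf (h1_bb Λ hu q n).2.2 ?_) (h1_le_lo Λ hu q n)
  rintro _ ⟨z, hz, rfl⟩
  exact h z hz

theorem Lumps.hi_le (Λ : Lumps U) {u : ℂ → ℝ} (hu : Bdd U u) {q : Λ.E} {n : ℕ} {B : ℝ}
    (h : ∀ z ∈ Λ.W n q, u z ≤ B) : Λ.hi u q ≤ B := by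
  refine (h1_hi_le Λ hu q n).trans (csSup_le (h1_bb Λ hu q n).2.2 ?_)
  rintro _ ⟨z, hz, rfl⟩
  exact h z hz

/-- every value strictly inside, and values close to the ends of, the cluster interval occur -/
theorem Lumps.exists_lt_lo (Λ : Lumps U) {u : ℂ → ℝ} (hu : Bdd U u) (q : Λ.E) (n : ℕ) {η : ℝ}
    (hη : 0 < η) : (∃ z ∈ Λ.W n q, u z < Λ.lo u q + η) ∧ ∃ z ∈ Λ.W n q, Λ.hi u q - η < u z := by
  constructor
  · by_contra h
    push Not at h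
    linarith [Λ.le_lo hu h]
  · by_contra h
    push Not at h
    linarith [Λ.hi_le hu h]

theorem Lumps.osc_le (Λ : Lumps U) {u : ℂ → ℝ} (hu : Bdd U u) {q : Λ.E} {δ : ℝ}
    (h : ∀ η > 0, ∃ n, ∀ z ∈ Λ.W n q, ∀ z' ∈ Λ.W n q, u z - u z' ≤ δ + η) : Λ.osc u q ≤ δ := by
  refine le_of_forall_pos_le_add fun η hη => ?_
  obtain ⟨n, hn⟩ := h (η / 3) (by positivity)
  obtain ⟨⟨z', hz', h1⟩, z, hz, h2⟩ := Λ.exists_lt_lo hu q n (η := η / 3) (by positivity)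
  have h3 := hn z hz z' hz'
  rw [Lumps.osc]
  linarith

theorem Lumps.lo_congr (Λ : Lumps U) {u v : ℂ → ℝ} (hu : Bdd U u) (hv : Bdd U v) {q : Λ.E}
    (h : ∀ η > 0, ∃ n, ∀ z ∈ Λ.W n q, |u z - v z| ≤ η) :
    Λ.lo u q = Λ.lo v q ∧ Λ.hi u q = Λ.hi v q := by
  have key : ∀ {u v : ℂ → ℝ}, Bdd U u → Bdd U v →
      (∀ η > 0, ∃ n, ∀ z ∈ Λ.W n q, |u z - v z| ≤ η) →
      Λ.lo u q ≤ Λ.lo v q ∧ Λ.hi u q ≤ Λ.hi v q := by
    intro u v hu hv h
    refine ⟨le_of_forall_pos_le_add fun η hη => ?_, le_of_forall_pos_le_add fun η hη => ?_⟩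
    · obtain ⟨n, hn⟩ := h (η / 2) (by positivity)
      obtain ⟨m, hm⟩ := Λ.near hu q (η := η / 2) (by positivity)
      have h1 := Λ.le_lo hv (q := q) (n := max n m) (A := Λ.lo u q - η) fun z hz => by
        have a1 := abs_le.1 (hn z (Λ.W_mono (le_max_left _ _) q hz))
        have a2 := hm z (Λ.W_mono (le_max_right _ _) q hz)
        linarith [a1.2, a2.1]
      linarith
    · obtain ⟨n, hn⟩ := h (η / 2) (by positivity)
      obtain ⟨m, hm⟩ := Λ.near hv q (η := η / 2) (by positivity)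
      refine Λ.hi_le hu (q := q) (n := max n m) fun z hz => ?_
      have a1 := abs_le.1 (hn z (Λ.W_mono (le_max_left _ _) q hz))
      have a2 := hm z (Λ.W_mono (le_max_right _ _) q hz)
      linarith [a1.2, a2.2]
  have h1 := key hu hv h
  have h2 := key hv hu fun η hη => (h η hη).imp fun n hn z hz => by
    rw [abs_sub_comm]; exact hn z hz
  exact ⟨le_antisymm h1.1 h2.1, le_antisymm h1.2 h2.2⟩

theorem Lumps.osc_comp2_le (Λ : Lumps U) {u v : ℂ → ℝ} (hu : Bdd U u) (hv : Bdd U v)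
    {G : ℝ → ℝ → ℝ} {L₁ L₂ : ℝ} (h₁ : 0 ≤ L₁) (h₂ : 0 ≤ L₂)
    (hG : ∀ s t s' t', |G s t - G s' t'| ≤ L₁ * |s - s'| + L₂ * |t - t'|) (q : Λ.E) :
    Λ.osc (fun z => G (u z) (v z)) q ≤ L₁ * Λ.osc u q + L₂ * Λ.osc v q := by
  have hb : Bdd U fun z => G (u z) (v z) := by
    obtain ⟨A, hA⟩ := hu
    obtain ⟨B, hB⟩ := hv
    refine ⟨|G 0 0| + L₁ * A + L₂ * B, fun z hz => ?_⟩
    have h1 := hG (u z) (v z) 0 0
    rw [sub_zero, sub_zero] at h1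
    have h2 := abs_sub_abs_le_abs_sub (G (u z) (v z)) (G 0 0)
    have h3 := mul_le_mul_of_nonneg_left (hA z hz) h₁
    have h4 := mul_le_mul_of_nonneg_left (hB z hz) h₂
    linarith
  refine Λ.osc_le hb fun η hη => ?_
  obtain ⟨θ, hθ, e⟩ : ∃ θ : ℝ, 0 < θ ∧ 2 * (L₁ + L₂ + 1) * θ = η :=
    ⟨η / (2 * (L₁ + L₂ + 1)), by positivity, by field_simp⟩
  obtain ⟨n, hn⟩ := Λ.near hu q hθ
  obtain ⟨m, hm⟩ := Λ.near hv q hθ
  refine ⟨max n m, fun z hz z' hz' => ?_⟩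
  have a1 := hn z (Λ.W_mono (le_max_left _ _) q hz)
  have a2 := hn z' (Λ.W_mono (le_max_left _ _) q hz')
  have b1 := hm z (Λ.W_mono (le_max_right _ _) q hz)
  have b2 := hm z' (Λ.W_mono (le_max_right _ _) q hz')
  have c1 : |u z - u z'| ≤ Λ.osc u q + 2 * θ := by
    rw [Lumps.osc, abs_le]
    constructor <;> linarith [a1.1, a1.2, a2.1, a2.2]
  have c2 : |v z - v z'| ≤ Λ.osc v q + 2 * θ := by
    rw [Lumps.osc, abs_le]
    constructor <;> linarith [b1.1, b1.2, b2.1, b2.2]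
  have h1 := (le_abs_self _).trans (hG (u z) (v z) (u z') (v z'))
  have h2 := mul_le_mul_of_nonneg_left c1 h₁
  have h3 := mul_le_mul_of_nonneg_left c2 h₂
  linarith

theorem Lumps.osc_comp_C1_le (Λ : Lumps U) {r : ℂ → ℝ} (hr : Bdd U r) {H : ℝ → ℝ}
    (hH : ContDiff ℝ 1 H) (q : Λ.E) :
    Λ.osc (fun z => H (r z)) q ≤ ∫ t in Icc (Λ.lo r q) (Λ.hi r q), |deriv H t| := by
  have hb : Bdd U fun z => H (r z) := by
    obtain ⟨A, hA⟩ := hr
    obtain ⟨B, hB⟩ := (isCompact_Icc (a := -A) (b := A)).exists_bound_of_continuousOn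
      hH.continuous.continuousOn
    exact ⟨B, fun z hz => hB _ (abs_le.1 (hA z hz))⟩
  have hc : Continuous (deriv H) := hH.continuous_deriv le_rfl
  have hi : ∀ x y, IntervalIntegrable (fun t => |deriv H t|) volume x y := fun x y =>
    hc.abs.intervalIntegrable x y
  obtain ⟨P, hP, hPc⟩ : ∃ P : ℝ → ℝ, (∀ x y, P y - P x = ∫ t in x..y, |deriv H t|) ∧
      Continuous P :=
    ⟨fun x => ∫ t in (0 : ℝ)..x, |deriv H t|, fun x y =>
      intervalIntegral.integral_interval_sub_left (hi _ _) (hi _ _),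
      intervalIntegral.continuous_primitive hi 0⟩
  have key : ∀ x y, x ≤ y → |H y - H x| ≤ P y - P x := fun x y h => by
    rw [hP, ← intervalIntegral.integral_deriv_eq_sub
      (fun t _ => hH.differentiable one_ne_zero t) (hc.intervalIntegrable x y)]
    exact intervalIntegral.abs_integral_le_integral_abs h
  have hm : Monotone P := fun x y h => sub_nonneg.1 ((abs_nonneg _).trans (key x y h))
  rw [integral_Icc_eq_integral_Ioc, ← intervalIntegral.integral_of_le (Λ.lo_le_hi hr q), ← hP]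
  refine Λ.osc_le hb fun η hη => ?_
  have hφ : Continuous fun θ : ℝ => P (Λ.hi r q + θ) - P (Λ.lo r q - θ) := by fun_prop
  have h1 : ∀ᶠ θ in 𝓝 (0 : ℝ), P (Λ.hi r q + θ) - P (Λ.lo r q - θ) <
      P (Λ.hi r q) - P (Λ.lo r q) + η :=
    (hφ.tendsto 0).eventually (gt_mem_nhds (by simpa using hη))
  obtain ⟨θ, h2, hθ⟩ := ((h1.filter_mono (nhdsWithin_le_nhds (s := Ioi 0))).and
    self_mem_nhdsWithin).exists
  obtain ⟨n, hn⟩ := Λ.near hr q hθ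
  refine ⟨n, fun z hz z' hz' => ?_⟩
  have a1 := hn z hz
  have a2 := hn z' hz'
  rcases le_total (r z) (r z') with h | h
  · have h3 := neg_le_of_abs_le (key _ _ h)
    linarith [hm a1.1, hm a2.2]
  · have h3 := le_of_abs_le (key _ _ h)
    linarith [hm a1.2, hm a2.1]

/-- uniform version: off the lumps of the finitely many big ends the oscillation is small -/
theorem Lumps.osc_unif (Λ : Lumps U) {u : ℂ → ℝ} (hu : Bdd U u) (S : Set Λ.E) {δ : ℝ}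
    (hS : ∀ q ∈ S, Λ.osc u q < δ) (n₀ : ℕ) (hc : ∀ q ∈ S, ∀ q', Λ.W n₀ q' = Λ.W n₀ q → q' ∈ S) :
    ∃ N, ∀ n ≥ N, ∀ q ∈ S, ∀ z ∈ Λ.W n q, ∀ z' ∈ Λ.W n q, u z - u z' < δ := by
  obtain ⟨N, hN⟩ := Λ.koenig'
    (fun s => (∀ z ∈ s, ∀ z' ∈ s, u z - u z' < δ) ∨ ∃ q', q' ∉ S ∧ s ⊆ Λ.W n₀ q')
    (fun s t hst h => h.imp (fun h z hz z' hz' => h z (hst hz) z' (hst hz'))
      fun ⟨q', h1, h2⟩ => ⟨q', h1, hst.trans h2⟩)
    fun q => by
      by_cases hq : q ∈ S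
      · have h1 := hS q hq
        obtain ⟨n, hn⟩ := Λ.near hu q (η := (δ - Λ.osc u q) / 3) (by linarith)
        refine ⟨n, Or.inl fun z hz z' hz' => ?_⟩
        have a1 := (hn z hz).2
        have a2 := (hn z' hz').1
        rw [Lumps.osc] at h1 a1 a2
        linarith
      · exact ⟨n₀, Or.inr ⟨q, hq, subset_rfl⟩⟩
  refine ⟨max N n₀, fun n hn q hq => (hN n ((le_max_left _ _).trans hn) q).resolve_right ?_⟩
  rintro ⟨q', h1, h2⟩
  exact h1 (hc q hq q' (Λ.W_eq_of_subset ((le_max_right _ _).trans hn) h2).symm)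

theorem L2w.finite_big {E : Type} {e : E → ℝ} (he : Summable fun q => e q ^ 2) {δ : ℝ}
    (hδ : 0 < δ) : {q | δ ≤ |e q|}.Finite := by
  have h := he.tendsto_cofinite_zero.eventually (gt_mem_nhds (show (0 : ℝ) < δ ^ 2 by positivity))
  refine (Filter.eventually_cofinite.1 h).subset fun q hq => ?_
  simp only [mem_ofPred_eq, not_lt] at hq ⊢
  rw [← sq_abs (e q)]
  exact pow_le_pow_left₀ hδ.le hq 2

open Classical in
theorem L2w.tail {E : Type} {e : E → ℝ} (he : L2w e) {θ : ℝ} (hθ : 0 < θ) :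
    ∃ Y₀ : Finset E, ∀ Y : Finset E, Y₀ ⊆ Y → nrm (fun q => if q ∈ Y then 0 else e q) ≤ θ := by
  obtain ⟨Y₀, hY⟩ := (tendsto_tsum_compl_atTop_zero (fun q => e q ^ 2)).eventually
    (ge_mem_nhds (show (0 : ℝ) < θ ^ 2 by positivity)) |>.exists_forall_of_atTop
  refine ⟨Y₀, fun Y h => ?_⟩
  have h1 := hY Y h
  have h2 : ∑' q, (if q ∈ Y then 0 else e q) ^ 2 = ∑' q : {q // q ∉ Y}, e q ^ 2 := by
    have := tsum_subtype {q | q ∉ Y} (fun q => e q ^ 2)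
    refine Eq.trans ?_ this.symm
    refine tsum_congr fun q => ?_
    by_cases hq : q ∈ Y <;> simp [hq]
  unfold nrm
  rw [h2]
  exact Real.sqrt_le_iff.2 ⟨hθ.le, h1⟩

theorem L2w.nrm_sq {E : Type} (e : E → ℝ) : nrm e ^ 2 = ∑' q, e q ^ 2 :=
  Real.sq_sqrt (tsum_nonneg fun q => sq_nonneg (e q))

theorem L2w.nrm_nonneg {E : Type} (e : E → ℝ) : 0 ≤ nrm e := Real.sqrt_nonneg _

theorem L2w.summable_mul {E : Type} {e k : E → ℝ} (he : L2w e) (hk : L2w k) :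
    Summable (fun q => e q * k q) ∧ ∑' q, e q * k q ≤ nrm e * nrm k := by
  have hs : Summable (fun q => e q * k q) := by
    refine Summable.of_nonneg_of_le (fun q => mul_nonneg (he.1 q) (hk.1 q)) (fun q => ?_)
      (he.2.add hk.2)
    nlinarith [sq_nonneg (e q - k q), mul_nonneg (he.1 q) (hk.1 q)]
  refine ⟨hs, hs.tsum_le_of_sum_le fun s => ?_⟩
  refine (Real.sum_mul_le_sqrt_mul_sqrt s e k).trans ?_
  exact mul_le_mul (Real.sqrt_le_sqrt (he.2.sum_le_tsum s fun q _ => sq_nonneg _))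
    (Real.sqrt_le_sqrt (hk.2.sum_le_tsum s fun q _ => sq_nonneg _)) (Real.sqrt_nonneg _)
    (Real.sqrt_nonneg _)

theorem L2w.add {E : Type} {e k : E → ℝ} (he : L2w e) (hk : L2w k) :
    L2w (fun q => e q + k q) ∧ nrm (fun q => e q + k q) ≤ nrm e + nrm k := by
  obtain ⟨hs, hle⟩ := he.summable_mul hk
  have e1 : (fun q => (e q + k q) ^ 2) = fun q => e q ^ 2 + 2 * (e q * k q) + k q ^ 2 := by
    funext q; ring
  have hs2 : Summable fun q => (e q + k q) ^ 2 := by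
    rw [e1]; exact (he.2.add (hs.mul_left 2)).add hk.2
  refine ⟨⟨fun q => add_nonneg (he.1 q) (hk.1 q), hs2⟩, ?_⟩
  refine Real.sqrt_le_iff.2 ⟨add_nonneg (L2w.nrm_nonneg e) (L2w.nrm_nonneg k), ?_⟩
  rw [e1, (he.2.add (hs.mul_left 2)).tsum_add hk.2, he.2.tsum_add (hs.mul_left 2), tsum_mul_left,
    ← L2w.nrm_sq e, ← L2w.nrm_sq k]
  nlinarith

theorem L2w.of_le {E : Type} {e k : E → ℝ} (hk : L2w k) (h0 : ∀ q, 0 ≤ e q)
    (h : ∀ q, e q ≤ k q) : L2w e ∧ nrm e ≤ nrm k := by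
  have hq : ∀ q, e q ^ 2 ≤ k q ^ 2 := fun q => pow_le_pow_left₀ (h0 q) (h q) 2
  have hs : Summable fun q => e q ^ 2 :=
    Summable.of_nonneg_of_le (fun q => sq_nonneg _) hq hk.2
  exact ⟨⟨h0, hs⟩, Real.sqrt_le_sqrt (hs.tsum_le_tsum hq hk.2)⟩

theorem L2w.smul {E : Type} {e : E → ℝ} (he : L2w e) {a : ℝ} (ha : 0 ≤ a) :
    L2w (fun q => a * e q) ∧ nrm (fun q => a * e q) = a * nrm e := by
  have e1 : (fun q => (a * e q) ^ 2) = fun q => a ^ 2 * e q ^ 2 := by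
    funext q; ring
  refine ⟨⟨fun q => mul_nonneg ha (he.1 q), by rw [e1]; exact he.2.mul_left _⟩, ?_⟩
  unfold nrm
  rw [e1, tsum_mul_left, Real.sqrt_mul (sq_nonneg a), Real.sqrt_sq ha]

theorem L2w.le_nrm {E : Type} {e : E → ℝ} (he : L2w e) (q : E) : e q ≤ nrm e :=
  Real.le_sqrt_of_sq_le (he.2.le_tsum q fun _ _ => sq_nonneg _)

theorem h38_const (Λ : Lumps U) {χ : ℂ → ℝ} (h : A0 U χ) :
    ∃ N, ∀ q, ∃ a, ∀ z ∈ Λ.W N q, χ z = a := by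
  obtain ⟨C, hC, hCU, hl⟩ := h.loc
  obtain ⟨N, hN⟩ := Λ.exh C hC hCU
  refine ⟨N, fun q => ?_⟩
  obtain ⟨z₀, hz₀⟩ := (Λ.conn N q).nonempty
  refine ⟨χ z₀, fun z hz => ?_⟩
  refine (Λ.conn N q).isPreconnected.induction₂' (fun x y => χ x = χ y) (fun x hx => ?_)
    (fun _ _ _ _ _ _ => Eq.trans) hz hz₀
  refine mem_nhdsWithin_of_mem_nhds ?_
  filter_upwards [hl x (Λ.sub N q hx).1 (disjoint_left.1 (hN q) hx)] with w hw
  exact ⟨hw.symm, hw⟩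

theorem h38_bdd (Λ : Lumps U) {χ : ℂ → ℝ} (h : A0 U χ) : Bdd U χ := by
  obtain ⟨N, hN⟩ := h38_const Λ h
  choose a ha using hN
  obtain ⟨Q, hQ, -⟩ := Λ.exists_reps N
  obtain ⟨R, c, hR⟩ := h.xx.inf
  have hK : IsCompact (Λ.C N ∪ (Metric.closedBall (0 : ℂ) R ∩ {z | Λ.R ≤ ‖z‖})) :=
    (Λ.cpt N).union ((isCompact_closedBall 0 R).inter_right
      (isClosed_le continuous_const continuous_norm))
  obtain ⟨B, hB⟩ := hK.exists_bound_of_continuousOn (h.xx.lip.continuousOn.mono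
    (union_subset (Λ.csub N) fun z hz => Λ.far z hz.2))
  refine ⟨max B (max |c| (∑ p ∈ Q, |a p|)), fun z hz => ?_⟩
  by_cases h1 : z ∈ Λ.C N
  · exact le_max_of_le_left (hB z (Or.inl h1))
  rcases Λ.cover N z hz h1 with h2 | ⟨q, hq⟩
  · by_cases h3 : R ≤ ‖z‖
    · rw [hR z h3]
      exact le_max_of_le_right (le_max_left _ _)
    · exact le_max_of_le_left (hB z (Or.inr ⟨mem_closedBall_zero_iff.2 (not_le.1 h3).le, h2⟩))
  · obtain ⟨p, hp, he⟩ := hQ q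
    rw [ha p z (he ▸ hq)]
    exact le_max_of_le_right (le_max_of_le_right
      (Finset.single_le_sum (f := fun p => |a p|) (fun _ _ => abs_nonneg _) hp))

theorem h38_val_eq (Λ : Lumps U) {χ : ℂ → ℝ} (hb : Bdd U χ) {q : Λ.E} {n : ℕ} {a : ℝ}
    (h : ∀ z ∈ Λ.W n q, χ z = a) : Λ.val χ q = a ∧ Λ.hi χ q = a := by
  have h1 := Λ.le_lo hb fun z hz => (h z hz).ge
  have h2 := Λ.hi_le hb fun z hz => (h z hz).le
  have h3 := Λ.lo_le_hi hb q
  exact ⟨le_antisymm (h3.trans h2) h1, le_antisymm h2 (h1.trans h3)⟩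

theorem h38_XX_congr (hU : IsOpen U) {u v : ℂ → ℝ} (hu : XX U u) (he : EqOn u v U)
    (hi : ∃ R c : ℝ, ∀ z : ℂ, R ≤ ‖z‖ → v z = c) : XX U v := by
  refine ⟨fun x hx => ?_, hi, En_congr hU he ▸ hu.en⟩
  obtain ⟨K, t, ht, hK⟩ := hu.lip hx
  refine ⟨K, t ∩ U, inter_mem ht self_mem_nhdsWithin, fun y hy w hw => ?_⟩
  rw [← he hy.2, ← he hw.2]
  exact hK hy.1 hw.1

/-- `χ` is constant on every lump that misses the compact set (lumps are connected) -/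
theorem A0.eq_val (Λ : Lumps U) {χ : ℂ → ℝ} (h : A0 U χ) :
    ∃ N, ∀ n ≥ N, ∀ q, ∀ z ∈ Λ.W n q, χ z = Λ.val χ q := by
  obtain ⟨N, hN⟩ := h38_const Λ h
  refine ⟨N, fun n hn q z hz => ?_⟩
  obtain ⟨a, ha⟩ := hN q
  rw [(h38_val_eq Λ (h38_bdd Λ h) ha).1]
  exact ha z (Λ.W_mono hn q hz)

theorem A0.bdd (Λ : Lumps U) {χ : ℂ → ℝ} (h : A0 U χ) : Bdd U χ := by
  exact h38_bdd Λ h

theorem val_eq (Λ : Lumps U) {χ : ℂ → ℝ} (hb : Bdd U χ) {q : Λ.E} {n : ℕ} {a : ℝ}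
    (h : ∀ z ∈ Λ.W n q, χ z = a) : Λ.val χ q = a ∧ Λ.hi χ q = a := by
  exact h38_val_eq Λ hb h

theorem A0.const (c : ℝ) : A0 U (fun _ => c) := by
  exact ⟨XX.const c, ∅, isCompact_empty, empty_subset _, fun _ _ _ => Eventually.of_forall fun _ => rfl⟩

theorem A0.comp2 (hU : IsOpen U) (Λ : Lumps U) {χ ψ : ℂ → ℝ} (hχ : A0 U χ) (hψ : A0 U ψ)
    {G : ℝ × ℝ → ℝ} (hG : ContDiff ℝ 1 G) : A0 U (fun z => G (χ z, ψ z)) ∧
      ∀ q, Λ.val (fun z => G (χ z, ψ z)) q = G (Λ.val χ q, Λ.val ψ q) := by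
  have hA : A0 U (fun z => G (χ z, ψ z)) := by
    obtain ⟨B₁, hB₁⟩ := A0.bdd Λ hχ
    obtain ⟨B₂, hB₂⟩ := A0.bdd Λ hψ
    obtain ⟨K, hK⟩ := (hG.contDiffOn (s := Icc (-B₁) B₁ ×ˢ Icc (-B₂) B₂)).exists_lipschitzOnWith
      one_ne_zero ((convex_Icc _ _).prod (convex_Icc _ _)) (isCompact_Icc.prod isCompact_Icc)
    obtain ⟨G', hG', he⟩ := hK.extend_real
    have hx : XX U fun z => G' (χ z, ψ z) := by
      refine XX.comp2 hU (G := fun s t => G' (s, t)) (L₁ := K) (L₂ := K) (fun s t s' t' => ?_)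
        hχ.xx hψ.xx
      have h1 := hG'.dist_le_mul (s, t) (s', t')
      rw [Real.dist_eq, Prod.dist_eq, Real.dist_eq, Real.dist_eq] at h1
      refine h1.trans ?_
      rw [← mul_add]
      exact mul_le_mul_of_nonneg_left (max_le_add_of_nonneg (abs_nonneg _) (abs_nonneg _)) K.2
    obtain ⟨R₁, c₁, h₁⟩ := hχ.xx.inf
    obtain ⟨R₂, c₂, h₂⟩ := hψ.xx.inf
    obtain ⟨C₁, hC₁, hU₁, hl₁⟩ := hχ.loc
    obtain ⟨C₂, hC₂, hU₂, hl₂⟩ := hψ.loc
    refine ⟨h38_XX_congr hU hx (fun z hz => (he ⟨abs_le.1 (hB₁ z hz), abs_le.1 (hB₂ z hz)⟩).symm)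
      ⟨max R₁ R₂, G (c₁, c₂), fun z hz => ?_⟩, C₁ ∪ C₂, hC₁.union hC₂, union_subset hU₁ hU₂,
      fun z hz hC => ?_⟩
    · rw [h₁ z (le_of_max_le_left hz), h₂ z (le_of_max_le_right hz)]
    · filter_upwards [hl₁ z hz fun h => hC (Or.inl h), hl₂ z hz fun h => hC (Or.inr h)] with w e₁ e₂
      rw [e₁, e₂]
  refine ⟨hA, fun q => ?_⟩
  obtain ⟨N₁, h₁⟩ := A0.eq_val Λ hχ
  obtain ⟨N₂, h₂⟩ := A0.eq_val Λ hψ
  refine (val_eq Λ (A0.bdd Λ hA) (n := max N₁ N₂) fun z hz => ?_).1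
  rw [h₁ _ (le_max_left _ _) q z hz, h₂ _ (le_max_right _ _) q z hz]

theorem A0.mul (hU : IsOpen U) (Λ : Lumps U) {χ ψ : ℂ → ℝ} (hχ : A0 U χ) (hψ : A0 U ψ) :
    A0 U (fun z => χ z * ψ z) ∧
      ∀ q, Λ.val (fun z => χ z * ψ z) q = Λ.val χ q * Λ.val ψ q := by
  exact A0.comp2 hU Λ hχ hψ (G := fun p => p.1 * p.2) (by fun_prop)

theorem A0.sub (hU : IsOpen U) (Λ : Lumps U) {χ ψ : ℂ → ℝ} (hχ : A0 U χ) (hψ : A0 U ψ) :
    A0 U (fun z => χ z - ψ z) ∧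
      ∀ q, Λ.val (fun z => χ z - ψ z) q = Λ.val χ q - Λ.val ψ q := by
  exact A0.comp2 hU Λ hχ hψ (G := fun p => p.1 - p.2) (by fun_prop)

theorem A0.sum (hU : IsOpen U) (Λ : Lumps U) {ι : Type*} (s : Finset ι) (a : ι → ℝ)
    {χ : ι → ℂ → ℝ} (h : ∀ i ∈ s, A0 U (χ i)) : A0 U (fun z => ∑ i ∈ s, a i * χ i z) ∧
      ∀ q, Λ.val (fun z => ∑ i ∈ s, a i * χ i z) q = ∑ i ∈ s, a i * Λ.val (χ i) q := by
  induction s using Finset.cons_induction with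
  | empty =>
    simp only [Finset.sum_empty]
    exact ⟨A0.const 0, fun q =>
      (val_eq Λ (A0.bdd Λ (A0.const 0)) (n := 0) fun _ _ => rfl).1⟩
  | cons i s hi ih =>
    obtain ⟨h1, h2⟩ := ih fun j hj => h j (Finset.mem_cons_of_mem hj)
    simp only [Finset.sum_cons]
    obtain ⟨h3, h4⟩ := A0.comp2 hU Λ (h i (Finset.mem_cons_self _ _)) h1
      (G := fun p => a i * p.1 + p.2) (by fun_prop)
    exact ⟨h3, fun q => (h4 q).trans (by rw [h2 q])⟩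

/-- a function that is constant on every lump of some level is in `A0` -/
theorem A0.of_lumps (hU : IsOpen U) (Λ : Lumps U) {χ : ℂ → ℝ} (h : XX U χ)
    (hq : ∀ q, ∃ n a, ∀ z ∈ Λ.W n q, χ z = a) : A0 U χ := by
  have _ := hU
  obtain ⟨N, hN⟩ := Λ.koenig' (fun s => ∃ a, ∀ z ∈ s, χ z = a)
    (fun s t hst ⟨a, ha⟩ => ⟨a, fun z hz => ha z (hst hz)⟩) hq
  obtain ⟨R', c, hc⟩ := h.inf
  refine ⟨h, Λ.C N ∪ (Metric.closedBall 0 R' ∩ {z | Λ.R ≤ ‖z‖}), (Λ.cpt N).union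
    ((isCompact_closedBall _ _).inter_right (isClosed_le continuous_const continuous_norm)),
    union_subset (Λ.csub N) fun z hz => Λ.far z hz.2, fun z hz hzC => ?_⟩
  rw [mem_union, not_or] at hzC
  rcases Λ.cover N z hz hzC.1 with h1 | ⟨q, h1⟩
  · have h2 : R' < ‖z‖ := by
      by_contra h2
      exact hzC.2 ⟨mem_closedBall_zero_iff.2 (not_lt.1 h2), h1⟩
    filter_upwards [(isOpen_lt continuous_const continuous_norm).mem_nhds h2] with w hw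
    rw [hc w (le_of_lt hw), hc z h2.le]
  · obtain ⟨a, ha⟩ := hN N le_rfl q
    filter_upwards [(Λ.op N q).mem_nhds h1] with w hw
    rw [ha w hw, ha z h1]

theorem h67_en_smooth {a : ℂ → ℝ} (ha : ContDiff ℝ 1 a) (hc : HasCompactSupport a) :
    ∫⁻ z, ‖fderiv ℝ a z‖ₑ ^ 2 < ⊤ := by
  have h1 : Continuous (fderiv ℝ a) := ha.continuous_fderiv one_ne_zero
  have h3 : HasCompactSupport fun z => ‖fderiv ℝ a z‖ ^ 2 :=
    HasCompactSupport.intro (hc.fderiv ℝ).isCompact fun z hz => by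
      rw [image_eq_zero_of_notMem_tsupport hz, norm_zero, zero_pow two_ne_zero]
  have h4 : Continuous fun z => ‖fderiv ℝ a z‖ ^ 2 := h1.norm.pow 2
  have h2 : Integrable (fun z => ‖fderiv ℝ a z‖ ^ 2) := h4.integrable_of_hasCompactSupport h3
  refine lt_of_eq_of_lt (lintegral_congr fun z => ?_) h2.2
  rw [enorm_pow, enorm_norm]

theorem h67_inf_smooth {a : ℂ → ℝ} (hc : HasCompactSupport a) :
    ∃ R c : ℝ, ∀ z : ℂ, R ≤ ‖z‖ → a z = c := by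
  obtain ⟨R, hR⟩ := hc.isCompact.isBounded.subset_ball (0 : ℂ)
  refine ⟨R, 0, fun z hz => image_eq_zero_of_notMem_tsupport fun h => ?_⟩
  exact not_lt.2 hz (mem_ball_zero_iff.1 (hR h))

theorem A0.of_smooth (hU : IsOpen U) {a : ℂ → ℝ} (ha : ContDiff ℝ 1 a) (hc : HasCompactSupport a)
    (hs : tsupport (fderiv ℝ a) ⊆ U) : A0 U a := by
  have _ := hU
  refine ⟨⟨ha.locallyLipschitz.locallyLipschitzOn, h67_inf_smooth hc,
    (setLIntegral_le_lintegral _ _).trans_lt (h67_en_smooth ha hc)⟩,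
    tsupport (fderiv ℝ a), hc.fderiv ℝ, hs, fun z _ hz => ?_⟩
  obtain ⟨ε, hε, hb⟩ := Metric.isOpen_iff.1 (isClosed_tsupport (fderiv ℝ a)).isOpen_compl z hz
  filter_upwards [Metric.ball_mem_nhds z hε] with w hw
  exact Metric.isOpen_ball.is_const_of_fderiv_eq_zero (𝕜 := ℝ) (convex_ball z ε).isPreconnected
    (ha.differentiable one_ne_zero).differentiableOn
    (fun x hx => image_eq_zero_of_notMem_tsupport (hb hx)) hw (Metric.mem_ball_self hε)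

theorem h67_lip_mul {u v : ℂ → ℝ} (hu : LocallyLipschitzOn U u) (hv : LocallyLipschitzOn U v) :
    LocallyLipschitzOn U fun z => u z * v z := by
  rw [locallyLipschitzOn_iff_restrict] at hu hv ⊢
  have h : ContDiff ℝ 1 fun p : ℝ × ℝ => p.1 * p.2 := contDiff_fst.mul contDiff_snd
  exact h.locallyLipschitz.comp (hu.prodMk hv)

theorem h67_enorm_sq_le {x y z : ℂ →L[ℝ] ℝ} {A B : ℝ} (h : ‖x‖ ≤ A * ‖y‖ + B * ‖z‖) :
    ‖x‖ₑ ^ 2 ≤ ENNReal.ofReal (2 * A ^ 2) * ‖y‖ₑ ^ 2 + ENNReal.ofReal (2 * B ^ 2) * ‖z‖ₑ ^ 2 := by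
  rw [← ofReal_norm, ← ofReal_norm, ← ofReal_norm,
    ← ENNReal.ofReal_pow (norm_nonneg _), ← ENNReal.ofReal_pow (norm_nonneg _),
    ← ENNReal.ofReal_pow (norm_nonneg _), ← ENNReal.ofReal_mul (by positivity),
    ← ENNReal.ofReal_mul (by positivity), ← ENNReal.ofReal_add (by positivity) (by positivity)]
  refine ENNReal.ofReal_le_ofReal ?_
  have h1 := pow_le_pow_left₀ (norm_nonneg _) h 2
  nlinarith [sq_nonneg (A * ‖y‖ - B * ‖z‖)]

theorem XX.mul_A0 (hU : IsOpen U) (Λ : Lumps U) {u χ : ℂ → ℝ} (hu : XX U u) (hχ : A0 U χ) :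
    XX U (fun z => u z * χ z) := by
  obtain ⟨B, hB⟩ := hχ.bdd Λ
  obtain ⟨C, hC, hCU, hloc⟩ := hχ.loc
  obtain ⟨A, hA⟩ := hC.exists_bound_of_continuousOn (hu.lip.continuousOn.mono hCU)
  obtain ⟨R, c, hR⟩ := hu.inf
  obtain ⟨R', c', hR'⟩ := hχ.xx.inf
  refine ⟨h67_lip_mul hu.lip hχ.xx.lip, ⟨max R R', c * c', fun z hz => by
    rw [hR z ((le_max_left _ _).trans hz), hR' z ((le_max_right _ _).trans hz)]⟩, ?_⟩
  have key : ∀ᵐ z ∂(volume.restrict U), ‖fderiv ℝ (fun z => u z * χ z) z‖ₑ ^ 2 ≤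
      ENNReal.ofReal (2 * A ^ 2) * ‖fderiv ℝ χ z‖ₑ ^ 2 +
        ENNReal.ofReal (2 * B ^ 2) * ‖fderiv ℝ u z‖ₑ ^ 2 := by
    rw [ae_restrict_iff' hU.measurableSet]
    filter_upwards [ae_diff hU hu.lip, ae_diff hU hχ.xx.lip] with z h1 h2 hz
    refine h67_enorm_sq_le ?_
    rw [fderiv_fun_mul (h1 hz) (h2 hz)]
    refine (norm_add_le _ _).trans (add_le_add ?_ ?_)
    · by_cases hzC : z ∈ C
      · rw [norm_smul]
        exact mul_le_mul_of_nonneg_right (hA z hzC) (norm_nonneg _)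
      · have h3 : fderiv ℝ χ z = 0 := by
          rw [Filter.EventuallyEq.fderiv_eq (f := fun _ => χ z) (hloc z hz hzC)]
          simp
        rw [h3]; simp
    · rw [norm_smul]
      exact mul_le_mul_of_nonneg_right (hB z hz) (norm_nonneg _)
  refine (lintegral_mono_ae key).trans_lt ?_
  rw [lintegral_add_left (((measurable_fderiv ℝ χ).enorm.pow_const 2).const_mul _),
    lintegral_const_mul' _ _ ENNReal.ofReal_ne_top, lintegral_const_mul' _ _ ENNReal.ofReal_ne_top]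
  exact ENNReal.add_lt_top.2 ⟨ENNReal.mul_lt_top ENNReal.ofReal_lt_top hχ.xx.en,
    ENNReal.mul_lt_top ENNReal.ofReal_lt_top hu.en⟩

/-- smooth lump cutoff: `χ = (1 - ζ) 1_W` with `ζ ∈ C_c^∞(U)`, `ζ = 1` near `C n` -/
theorem exists_Ind (hU : IsOpen U) (Λ : Lumps U) (n : ℕ) (q : Λ.E) : ∃ χ : ℂ → ℝ,
    Ind Λ n q χ ∧ ContDiffOn ℝ (⊤ : ℕ∞) χ U ∧ (∀ z, 0 ≤ χ z ∧ χ z ≤ 1) ∧
      (∀ z, z ∉ Λ.W n q → χ z = 0) ∧ ∃ L : ℝ, ∀ z ∈ U, ‖fderiv ℝ χ z‖ ≤ L := by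
  classical
  obtain ⟨K, hK, hCK, hKU⟩ := exists_compact_between (Λ.cpt n) hU (Λ.csub n)
  obtain ⟨f, hf1, hf0, hf⟩ := exists_contMDiffMap_one_nhds_of_subset_interior
    (modelWithCornersSelf ℝ ℂ) (n := (⊤ : ℕ∞)) (Λ.cpt n).isClosed hCK
  have hζ : ContDiff ℝ (⊤ : ℕ∞) f := f.contMDiff.contDiff
  have hζ1 : ContDiff ℝ 1 f := hζ.of_le (by exact_mod_cast le_top)
  have hcs : HasCompactSupport f := HasCompactSupport.intro hK hf0
  set χ : ℂ → ℝ := (Λ.W n q).indicator fun z => 1 - f z with hχ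
  have hin : ∀ z ∈ Λ.W n q, χ z = 1 - f z := fun z hz => indicator_of_mem hz _
  have hout : ∀ z, z ∉ Λ.W n q → χ z = 0 := fun z hz => indicator_of_notMem hz _
  have hloc : ∀ z ∈ U, (χ =ᶠ[𝓝 z] fun z => 1 - f z) ∨ χ =ᶠ[𝓝 z] fun _ => 0 := by
    intro z hz
    by_cases h1 : z ∈ closure (Λ.W n q)
    · rcases Λ.bd n q z hz h1 with h2 | h2
      · exact Or.inl (Filter.mem_of_superset ((Λ.op n q).mem_nhds h2) hin)
      · refine Or.inr ?_
        filter_upwards [hf1.filter_mono (nhds_le_nhdsSet h2)] with w hw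
        by_cases h3 : w ∈ Λ.W n q
        · rw [hin w h3, hw, sub_self]
        · exact hout w h3
    · refine Or.inr ?_
      filter_upwards [isClosed_closure.isOpen_compl.mem_nhds h1] with w hw
      exact hout w fun h => hw (subset_closure h)
  have hcd : ∀ z ∈ U, ContDiffAt ℝ (⊤ : ℕ∞) χ z := fun z hz => by
    rcases hloc z hz with h | h
    · exact (contDiff_const.sub hζ).contDiffAt.congr_of_eventuallyEq h
    · exact contDiffAt_const.congr_of_eventuallyEq h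
  have hfd : ∀ z ∈ U, ‖fderiv ℝ χ z‖ ≤ ‖fderiv ℝ f z‖ := fun z hz => by
    rcases hloc z hz with h | h
    · rw [h.fderiv_eq, fderiv_const_sub, norm_neg]
    · rw [h.fderiv_eq]; simp
  have h01 : ∀ z, 0 ≤ χ z ∧ χ z ≤ 1 := fun z => by
    by_cases h : z ∈ Λ.W n q
    · rw [hin z h]
      exact ⟨sub_nonneg.2 (hf z).2, sub_le_self _ (hf z).1⟩
    · rw [hout z h]
      exact ⟨le_rfl, zero_le_one⟩
  have hxx : XX U χ := by
    refine ⟨fun z hz => ?_, ⟨Λ.R, 0, fun z hz => hout z fun h => ?_⟩, ?_⟩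
    · obtain ⟨L, t, ht, hL⟩ := ((hcd z hz).of_le (by exact_mod_cast le_top)).exists_lipschitzOnWith
        (𝕂 := ℝ)
      exact ⟨L, t, mem_nhdsWithin_of_mem_nhds ht, hL⟩
    · exact not_lt.2 hz (mem_ball_zero_iff.1 (Λ.sub n q h).2)
    · refine lt_of_le_of_lt ?_ ((setLIntegral_le_lintegral U _).trans_lt (h67_en_smooth hζ1 hcs))
      refine setLIntegral_mono' hU.measurableSet fun z hz => ?_
      exact pow_le_pow_left' (enorm_le_iff_norm_le.2 (hfd z hz)) 2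
  have hA : A0 U χ := by
    refine ⟨hxx, K, hK, hKU, fun z hz hzK => ?_⟩
    rcases hloc z hz with h | h
    · filter_upwards [h, hK.isClosed.isOpen_compl.mem_nhds hzK] with w hw hwK
      rw [hw, h.eq_of_nhds, hf0 w hwK, hf0 z hzK]
    · filter_upwards [h] with w hw
      rw [hw, h.eq_of_nhds]
  obtain ⟨L, hL⟩ := (hζ1.continuous_fderiv one_ne_zero).bounded_above_of_compact_support
    (hcs.fderiv ℝ)
  refine ⟨χ, ⟨hA, fun q' => ?_⟩, fun z hz => (hcd z hz).contDiffWithinAt, h01, hout,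
    L, fun z hz => (hfd z hz).trans (hL z)⟩
  obtain ⟨m, hm⟩ := Λ.exh K hK hKU
  refine (val_eq Λ (hA.bdd Λ) (n := max m n) fun z hz => ?_).1
  have h1 : z ∈ Λ.W n q' := Λ.W_mono (le_max_right _ _) q' hz
  split_ifs with h
  · rw [hin z (h ▸ h1), hf0 z (disjoint_left.1 (hm q') (Λ.W_mono (le_max_left _ _) q' hz)),
      sub_zero]
  · exact hout z (disjoint_left.1 ((Λ.part n q' q).resolve_left h) h1)

theorem wt_l2 (Λ : Lumps U) {r : ℂ → ℝ} (hr : Reg Λ r) {H : ℝ → ℝ} (hH : ContDiff ℝ 1 H)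
    {χ : ℂ → ℝ} (hχ : A0 U χ) : L2w (wt Λ r H χ) := by
  obtain ⟨A, hA⟩ := hr.bdd
  obtain ⟨B, hB⟩ := hχ.bdd Λ
  have hc : Continuous (deriv H) := hH.continuous_deriv le_rfl
  obtain ⟨C, hC⟩ := (isCompact_Icc (a := -A) (b := A)).exists_bound_of_continuousOn
    hc.continuousOn
  have hU : ∀ q, ∀ z ∈ Λ.W 0 q, z ∈ U := fun q z hz => (Λ.sub 0 q hz).1
  refine (L2w.of_le (L2w.smul (e := Λ.osc r) ⟨Λ.osc_nonneg hr.bdd, hr.sq⟩
    (mul_nonneg (abs_nonneg B) (abs_nonneg C))).1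
    (fun q => mul_nonneg (abs_nonneg _) (integral_nonneg fun _ => abs_nonneg _)) fun q => ?_).1
  have h1 : |Λ.val χ q| ≤ |B| := by
    refine (abs_le.2 ⟨Λ.le_lo (hχ.bdd Λ) fun z hz => (abs_le.1 (hB z (hU q z hz))).1,
      (Λ.lo_le_hi (hχ.bdd Λ) q).trans (Λ.hi_le (hχ.bdd Λ) fun z hz =>
        (abs_le.1 (hB z (hU q z hz))).2)⟩).trans (le_abs_self B)
  have h2 : -A ≤ Λ.lo r q := Λ.le_lo hr.bdd fun z hz => (abs_le.1 (hA z (hU q z hz))).1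
  have h3 : Λ.hi r q ≤ A := Λ.hi_le hr.bdd fun z hz => (abs_le.1 (hA z (hU q z hz))).2
  have h4 : ∫ t in Icc (Λ.lo r q) (Λ.hi r q), |deriv H t| ≤ |C| * Λ.osc r q := by
    have h5 := norm_setIntegral_le_of_norm_le_const (μ := volume) (f := fun t => |deriv H t|)
      (s := Icc (Λ.lo r q) (Λ.hi r q)) (C := |C|) measure_Icc_lt_top fun t ht => by
        rw [Real.norm_eq_abs, abs_abs]
        exact (hC t ⟨h2.trans ht.1, ht.2.trans h3⟩).trans (le_abs_self C)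
    rw [Real.volume_real_Icc_of_le (Λ.lo_le_hi hr.bdd q)] at h5
    exact (le_abs_self _).trans h5
  rw [mul_assoc]
  exact mul_le_mul h1 h4 (integral_nonneg fun _ => abs_nonneg _) (abs_nonneg _)

end Crest.Agent.R105
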