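import Crest.Agent.R105.BTop1
import Crest.Agent.R105.NT2

/-! Row 105 (B), topology 2: for a dust the ends are the points. -/

set_option autoImplicit false

open MeasureTheory Set Filter Topology

namespace Crest.Agent.R105

/-- a nested intersection of continua is a continuum -/
theorem bt_h97_iInter {K : ℕ → Set ℂ} (hK : Antitone K) (hc : ∀ n, IsCompact (K n))
    (hp : ∀ n, IsPreconnected (K n)) : IsPreconnected (⋂ n, K n) := by
  have hI : IsCompact (⋂ n, K n) :=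
    (hc 0).of_isClosed_subset (isClosed_iInter fun n => (hc n).isClosed) (iInter_subset _ 0)
  rw [isPreconnected_closed_iff]
  rintro t t' ht ht' hs ⟨x, hx⟩ ⟨y, hy⟩
  by_contra hne
  obtain ⟨u, v, hu, hv, h1, h2, huv⟩ := SeparatedNhds.of_isCompact_isCompact (hI.inter_right ht)
    (hI.inter_right ht') (Set.disjoint_left.2 fun z hz hz' => hne ⟨z, hz.1, hz.2, hz'.2⟩)
  obtain ⟨n, hn⟩ := exists_subset_nhds_of_isCompact hK.directed_ge hc (U := u ∪ v)
    fun z hz => (hu.union hv).mem_nhds ((hs hz).imp (fun h => h1 ⟨hz, h⟩) fun h => h2 ⟨hz, h⟩)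
  exact Set.disjoint_left.1 huv ((hp n).subset_left_of_subset_union hu hv huv hn
    ⟨x, mem_iInter.1 hx.1 n, h1 hx⟩ (mem_iInter.1 hy.1 n)) (h2 hy)

/-- `⋂ closure (W n q)` is a nested intersection of continua, misses `Eᶜ` (by `exh`), so it is a
point, and the diameters tend to zero by compactness. -/
theorem dust_pt {E : Set ℂ} (hE : IsCompact E) (hd : IsTotallyDisconnected E) (Λ : Lumps Eᶜ)
    (q : Λ.E) : ∃ p, p ∉ Eᶜ ∧ ∀ η > 0, ∃ n, Λ.W n q ⊆ Metric.ball p η := by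
  have hK : Antitone fun n => closure (Λ.W n q) := fun _ _ h => closure_mono (Λ.W_mono h q)
  have hc : ∀ n, IsCompact (closure (Λ.W n q)) := fun n =>
    (Metric.isBounded_ball.subset ((Λ.sub n q).trans inter_subset_right)).isCompact_closure
  have hI : ⋂ n, closure (Λ.W n q) ⊆ E := fun z hz => by
    by_contra hzE
    obtain ⟨K, hK, hzK, hKE⟩ := exists_compact_subset hE.isClosed.isOpen_compl hzE
    obtain ⟨n, hn⟩ := Λ.exh K hK hKE
    obtain ⟨w, hw, hw'⟩ := mem_closure_iff.1 (mem_iInter.1 hz n) _ isOpen_interior hzK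
    exact Set.disjoint_left.1 (hn q) hw' (interior_subset hw)
  have hs := hd _ hI (bt_h97_iInter hK hc fun n => (Λ.conn n q).isPreconnected.closure)
  obtain ⟨p, hp⟩ := IsCompact.nonempty_iInter_of_sequence_nonempty_isCompact_isClosed _
    (fun n => hK (Nat.le_succ n)) (fun n => (Λ.conn n q).nonempty.closure) (hc 0)
    fun _ => isClosed_closure
  refine ⟨p, fun h => h (hI hp), fun η hη => ?_⟩
  obtain ⟨n, hn⟩ := exists_subset_nhds_of_isCompact hK.directed_ge hc (U := Metric.ball p η)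
    fun z hz => hs hp hz ▸ Metric.ball_mem_nhds p hη
  exact ⟨n, subset_closure.trans hn⟩

/-- König: otherwise `p ∉ closure (W N q)` for all `q` (finitely many sets), `p ∉ C N`, `‖p‖ < R`,
and a neighbourhood of `p` misses `U` by `cover`. -/
theorem end_of_pt {U : Set ℂ} (Λ : Lumps U) {p : ℂ} (hp : p ∉ U) (hcl : p ∈ closure U) :
    ∃ q, ∀ n, p ∈ closure (Λ.W n q) := by
  by_contra h
  push Not at h
  obtain ⟨N, hN⟩ := Λ.koenig' (fun s => p ∉ closure s)
    (fun s t hst ht hs => ht (closure_mono hst hs)) h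
  have hcl' : IsClosed (⋃ s ∈ Set.range (Λ.W N), closure s) :=
    (Λ.fin N).isClosed_biUnion fun _ _ => isClosed_closure
  obtain ⟨z, ⟨⟨h1, h2⟩, h3⟩, hz⟩ := mem_closure_iff.1 hcl _
    (((Λ.cpt N).isClosed.isOpen_compl.inter (Metric.isOpen_ball (x := (0 : ℂ)) (ε := Λ.R))).inter
      hcl'.isOpen_compl)
    ⟨⟨fun h => hp (Λ.csub N h), mem_ball_zero_iff.2 (not_le.1 fun h => hp (Λ.far p h))⟩, by
      simp only [mem_compl_iff, mem_iUnion₂]
      rintro ⟨_, ⟨q, rfl⟩, hq⟩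
      exact hN N le_rfl q hq⟩
  rcases Λ.cover N z hz h1 with h4 | ⟨q, hq⟩
  · exact (mem_ball_zero_iff.1 h2).not_ge h4
  · exact h3 (mem_iUnion₂.2 ⟨_, ⟨q, rfl⟩, subset_closure hq⟩)

/-- `N \ E` from `dust_local` (with `ball p η` missing `C n` and inside `ball 0 R`) is a preconnected
subset of the disjoint union of the open lumps of level `n` and meets `W n q`. -/
theorem nbhd_lump {E : Set ℂ} (hE : IsCompact E) (hd : IsTotallyDisconnected E)
    (hc : IsConnected Eᶜ) (Λ : Lumps Eᶜ) {p : ℂ} (hp : p ∈ E) {q : Λ.E}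
    (hq : ∀ n, p ∈ closure (Λ.W n q)) (n : ℕ) :
    ∃ η > 0, Metric.ball p η ∩ Eᶜ ⊆ Λ.W n q := by
  obtain ⟨η, hη, hb⟩ := Metric.isOpen_iff.1
    ((Λ.cpt n).isClosed.isOpen_compl.inter (Metric.isOpen_ball (x := (0 : ℂ)) (ε := Λ.R))) p
    ⟨fun h => Λ.csub n h hp, mem_ball_zero_iff.2 (not_le.1 fun h => Λ.far p h hp)⟩
  obtain ⟨N, hN, hpN, hNb, hNc⟩ := dust_local hE hd hc hp hη
  have hsub : N \ E ⊆ Λ.W n q := by
    refine hNc.subset_left_of_subset_union (v := ⋃ q' ∈ {q' | Λ.W n q' ≠ Λ.W n q}, Λ.W n q')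
      (Λ.op n q) (isOpen_biUnion fun q' _ => Λ.op n q') ?_ (fun z hz => ?_) ?_
    · exact disjoint_iUnion₂_right.2 fun q' hq' => ((Λ.part n q' q).resolve_left hq').symm
    · obtain ⟨h1, h2⟩ := hb (hNb hz.1)
      rcases Λ.cover n z hz.2 h1 with h4 | ⟨q', hq'⟩
      · exact absurd h4 (mem_ball_zero_iff.1 h2).not_ge
      · by_cases e : Λ.W n q' = Λ.W n q
        · exact Or.inl (e ▸ hq')
        · exact Or.inr (mem_iUnion₂.2 ⟨q', e, hq'⟩)
    · obtain ⟨z, hz, hz'⟩ := mem_closure_iff.1 (hq n) N hN hpN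
      exact ⟨z, ⟨hz, (Λ.sub n q hz').1⟩, hz'⟩
  obtain ⟨η', hη', hb'⟩ := Metric.isOpen_iff.1 hN p hpN
  exact ⟨η', hη', fun z hz => hsub ⟨hb' hz.1, hz.2⟩⟩

end Crest.Agent.R105
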