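import Crest.Agent.R105.CBand

/-! Row 105, block CH: cuts separating two boxes, cuts at the excluded ends, atoms. -/

set_option autoImplicit false

noncomputable section

namespace Crest.Agent.R105.Ch

open MeasureTheory Filter Topology Set Metric Complex
open scoped ContDiff Classical

variable {U : Set ℂ} {r : ℂ → ℝ} {κ : Type}

/-- the band contains no merge level of the pair of boxes -/
def NoMerge (U : Set ℂ) (r : ℂ → ℝ) (b b' : Box U r) (α β : ℝ) : Prop :=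
  (∃ τ, τ < α ∧ ¬ JoinedIn (U ∩ {z | τ < r z}) b.pp b'.pp) ∨
  (∃ τ, β < τ ∧ ¬ JoinedIn (U ∩ {z | r z < τ}) b.pm b'.pm) ∨
  (JoinedIn (U ∩ {z | β < r z}) b.pp b'.pp ∧ JoinedIn (U ∩ {z | r z < α}) b.pm b'.pm)

theorem h99_up (b : Box U r) {J : Set ℂ} {ν : ℂ → ℤ} (hc : Cut U J ν) {α : ℝ}
    (hJ : ∀ z ∈ J, r z < α) (h1 : b.lo ≤ α) (h2 : α ≤ b.hi) : ν (b.x α) = ν b.pp := by
  have hsub : Icc α b.hi ⊆ Icc b.lo b.hi := Icc_subset_Icc_left h1
  have e1 : ν (b.x α) = ν (b.x b.hi) := by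
    refine hc.eq_of_curve (b.cx.mono hsub) (fun t ht => ?_) ⟨le_rfl, h2⟩ ⟨h2, le_rfl⟩
    obtain ⟨q1, q2, -⟩ := b.x_mem t (hsub ht)
    exact ⟨b.sub q1, fun hz => absurd (hJ _ hz) (by rw [q2]; exact not_lt.2 ht.1)⟩
  obtain ⟨q1, q2, -⟩ := b.x_mem b.hi ⟨b.lt.le, le_rfl⟩
  rw [e1]
  refine hc.eq_of_preconnected (b.chord b.hi) (fun z hz => b.sub hz.1) (disjoint_left.2 ?_)
    ⟨q1, q2⟩ ⟨b.seg (right_mem_segment _ _ _), b.r_pp⟩
  intro z hz hzJ
  have h3 : r z = b.hi := hz.2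
  have := hJ z hzJ
  linarith

theorem Band.pair_up {B : κ → Box U r} {α β : ℝ} (h : Band B α β) (hs : Sep U r) {i j : κ}
    {τ : ℝ} (hτ : τ < α) (hn : ¬ JoinedIn (U ∩ {z | τ < r z}) (B i).pp (B j).pp) :
    ∃ (J : Set ℂ) (ν : ℂ → ℤ), Cut U J ν ∧ Disjoint J (Zs B α β) ∧
      ν ((B i).x α) ≠ ν ((B j).x α) := by
  have hlt := h.lt
  have hpp : ∀ k, (B k).pp ∈ U := fun k => (B k).sub ((B k).seg (right_mem_segment _ _ _))
  have hge : ∀ k, α ≤ (B k).hi := fun k => by linarith [(h.act k).2]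
  obtain ⟨J, ν, hc, hJ, hne⟩ := hs τ α hτ _ (hpp i) _ (hpp j) (by rw [(B i).r_pp]; exact hge i)
    (by rw [(B j).r_pp]; exact hge j) hn
  refine ⟨J, ν, hc, disjoint_left.2 fun z hz hz' => absurd (hJ z hz) (not_lt.2 hz'.2.1.1), ?_⟩
  rw [h99_up (B i) hc hJ (h.act i).1.le (hge i), h99_up (B j) hc hJ (h.act j).1.le (hge j)]
  exact hne

theorem h99_down (b : Box U r) {J : Set ℂ} {ν : ℂ → ℤ} (hc : Cut U J ν) {α : ℝ}
    (hJ : ∀ z ∈ J, α < r z) (h1 : b.lo ≤ α) (h2 : α ≤ b.hi) : ν (b.x α) = ν b.pm := by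
  have hsub : Icc b.lo α ⊆ Icc b.lo b.hi := Icc_subset_Icc_right h2
  have e1 : ν (b.x α) = ν (b.x b.lo) := by
    refine hc.eq_of_curve (b.cx.mono hsub) (fun t ht => ?_) ⟨h1, le_rfl⟩ ⟨le_rfl, h1⟩
    obtain ⟨q1, q2, -⟩ := b.x_mem t (hsub ht)
    exact ⟨b.sub q1, fun hz => absurd (hJ _ hz) (by rw [q2]; exact not_lt.2 ht.2)⟩
  obtain ⟨q1, q2, -⟩ := b.x_mem b.lo ⟨le_rfl, b.lt.le⟩
  rw [e1]
  refine hc.eq_of_preconnected (b.chord b.lo) (fun z hz => b.sub hz.1) (disjoint_left.2 ?_)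
    ⟨q1, q2⟩ ⟨b.seg (left_mem_segment _ _ _), b.r_pm⟩
  intro z hz hzJ
  have h3 : r z = b.lo := hz.2
  have := hJ z hzJ
  linarith

theorem Band.pair_down {B : κ → Box U r} {α β : ℝ} (h : Band B α β)
    (hs : Sep U (fun z => - r z)) {i j : κ}
    {τ : ℝ} (hτ : β < τ) (hn : ¬ JoinedIn (U ∩ {z | r z < τ}) (B i).pm (B j).pm) :
    ∃ (J : Set ℂ) (ν : ℂ → ℤ), Cut U J ν ∧ Disjoint J (Zs B α β) ∧
      ν ((B i).x α) ≠ ν ((B j).x α) := by
  have hlt := h.lt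
  have hpm : ∀ k, (B k).pm ∈ U := fun k => (B k).sub ((B k).seg (left_mem_segment _ _ _))
  have hge : ∀ k, α ≤ (B k).hi := fun k => by linarith [(h.act k).2]
  have hle : ∀ k, -β ≤ -r (B k).pm := fun k => by rw [(B k).r_pm]; linarith [(h.act k).1]
  have hset : {z | -τ < -r z} = {z | r z < τ} := by
    ext z; simp
  obtain ⟨J, ν, hc, hJ, hne⟩ := hs (-τ) (-β) (by linarith) _ (hpm i) _ (hpm j) (hle i) (hle j)
    (by rw [hset]; exact hn)
  have hJ' : ∀ z ∈ J, β < r z := fun z hz => by have := hJ z hz; simp only at this; linarith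
  have hJ'' : ∀ z ∈ J, α < r z := fun z hz => hlt.trans (hJ' z hz)
  refine ⟨J, ν, hc, disjoint_left.2 fun z hz hz' => absurd (hJ' z hz) (not_lt.2 hz'.2.1.2), ?_⟩
  rw [h99_down (B i) hc hJ'' (h.act i).1.le (hge i), h99_down (B j) hc hJ'' (h.act j).1.le (hge j)]
  exact hne

/-- third case: `pm i` is joined to `pp i` inside
`S' = (U ∩ {r < α}) ∪ segment (pm j) (pp j) ∪ (U ∩ {β < r})` (`JoinedIn.of_segment_subset`);
`γ = somePath`, `ν` from `loop_cut γ`, `J = range γ ∪ segment (pm i) (pp i)`.  A point of `Z` on a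
segment would be interior (`seg_int`).  For `k ≠ i, j` the chord `Q k ∩ r ⁻¹' {α}` misses `J`, so
`ν (x k α) = ν (e k α)`; for `k = i` use the jump (`chord`, `ray`, `side`); conclude with
`ne_of_balance` and `Band.balance`. -/
theorem Band.pair_loop [Fintype κ] (hU : IsOpen U) {R : ℝ} (hR : ∀ z : ℂ, R ≤ ‖z‖ → z ∈ U)
    (hr : XX U r) (hb : Bdd U r) {B : κ → Box U r} {α β : ℝ} (h : Band B α β) {i j : κ}
    (hij : i ≠ j) (hp : JoinedIn (U ∩ {z | β < r z}) (B i).pp (B j).pp)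
    (hm : JoinedIn (U ∩ {z | r z < α}) (B i).pm (B j).pm) :
    ∃ (J : Set ℂ) (ν : ℂ → ℤ), Cut U J ν ∧ Disjoint J (Zs B α β) ∧
      ν ((B i).x α) ≠ ν ((B j).x α) := by
  set S' : Set ℂ := (U ∩ {z | r z < α}) ∪ segment ℝ (B j).pm (B j).pp ∪ (U ∩ {z | β < r z})
    with hS'
  have hJ : JoinedIn S' (B i).pm (B i).pp :=
    ((hm.mono (subset_union_left.trans subset_union_left)).trans
      (JoinedIn.of_segment_subset (subset_union_right.trans subset_union_left))).trans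
      (hp.symm.mono subset_union_right)
  have hγ : range hJ.somePath ⊆ S' := by
    rintro _ ⟨t, rfl⟩
    exact hJ.somePath_mem t
  obtain ⟨ν, hloc, hjump⟩ := loop_cut hJ.somePath
  have hαm : ∀ k, α ∈ Ioo (B k).lo (B k).hi := fun k =>
    ⟨(h.act k).1, h.lt.trans (h.act k).2⟩
  have hseg : IsCompact (segment ℝ (B i).pm (B i).pp) := by
    rw [segment_eq_image_lineMap]
    exact isCompact_Icc.image AffineMap.lineMap_continuous
  have hcut : Cut U (range hJ.somePath ∪ segment ℝ (B i).pm (B i).pp) ν := by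
    refine ⟨(isCompact_range hJ.somePath.continuous).union hseg, union_subset (hγ.trans ?_)
      ((B i).seg.trans (B i).sub), fun z _ hz => hloc z (fun e => hz (Or.inl e))
        fun e => hz (Or.inr e)⟩
    exact union_subset (union_subset inter_subset_left ((B j).seg.trans (B j).sub))
      inter_subset_left
  have hsZ : ∀ k, ∀ z ∈ segment ℝ (B k).pm (B k).pp, z ∉ Zs B α β := fun k z hz hZ =>
    hZ.2.2 k ((B k).seg_int z hz ((h.act k).1.trans_le hZ.2.1.1)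
      (hZ.2.1.2.trans_lt (h.act k).2))
  have hdis : Disjoint (range hJ.somePath ∪ segment ℝ (B i).pm (B i).pp) (Zs B α β) := by
    refine Set.disjoint_left.2 fun z hz hZ => ?_
    rcases hz with hz | hz
    · rcases hγ hz with (h1 | h1) | h1
      · exact absurd hZ.2.1.1 (not_le.2 h1.2)
      · exact hsZ j z h1 hZ
      · exact absurd hZ.2.1.2 (not_le.2 h1.2)
    · exact hsZ i z hz hZ
  have hch : ∀ k, k ≠ j → Disjoint ((B k).Q ∩ r ⁻¹' {α}) (range hJ.somePath) := by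
    intro k hk
    refine Set.disjoint_left.2 fun z hz hz' => ?_
    have hz2 : r z = α := hz.2
    rcases hγ hz' with (h1 | h1) | h1
    · exact absurd hz2 (ne_of_lt h1.2)
    · exact Set.disjoint_left.1 (h.disj hk) hz.1 ((B j).seg h1)
    · exact absurd hz2 (h.lt.trans h1.2).ne'
  have hx : ∀ k, (B k).x α ∈ (B k).Q ∩ r ⁻¹' {α} := fun k =>
    ⟨((B k).x_mem α (Ioo_subset_Icc_self (hαm k))).1,
      ((B k).x_mem α (Ioo_subset_Icc_self (hαm k))).2.1⟩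
  have he : ∀ k, (B k).e α ∈ (B k).Q ∩ r ⁻¹' {α} := fun k =>
    ⟨((B k).e_mem α (Ioo_subset_Icc_self (hαm k))).1,
      ((B k).e_mem α (Ioo_subset_Icc_self (hαm k))).2.1⟩
  refine ⟨_, ν, hcut, hdis, ne_of_balance (X := fun k => ν ((B k).x α))
    (E := fun k => ν ((B k).e α)) hij (fun k hki hkj => ?_) ?_
    (h.balance hU hR hr hb hcut hdis)⟩
  · refine hcut.eq_of_preconnected ((B k).chord α) (inter_subset_left.trans (B k).sub)
      (disjoint_union_right.2 ⟨hch k hkj, ?_⟩) (hx k) (he k)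
    exact (h.disj hki).mono inter_subset_left (B i).seg
  · refine hjump _ ((B i).chord α) (hch i hij) (fun z hz => (B i).ray z hz.1 ?_ ?_) _ (he i) _
      (hx i) ((B i).side α (hαm i))
    · rw [show r z = α from hz.2]; exact (hαm i).1
    · rw [show r z = α from hz.2]; exact (hαm i).2

/-- a band that misses the cluster interval of `p` is cut off from `p`: by `Lumps.near` the
values of `r` on a lump `W = W n p`, hence on `closure W ∩ U`, stay in a closed interval missing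
`[α, β]`; `ν = 1_W` is locally constant on `U \ C n` (`Lumps.bd`), use `cut_of_subset`; a point
where `ν` is not locally constant lies in `closure W`. -/
theorem end_cut (Λ : Lumps U) (hr : ContinuousOn r U) (hb : Bdd U r) (p : Λ.E) {α β : ℝ}
    (h : β < Λ.lo r p ∨ Λ.hi r p < α) :
    ∃ (J : Set ℂ) (ν : ℂ → ℤ) (n : ℕ), Cut U J ν ∧ (∀ z ∈ J, r z ∉ Icc α β) ∧
      (∀ z ∈ Λ.W n p, ν z = 1) ∧ ∀ z ∈ U, r z ∈ Icc α β → ν z = 0 := by
  obtain ⟨n, T, hT, hTW, hTI⟩ : ∃ (n : ℕ) (T : Set ℝ), IsClosed T ∧ (∀ z ∈ Λ.W n p, r z ∈ T) ∧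
      ∀ t ∈ T, t ∉ Icc α β := by
    rcases h with h | h
    · obtain ⟨n, hn⟩ := Λ.near hb p (η := (Λ.lo r p - β) / 2) (by linarith)
      refine ⟨n, Ici (Λ.lo r p - (Λ.lo r p - β) / 2), isClosed_Ici, fun z hz => (hn z hz).1,
        fun t ht ht' => ?_⟩
      have h1 : Λ.lo r p - (Λ.lo r p - β) / 2 ≤ t := ht
      linarith [ht'.2]
    · obtain ⟨n, hn⟩ := Λ.near hb p (η := (α - Λ.hi r p) / 2) (by linarith)
      refine ⟨n, Iic (Λ.hi r p + (α - Λ.hi r p) / 2), isClosed_Iic, fun z hz => (hn z hz).2,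
        fun t ht ht' => ?_⟩
      have h1 : t ≤ Λ.hi r p + (α - Λ.hi r p) / 2 := ht
      linarith [ht'.1]
  have hWU : Λ.W n p ⊆ U := fun z hz => (Λ.sub n p hz).1
  have hcl : ∀ z ∈ U, z ∈ closure (Λ.W n p) → r z ∈ T := fun z hz hc =>
    hT.closure_subset_iff.2 (image_subset_iff.2 hTW)
      (((hr z hz).mono hWU).mem_closure_image hc)
  have hout : ∀ z, z ∉ closure (Λ.W n p) → ∀ᶠ w in 𝓝 z,
      (if w ∈ Λ.W n p then (1 : ℤ) else 0) = (if z ∈ Λ.W n p then (1 : ℤ) else 0) := by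
    intro z hz
    filter_upwards [isClosed_closure.isOpen_compl.mem_nhds hz] with w hw
    rw [if_neg fun h => hw (subset_closure h), if_neg fun h => hz (subset_closure h)]
  refine ⟨_, fun z => if z ∈ Λ.W n p then 1 else 0, n,
    cut_of_subset (Λ.cpt n) (Λ.csub n) fun z hz hzC => ?_, fun z hz => ?_,
    fun z hz => if_pos hz, fun z hz hI => if_neg fun hW => hTI _ (hTW z hW) hI⟩
  · by_cases hc : z ∈ closure (Λ.W n p)
    · have hW : z ∈ Λ.W n p := (Λ.bd n p z hz hc).resolve_right hzC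
      filter_upwards [(Λ.op n p).mem_nhds hW] with w hw
      rw [if_pos hw, if_pos hW]
    · exact hout z hc
  · refine hTI _ (hcl z (Λ.csub n hz.1) ?_)
    by_contra hc
    exact hz.2 (hout z hc)

/-- one cut doing everything: product (`Cut.pi`, `Cut.prod`) of the pair cuts (trivial cut
`∅, 0` for `i = j`) and of the end cuts for the `p ∈ F` whose interval misses the band. -/
theorem Band.big_cut [Fintype κ] (hU : IsOpen U) (Λ : Lumps U) (hr : XX U r) (hb : Bdd U r)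
    (hs : Sep U r) (hs' : Sep U (fun z => - r z)) {B : κ → Box U r} {α β : ℝ} (h : Band B α β)
    (hm : ∀ i j, i ≠ j → NoMerge U r (B i) (B j) α β) (F : Finset Λ.E)
    (hF : ∀ p ∈ F, Λ.lo r p ∉ Icc α β ∧ Λ.hi r p ∉ Icc α β) :
    ∃ (J : Set ℂ) (ν : ℂ → (κ × κ → ℤ) × (F → ℤ)), Cut U J ν ∧ Disjoint J (Zs B α β) ∧
      (Function.Injective fun k => ν ((B k).x α)) ∧
      ∀ p ∈ F, ¬ Icc α β ⊆ Icc (Λ.lo r p) (Λ.hi r p) →
        ∃ n, ∀ z ∈ Λ.W n p, ∀ k, ν z ≠ ν ((B k).x α) := by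
  have hαI : α ∈ Icc α β := left_mem_Icc.2 h.lt.le
  have triv : Cut U ∅ (fun _ => (0 : ℤ)) :=
    ⟨isCompact_empty, empty_subset _, fun _ _ _ => Eventually.of_forall fun _ => rfl⟩
  have hP : ∀ ij : κ × κ, ∃ (J : Set ℂ) (ν : ℂ → ℤ), Cut U J ν ∧ Disjoint J (Zs B α β) ∧
      (ij.1 ≠ ij.2 → ν ((B ij.1).x α) ≠ ν ((B ij.2).x α)) := by
    rintro ⟨i, j⟩
    by_cases hij : i = j
    · exact ⟨∅, fun _ => 0, triv, empty_disjoint _, fun h => absurd hij h⟩
    · have : ∃ (J : Set ℂ) (ν : ℂ → ℤ), Cut U J ν ∧ Disjoint J (Zs B α β) ∧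
          ν ((B i).x α) ≠ ν ((B j).x α) := by
        rcases hm i j hij with ⟨τ, hτ, hn⟩ | ⟨τ, hτ, hn⟩ | ⟨hp, hq⟩
        · exact h.pair_up hs hτ hn
        · exact h.pair_down hs' hτ hn
        · exact h.pair_loop hU Λ.far hr hb hij hp hq
      obtain ⟨J, ν, h1, h2, h3⟩ := this
      exact ⟨J, ν, h1, h2, fun _ => h3⟩
  have hE : ∀ p : F, ∃ (J : Set ℂ) (ν : ℂ → ℤ), Cut U J ν ∧ Disjoint J (Zs B α β) ∧
      (¬ Icc α β ⊆ Icc (Λ.lo r p.1) (Λ.hi r p.1) →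
        ∃ n, ∀ z ∈ Λ.W n p.1, ∀ k, ν z ≠ ν ((B k).x α)) := by
    rintro ⟨p, hp⟩
    by_cases hsub : Icc α β ⊆ Icc (Λ.lo r p) (Λ.hi r p)
    · exact ⟨∅, fun _ => 0, triv, empty_disjoint _, fun h => absurd hsub h⟩
    · have hcase : β < Λ.lo r p ∨ Λ.hi r p < α := by
        by_contra hcon
        rw [not_or, not_lt, not_lt] at hcon
        obtain ⟨h1, h2⟩ := hF p hp
        have hlo : Λ.lo r p < α := by
          by_contra h3
          exact h1 ⟨not_lt.1 h3, hcon.1⟩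
        have hhi : β < Λ.hi r p := by
          by_contra h3
          exact h2 ⟨hcon.2, not_lt.1 h3⟩
        exact hsub (Icc_subset_Icc hlo.le hhi.le)
      obtain ⟨J, ν, n, h1, h2, h3, h4⟩ := end_cut Λ hr.lip.continuousOn hb p hcase
      refine ⟨J, ν, h1, disjoint_left.2 fun z hz hz' => h2 z hz hz'.2.1, fun _ => ⟨n, ?_⟩⟩
      intro z hz k
      have hx := h.x_mem k hαI
      rw [h3 z hz, h4 _ hx.1 hx.2.1]
      exact one_ne_zero
  choose J ν hJ hJZ hν using hP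
  choose J' ν' hJ' hJZ' hν' using hE
  refine ⟨_, _, (Cut.pi hJ).prod (Cut.pi hJ'), ?_, fun i j hij => ?_, fun p hp hsub => ?_⟩
  · exact disjoint_union_left.2
      ⟨disjoint_iUnion_left.2 hJZ, disjoint_iUnion_left.2 hJZ'⟩
  · by_contra hne
    exact hν (i, j) hne (congrFun (congrArg Prod.fst hij) (i, j))
  · obtain ⟨n, hn⟩ := hν' ⟨p, hp⟩ hsub
    exact ⟨n, fun z hz k he => hn z hz k (congrFun (congrArg Prod.snd he) ⟨p, hp⟩)⟩

/-- the atoms of a band -/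
structure Atoms (Λ : Lumps U) [Fintype κ] (B : κ → Box U r) (α β : ℝ) (F : Finset Λ.E)
    (a : κ → ℂ → ℝ) (σ : κ ≃ κ) : Prop where
  a0 : ∀ k, A0 U (a k)
  nonneg : ∀ k z, 0 ≤ a k z
  sum_le : ∀ z, ∑ k, a k z ≤ 1
  loc : ∀ k, ∀ z ∈ Zs B α β, ∀ᶠ w in 𝓝 z, a k w = a k z
  ax : ∀ k l, ∀ t ∈ Icc α β, a k ((B l).x t) = if l = k then 1 else 0
  ae : ∀ k l, ∀ t ∈ Icc α β, a k ((B l).e t) = if l = σ k then 1 else 0
  val01 : ∀ k q, Λ.val (a k) q = 0 ∨ Λ.val (a k) q = 1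
  val_sum : ∀ q, ∑ k, Λ.val (a k) q ≤ 1
  excl : ∀ k, ∀ p ∈ F, Λ.val (a k) p ≠ 0 → Icc α β ⊆ Icc (Λ.lo r p) (Λ.hi r p)

private theorem h14_sum [Fintype κ] {V : Type} {X : κ → V} (hX : Function.Injective X) (v : V)
    {c : ℝ} (hc : c ≤ 1) : ∑ k, (if v = X k then c else 0) ≤ 1 := by
  by_cases h : ∃ k, v = X k
  · obtain ⟨k, rfl⟩ := h
    rw [Finset.sum_eq_single k (fun l _ hl => if_neg fun e => hl (hX e).symm)
      (fun hk => absurd (Finset.mem_univ k) hk), if_pos rfl]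
    exact hc
  · rw [Finset.sum_eq_zero fun k _ => if_neg fun e => h ⟨k, e⟩]
    exact zero_le_one

private theorem h14_atoms [Fintype κ] (hU : IsOpen U) (Λ : Lumps U) (hr : XX U r) (hb : Bdd U r)
    {B : κ → Box U r} {α β : ℝ} (h : Band B α β) (F : Finset Λ.E) {V : Type} {J : Set ℂ}
    {ν : ℂ → V} (hc : Cut U J ν) (hJ : Disjoint J (Zs B α β))
    (hinj : Function.Injective fun k => ν ((B k).x α))
    (hex : ∀ p ∈ F, ¬ Icc α β ⊆ Icc (Λ.lo r p) (Λ.hi r p) →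
      ∃ n, ∀ z ∈ Λ.W n p, ∀ k, ν z ≠ ν ((B k).x α)) :
    ∃ (a : κ → ℂ → ℝ) (σ : κ ≃ κ), Atoms Λ B α β F a σ := by
  obtain ⟨σ, hσ⟩ := exists_match (E := fun k => ν ((B k).e α)) hinj
    (h.balance hU Λ.far hr hb hc hJ)
  obtain ⟨ρ, C, hC, hJC, hCU, hρ, hρ1, hv⟩ := h.bump hU Λ.far hr.lip.continuousOn hc hJ
  obtain ⟨n, hn⟩ := Λ.exh C hC hCU
  have hval : ∀ q, ∃ v, ∀ k, Λ.val (fun z => if ν z = ν ((B k).x α) then ρ z else 0) q =
      if v = ν ((B k).x α) then 1 else 0 := by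
    intro q
    obtain ⟨z₀, hz₀⟩ := (Λ.conn n q).nonempty
    refine ⟨ν z₀, fun k => (val_eq Λ (A0.bdd Λ (hv _).1) (n := n) fun z hz => ?_).1⟩
    rw [hc.eq_of_preconnected (Λ.conn n q).isPreconnected
      ((Λ.sub n q).trans inter_subset_left) ((hn q).mono_right hJC) hz hz₀,
      hρ1 z (disjoint_left.1 (hn q) hz)]
  refine ⟨fun k z => if ν z = ν ((B k).x α) then ρ z else 0, σ, fun k => (hv _).1,
    fun k z => ?_, fun z => h14_sum hinj _ (hρ z).2, fun k => (hv _).2.1, fun k l t ht => ?_,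
    fun k l t ht => ?_, fun k q => ?_, fun q => ?_, fun k p hp hne => ?_⟩
  · split_ifs
    · exact (hρ z).1
    · exact le_rfl
  · rw [((hv _).2.2 l t ht).1]
    exact if_congr hinj.eq_iff rfl rfl
  · rw [((hv _).2.2 l t ht).2]
    refine if_congr ?_ rfl rfl
    have h1 := hσ (σ.symm l)
    simp only [Equiv.apply_symm_apply] at h1
    rw [h1, ← Equiv.symm_apply_eq]
    exact hinj.eq_iff
  · obtain ⟨v, hv'⟩ := hval q
    rw [hv' k]
    split_ifs
    · exact Or.inr rfl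
    · exact Or.inl rfl
  · obtain ⟨v, hv'⟩ := hval q
    simp only [hv']
    exact h14_sum hinj v le_rfl
  · by_contra hn'
    obtain ⟨m, hm⟩ := hex p hp hn'
    exact hne (val_eq Λ (A0.bdd Λ (hv _).1) (n := m) fun z hz => if_neg (hm z hz k)).1

/-- `Band.big_cut`, `Band.balance`, `exists_match`, `Band.bump` with
`a k = fun z => if ν z = ν (x k α) then ρ z else 0`; on a lump missing `C` (`Lumps.exh`) the label
`ν` is constant (`Cut.eq_of_preconnected`) and `ρ = 1`, so `val_eq` computes the values. -/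
theorem Band.atoms [Fintype κ] (hU : IsOpen U) (Λ : Lumps U) (hr : XX U r) (hb : Bdd U r)
    (hs : Sep U r) (hs' : Sep U (fun z => - r z)) {B : κ → Box U r} {α β : ℝ} (h : Band B α β)
    (hm : ∀ i j, i ≠ j → NoMerge U r (B i) (B j) α β) (F : Finset Λ.E)
    (hF : ∀ p ∈ F, Λ.lo r p ∉ Icc α β ∧ Λ.hi r p ∉ Icc α β) :
    ∃ (a : κ → ℂ → ℝ) (σ : κ ≃ κ), Atoms Λ B α β F a σ := by
  obtain ⟨J, ν, hc, hJ, hinj, hex⟩ := h.big_cut hU Λ hr hb hs hs' hm F hF
  exact h14_atoms hU Λ hr hb h F hc hJ hinj hex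

end Crest.Agent.R105.Ch
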