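import Crest.Agent.R105.NDefs

/-! Row 105, chain lemma: flow boxes of a `C¹` function (interface). -/

set_option autoImplicit false

open MeasureTheory Set Filter Topology

namespace Crest.Agent.R105

/-- A flow box of `r` in `U`: the levels `t ∈ [lo, hi]` of `r` cross `Q` from `e t` to `x t`;
the segment from `pm` (bottom) to `pp` (top) separates the entry points from the exit points. -/
structure Box (U : Set ℂ) (r : ℂ → ℝ) where
  /-- the box -/
  Q : Set ℂ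
  /-- lowest level -/
  lo : ℝ
  /-- highest level -/
  hi : ℝ
  /-- entry points -/
  e : ℝ → ℂ
  /-- exit points -/
  x : ℝ → ℂ
  /-- bottom point -/
  pm : ℂ
  /-- top point -/
  pp : ℂ
  cpt : IsCompact Q
  sub : Q ⊆ U
  lt : lo < hi
  range : ∀ z ∈ Q, r z ∈ Icc lo hi
  ce : ContinuousOn e (Icc lo hi)
  cx : ContinuousOn x (Icc lo hi)
  e_mem : ∀ t ∈ Icc lo hi, e t ∈ Q ∧ r (e t) = t ∧ e t ∉ interior Q
  x_mem : ∀ t ∈ Icc lo hi, x t ∈ Q ∧ r (x t) = t ∧ x t ∉ interior Q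
  r_pm : r pm = lo
  r_pp : r pp = hi
  seg : segment ℝ pm pp ⊆ Q
  seg_int : ∀ z ∈ segment ℝ pm pp, lo < r z → r z < hi → z ∈ interior Q
  chord : ∀ t, IsPreconnected (Q ∩ r ⁻¹' {t})
  side : ∀ t ∈ Ioo lo hi, ((e t - pp) / (e t - pm)).im * ((x t - pp) / (x t - pm)).im < 0
  ray : ∀ z ∈ Q, lo < r z → r z < hi → -((z - pp) / (z - pm)) ∈ Complex.slitPlane
  null : ∀ t, volume (Q ∩ r ⁻¹' {t}) = 0
  formula : ∀ f : ℂ → ℝ, LocallyLipschitzOn U f → ∀ θ : ℝ → ℝ, Continuous θ →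
    IntegrableOn (fun z => θ (r z) * wd f r z) Q ∧
      ∫ z in Q, θ (r z) * wd f r z = ∫ t in lo..hi, θ t * (f (x t) - f (e t))

/-- the linear functional whose kernel is spanned by `v` -/
noncomputable def perp (v : ℂ) : ℂ →L[ℝ] ℝ := v.im • Complex.reCLM - v.re • Complex.imCLM

theorem perp_apply (v z : ℂ) : perp v z = v.im * z.re - v.re * z.im := by simp [perp]

/-- a `C¹` chart `z ↦ (perp v z, r z)` -/
structure Chart (r : ℂ → ℝ) where
  /-- the chart -/
  φ : OpenPartialHomeomorph ℂ (ℝ × ℝ)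
  /-- the transversal direction -/
  v : ℂ
  v_ne : v ≠ 0
  eq : ∀ z, φ z = (perp v z, r z)
  c1 : ContDiffOn ℝ 1 r φ.source
  pos : ∀ z ∈ φ.source, 0 < wd (perp v) r z
  inv : ContDiffOn ℝ 1 φ.symm φ.target

end Crest.Agent.R105
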