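import Crest.Agent.R105.NT1

/-! Row 105: mollification of compactly supported Lipschitz functions (for `exists_smooth`). -/

set_option autoImplicit false

open MeasureTheory Set Filter Topology Metric
open scoped ENNReal Convolution

namespace Crest.Agent.R105

theorem h85_enorm0 : ‖(0 : ℂ →L[ℝ] ℝ)‖ₑ = 0 := by
  rw [← ofReal_norm, norm_zero, ENNReal.ofReal_zero]

theorem h85_moll_fderiv {K : NNReal} {W : ℂ → ℝ} (hW : LipschitzWith K W)
    (φ : ContDiffBump (0 : ℂ)) (x : ℂ) :
    fderiv ℝ (φ.normed volume ⋆[ContinuousLinearMap.lsmul ℝ ℝ, volume] W) x =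
      (φ.normed volume ⋆[ContinuousLinearMap.lsmul ℝ ℝ, volume] fderiv ℝ W) x := by
  have hc : ∀ y : ℂ, Continuous fun a => φ.normed volume a • W (y - a) := fun y =>
    φ.continuous_normed.smul (hW.continuous.comp (continuous_const.sub continuous_id))
  have hd : ∀ᵐ a : ℂ, DifferentiableAt ℝ W (x - a) :=
    (Measure.measurePreserving_sub_left volume x).quasiMeasurePreserving.ae
      hW.ae_differentiableAt
  refine (hasFDerivAt_integral_of_dominated_loc_of_lip' (μ := volume) (s := univ)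
    (F := fun y a => φ.normed volume a • W (y - a))
    (F' := fun a => φ.normed volume a • fderiv ℝ W (x - a))
    (bound := fun a => φ.normed volume a * K) univ_mem
    (fun y _ => (hc y).aestronglyMeasurable)
    ((hc x).integrable_of_hasCompactSupport φ.hasCompactSupport_normed.smul_right) ?_
    (.of_forall fun a y _ => ?_) (φ.integrable_normed.mul_const _) ?_).2.fderiv
  · exact φ.continuous_normed.aestronglyMeasurable.smul
      ((measurable_fderiv ℝ W).comp (measurable_const.sub measurable_id)).aestronglyMeasurable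
  · rw [← smul_sub, norm_smul, Real.norm_of_nonneg (φ.nonneg_normed a), mul_assoc]
    refine mul_le_mul_of_nonneg_left ?_ (φ.nonneg_normed a)
    simpa using hW.norm_sub_le (y - a) (x - a)
  · filter_upwards [hd] with a ha
    have := (ha.hasFDerivAt.comp x ((hasFDerivAt_id x).sub_const a)).const_smul (φ.normed volume a)
    rw [ContinuousLinearMap.comp_id] at this
    exact this

/-- mollification of a Lipschitz function with compact support -/
theorem h85_moll {L : NNReal} {f : ℂ → ℝ} (hf : LipschitzWith L f) {K O : Set ℂ}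
    (hK : IsCompact K) (hO : IsOpen O) (hKO : K ⊆ O) (h0 : ∀ z ∉ K, f z = 0) {δ : ℝ} (hδ : 0 < δ) :
    ∃ g : ℂ → ℝ, ContDiff ℝ (⊤ : ℕ∞) g ∧ (∀ z ∉ O, g z = 0) ∧ (∀ z, |g z - f z| ≤ δ) ∧
      ∫⁻ z, ‖fderiv ℝ (fun z => g z - f z) z‖ₑ ^ 2 ≤ ENNReal.ofReal (δ ^ 2) := by
  let φ : ℕ → ContDiffBump (0 : ℂ) := fun n =>
    ⟨1 / ((n : ℝ) + 1) / 2, 1 / ((n : ℝ) + 1), by positivity, half_lt_self (by positivity)⟩
  let g : ℕ → ℂ → ℝ := fun n => (φ n).normed volume ⋆[ContinuousLinearMap.lsmul ℝ ℝ, volume] f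
  have hb : ∀ y, ‖fderiv ℝ f y‖ ≤ L := fun y => norm_fderiv_le_of_lipschitz ℝ hf
  have hg : ∀ n, ContDiff ℝ (⊤ : ℕ∞) (g n) := fun n =>
    (φ n).hasCompactSupport_normed.contDiff_convolution_left _
      ((φ n).contDiff_normed (n := ⊤)) hf.continuous.locallyIntegrable
  have hgb : ∀ n x, ‖fderiv ℝ (g n) x‖ ≤ L := fun n x => by
    rw [h85_moll_fderiv hf, convolution_def]
    refine (norm_integral_le_of_norm_le (((φ n).integrable_normed (μ := volume)).mul_const (L : ℝ))
      (.of_forall fun a => ?_)).trans ?_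
    · rw [ContinuousLinearMap.lsmul_apply, norm_smul, Real.norm_of_nonneg ((φ n).nonneg_normed a)]
      exact mul_le_mul_of_nonneg_left (hb _) ((φ n).nonneg_normed a)
    · rw [integral_mul_const, (φ n).integral_normed, one_mul]
  have hz : ∀ (n : ℕ) (r : ℝ), 1 / ((n : ℝ) + 1) ≤ r → ∀ x ∉ cthickening r K, g n x = 0 := by
    intro n r hr x hx
    have h1 : ∀ y ∈ ball x (φ n).rOut, f y = 0 := fun y hy => h0 y fun hyK =>
      hx (mem_cthickening_of_dist_le x y r K hyK (by
        rw [dist_comm]; exact (mem_ball.1 hy).le.trans hr))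
    have h2 : f x = 0 := h1 x (mem_ball_self (φ n).rOut_pos)
    exact ((φ n).normed_convolution_eq_right fun y hy => by rw [h1 y hy, h2]).trans h2
  have hl : LocallyIntegrable (fderiv ℝ f) volume :=
    ((memLp_top_of_bound (measurable_fderiv ℝ f).aestronglyMeasurable L
      (.of_forall hb)).locallyIntegrable le_top)
  have hK1 : IsCompact (cthickening 1 K) := hK.cthickening
  have hlim := tendsto_lintegral_of_dominated_convergence (μ := (volume : Measure ℂ))
    (F := fun n z => ‖fderiv ℝ (fun z => g n z - f z) z‖ₑ ^ 2) (f := fun _ => 0)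
    ((cthickening 1 K).indicator fun _ => ENNReal.ofReal (2 * L) ^ 2)
    (fun n => (measurable_fderiv ℝ _).enorm.pow_const 2) (fun n => ?_) ?_ ?_
  · rw [lintegral_zero] at hlim
    obtain ⟨r, hr, hrO⟩ := hK.exists_cthickening_subset_open hO hKO
    have e1 := hlim.eventually (ge_mem_nhds (ENNReal.ofReal_pos.2 (pow_pos hδ 2)))
    have e2 := tendsto_one_div_add_atTop_nhds_zero_nat.eventually (ge_mem_nhds hr)
    have e3 := tendsto_one_div_add_atTop_nhds_zero_nat.eventually
      (ge_mem_nhds (show 0 < δ / (L + 1) by positivity))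
    obtain ⟨n, a1, a2, a3⟩ := (e1.and (e2.and e3)).exists
    refine ⟨g n, hg n, fun z hzO => hz n r a2 z fun h => hzO (hrO h), fun z => ?_, a1⟩
    rw [← Real.dist_eq]
    refine (φ n).dist_normed_convolution_le hf.continuous.aestronglyMeasurable fun y hy => ?_
    have h1 : dist y z ≤ δ / (L + 1) := (mem_ball.1 hy).le.trans a3
    rw [le_div_iff₀ (by positivity)] at h1
    have h2 := hf.dist_le_mul y z
    have h3 : 0 ≤ dist y z := dist_nonneg
    nlinarith
  · filter_upwards [hf.ae_differentiableAt] with z hd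
    by_cases hzK : z ∈ cthickening 1 K
    · rw [indicator_of_mem hzK, fderiv_fun_sub ((hg n).differentiable (by simp) z) hd]
      refine pow_le_pow_left' ?_ 2
      rw [← ofReal_norm]
      refine ENNReal.ofReal_le_ofReal ((norm_sub_le _ _).trans ?_)
      linarith [hgb n z, hb z]
    · have h1 : (fun z => g n z - f z) =ᶠ[𝓝 z] fun _ => 0 := by
        filter_upwards [isClosed_cthickening.isOpen_compl.mem_nhds hzK] with w hw
        rw [hz n 1 (by
          rw [div_le_one (by positivity)]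
          linarith [(Nat.cast_nonneg n : (0 : ℝ) ≤ n)]) w hw,
          h0 w fun h => hw (self_subset_cthickening _ h), sub_zero]
      rw [indicator_of_notMem hzK, h1.fderiv_eq]
      simp [h85_enorm0]
  · rw [lintegral_indicator hK1.measurableSet, setLIntegral_const]
    exact ENNReal.mul_ne_top (ENNReal.pow_ne_top ENNReal.ofReal_ne_top) hK1.measure_ne_top
  · filter_upwards [hf.ae_differentiableAt,
      ContDiffBump.ae_convolution_tendsto_right_of_locallyIntegrable (φ := φ)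
      (l := atTop) (K := 2) tendsto_one_div_add_atTop_nhds_zero_nat
      (.of_forall fun n => by simp only [φ]; linarith) hl] with x hd hx
    have h1 : Tendsto (fun n => fderiv ℝ (fun z => g n z - f z) x) atTop (𝓝 0) := by
      have := hx.sub_const (fderiv ℝ f x)
      rw [sub_self] at this
      refine this.congr fun n => ?_
      rw [fderiv_fun_sub ((hg n).differentiable (by simp) x) hd, h85_moll_fderiv hf]
    simpa [h85_enorm0] using ENNReal.Tendsto.pow (n := 2) h1.enorm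

/-- a locally Lipschitz function vanishing off a compact subset is Lipschitz -/
theorem h85_lip {U K : Set ℂ} (hU : IsOpen U) {f : ℂ → ℝ} (hf : LocallyLipschitzOn U f)
    (hK : IsCompact K) (hKU : K ⊆ U) (h0 : ∀ z ∉ K, f z = 0) : ∃ L, LipschitzWith L f := by
  have h1 : LocallyLipschitzOn univ f := by
    intro x _
    rw [nhdsWithin_univ]
    by_cases hx : x ∈ U
    · obtain ⟨L, t, ht, h⟩ := hf hx
      rw [hU.nhdsWithin_eq hx] at ht
      exact ⟨L, t, ht, h⟩
    · refine ⟨0, Kᶜ, hK.isClosed.isOpen_compl.mem_nhds fun h => hx (hKU h), fun a ha b hb => ?_⟩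
      simp [h0 a ha, h0 b hb]
  obtain ⟨L, hL⟩ := (h1.mono (subset_univ (cthickening 1 K))).exists_lipschitzOnWith_of_compact
    hK.cthickening
  obtain ⟨M, hM⟩ := hK.exists_bound_of_continuousOn (hf.continuousOn.mono hKU)
  have key : ∀ x y, y ∉ cthickening 1 K → dist (f x) (f y) ≤ max (L : ℝ) M * dist x y := by
    intro x y hy
    rw [h0 y fun h => hy (self_subset_cthickening _ h), dist_zero_right]
    have h2 : (0 : ℝ) ≤ max (L : ℝ) M := le_max_of_le_left L.2
    by_cases hx : x ∈ K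
    · have h3 : 1 ≤ dist x y := by
        by_contra h
        exact hy (mem_cthickening_of_dist_le y x 1 K hx (by rw [dist_comm]; linarith))
      have := (hM x hx).trans (le_max_right (L : ℝ) M)
      nlinarith
    · rw [h0 x hx, norm_zero]
      positivity
  refine ⟨_, LipschitzWith.of_dist_le' (K := max (L : ℝ) M) fun x y => ?_⟩
  by_cases hy : y ∈ cthickening 1 K
  · by_cases hx : x ∈ cthickening 1 K
    · exact (hL.dist_le_mul x hx y hy).trans
        (mul_le_mul_of_nonneg_right (le_max_left _ _) dist_nonneg)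
    · rw [dist_comm, dist_comm x]
      exact key y x hx
  · exact key x y hy

theorem h85_lip_mul {U : Set ℂ} {ρ v : ℂ → ℝ} (hρ : LocallyLipschitz ρ)
    (hv : LocallyLipschitzOn U v) : LocallyLipschitzOn U fun z => ρ z * v z := by
  intro x hx
  obtain ⟨L, t, ht, h⟩ := hv hx
  obtain ⟨w, hw, e⟩ := h.extend_real
  have h1 : LocallyLipschitz fun p : ℝ × ℝ => p.1 * p.2 :=
    ContDiff.locallyLipschitz (𝕂 := ℝ) (by fun_prop)
  obtain ⟨L', t', ht', h'⟩ := (h1.comp (hρ.prodMk hw.locallyLipschitz)) x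
  refine ⟨L', t ∩ t', inter_mem ht (mem_nhdsWithin_of_mem_nhds ht'), fun a ha b hb => ?_⟩
  simpa [e ha.1, e hb.1] using h' ha.2 hb.2

theorem h85_En_sum {U : Set ℂ} (hU : IsOpen U) {h : ℕ → ℂ → ℝ} {δ : ℕ → ℝ} (hδ : ∀ n, 0 ≤ δ n)
    (hl : ∀ n, LocallyLipschitzOn U (h n)) (he : ∀ n, En U (h n) ≤ ENNReal.ofReal (δ n ^ 2))
    (M : ℕ) : LocallyLipschitzOn U (fun z => ∑ n ∈ Finset.range M, h n z) ∧
      En U (fun z => ∑ n ∈ Finset.range M, h n z) ^ (1 / 2 : ℝ) ≤
        ENNReal.ofReal (∑ n ∈ Finset.range M, δ n) := by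
  induction M with
  | zero =>
    refine ⟨fun x _ => ⟨0, univ, univ_mem, fun a _ b _ => by simp⟩, ?_⟩
    simp [En, h85_enorm0]
  | succ M ih =>
    simp only [Finset.sum_range_succ]
    refine ⟨ih.1.add (hl M), (En_add_le hU ih.1 (hl M)).trans ?_⟩
    rw [ENNReal.ofReal_add (Finset.sum_nonneg fun n _ => hδ n) (hδ M)]
    refine add_le_add ih.2 ((ENNReal.rpow_le_rpow (he M) (by norm_num)).trans_eq ?_)
    rw [ENNReal.ofReal_rpow_of_nonneg (sq_nonneg _) (by norm_num), ← Real.sqrt_eq_rpow,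
      Real.sqrt_sq (hδ M)]

/-- the pieces: `h n = g n - ρ n * v` -/
theorem h85_pieces {U : Set ℂ} (hU : IsOpen U) {v φ : ℂ → ℝ} (hv : LocallyLipschitzOn U v) {R : ℝ}
    (hR : ∀ z : ℂ, R ≤ ‖z‖ → v z = 0) (hφ : ContDiff ℝ (⊤ : ℕ∞) φ) (h0 : ∀ z, 0 ≤ φ z)
    (hs : ∀ z, 0 < φ z → z ∈ U) (n : ℕ) {δ : ℝ} (hδ : 0 < δ) :
    ∃ g h : ℂ → ℝ, ContDiff ℝ (⊤ : ℕ∞) g ∧ LocallyLipschitzOn U h ∧
      (∀ z, h z = g z - (Real.smoothTransition (((n + 1 : ℕ) : ℝ) * φ z - 1) -
        Real.smoothTransition ((n : ℝ) * φ z - 1)) * v z) ∧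
      (∀ z, ¬ (‖z‖ < R + 1 ∧ 1 < ((n : ℝ) + 2) * φ z ∧ n * φ z < 3) → h z = 0) ∧
      (∀ z, |h z| ≤ δ) ∧ En U h ≤ ENNReal.ofReal (δ ^ 2) := by
  have hc := hφ.continuous
  have hρ : ContDiff ℝ 1 fun z => Real.smoothTransition (((n + 1 : ℕ) : ℝ) * φ z - 1) -
      Real.smoothTransition ((n : ℝ) * φ z - 1) := by
    have h1 : ContDiff ℝ 1 φ := hφ.of_le (by simp)
    have h2 : ContDiff ℝ 1 Real.smoothTransition := Real.smoothTransition.contDiff (n := 1)
    fun_prop
  have hf := h85_lip_mul hρ.locallyLipschitz hv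
  have hK : IsCompact {z : ℂ | ‖z‖ ≤ R ∧ 1 ≤ ((n : ℝ) + 1) * φ z ∧ n * φ z ≤ 2} := by
    refine (isCompact_closedBall (0 : ℂ) R).of_isClosed_subset ?_ fun z hz => by simpa using hz.1
    refine IsClosed.and ?_ (IsClosed.and ?_ ?_) <;> exact isClosed_le (by fun_prop) (by fun_prop)
  have hO : IsOpen {z : ℂ | ‖z‖ < R + 1 ∧ 1 < ((n : ℝ) + 2) * φ z ∧ n * φ z < 3} := by
    refine IsOpen.and ?_ (IsOpen.and ?_ ?_) <;> exact isOpen_lt (by fun_prop) (by fun_prop)
  have hp : ∀ z, 1 ≤ ((n : ℝ) + 1) * φ z → 0 < φ z := fun z hz =>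
    (h0 z).lt_of_ne fun h => by rw [← h] at hz; linarith
  have hKO : {z : ℂ | ‖z‖ ≤ R ∧ 1 ≤ ((n : ℝ) + 1) * φ z ∧ n * φ z ≤ 2} ⊆
      {z : ℂ | ‖z‖ < R + 1 ∧ 1 < ((n : ℝ) + 2) * φ z ∧ n * φ z < 3} := fun z hz =>
    ⟨by linarith [hz.1], by linarith [hz.2.1, hp z hz.2.1], by linarith [hz.2.2]⟩
  have hz : ∀ z ∉ {z : ℂ | ‖z‖ ≤ R ∧ 1 ≤ ((n : ℝ) + 1) * φ z ∧ n * φ z ≤ 2},
      (Real.smoothTransition (((n + 1 : ℕ) : ℝ) * φ z - 1) -
        Real.smoothTransition ((n : ℝ) * φ z - 1)) * v z = 0 := by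
    intro z hz
    simp only [mem_ofPred_eq, not_and_or, not_le] at hz
    have h1 := h0 z
    push_cast
    rcases hz with hz | hz | hz
    · rw [hR z hz.le, mul_zero]
    · rw [Real.smoothTransition.zero_of_nonpos (by linarith),
        Real.smoothTransition.zero_of_nonpos (by linarith), sub_zero, zero_mul]
    · rw [Real.smoothTransition.one_of_one_le (by linarith),
        Real.smoothTransition.one_of_one_le (by linarith), sub_self, zero_mul]
  obtain ⟨L, hL⟩ := h85_lip hU hf hK (fun z hz => hs z (hp z hz.2.1)) hz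
  obtain ⟨g, hg, hg0, hg1, hg2⟩ := h85_moll hL hK hO hKO hz hδ
  refine ⟨g, _, hg, ?_, fun z => rfl, fun z h => ?_, hg1,
    (setLIntegral_le_lintegral _ _).trans hg2⟩
  · exact ((locallyLipschitzOn_univ.2 (hg.of_le (m := 1) (by simp)).locallyLipschitz).mono
      (subset_univ U)).sub hf
  · rw [hg0 z h, hz z fun h' => h (hKO h'), sub_zero]

theorem h85_exists_smooth {U : Set ℂ} (hU : IsOpen U) (Λ : Lumps U) {u : ℂ → ℝ} (hu : XX U u)
    {ε : ℝ} (hε : 0 < ε) : ∃ u' : ℂ → ℝ, XX U u' ∧ ContDiffOn ℝ (⊤ : ℕ∞) u' U ∧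
      (∀ z ∈ U, |u' z - u z| ≤ ε) ∧ En U (fun z => u' z - u z) ≤ ENNReal.ofReal ε ∧
      ∀ q, ∀ η > 0, ∃ n, ∀ z ∈ Λ.W n q, |u' z - u z| ≤ η := by
  obtain ⟨R, c, hR⟩ := hu.inf
  obtain ⟨φ, hφs, hφ, hφr⟩ := hU.exists_contDiff_support_eq (n := ⊤)
  have h0 : ∀ z, 0 ≤ φ z := fun z => (hφr (mem_range_self z)).1
  have hs : ∀ z, 0 < φ z ↔ z ∈ U := fun z => by
    rw [← hφs, Function.mem_support]
    exact ⟨fun h => h.ne', fun h => (h0 z).lt_of_ne' h⟩
  have hc := hφ.continuous
  have hv : LocallyLipschitzOn U fun z => u z - c :=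
    hu.lip.sub ((locallyLipschitzOn_univ.2 (LocallyLipschitz.const c)).mono (subset_univ U))
  obtain ⟨e, he, he1, heε⟩ : ∃ e : ℝ, 0 < e ∧ e ≤ 1 ∧ e ≤ ε :=
    ⟨min ε 1, lt_min hε one_pos, min_le_right _ _, min_le_left _ _⟩
  choose g h hg hl hgh hz hb hE using fun n : ℕ => h85_pieces hU hv (R := R)
    (fun z hz => by rw [hR z hz, sub_self]) hφ h0 (fun z => (hs z).1) n
    (δ := e / 2 / 2 ^ n / (n + 1)) (by positivity)
  have hδ : ∀ n : ℕ, e / 2 / 2 ^ n / (n + 1) ≤ e / 2 / 2 ^ n := fun n =>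
    div_le_self (by positivity) (by linarith [(Nat.cast_nonneg n : (0 : ℝ) ≤ n)])
  have hloc : ∀ z ∈ U, ∃ N : ℕ, ∀ᶠ w in 𝓝 z, 3 < N * φ w := fun z hz => by
    obtain ⟨N, hN⟩ := exists_nat_gt (3 / φ z)
    rw [div_lt_iff₀ ((hs z).2 hz)] at hN
    exact ⟨N, (isOpen_lt continuous_const (by fun_prop)).mem_nhds hN⟩
  have hfin : ∀ (N : ℕ) (w : ℂ), 3 < N * φ w → ∀ M ≥ N,
      ∑' n, h n w = ∑ n ∈ Finset.range M, h n w := fun N w hw M hM =>
    tsum_eq_sum fun n hn => hz n w fun h' => by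
      have h1 : (N : ℝ) ≤ n := by exact_mod_cast hM.trans (by simpa using hn)
      nlinarith [h'.2.2, h0 w]
  have hsm : ContDiffOn ℝ (⊤ : ℕ∞) (fun z => u z + ∑' n, h n z) U := by
    intro z hz
    obtain ⟨N, hN⟩ := hloc z hz
    have h1 : (fun z => u z + ∑' n, h n z) =ᶠ[𝓝 z] fun z => c + ∑ n ∈ Finset.range N, g n z := by
      filter_upwards [hN] with w hw
      rw [hfin N w hw N le_rfl]
      simp only [hgh, Finset.sum_sub_distrib, ← Finset.sum_mul]
      rw [← Finset.sum_sub_distrib,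
        Finset.sum_range_sub fun n : ℕ => Real.smoothTransition ((n : ℝ) * φ w - 1),
        Real.smoothTransition.one_of_one_le (by linarith),
        Real.smoothTransition.zero_of_nonpos (by simp)]
      ring
    exact ((contDiff_const.add (ContDiff.sum fun n _ => hg n)).contDiffAt.congr_of_eventuallyEq
      h1).contDiffWithinAt
  have hlip : LocallyLipschitzOn U fun z => u z + ∑' n, h n z := fun z hz => by
    obtain ⟨L, t, ht, h1⟩ := ((hsm.contDiffAt (hU.mem_nhds hz)).of_le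
      (m := 1) (by simp)).exists_lipschitzOnWith
    exact ⟨L, t, mem_nhdsWithin_of_mem_nhds ht, h1⟩
  have hEn : En U (fun z => ∑' n, h n z) ≤ ENNReal.ofReal ε := by
    have h1 : ∀ M, En U (fun z => ∑ n ∈ Finset.range M, h n z) ≤ ENNReal.ofReal ε := fun M => by
      have h2 := (h85_En_sum hU (fun n => by positivity) hl hE M).2
      have h3 : ∑ n ∈ Finset.range M, e / 2 / 2 ^ n / ((n : ℝ) + 1) ≤ e :=
        (Finset.sum_le_sum fun n _ => hδ n).trans
          (sum_le_hasSum _ (fun n _ => by positivity) (hasSum_geometric_two' e))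
      have h4 := ENNReal.rpow_le_rpow (h2.trans (ENNReal.ofReal_le_ofReal h3)) (z := 2)
        (by norm_num)
      rw [← ENNReal.rpow_mul, show (1 / 2 : ℝ) * 2 = 1 by norm_num, ENNReal.rpow_one,
        ENNReal.ofReal_rpow_of_nonneg he.le (by norm_num), Real.rpow_two] at h4
      exact h4.trans (ENNReal.ofReal_le_ofReal (by nlinarith))
    have h2 := lintegral_liminf_le (μ := volume.restrict U) (u := atTop)
      (f := fun M z => ‖fderiv ℝ (fun z => ∑ n ∈ Finset.range M, h n z) z‖ₑ ^ 2)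
      fun M => (measurable_fderiv ℝ _).enorm.pow_const 2
    refine le_trans (le_of_eq ?_) (h2.trans (liminf_le_of_frequently_le' (.of_forall h1)))
    refine setLIntegral_congr_fun hU.measurableSet fun z hz => ?_
    obtain ⟨N, hN⟩ := hloc z hz
    refine (Tendsto.liminf_eq (tendsto_const_nhds.congr' ?_)).symm
    filter_upwards [eventually_ge_atTop N] with M hM
    rw [EventuallyEq.fderiv_eq (hN.mono fun w hw => hfin N w hw M hM)]
  have hH : XX U fun z => ∑' n, h n z := by
    refine ⟨?_, ⟨R + 1, 0, fun z hz' => ?_⟩, hEn.trans_lt ENNReal.ofReal_lt_top⟩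
    · have h1 := hlip.sub hu.lip
      simpa only [add_sub_cancel_left] using h1
    · simp only [fun n => hz n z fun h' => absurd h'.1 (not_lt.2 hz'), tsum_zero]
  refine ⟨fun z => u z + ∑' n, h n z, hu.add hU hH, hsm, fun z _ => ?_, ?_, fun q η hη => ?_⟩
  · rw [add_sub_cancel_left, ← Real.norm_eq_abs]
    exact (tsum_of_norm_bounded (f := fun n => h n z) (hasSum_geometric_two' e)
      fun n => (hb n z).trans (hδ n)).trans heε
  · simpa only [add_sub_cancel_left] using hEn
  · obtain ⟨N, hN⟩ := exists_nat_one_div_lt hη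
    have hK : IsCompact {z : ℂ | ‖z‖ ≤ R + 1 ∧ 1 ≤ ((N : ℝ) + 2) * φ z} := by
      refine (isCompact_closedBall (0 : ℂ) (R + 1)).of_isClosed_subset ?_
        fun z hz => by simpa using hz.1
      refine IsClosed.and ?_ ?_ <;> exact isClosed_le (by fun_prop) (by fun_prop)
    obtain ⟨m, hm⟩ := Λ.exh _ hK fun z hz => (hs z).1 ((h0 z).lt_of_ne fun h' => by
      have := hz.2
      rw [← h'] at this
      linarith)
    refine ⟨m, fun z hzW => ?_⟩
    rw [add_sub_cancel_left, ← Real.norm_eq_abs]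
    refine (tsum_of_norm_bounded ((hasSum_geometric_two' e).div_const ((N : ℝ) + 1))
      fun n => ?_).trans ((div_le_div_of_nonneg_right he1 (by positivity)).trans hN.le)
    rcases le_total n N with hn | hn
    · have h1 : (n : ℝ) ≤ N := by exact_mod_cast hn
      rw [hz n z fun h' => disjoint_left.1 (hm q) hzW ⟨h'.1.le, by nlinarith [h'.2.1, h0 z]⟩,
        norm_zero]
      positivity
    · have h1 : (N : ℝ) ≤ n := by exact_mod_cast hn
      exact (hb n z).trans (div_le_div_of_nonneg_left (by positivity) (by positivity) (by linarith))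

end Crest.Agent.R105
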