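import Crest.Agent.R105.NT2
import Crest.Agent.R105.NSm

/-! Row 105 toolkit 3: Stokes identities for `om`, smoothing, continuity of composition. -/

set_option autoImplicit false

open MeasureTheory Set Filter Topology
open scoped ENNReal

namespace Crest.Agent.R105

variable {U : Set ℂ}

section h41

open Metric
open scoped NNReal

variable {C D : ℝ≥0} {f g : ℂ → ℝ}

theorem h41_int (hf : LipschitzWith C f) (h'f : HasCompactSupport f) (v : ℂ) :
    Integrable fun x => lineDeriv ℝ f x v := by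
  refine ((hf.locallyIntegrable_lineDeriv v).integrableOn_isCompact
    h'f.isCompact).integrable_of_forall_notMem_eq_zero fun x hx => ?_
  rw [(notMem_tsupport_iff_eventuallyEq.1 hx).lineDeriv_eq]
  simp [lineDeriv]

theorem h41_shift (hf : LipschitzWith C f) (h'f : HasCompactSupport f) (hg : LipschitzWith D g)
    (v a : ℂ) : ∫ x, g (x + a) * lineDeriv ℝ f x v = -∫ x, f (x + -a) * lineDeriv ℝ g x v := by
  have h1 : LipschitzWith D fun x => g (x + a) := by
    simpa [Function.comp_def] using hg.comp (isometry_add_right a).lipschitz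
  have h2 := h1.integral_lineDeriv_mul_eq (μ := volume) hf h'f (-v)
  have h3 : ∀ x, lineDeriv ℝ (fun x => g (x + a)) x v = lineDeriv ℝ g (x + a) v := fun x => by
    simp only [lineDeriv, add_right_comm]
  simp only [lineDeriv_neg, neg_neg, h3, neg_mul, integral_neg] at h2
  rw [← integral_add_right_eq_self (fun x => f (x + -a) * lineDeriv ℝ g x v) a]
  simp only [add_neg_cancel_right]
  simpa only [mul_comm] using h2.symm

theorem h41_sym (hf : LipschitzWith C f) (h'f : HasCompactSupport f) (hg : LipschitzWith D g)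
    (h'g : HasCompactSupport g) (v w : ℂ) :
    ∫ x, lineDeriv ℝ g x w * lineDeriv ℝ f x v = ∫ x, lineDeriv ℝ f x w * lineDeriv ℝ g x v := by
  have key : ∀ {C D : ℝ≥0} {f g : ℂ → ℝ}, LipschitzWith C f → LipschitzWith D g →
      HasCompactSupport g → ∀ (a : ℂ) (t : ℝ),
      ∫ x, (t⁻¹ • (g (x + a) - g x)) * lineDeriv ℝ f x v =
        t⁻¹ * ((∫ x, g (x + a) * lineDeriv ℝ f x v) - ∫ x, g (x + 0) * lineDeriv ℝ f x v) := by
    intro C D f g hf hg h'g a t
    have hi : ∀ a : ℂ, Integrable fun x => g (x + a) * lineDeriv ℝ f x v := fun a =>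
      (hf.locallyIntegrable_lineDeriv v).integrable_smul_left_of_hasCompactSupport
        (hg.continuous.comp (continuous_add_const a))
        (h'g.comp_homeomorph (Homeomorph.addRight a))
    rw [← integral_sub (hi a) (hi 0), ← integral_const_mul]
    exact integral_congr_ae (Eventually.of_forall fun x => by simp only [smul_eq_mul, add_zero]; ring)
  have A := hg.integral_inv_smul_sub_mul_tendsto_integral_lineDeriv_mul (μ := volume)
    (h41_int hf h'f v) w
  have B := (hf.integral_inv_smul_sub_mul_tendsto_integral_lineDeriv_mul (μ := volume)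
    (h41_int hg h'g v) (-w)).neg
  simp only [lineDeriv_neg, neg_mul, integral_neg, neg_neg] at B
  refine tendsto_nhds_unique A (B.congr fun t => ?_)
  rw [key hf hg h'g, key hg hf h'f, h41_shift hf h'f hg, h41_shift hf h'f hg, smul_neg, neg_zero]
  ring

theorem h41_wd (hf : LipschitzWith C f) (h'f : HasCompactSupport f) (hg : LipschitzWith D g)
    (h'g : HasCompactSupport g) : ∫ z, wd f g z = 0 := by
  have h1 : wd f g =ᵐ[volume] fun x => lineDeriv ℝ f x 1 * lineDeriv ℝ g x Complex.I -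
      lineDeriv ℝ g x 1 * lineDeriv ℝ f x Complex.I := by
    filter_upwards [hf.ae_differentiableAt (μ := volume), hg.ae_differentiableAt (μ := volume)]
      with x h1 h2
    simp only [h1.lineDeriv_eq_fderiv, h2.lineDeriv_eq_fderiv, wd]
    ring
  have h2 : Integrable fun x => lineDeriv ℝ f x 1 * lineDeriv ℝ g x Complex.I :=
    (h41_int hf h'f _).mul_of_top_left (hg.memLp_lineDeriv _)
  have h3 : Integrable fun x => lineDeriv ℝ g x 1 * lineDeriv ℝ f x Complex.I :=
    (h41_int hg h'g _).mul_of_top_left (hf.memLp_lineDeriv _)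
  rw [integral_congr_ae h1, integral_sub h2 h3, h41_sym hf h'f hg h'g, sub_self]

theorem h41_ind {A T : Set ℂ} (hA : IsCompact A) {v : ℂ → ℝ} (hv : LocallyLipschitzOn A v) {δ : ℝ}
    (hδ : 0 < δ) (h : ∀ x ∈ A, ∀ y ∈ T, y ∉ A → v x ≠ 0 → δ ≤ dist x y) :
    ∃ (L : ℝ≥0) (g : ℂ → ℝ), LipschitzWith L g ∧ EqOn (A.indicator v) g (A ∪ T) := by
  obtain ⟨L, hL⟩ := hv.exists_lipschitzOnWith_of_compact hA
  obtain ⟨B, hB⟩ := hA.exists_bound_of_continuousOn hv.continuousOn
  have key : ∀ x ∈ A, ∀ y ∈ T, y ∉ A → dist (v x) 0 ≤ (L + |B| / δ) * dist x y := by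
    intro x hx y hy hyA
    by_cases h0 : v x = 0
    · rw [h0, dist_self]
      positivity
    · have h1 : |B| ≤ |B| / δ * dist x y := by
        rw [div_mul_eq_mul_div, le_div_iff₀ hδ]
        exact mul_le_mul_of_nonneg_left (h x hx y hy hyA h0) (abs_nonneg _)
      have h2 : (0 : ℝ) ≤ L * dist x y := by positivity
      rw [dist_zero_right]
      linarith [hB x hx, le_abs_self B]
  have h1 : LipschitzOnWith (L + ⟨|B| / δ, by positivity⟩) (A.indicator v) (A ∪ T) := by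
    refine LipschitzOnWith.of_dist_le_mul fun x hx y hy => ?_
    change _ ≤ (L + |B| / δ : ℝ) * _
    by_cases h1 : x ∈ A <;> by_cases h2 : y ∈ A
    · rw [indicator_of_mem h1, indicator_of_mem h2]
      refine (hL.dist_le_mul x h1 y h2).trans (mul_le_mul_of_nonneg_right ?_ dist_nonneg)
      exact le_add_of_nonneg_right (by positivity)
    · rw [indicator_of_mem h1, indicator_of_notMem h2]
      exact key x h1 y (hy.resolve_left h2) h2
    · rw [indicator_of_notMem h1, indicator_of_mem h2, dist_comm, dist_comm x]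
      exact key y h2 x (hx.resolve_left h1) h1
    · rw [indicator_of_notMem h1, indicator_of_notMem h2, dist_self]
      positivity
  exact ⟨_, h1.extend_real⟩

end h41

/-- Stokes: `u` vanishes off a compact subset of `U`.  Cut `c` off by a smooth function equal
to one near the compact set, extend both by zero to globally Lipschitz compactly supported
functions, mollify one of them, integrate by parts (`LipschitzWith.integral_lineDeriv_mul_eq`). -/
theorem om_cpt (hU : IsOpen U) {u c : ℂ → ℝ} (hu : LocallyLipschitzOn U u)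
    (hc : LocallyLipschitzOn U c) {K : Set ℂ} (hK : IsCompact K) (hKU : K ⊆ U)
    (h0 : ∀ z ∈ U, z ∉ K → u z = 0) : om U u c = 0 := by
  obtain ⟨δ, hδ, hA⟩ := hK.exists_cthickening_subset_open hU hKU
  have hAc : IsCompact (Metric.cthickening δ K) := hK.cthickening
  obtain ⟨R, hR⟩ := hAc.isBounded.subset_closedBall (0 : ℂ)
  obtain ⟨L, f, hf, ef⟩ := h41_ind (T := univ) hAc (hu.mono hA) hδ fun x hx y _ hy h => by
    by_contra hlt
    exact hy (Metric.mem_cthickening_of_dist_le y x δ K (by_contra fun hx' => h (h0 x (hA hx) hx'))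
      (by rw [dist_comm]; exact (not_le.1 hlt).le))
  obtain ⟨L', g, hg, eg⟩ := h41_ind (T := (Metric.closedBall 0 (R + 1))ᶜ) hAc (hc.mono hA) one_pos
    fun x hx y hy _ _ => by
      have h1 : dist x 0 ≤ R := hR hx
      have h2 : R + 1 < dist y 0 := not_le.1 hy
      linarith [dist_triangle_left y 0 x]
  have hf0 : ∀ z, z ∉ K → f z = 0 := fun z hz => by
    rw [← ef (Or.inr (mem_univ z))]
    exact indicator_apply_eq_zero.2 fun h => h0 z (hA h) hz
  have hf1 : ∀ z, z ∉ K → fderiv ℝ f z = 0 := fun z hz => by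
    have : f =ᶠ[𝓝 z] fun _ => 0 :=
      Filter.mem_of_superset (hK.isClosed.isOpen_compl.mem_nhds hz) hf0
    rw [this.fderiv_eq, fderiv_fun_const, Pi.zero_apply]
  have hg0 : HasCompactSupport g :=
    HasCompactSupport.intro (isCompact_closedBall (0 : ℂ) (R + 1)) fun z hz => by
      rw [← eg (Or.inr hz)]
      exact indicator_of_notMem (fun h => hz (Metric.closedBall_subset_closedBall (by linarith)
        (hR h))) _
  rw [← h41_wd hf (HasCompactSupport.intro hK hf0) hg hg0, om,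
    ← setIntegral_eq_integral_of_forall_compl_eq_zero (s := U) (f := fun z => wd f g z) fun z hz => by
      simp [wd, hf1 z fun h => hz (hKU h)]]
  refine setIntegral_congr_fun hU.measurableSet fun z hz => ?_
  by_cases hzK : z ∈ K
  · have hn : Metric.cthickening δ K ∈ 𝓝 z := Filter.mem_of_superset
      (Metric.isOpen_thickening.mem_nhds (Metric.self_subset_thickening hδ K hzK))
      (Metric.thickening_subset_cthickening δ K)
    have e1 : u =ᶠ[𝓝 z] f := Filter.mem_of_superset hn fun y hy =>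
      (indicator_of_mem hy u).symm.trans (ef (Or.inl hy))
    have e2 : c =ᶠ[𝓝 z] g := Filter.mem_of_superset hn fun y hy =>
      (indicator_of_mem hy c).symm.trans (eg (Or.inl hy))
    simp only [wd, e1.fderiv_eq, e2.fderiv_eq]
  · have : u =ᶠ[𝓝 z] fun _ => 0 :=
      Filter.mem_of_superset ((hU.inter hK.isClosed.isOpen_compl).mem_nhds ⟨hz, hzK⟩)
        fun y hy => h0 y hy.1 hy.2
    simp [wd, hf1 z hzK, this.fderiv_eq]

theorem h90_lip_comp {u : ℂ → ℝ} {H : ℝ → ℝ} (hH : ContDiff ℝ 1 H)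
    (hu : LocallyLipschitzOn U u) : LocallyLipschitzOn U fun z => H (u z) := by
  rw [locallyLipschitzOn_iff_restrict] at hu ⊢
  exact hH.locallyLipschitz.comp hu

theorem h90_lip_mul {u v : ℂ → ℝ} (hu : LocallyLipschitzOn U u) (hv : LocallyLipschitzOn U v) :
    LocallyLipschitzOn U fun z => u z * v z := by
  rw [locallyLipschitzOn_iff_restrict] at hu hv ⊢
  exact (contDiff_mul (𝕜 := ℝ) (𝔸 := ℝ) (n := 1)).locallyLipschitz.comp (hu.prodMk hv)

theorem h90_fderiv_mul {u v : ℂ → ℝ} {z : ℂ} (hu : DifferentiableAt ℝ u z)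
    (hv : DifferentiableAt ℝ v z) (w : ℂ) :
    fderiv ℝ (fun z => u z * v z) z w = u z * fderiv ℝ v z w + v z * fderiv ℝ u z w := by
  rw [fderiv_fun_mul hu hv]; simp

theorem h90_fderiv_comp {u : ℂ → ℝ} {H : ℝ → ℝ} {z : ℂ} {d : ℝ} (hH : HasDerivAt H d (u z))
    (hu : DifferentiableAt ℝ u z) (w : ℂ) :
    fderiv ℝ (fun z => H (u z)) z w = d * fderiv ℝ u z w := by
  have := (hH.comp_hasFDerivAt z hu.hasFDerivAt).fderiv
  rw [show (fun z => H (u z)) = H ∘ u from rfl, this]; simp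

/-- pairing with an `A0` function vanishes: `wd f χ = wd (η f) χ` for a cutoff `η` -/
theorem om_A0 (hU : IsOpen U) {f χ : ℂ → ℝ} (hf : LocallyLipschitzOn U f) (hχ : A0 U χ) :
    om U f χ = 0 := by
  obtain ⟨C, hC, hCU, hloc⟩ := hχ.loc
  obtain ⟨K, hK, hCK, hKU⟩ := exists_compact_between hC hU hCU
  obtain ⟨η, h1, h0, -⟩ := exists_contMDiffMap_one_nhds_of_subset_interior (n := 1)
    (modelWithCornersSelf ℝ ℂ) hC.isClosed hCK
  have hη : ContDiff ℝ 1 η := η.contMDiff.contDiff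
  have key := om_cpt hU (h90_lip_mul hη.locallyLipschitz.locallyLipschitzOn hf) hχ.xx.lip hK hKU
    fun z _ hz => by rw [h0 z hz, zero_mul]
  rw [← key]
  refine setIntegral_congr_fun hU.measurableSet fun z hz => ?_
  by_cases hzC : z ∈ C
  · have : (fun z => η z * f z) =ᶠ[𝓝 z] f := by
      filter_upwards [h1.filter_mono (nhds_le_nhdsSet hzC)] with w hw
      rw [hw, one_mul]
    simp only [wd, this.fderiv_eq]
  · have : fderiv ℝ χ z = 0 := by
      rw [Filter.EventuallyEq.fderiv_eq (f := fun _ => χ z) (hloc z hz hzC)]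
      exact fderiv_const_apply _
    simp [wd, this]

/-- `wd (u χ) c - wd u (c χ) = - wd (c u) χ` a.e. -/
theorem om_mul_swap (hU : IsOpen U) (Λ : Lumps U) {u c χ : ℂ → ℝ} (hu : XX U u) (hc : XX U c)
    (hχ : A0 U χ) : om U (fun z => u z * χ z) c = om U u (fun z => c z * χ z) := by
  have i1 := wd_integrableOn (hu.mul_A0 hU Λ hχ).en hc.en
  have i2 := wd_integrableOn hu.en (hc.mul_A0 hU Λ hχ).en
  have key := om_A0 hU (h90_lip_mul hc.lip hu.lip) hχ
  rw [← sub_eq_zero, om, om, ← integral_sub i1 i2, ← neg_eq_zero, ← integral_neg, ← key]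
  refine integral_congr_ae ((ae_restrict_iff' hU.measurableSet).2 ?_)
  filter_upwards [ae_diff hU hu.lip, ae_diff hU hc.lip, ae_diff hU hχ.xx.lip] with z h1 h2 h3 hz
  simp only [wd, h90_fderiv_mul (h1 hz) (h3 hz), h90_fderiv_mul (h2 hz) (h3 hz),
    h90_fderiv_mul (h2 hz) (h1 hz)]
  ring

theorem h83_mul_A0 (hU : IsOpen U) (Λ : Lumps U) {f χ : ℂ → ℝ} (hf : XX U f) (hχ : A0 U χ)
    (h : ∀ q, (∃ n a, ∀ z ∈ Λ.W n q, f z = a) ∨ Λ.val χ q = 0) : A0 U fun z => f z * χ z := by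
  obtain ⟨N, hN⟩ := hχ.eq_val Λ
  refine A0.of_lumps hU Λ (hf.mul_A0 hU Λ hχ) fun q => ?_
  rcases h q with ⟨n, a, ha⟩ | h0
  · exact ⟨max n N, a * Λ.val χ q, fun z hz => by
      rw [ha z (Λ.W_mono (le_max_left _ _) q hz), hN _ (le_max_right _ _) q z hz]⟩
  · exact ⟨N, 0, fun z hz => by rw [hN N le_rfl q z hz, h0, mul_zero]⟩

/-- GERM lemma: split `u = Σ u χ_W + u (1 - Σ χ_W)` at a high level; each piece is an `A0`
function paired with something, after `om_mul_swap`. -/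
theorem om_germ (hU : IsOpen U) (Λ : Lumps U) {u c : ℂ → ℝ} (hu : XX U u) (hc : XX U c)
    (h : ∀ q, ∃ n a, (∀ z ∈ Λ.W n q, u z = a) ∨ (∀ z ∈ Λ.W n q, c z = a)) : om U u c = 0 := by
  classical
  obtain ⟨N, hN⟩ := Λ.koenig' (fun s => ∃ a, (∀ z ∈ s, u z = a) ∨ (∀ z ∈ s, c z = a))
    (fun s t hst ⟨a, ha⟩ => ⟨a, ha.imp (fun h z hz => h z (hst hz)) fun h z hz => h z (hst hz)⟩) h
  obtain ⟨Q, hQ, hQd⟩ := Λ.exists_reps N
  choose χ hχ _ using exists_Ind hU Λ N
  obtain ⟨hA, hv⟩ := A0.sum hU Λ (Q.filter fun p => ∃ a, ∀ z ∈ Λ.W N p, u z = a) (fun _ => 1)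
    (χ := χ) fun p _ => (hχ p).1
  set ξ : ℂ → ℝ := fun z => ∑ p ∈ Q.filter fun p => ∃ a, ∀ z ∈ Λ.W N p, u z = a, 1 * χ p z
  obtain ⟨hA', hv'⟩ := A0.sub hU Λ (A0.const 1) hA
  have h1 : A0 U fun z => u z * ξ z := h83_mul_A0 hU Λ hu hA fun q => by
    by_cases hq : ∃ a, ∀ z ∈ Λ.W N q, u z = a
    · exact Or.inl ⟨N, hq⟩
    · refine Or.inr ((hv q).trans (Finset.sum_eq_zero fun p hp => ?_))
      rw [(hχ p).2 q, if_neg fun e : Λ.W N q = Λ.W N p => hq (e ▸ (Finset.mem_filter.1 hp).2),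
        mul_zero]
  have h2 : A0 U fun z => c z * (1 - ξ z) := h83_mul_A0 hU Λ hc hA' fun q => by
    obtain ⟨a, ha | ha⟩ := hN N le_rfl q
    · obtain ⟨p, hp, e⟩ := hQ q
      have hone : Λ.val (fun _ => (1 : ℝ)) q = 1 :=
        (val_eq Λ ⟨1, fun _ _ => abs_one.le⟩ (n := 0) fun _ _ => rfl).1
      refine Or.inr ((hv' q).trans ?_)
      rw [hone, hv q, Finset.sum_eq_single_of_mem p (Finset.mem_filter.2 ⟨hp, a, e ▸ ha⟩),
        (hχ p).2 q, if_pos e, mul_one, sub_self]
      intro p' hp' hne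
      rw [(hχ p').2 q, if_neg fun e' => ?_, mul_zero]
      have hd := hQd p' (Finset.mem_filter.1 hp').1 p hp hne
      rw [← e', ← e, disjoint_self] at hd
      exact (Λ.conn N q).nonempty.ne_empty hd
    · exact Or.inl ⟨N, a, ha⟩
  have h3 := om_add_left hU h1.xx (hu.mul_A0 hU Λ hA') hc
  rw [om_mul_swap hU Λ hu hc hA', om_A0 hU hu.lip h2, om_skew (fun z => u z * ξ z),
    om_A0 hU hc.lip h1] at h3
  simpa only [mul_sub, mul_one, add_sub_cancel, neg_zero, add_zero] using h3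

/-- the pairing only depends on germs at the ends -/
theorem om_germ_congr (hU : IsOpen U) (Λ : Lumps U) {u u' c c' : ℂ → ℝ} (hu : XX U u)
    (hu' : XX U u') (hc : XX U c) (hc' : XX U c')
    (h : ∀ q, ∃ n a b, (∀ z ∈ Λ.W n q, u z = u' z + a) ∧ ∀ z ∈ Λ.W n q, c z = c' z + b) :
    om U u c = om U u' c' := by
  have h1 := om_germ hU Λ (hu.sub hU hu') hc fun q =>
    let ⟨n, a, _, ha, _⟩ := h q
    ⟨n, a, Or.inl fun z hz => by rw [ha z hz, add_sub_cancel_left]⟩
  have h2 := om_germ hU Λ hu' (hc.sub hU hc') fun q =>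
    let ⟨n, _, b, _, hb⟩ := h q
    ⟨n, b, Or.inr fun z hz => by rw [hb z hz, add_sub_cancel_left]⟩
  rw [om_sub_left hU hu hu' hc] at h1
  rw [om_sub_right hU hu' hc hc'] at h2
  linarith

/-- self pairing: `wd (G(u) χ) (H(u)) = - wd (K(u)) χ`, `K' = G H'` -/
theorem om_self (hU : IsOpen U) (Λ : Lumps U) {u χ : ℂ → ℝ} (hu : XX U u) (hb : Bdd U u)
    (hχ : A0 U χ) {G H : ℝ → ℝ} (hG : ContDiff ℝ 1 G) (hH : ContDiff ℝ 1 H) :
    om U (fun z => G (u z) * χ z) (fun z => H (u z)) = 0 := by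
  have hcont : Continuous fun t => G t * deriv H t :=
    hG.continuous.mul (hH.continuous_deriv le_rfl)
  obtain ⟨K, hK⟩ : ∃ K : ℝ → ℝ, ∀ t, HasDerivAt K (G t * deriv H t) t :=
    ⟨fun t => ∫ s in (0 : ℝ)..t, G s * deriv H s, fun t =>
      (hcont.integral_hasStrictDerivAt 0 t).hasDerivAt⟩
  have hK1 : ContDiff ℝ 1 K := by
    rw [contDiff_one_iff_deriv]
    refine ⟨fun t => (hK t).differentiableAt, ?_⟩
    rw [show deriv K = fun t => G t * deriv H t from funext fun t => (hK t).deriv]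
    exact hcont
  have key := om_A0 hU (h90_lip_comp hK1 hu.lip) hχ
  rw [← neg_eq_zero, om, ← integral_neg, ← key]
  refine integral_congr_ae ((ae_restrict_iff' hU.measurableSet).2 ?_)
  filter_upwards [ae_diff hU hu.lip, ae_diff hU hχ.xx.lip] with z h1 h3 hz
  have g1 := (hG.differentiable one_ne_zero (u z)).hasDerivAt
  have g2 := (hH.differentiable one_ne_zero (u z)).hasDerivAt
  have g3 : DifferentiableAt ℝ (fun z => G (u z)) z := g1.differentiableAt.comp z (h1 hz)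
  simp only [wd, h90_fderiv_mul g3 (h3 hz), h90_fderiv_comp g1 (h1 hz), h90_fderiv_comp g2 (h1 hz),
    h90_fderiv_comp (hK (u z)) (h1 hz)]
  ring

/-- the gradient vanishes a.e. on a level set -/
theorem ae_fderiv_eq_zero_of_eq (hU : IsOpen U) {u : ℂ → ℝ} (hu : LocallyLipschitzOn U u) (a : ℝ) :
    ∀ᵐ z, z ∈ U → u z = a → fderiv ℝ u z = 0 := by
  set s : Set ℂ := (U \ (U ∩ u ⁻¹' {a}ᶜ)) ∩ {z | DifferentiableAt ℝ u z} with hs
  have hm : MeasurableSet s :=
    (hU.measurableSet.diff (hu.continuousOn.isOpen_inter_preimage hU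
      isOpen_compl_singleton).measurableSet).inter (measurableSet_of_differentiableAt ℝ u)
  have hv : ∀ z ∈ s, u z = a := fun z hz => by
    by_contra h
    exact hz.1.2 ⟨hz.1.1, h⟩
  have hA : ApproximatesLinearOn (fun z => (u z : ℂ)) (0 : ℂ →L[ℝ] ℂ) s 0 := by
    intro x hx y hy
    simp [hv x hx, hv y hy]
  have h := hA.norm_fderiv_sub_le volume hm (fun z => Complex.ofRealCLM.comp (fderiv ℝ u z))
    fun z hz => (Complex.ofRealCLM.hasFDerivAt.comp z hz.2.hasFDerivAt).hasFDerivWithinAt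
  filter_upwards [(ae_restrict_iff' hm).1 h, ae_diff hU hu] with z h1 h2 hz ha
  have h3 := h1 ⟨⟨hz, fun h => h.2 ha⟩, h2 hz⟩
  rw [sub_zero, nonpos_iff_eq_zero, nnnorm_eq_zero] at h3
  ext w
  have h4 := congrArg (fun L : ℂ →L[ℝ] ℂ => L w) h3
  simpa using h4

/-- two functions have a.e. the same gradient where they agree -/
theorem ae_fderiv_eq_of_eq (hU : IsOpen U) {u v : ℂ → ℝ} (hu : LocallyLipschitzOn U u)
    (hv : LocallyLipschitzOn U v) : ∀ᵐ z, z ∈ U → u z = v z → fderiv ℝ u z = fderiv ℝ v z := by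
  filter_upwards [ae_fderiv_eq_zero_of_eq hU (hu.add hv.neg) 0, ae_diff hU hu, ae_diff hU hv]
    with z h1 h2 h3 hz e
  have h4 : fderiv ℝ (u + -v) z = 0 := h1 hz (by simp [e])
  rw [fderiv_add (h2 hz) (h3 hz).neg, fderiv_neg] at h4
  exact add_neg_eq_zero.1 h4

/-- Meyers-Serrin smoothing with a pointwise error tending to zero at the ends
(locally finite smooth partition of unity, mollify each piece). -/
theorem exists_smooth (hU : IsOpen U) (Λ : Lumps U) {u : ℂ → ℝ} (hu : XX U u) {ε : ℝ}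
    (hε : 0 < ε) : ∃ u' : ℂ → ℝ, XX U u' ∧ ContDiffOn ℝ (⊤ : ℕ∞) u' U ∧
      (∀ z ∈ U, |u' z - u z| ≤ ε) ∧ En U (fun z => u' z - u z) ≤ ENNReal.ofReal ε ∧
      ∀ q, ∀ η > 0, ∃ n, ∀ z ∈ Λ.W n q, |u' z - u z| ≤ η := by
  exact h85_exists_smooth hU Λ hu hε

theorem En_comp_ptw {u v u' v' : ℂ → ℝ} {G : ℝ × ℝ → ℝ} (hG : ContDiff ℝ 1 G) {L : ℝ}
    (hL : ∀ p, ‖fderiv ℝ G p‖ ≤ L) {z : ℂ} (hu : DifferentiableAt ℝ u z)
    (hv : DifferentiableAt ℝ v z) (hu' : DifferentiableAt ℝ u' z)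
    (hv' : DifferentiableAt ℝ v' z) :
    ‖fderiv ℝ (fun z => G (u' z, v' z) - G (u z, v z)) z‖ₑ ^ 2 ≤
      ENNReal.ofReal (2 * L ^ 2) * (‖fderiv ℝ (fun z => u' z - u z) z‖ₑ ^ 2 +
        ‖fderiv ℝ (fun z => v' z - v z) z‖ₑ ^ 2) +
      ENNReal.ofReal (2 * ‖fderiv ℝ G (u' z, v' z) - fderiv ℝ G (u z, v z)‖ ^ 2) *
        (‖fderiv ℝ u z‖ₑ ^ 2 + ‖fderiv ℝ v z‖ₑ ^ 2) := by
  have hd : Differentiable ℝ G := hG.differentiable (by norm_num)
  have c1 : HasFDerivAt (fun z => G (u' z, v' z))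
      ((fderiv ℝ G (u' z, v' z)).comp ((fderiv ℝ u' z).prod (fderiv ℝ v' z))) z :=
    (hd (u' z, v' z)).hasFDerivAt.comp z (hu'.hasFDerivAt.prodMk hv'.hasFDerivAt)
  have c2 : HasFDerivAt (fun z => G (u z, v z))
      ((fderiv ℝ G (u z, v z)).comp ((fderiv ℝ u z).prod (fderiv ℝ v z))) z :=
    (hd (u z, v z)).hasFDerivAt.comp z (hu.hasFDerivAt.prodMk hv.hasFDerivAt)
  have c3 : fderiv ℝ (fun z => G (u' z, v' z) - G (u z, v z)) z =
      (fderiv ℝ G (u' z, v' z)).comp ((fderiv ℝ u' z).prod (fderiv ℝ v' z)) -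
      (fderiv ℝ G (u z, v z)).comp ((fderiv ℝ u z).prod (fderiv ℝ v z)) := (c1.fun_sub c2).fderiv
  have d1 : fderiv ℝ (fun z => u' z - u z) z = fderiv ℝ u' z - fderiv ℝ u z :=
    (hu'.hasFDerivAt.fun_sub hu.hasFDerivAt).fderiv
  have d2 : fderiv ℝ (fun z => v' z - v z) z = fderiv ℝ v' z - fderiv ℝ v z :=
    (hv'.hasFDerivAt.fun_sub hv.hasFDerivAt).fderiv
  rw [c3, d1, d2]
  set A := fderiv ℝ G (u' z, v' z) with hA
  set B := fderiv ℝ G (u z, v z) with hB
  set a := fderiv ℝ u z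
  set b := fderiv ℝ v z
  set a' := fderiv ℝ u' z
  set b' := fderiv ℝ v' z
  have hAL : ‖A‖ ≤ L := hL _
  have hL0 : 0 ≤ L := (norm_nonneg _).trans hAL
  have e : A.comp (a'.prod b') - B.comp (a.prod b) =
      A.comp ((a' - a).prod (b' - b)) + (A - B).comp (a.prod b) := by
    ext w
    all_goals
      simp only [ContinuousLinearMap.sub_apply, ContinuousLinearMap.add_apply,
        ContinuousLinearMap.comp_apply, ContinuousLinearMap.prod_apply]
      rw [← Prod.mk_sub_mk, map_sub]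
      ring
  have np : ∀ f g : ℂ →L[ℝ] ℝ, ‖f.prod g‖ ^ 2 ≤ ‖f‖ ^ 2 + ‖g‖ ^ 2 := by
    intro f g
    rw [ContinuousLinearMap.opNorm_prod, Prod.norm_def]
    rcases le_total ‖f‖ ‖g‖ with h | h
    · simp only [max_eq_right h]; nlinarith [sq_nonneg ‖f‖]
    · simp only [max_eq_left h]; nlinarith [sq_nonneg ‖g‖]
  have n1 : ‖A.comp (a'.prod b') - B.comp (a.prod b)‖ ≤
      L * ‖(a' - a).prod (b' - b)‖ + ‖A - B‖ * ‖a.prod b‖ := by
    rw [e]
    refine (norm_add_le _ _).trans (add_le_add ?_ (ContinuousLinearMap.opNorm_comp_le _ _))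
    exact (ContinuousLinearMap.opNorm_comp_le _ _).trans
      (mul_le_mul_of_nonneg_right hAL (norm_nonneg _))
  have n2 : ‖A.comp (a'.prod b') - B.comp (a.prod b)‖ ^ 2 ≤
      2 * L ^ 2 * (‖a' - a‖ ^ 2 + ‖b' - b‖ ^ 2) + 2 * ‖A - B‖ ^ 2 * (‖a‖ ^ 2 + ‖b‖ ^ 2) := by
    have q1 := np (a' - a) (b' - b)
    have q2 := np a b
    have q3 : ‖A.comp (a'.prod b') - B.comp (a.prod b)‖ ^ 2 ≤
        (L * ‖(a' - a).prod (b' - b)‖ + ‖A - B‖ * ‖a.prod b‖) ^ 2 :=
      pow_le_pow_left₀ (norm_nonneg _) n1 2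
    have q4 := mul_le_mul_of_nonneg_left q1 (sq_nonneg L)
    have q5 := mul_le_mul_of_nonneg_left q2 (sq_nonneg ‖A - B‖)
    nlinarith [sq_nonneg (L * ‖(a' - a).prod (b' - b)‖ - ‖A - B‖ * ‖a.prod b‖)]
  have en : ∀ f : ℂ →L[ℝ] ℝ, ‖f‖ₑ ^ 2 = ENNReal.ofReal (‖f‖ ^ 2) := by
    intro f
    rw [← ofReal_norm_eq_enorm, ENNReal.ofReal_pow (norm_nonneg _)]
  simp only [en]
  rw [← ENNReal.ofReal_add (sq_nonneg _) (sq_nonneg _),
    ← ENNReal.ofReal_add (sq_nonneg _) (sq_nonneg _),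
    ← ENNReal.ofReal_mul (by positivity), ← ENNReal.ofReal_mul (by positivity),
    ← ENNReal.ofReal_add (by positivity) (by positivity)]
  exact ENNReal.ofReal_le_ofReal n2

/-- continuity of composition with a `C¹` map with bounded gradient (dominated convergence) -/
theorem En_comp_tendsto (hU : IsOpen U) {u v : ℂ → ℝ} {uk vk : ℕ → ℂ → ℝ} (hu : XX U u)
    (hv : XX U v) (huk : ∀ k, XX U (uk k)) (hvk : ∀ k, XX U (vk k)) {G : ℝ × ℝ → ℝ}
    (hG : ContDiff ℝ 1 G) {L : ℝ} (hL : ∀ p, ‖fderiv ℝ G p‖ ≤ L)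
    (h1 : ∀ᵐ z, z ∈ U → Tendsto (fun k => uk k z) atTop (𝓝 (u z)))
    (h2 : ∀ᵐ z, z ∈ U → Tendsto (fun k => vk k z) atTop (𝓝 (v z)))
    (e1 : Tendsto (fun k => En U (fun z => uk k z - u z)) atTop (𝓝 0))
    (e2 : Tendsto (fun k => En U (fun z => vk k z - v z)) atTop (𝓝 0)) :
    Tendsto (fun k => En U (fun z => G (uk k z, vk k z) - G (u z, v z))) atTop (𝓝 0) := by
  have hm : MeasurableSet U := hU.measurableSet
  have mD : ∀ f : ℂ → ℝ, Measurable (fun z => ‖fderiv ℝ f z‖ₑ ^ 2) := fun f =>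
    ((measurable_fderiv ℝ f).enorm).pow_const 2
  have cG : Continuous (fderiv ℝ G) := hG.continuous_fderiv (by norm_num)
  have hL0 : 0 ≤ L := (norm_nonneg _).trans (hL 0)
  set g : ℂ → ℝ≥0∞ := fun z => ‖fderiv ℝ u z‖ₑ ^ 2 + ‖fderiv ℝ v z‖ₑ ^ 2 with hg
  have mg : Measurable g := (mD u).add (mD v)
  have gfin : ∫⁻ z in U, g z < ⊤ := by
    simp only [hg]
    rw [lintegral_add_left (mD u)]
    exact ENNReal.add_lt_top.2 ⟨hu.en, hv.en⟩
  set F : ℕ → ℂ → ℝ≥0∞ := fun k z =>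
    ENNReal.ofReal (2 * ‖fderiv ℝ G (uk k z, vk k z) - fderiv ℝ G (u z, v z)‖ ^ 2) * g z with hF
  have mF : ∀ k, AEMeasurable (F k) (volume.restrict U) := by
    intro k
    refine AEMeasurable.mul ?_ mg.aemeasurable
    refine ENNReal.measurable_ofReal.comp_aemeasurable ?_
    refine ContinuousOn.aemeasurable ?_ hm
    have a1 : ContinuousOn (fun z => fderiv ℝ G (uk k z, vk k z)) U :=
      cG.comp_continuousOn ((huk k).lip.continuousOn.prodMk (hvk k).lip.continuousOn)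
    have a2 : ContinuousOn (fun z => fderiv ℝ G (u z, v z)) U :=
      cG.comp_continuousOn (hu.lip.continuousOn.prodMk hv.lip.continuousOn)
    exact continuousOn_const.mul ((a1.sub a2).norm.pow 2)
  have tF : Tendsto (fun k => ∫⁻ z in U, F k z) atTop (𝓝 (∫⁻ z in U, (0 : ℝ≥0∞))) := by
    refine tendsto_lintegral_of_dominated_convergence' (fun z => ENNReal.ofReal (8 * L ^ 2) * g z)
      mF ?_ ?_ ?_
    · intro k
      refine Eventually.of_forall fun z => ?_
      refine mul_le_mul_left (ENNReal.ofReal_le_ofReal ?_) _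
      have q1 : ‖fderiv ℝ G (uk k z, vk k z) - fderiv ℝ G (u z, v z)‖ ≤ L + L :=
        (norm_sub_le _ _).trans (add_le_add (hL _) (hL _))
      have q2 := pow_le_pow_left₀ (norm_nonneg _) q1 2
      nlinarith
    · rw [lintegral_const_mul _ mg]
      exact ENNReal.mul_ne_top ENNReal.ofReal_ne_top gfin.ne
    · rw [ae_restrict_iff' hm]
      filter_upwards [h1, h2] with z z1 z2 hz
      have t1 : Tendsto (fun k => fderiv ℝ G (uk k z, vk k z)) atTop
          (𝓝 (fderiv ℝ G (u z, v z))) :=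
        (cG.tendsto _).comp ((z1 hz).prodMk_nhds (z2 hz))
      have t2 : Tendsto (fun k => 2 * ‖fderiv ℝ G (uk k z, vk k z) - fderiv ℝ G (u z, v z)‖ ^ 2)
          atTop (𝓝 (2 * ‖fderiv ℝ G (u z, v z) - fderiv ℝ G (u z, v z)‖ ^ 2)) :=
        ((t1.sub tendsto_const_nhds).norm.pow 2).const_mul 2
      have t3 := ENNReal.tendsto_ofReal t2
      simp only [sub_self, norm_zero, ne_eq, OfNat.ofNat_ne_zero, not_false_eq_true, zero_pow,
        mul_zero, ENNReal.ofReal_zero] at t3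
      have gz : g z ≠ ⊤ := by
        simp only [hg]
        exact ENNReal.add_ne_top.2 ⟨ENNReal.pow_ne_top enorm_ne_top, ENNReal.pow_ne_top enorm_ne_top⟩
      have t4 := ENNReal.Tendsto.mul_const t3 (Or.inr gz)
      simpa only [zero_mul] using t4
  rw [lintegral_zero] at tF
  have t5 : Tendsto (fun k => ENNReal.ofReal (2 * L ^ 2) *
      (En U (fun z => uk k z - u z) + En U (fun z => vk k z - v z)) + ∫⁻ z in U, F k z) atTop
      (𝓝 0) := by
    have := (ENNReal.Tendsto.const_mul (a := ENNReal.ofReal (2 * L ^ 2)) (e1.add e2)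
      (Or.inr ENNReal.ofReal_ne_top)).add tF
    simpa only [add_zero, mul_zero] using this
  refine tendsto_of_tendsto_of_tendsto_of_le_of_le tendsto_const_nhds t5 (fun _ => zero_le) ?_
  intro k
  have b1 : En U (fun z => G (uk k z, vk k z) - G (u z, v z)) ≤
      ∫⁻ z in U, (ENNReal.ofReal (2 * L ^ 2) * (‖fderiv ℝ (fun z => uk k z - u z) z‖ₑ ^ 2 +
        ‖fderiv ℝ (fun z => vk k z - v z) z‖ₑ ^ 2) + F k z) := by
    unfold En
    refine lintegral_mono_ae ?_
    rw [ae_restrict_iff' hm]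
    filter_upwards [ae_diff hU hu.lip, ae_diff hU hv.lip, ae_diff hU (huk k).lip,
      ae_diff hU (hvk k).lip] with z d1 d2 d3 d4 hz
    exact En_comp_ptw hG hL (d1 hz) (d2 hz) (d3 hz) (d4 hz)
  refine b1.trans (le_of_eq ?_)
  have m2 : Measurable (fun z => ‖fderiv ℝ (fun z => uk k z - u z) z‖ₑ ^ 2 +
      ‖fderiv ℝ (fun z => vk k z - v z) z‖ₑ ^ 2) := (mD _).add (mD _)
  have m3 : Measurable (fun z => ENNReal.ofReal (2 * L ^ 2) *
      (‖fderiv ℝ (fun z => uk k z - u z) z‖ₑ ^ 2 +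
      ‖fderiv ℝ (fun z => vk k z - v z) z‖ₑ ^ 2)) := m2.const_mul _
  rw [lintegral_add_left m3, lintegral_const_mul _ m2, lintegral_add_left (mD _)]
  rfl

theorem h49_sq_int {V : Set ℂ} {u : ℂ → ℝ} (hu : En V u < ⊤) :
    IntegrableOn (fun z => ‖fderiv ℝ u z‖ ^ 2) V ∧
      ∫ z in V, ‖fderiv ℝ u z‖ ^ 2 = (En V u).toReal := by
  have hm : Measurable fun z => ‖fderiv ℝ u z‖ ^ 2 := (measurable_fderiv ℝ u).norm.pow_const 2
  have e : ∀ z, ENNReal.ofReal (‖fderiv ℝ u z‖ ^ 2) = ‖fderiv ℝ u z‖ₑ ^ 2 := fun z => by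
    rw [ENNReal.ofReal_pow (norm_nonneg _), ofReal_norm]
  refine ⟨⟨hm.aestronglyMeasurable, ?_⟩, ?_⟩
  · rw [hasFiniteIntegral_iff_ofReal (Eventually.of_forall fun z => by positivity)]
    simp only [e]
    exact hu
  · rw [integral_eq_lintegral_of_nonneg_ae (Eventually.of_forall fun z => by positivity)
      hm.aestronglyMeasurable]
    simp only [e]
    rfl

theorem h49_tail (hU : IsOpen U) {c : ℂ → ℝ} (hc : En U c < ⊤) {ε : ℝ} (hε : 0 < ε) :
    ∃ K, K ⊆ U ∧ IsCompact K ∧ En (U \ K) c < ENNReal.ofReal ε := by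
  have hfin : IsFiniteMeasure ((volume.restrict U).withDensity fun z => ‖fderiv ℝ c z‖ₑ ^ 2) :=
    isFiniteMeasure_withDensity hc.ne
  obtain ⟨K, hKU, hK, h⟩ := hU.measurableSet.exists_isCompact_sdiff_lt
    (μ := (volume.restrict U).withDensity fun z => ‖fderiv ℝ c z‖ₑ ^ 2) (measure_ne_top _ U)
    (ε := ENNReal.ofReal ε) (ENNReal.ofReal_pos.2 hε).ne'
  have hm : MeasurableSet (U \ K) := hU.measurableSet.diff hK.isClosed.measurableSet
  rw [withDensity_apply _ hm, Measure.restrict_restrict hm, inter_eq_left.2 sdiff_subset] at h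
  exact ⟨K, hKU, hK, h⟩

theorem h49_small (hU : IsOpen U) {c : ℂ → ℝ} (hc : XX U c) {S ε : ℝ} (hS : 0 < S) (hε : 0 < ε) :
    ∃ δ : ℝ, 0 < δ ∧ ∀ w, XX U w → (En U w).toReal ≤ S → (∀ z ∈ U, |w z| ≤ δ) →
      |om U w c| ≤ ε := by
  set t : ℝ := ε / (2 * S) with ht
  have ht0 : 0 < t := by positivity
  obtain ⟨K, hKU, hK, hKe⟩ := h49_tail hU hc.en (ε := t * ε / 2) (by positivity)
  obtain ⟨K', hK', hKK', hK'U⟩ := exists_compact_between hK hU hKU
  obtain ⟨η, h1, h0, h01⟩ := exists_contMDiffMap_one_nhds_of_subset_interior (n := 1)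
    (modelWithCornersSelf ℝ ℂ) hK.isClosed hKK'
  have hη : ContDiff ℝ 1 η := η.contMDiff.contDiff
  have hsup : tsupport η ⊆ K' :=
    closure_minimal (fun z hz => by_contra fun h => hz (h0 z h)) hK'.isClosed
  have hcs : HasCompactSupport η := hK'.of_isClosed_subset (isClosed_tsupport _) hsup
  have hηX : XX U η := (A0.of_smooth hU hη hcs
    ((tsupport_fderiv_subset ℝ).trans (hsup.trans hK'U))).xx
  have hηB : Bdd U η := ⟨1, fun z _ => abs_le.2 ⟨by linarith [(h01 z).1], (h01 z).2⟩⟩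
  have hI := (wd_integrableOn hηX.en hc.en).abs
  set I : ℝ := ∫ z in U, |wd η c z| with hIdef
  have hI0 : 0 ≤ I := integral_nonneg fun _ => abs_nonneg _
  refine ⟨ε / (2 * (I + 1)), by positivity, fun w hw hwS hwδ => ?_⟩
  set δ : ℝ := ε / (2 * (I + 1)) with hδ
  have hδ0 : 0 < δ := by positivity
  have hwη : XX U fun z => w z * η z := XX.mul hU hw hηX ⟨δ, hwδ⟩ hηB
  have hz : om U (fun z => w z * η z) c = 0 :=
    om_cpt hU hwη.lip hc.lip hK' hK'U fun z _ hz => by rw [h0 z hz, mul_zero]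
  have hm : MeasurableSet (U \ K) := hU.measurableSet.diff hK.isClosed.measurableSet
  obtain ⟨a1, a2⟩ := h49_sq_int hw.en
  obtain ⟨b1, b2⟩ := h49_sq_int (hKe.trans ENNReal.ofReal_lt_top)
  have b3 : ∫ z in U \ K, ‖fderiv ℝ c z‖ ^ 2 ≤ t * ε / 2 := by
    rw [b2]
    exact ENNReal.toReal_le_of_le_ofReal (by positivity) hKe.le
  have b4 : IntegrableOn ((U \ K).indicator fun z => ‖fderiv ℝ c z‖ ^ 2) U :=
    ((integrable_indicator_iff hm).2 b1).integrableOn
  have b5 : ∫ z in U, (U \ K).indicator (fun z => ‖fderiv ℝ c z‖ ^ 2) z =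
      ∫ z in U \ K, ‖fderiv ℝ c z‖ ^ 2 := by
    rw [setIntegral_indicator hm, inter_eq_right.2 sdiff_subset]
  have e : om U w c = ∫ z in U, (wd w c z - wd (fun z => w z * η z) c z) := by
    rw [integral_sub (wd_integrableOn hw.en hc.en) (wd_integrableOn hwη.en hc.en)]
    change _ = om U w c - om U (fun z => w z * η z) c
    rw [hz, sub_zero]
  have key : ‖∫ z in U, (wd w c z - wd (fun z => w z * η z) c z)‖ ≤
      ∫ z in U, (δ * |wd η c z| + t / 2 * ‖fderiv ℝ w z‖ ^ 2 +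
        1 / (2 * t) * (U \ K).indicator (fun z => ‖fderiv ℝ c z‖ ^ 2) z) := by
    refine norm_integral_le_of_norm_le
      (((hI.const_mul δ).add (a1.const_mul _)).add (b4.const_mul _)) ?_
    rw [ae_restrict_iff' hU.measurableSet]
    filter_upwards [ae_diff hU hw.lip] with z hd hzU
    have hd1 := hd hzU
    have hd2 : DifferentiableAt ℝ η z := hη.differentiable one_ne_zero z
    have e1 : wd w c z - wd (fun z => w z * η z) c z = (1 - η z) * wd w c z - w z * wd η c z := by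
      simp only [wd, fderiv_fun_mul hd1 hd2, add_apply, smul_apply, smul_eq_mul]
      ring
    have e2 : |w z * wd η c z| ≤ δ * |wd η c z| := by
      rw [abs_mul]
      exact mul_le_mul_of_nonneg_right (hwδ z hzU) (abs_nonneg _)
    have e3 : |(1 - η z) * wd w c z| ≤ t / 2 * ‖fderiv ℝ w z‖ ^ 2 +
        1 / (2 * t) * (U \ K).indicator (fun z => ‖fderiv ℝ c z‖ ^ 2) z := by
      by_cases hzK : z ∈ K
      · rw [h1.self_of_nhdsSet z hzK, sub_self, zero_mul, abs_zero,
          indicator_of_notMem fun h => h.2 hzK]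
        positivity
      · rw [indicator_of_mem (show z ∈ U \ K from ⟨hzU, hzK⟩), abs_mul]
        have f1 : |1 - η z| ≤ 1 := abs_le.2 ⟨by linarith [(h01 z).2], by linarith [(h01 z).1]⟩
        have f2 := abs_wd_le w c z
        have f3 : |1 - η z| * |wd w c z| ≤ |wd w c z| := mul_le_of_le_one_left (abs_nonneg _) f1
        have f4 : t / 2 * ‖fderiv ℝ w z‖ ^ 2 + 1 / (2 * t) * ‖fderiv ℝ c z‖ ^ 2 -
            ‖fderiv ℝ w z‖ * ‖fderiv ℝ c z‖ =
            1 / (2 * t) * (t * ‖fderiv ℝ w z‖ - ‖fderiv ℝ c z‖) ^ 2 := by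
          field_simp
          ring
        have f5 : 0 ≤ 1 / (2 * t) * (t * ‖fderiv ℝ w z‖ - ‖fderiv ℝ c z‖) ^ 2 := by positivity
        linarith
    rw [e1, Real.norm_eq_abs]
    have := abs_sub ((1 - η z) * wd w c z) (w z * wd η c z)
    linarith
  have i12 : Integrable (fun z => δ * |wd η c z| + t / 2 * ‖fderiv ℝ w z‖ ^ 2)
      (volume.restrict U) := (hI.const_mul δ).add (a1.const_mul _)
  rw [integral_add i12 (b4.const_mul _),
    integral_add (hI.const_mul δ) (a1.const_mul _), integral_const_mul, integral_const_mul,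
    integral_const_mul, a2, b5, ← e, Real.norm_eq_abs, ← hIdef] at key
  have g1 : δ * I ≤ ε / 2 := by
    have : δ * (I + 1) = ε / 2 := by rw [hδ]; field_simp
    nlinarith
  have g2 : t / 2 * (En U w).toReal ≤ ε / 4 := by
    have : t / 2 * S = ε / 4 := by rw [ht]; field_simp; ring
    nlinarith
  have g3 : 1 / (2 * t) * ∫ z in U \ K, ‖fderiv ℝ c z‖ ^ 2 ≤ ε / 4 := by
    have : 1 / (2 * t) * (t * ε / 2) = ε / 4 := by field_simp; ring
    have h2 := mul_le_mul_of_nonneg_left b3 (show 0 ≤ 1 / (2 * t) by positivity)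
    linarith
  linarith

/-- bounded energy and a.e. convergence with a uniform bound give weak convergence of pairings -/
theorem om_tendsto_weak (hU : IsOpen U) {u c : ℂ → ℝ} {uk : ℕ → ℂ → ℝ} (hu : XX U u)
    (hc : XX U c) (huk : ∀ k, XX U (uk k)) {D : ℝ≥0∞} (hD : D < ⊤) (hE : ∀ k, En U (uk k) ≤ D)
    (hl : TendstoUniformlyOn uk u atTop U) :
    Tendsto (fun k => om U (uk k) c) atTop (𝓝 (om U u c)) := by
  rw [Metric.tendsto_nhds]
  intro ε hε
  set s : ℝ := Real.sqrt D.toReal + Real.sqrt (En U u).toReal with hs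
  obtain ⟨δ, hδ, h⟩ := h49_small hU hc (S := s ^ 2 + 1) (by positivity) (half_pos hε)
  filter_upwards [Metric.tendstoUniformlyOn_iff.1 hl δ hδ] with k hk
  have hn : En U (fun z => -u z) = En U u := by simp [En, fderiv_fun_neg]
  have h1 := sqrt_En_add_le hU (huk k) hu.neg
  have h2 : Real.sqrt (En U (uk k)).toReal ≤ Real.sqrt D.toReal :=
    Real.sqrt_le_sqrt (ENNReal.toReal_mono hD.ne (hE k))
  simp only [hn, ← sub_eq_add_neg] at h1
  have h3 : (En U fun z => uk k z - u z).toReal ≤ s ^ 2 + 1 := by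
    have h4 := Real.sq_sqrt (ENNReal.toReal_nonneg (a := En U fun z => uk k z - u z))
    have h5 := pow_le_pow_left₀ (Real.sqrt_nonneg _) (h1.trans (add_le_add h2 le_rfl)) 2
    linarith
  have h6 := h _ (XX.sub hU (huk k) hu) h3 fun z hz => by
    rw [abs_sub_comm, ← Real.dist_eq]
    exact (hk z hz).le
  rw [om_sub_left hU (huk k) hu hc] at h6
  rw [Real.dist_eq]
  linarith

/-- a function tending to zero at every end pairs to zero with everything:
`f - clip_η f` is in the situation of `om_germ`, and `clip_η f → 0` weakly. -/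
theorem om_vanish (hU : IsOpen U) (Λ : Lumps U) {f c : ℂ → ℝ} (hf : XX U f) (hc : XX U c)
    (h : ∀ q, ∀ η > 0, ∃ n, ∀ z ∈ Λ.W n q, |f z| ≤ η) : om U f c = 0 := by
  have hT : ∀ η s s' : ℝ, |max (-η) (min η s) - max (-η) (min η s')| ≤ 1 * |s - s'| :=
    fun η s s' => by
      rw [one_mul, max_comm _ (min η s), max_comm _ (min η s'), min_comm η s, min_comm η s']
      refine (abs_max_sub_max_le_abs _ _ _).trans ((abs_min_sub_min_le_max _ _ _ _).trans ?_)
      rw [sub_self, abs_zero]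
      exact max_le le_rfl (abs_nonneg _)
  have hX : ∀ η : ℝ, XX U fun z => max (-η) (min η (f z)) := fun η =>
    XX.comp_lip hU (T := fun s => max (-η) (min η s)) (hT η) hf
  have h1 : ∀ η : ℝ, 0 < η → om U (fun z => max (-η) (min η (f z))) c = om U f c := fun η hη => by
    have := om_germ hU Λ ((hX η).sub hU hf) hc fun q =>
      let ⟨n, hn⟩ := h q η hη
      ⟨n, 0, Or.inl fun z hz => by
        rw [min_eq_right (abs_le.1 (hn z hz)).2, max_eq_right (abs_le.1 (hn z hz)).1, sub_self]⟩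
    rwa [om_sub_left hU (hX η) hf hc, sub_eq_zero] at this
  have h2 := om_tendsto_weak hU (XX.const 0) hc
    (uk := fun (k : ℕ) z => max (-(1 / ((k : ℝ) + 1))) (min (1 / ((k : ℝ) + 1)) (f z)))
    (fun k => hX _) hf.en (fun k => by
      simpa using En_comp_lip_le hU zero_le_one (T := fun s => max (-(1 / ((k : ℝ) + 1)))
        (min (1 / ((k : ℝ) + 1)) s)) (hT _) hf.lip) (by
      rw [Metric.tendstoUniformlyOn_iff]
      intro ε hε
      filter_upwards [(tendsto_one_div_add_atTop_nhds_zero_nat (𝕜 := ℝ)).eventually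
        (gt_mem_nhds hε)] with k hk z _
      have h0 : 0 < 1 / ((k : ℝ) + 1) := by positivity
      rw [Real.dist_eq, zero_sub, abs_neg, abs_lt]
      exact ⟨lt_max_of_lt_left (by linarith),
        max_lt (by linarith) (min_lt_of_left_lt hk)⟩)
  have h3 : om U (fun _ => (0 : ℝ)) c = 0 := by simpa using om_smul_left (U := U) 0 f c
  simp only [h1 _ (Nat.one_div_pos_of_nat), h3] at h2
  exact tendsto_nhds_unique tendsto_const_nhds h2

end Crest.Agent.R105
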