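import Crest.Agent.R105.CLoop
import Crest.Agent.R105.CBoxDefs
import Crest.Agent.R105.NT3

/-! Row 105, block CH: integral identities in one band of levels. -/

set_option autoImplicit false

noncomputable section

namespace Crest.Agent.R105.Ch

open MeasureTheory Filter Topology Set Metric Complex
open scoped ContDiff Classical

variable {U : Set ℂ} {r : ℂ → ℝ} {κ : Type}

/-- the part of the band `r ∈ [α, β]` outside the open boxes -/
def Zs (B : κ → Box U r) (α β : ℝ) : Set ℂ :=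
  {z | z ∈ U ∧ r z ∈ Icc α β ∧ ∀ k, z ∉ interior (B k).Q}

/-- the rest of `U` -/
def Rs (B : κ → Box U r) : Set ℂ := U \ ⋃ k, (B k).Q

/-- all boxes are crossed by all levels of the band -/
structure Band (B : κ → Box U r) (α β : ℝ) : Prop where
  lt : α < β
  act : ∀ k, (B k).lo < α ∧ β < (B k).hi
  disj : Pairwise fun i j => Disjoint (B i).Q (B j).Q

theorem Band.x_mem {B : κ → Box U r} {α β : ℝ} (h : Band B α β) (k : κ) {t : ℝ}
    (ht : t ∈ Icc α β) : (B k).x t ∈ Zs B α β := by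
  obtain ⟨h1, h2, h3⟩ :=
    (B k).x_mem t ⟨(h.act k).1.le.trans ht.1, ht.2.trans (h.act k).2.le⟩
  refine ⟨(B k).sub h1, h2.symm ▸ ht, fun j hj => ?_⟩
  by_cases e : j = k
  · exact h3 (e ▸ hj)
  · exact disjoint_left.1 (h.disj e) (interior_subset hj) h1

theorem Band.e_mem {B : κ → Box U r} {α β : ℝ} (h : Band B α β) (k : κ) {t : ℝ}
    (ht : t ∈ Icc α β) : (B k).e t ∈ Zs B α β := by
  obtain ⟨h1, h2, h3⟩ :=
    (B k).e_mem t ⟨(h.act k).1.le.trans ht.1, ht.2.trans (h.act k).2.le⟩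
  refine ⟨(B k).sub h1, h2.symm ▸ ht, fun j hj => ?_⟩
  by_cases e : j = k
  · exact h3 (e ▸ hj)
  · exact disjoint_left.1 (h.disj e) (interior_subset hj) h1

/-- `U \ Z = (U ∩ r ⁻¹' (Icc α β)ᶜ) ∪ ⋃ interior Q` -/
theorem isOpen_diff_Zs (hU : IsOpen U) (hr : ContinuousOn r U) (B : κ → Box U r) (α β : ℝ) :
    IsOpen (U \ Zs B α β) := by
  have e : U \ Zs B α β = (U ∩ r ⁻¹' (Icc α β)ᶜ) ∪ ⋃ k, interior (B k).Q := by
    ext z
    constructor
    · rintro ⟨h1, h2⟩
      by_contra h3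
      simp only [mem_union, mem_iUnion, not_or, not_exists] at h3
      exact h2 ⟨h1, by_contra fun h4 => h3.1 ⟨h1, h4⟩, h3.2⟩
    · rintro (⟨h1, h2⟩ | h1)
      · exact ⟨h1, fun h3 => h2 h3.2.1⟩
      · obtain ⟨k, hk⟩ := mem_iUnion.1 h1
        exact ⟨(B k).sub (interior_subset hk), fun h3 => h3.2.2 k hk⟩
  rw [e]
  exact (hr.isOpen_inter_preimage hU isClosed_Icc.isOpen_compl).union
    (isOpen_iUnion fun _ => isOpen_interior)

theorem measurableSet_Rs [Finite κ] (hU : IsOpen U) (B : κ → Box U r) : MeasurableSet (Rs B) := by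
  exact hU.measurableSet.diff (MeasurableSet.iUnion fun k => (B k).cpt.measurableSet)

/-- `θ ∘ r` is bounded and a.e. strongly measurable on `U` -/
theorem integrableOn_th (hU : IsOpen U) (hr : ContinuousOn r U) (hb : Bdd U r) {θ : ℝ → ℝ}
    (hθ : Continuous θ) {g : ℂ → ℝ} {S : Set ℂ} (hS : MeasurableSet S) (hSU : S ⊆ U)
    (hg : IntegrableOn g S) : IntegrableOn (fun z => θ (r z) * g z) S := by
  obtain ⟨M, hM⟩ := hb
  obtain ⟨C, hC⟩ := (isCompact_Icc (a := -M) (b := M)).exists_bound_of_continuousOn hθ.continuousOn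
  refine Integrable.bdd_mul (c := C) hg
    ((hθ.comp_continuousOn (hr.mono hSU)).aestronglyMeasurable hS) ?_
  filter_upwards [ae_restrict_mem hS] with z hz
  exact hC _ (abs_le.1 (hM z (hSU hz)))

/-- splitting `U` into the boxes and the rest (`integral_biUnion_finset`/`integral_iUnion_fintype`,
`Box.formula`; the integral over `lo..hi` equals the one over `α..β` because `θ` vanishes off
`[α, β]`, e.g. through `intervalIntegral.integral_of_le` and `setIntegral_eq_of_subset_of_forall_diff_eq_zero`). -/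
theorem Band.split [Fintype κ] (hU : IsOpen U) {B : κ → Box U r} {α β : ℝ} (h : Band B α β)
    {f : ℂ → ℝ} (hf : LocallyLipschitzOn U f) {θ : ℝ → ℝ} (hθ : Continuous θ)
    (h0 : ∀ t, t ∉ Icc α β → θ t = 0)
    (hi : IntegrableOn (fun z => θ (r z) * wd f r z) (Rs B)) :
    ∫ z in U, θ (r z) * wd f r z =
      (∑ k, ∫ t in α..β, θ t * (f ((B k).x t) - f ((B k).e t))) +
        ∫ z in Rs B, θ (r z) * wd f r z := by
  have e : U = (⋃ k, (B k).Q) ∪ Rs B :=
    (union_sdiff_cancel (iUnion_subset fun k => (B k).sub)).symm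
  have hI := fun k => (B k).formula f hf θ hθ
  rw [setIntegral_congr_set (Filter.EventuallyEq.of_eq e),
    setIntegral_union (t := Rs B) disjoint_sdiff_right (measurableSet_Rs hU B)
      (integrableOn_finite_iUnion.2 fun k => (hI k).1) hi,
    integral_iUnion_fintype (fun k => (B k).cpt.measurableSet) h.disj fun k => (hI k).1]
  congr 1
  refine Finset.sum_congr rfl fun k _ => ?_
  rw [(hI k).2, intervalIntegral.integral_of_le (B k).lt.le,
    intervalIntegral.integral_of_le h.lt.le, ← integral_Icc_eq_integral_Ioc,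
    ← integral_Icc_eq_integral_Ioc]
  exact setIntegral_eq_of_subset_of_forall_sdiff_eq_zero measurableSet_Icc
    (Icc_subset_Icc (h.act k).1.le (h.act k).2.le) fun t ht => by rw [h0 t ht.2, zero_mul]

/-- a test function `a` that is locally constant near `Z`: on the rest,
`θ (r z) * wd (u a) r z = θ (r z) * (a z * wd u r z)` for EVERY `z` (if `θ (r z) ≠ 0` then
`z ∈ Z` and `u a` is `u` times a constant near `z`: `Filter.EventuallyEq.fderiv_eq`,
`fderiv_mul_const`/`fderiv_const_smul_field`); `a` is continuous on `U`, bounded by one. -/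
theorem Band.test [Fintype κ] (hU : IsOpen U) (hr : ContinuousOn r U) (hb : Bdd U r)
    {B : κ → Box U r} {α β : ℝ} (h : Band B α β) {u a : ℂ → ℝ} (hu : LocallyLipschitzOn U u)
    (hi : IntegrableOn (wd u r) U) (ha : LocallyLipschitzOn U a) (ha1 : ∀ z, |a z| ≤ 1)
    (haZ : ∀ z ∈ Zs B α β, ∀ᶠ w in 𝓝 z, a w = a z) {ax ae : κ → ℝ}
    (hx : ∀ k, ∀ t ∈ Icc α β, a ((B k).x t) = ax k) (he : ∀ k, ∀ t ∈ Icc α β, a ((B k).e t) = ae k)
    {θ : ℝ → ℝ} (hθ : Continuous θ) (h0 : ∀ t, t ∉ Icc α β → θ t = 0) :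
    IntegrableOn (fun z => θ (r z) * (a z * wd u r z)) (Rs B) ∧
    ∫ z in U, θ (r z) * wd (fun z => u z * a z) r z =
      (∑ k, ∫ t in α..β, θ t * (ax k * u ((B k).x t) - ae k * u ((B k).e t))) +
        ∫ z in Rs B, θ (r z) * (a z * wd u r z) := by
  have hm := measurableSet_Rs hU B
  have hsub : Rs B ⊆ U := diff_subset
  have hi1 : IntegrableOn (fun z => a z * wd u r z) (Rs B) :=
    Integrable.bdd_mul (c := 1) (hi.mono_set hsub)
      ((ha.continuousOn.mono hsub).aestronglyMeasurable hm) (Eventually.of_forall ha1)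
  have hi2 := integrableOn_th hU hr hb hθ hm hsub hi1
  have hpt : EqOn (fun z => θ (r z) * (a z * wd u r z))
      (fun z => θ (r z) * wd (fun z => u z * a z) r z) (Rs B) := by
    intro z hz
    by_cases hθz : r z ∈ Icc α β
    · have hZ : z ∈ Zs B α β :=
        ⟨hz.1, hθz, fun k hk => hz.2 (mem_iUnion.2 ⟨k, interior_subset hk⟩)⟩
      have e : (fun w => u w * a w) =ᶠ[𝓝 z] a z • u := by
        filter_upwards [haZ z hZ] with w hw
        rw [hw, Pi.smul_apply, smul_eq_mul, mul_comm]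
      simp only [wd, e.fderiv_eq, fderiv_const_smul_field, Pi.smul_apply,
        ContinuousLinearMap.smul_apply, smul_eq_mul]
      ring
    · simp only [h0 _ hθz, zero_mul]
  refine ⟨hi2, ?_⟩
  rw [h.split hU (h90_lip_mul hu ha) hθ h0 (hi2.congr_fun hpt hm), setIntegral_congr_fun hm hpt]
  congr 1
  refine Finset.sum_congr rfl fun k _ => intervalIntegral.integral_congr fun t ht => ?_
  rw [uIcc_of_le h.lt.le] at ht
  simp only [hx k t ht, he k t ht]
  ring

/-- `∫ θ(r) da ∧ dr = 0` for `a ∈ A0` (`exists_prim`, `om_comp_right`, `om_skew`, `om_A0`,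
`XX.comp_C1`). -/
theorem int_A0 (hU : IsOpen U) (hr : XX U r) (hb : Bdd U r) {a : ℂ → ℝ} (ha : A0 U a)
    {θ : ℝ → ℝ} (hθ : Continuous θ) : ∫ z in U, θ (r z) * wd a r z = 0 := by
  obtain ⟨H, hH, rfl⟩ := exists_prim hθ
  rw [← om_comp hU hr.lip hH, om_skew, om_A0 hU (h90_lip_comp hH hr.lip) ha, neg_zero]

/-- balance: `Band.test` with `u = 1` and `θ t = max 0 (min (t - α) (β - t))`, whose integral is
positive; `int_A0`. -/
theorem Band.balance_real [Fintype κ] (hU : IsOpen U) (hr : XX U r) (hb : Bdd U r)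
    {B : κ → Box U r} {α β : ℝ} (h : Band B α β) {a : ℂ → ℝ} (ha : A0 U a) (ha1 : ∀ z, |a z| ≤ 1)
    (haZ : ∀ z ∈ Zs B α β, ∀ᶠ w in 𝓝 z, a w = a z) {ax ae : κ → ℝ}
    (hx : ∀ k, ∀ t ∈ Icc α β, a ((B k).x t) = ax k)
    (he : ∀ k, ∀ t ∈ Icc α β, a ((B k).e t) = ae k) : ∑ k, ax k = ∑ k, ae k := by
  have hθ : Continuous fun t : ℝ => max 0 (min (t - α) (β - t)) := by fun_prop
  have hw : wd (fun _ => (1 : ℝ)) r = fun _ => 0 := by funext z; simp [wd]
  have h1 := (h.test hU hr.lip.continuousOn hb (u := fun _ => 1)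
    (LipschitzWith.const 1).locallyLipschitz.locallyLipschitzOn
    (by rw [hw]; exact integrableOn_zero) ha.xx.lip ha1 haZ hx he hθ (fun t ht => by
      rw [mem_Icc, not_and_or, not_le, not_le] at ht
      rcases ht with ht | ht
      · exact max_eq_left (min_le_of_left_le (by linarith))
      · exact max_eq_left (min_le_of_right_le (by linarith)))).2
  have h2 := int_A0 hU hr hb ha hθ
  have h3 : 0 < ∫ t in α..β, max 0 (min (t - α) (β - t)) :=
    intervalIntegral.intervalIntegral_pos_of_pos_on (hθ.intervalIntegrable _ _)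
      (fun t ht => lt_max_of_lt_right (lt_min (sub_pos.2 ht.1) (sub_pos.2 ht.2))) h.lt
  simp only [one_mul, mul_one, hw, mul_zero, integral_zero, add_zero,
    intervalIntegral.integral_mul_const] at h1
  rw [h2, ← Finset.mul_sum, Finset.sum_sub_distrib] at h1
  exact sub_eq_zero.1 ((mul_eq_zero.1 h1.symm).resolve_left h3.ne')

/-- the smoothed level sets of a cut that misses `Z` (`Cut.bump` with `N = U \ Z`;
`Cut.eq_of_curve` along `x` and `e`). -/
theorem Band.bump (hU : IsOpen U) {R : ℝ} (hR : ∀ z : ℂ, R ≤ ‖z‖ → z ∈ U)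
    (hr : ContinuousOn r U) {B : κ → Box U r} {α β : ℝ} (h : Band B α β) {V : Type}
    {J : Set ℂ} {ν : ℂ → V} (hc : Cut U J ν) (hJ : Disjoint J (Zs B α β)) :
    ∃ (ρ : ℂ → ℝ) (C : Set ℂ), IsCompact C ∧ J ⊆ C ∧ C ⊆ U ∧ (∀ z, 0 ≤ ρ z ∧ ρ z ≤ 1) ∧
      (∀ z, z ∉ C → ρ z = 1) ∧ ∀ v : V, A0 U (fun z => if ν z = v then ρ z else 0) ∧
        (∀ z ∈ Zs B α β, ∀ᶠ w in 𝓝 z,
          (if ν w = v then ρ w else 0) = (if ν z = v then ρ z else 0)) ∧
        ∀ k, ∀ t ∈ Icc α β,
          (if ν ((B k).x t) = v then ρ ((B k).x t) else 0) =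
            (if ν ((B k).x α) = v then 1 else 0) ∧
          (if ν ((B k).e t) = v then ρ ((B k).e t) else 0) =
            (if ν ((B k).e α) = v then 1 else 0) := by
  obtain ⟨ρ, C, hC, hJC, hCN, h01, h1, hA⟩ := hc.bump hU hR (isOpen_diff_Zs hU hr B α β)
    (fun z hz => ⟨hc.2.1 hz, disjoint_left.1 hJ hz⟩) diff_subset
  have hZC : ∀ z ∈ Zs B α β, z ∉ C := fun z hz hzC => (hCN hzC).2 hz
  have hZJ : ∀ z ∈ Zs B α β, z ∈ U ∧ z ∉ J := fun z hz => ⟨hz.1, fun h' => hZC z hz (hJC h')⟩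
  refine ⟨ρ, C, hC, hJC, hCN.trans diff_subset, h01, h1, fun v => ⟨hA v, fun z hz => ?_,
    fun k t ht => ?_⟩⟩
  · filter_upwards [hc.2.2 z hz.1 (hZJ z hz).2, hC.isClosed.isOpen_compl.mem_nhds (hZC z hz)]
      with w hw hw'
    rw [hw, h1 w hw', h1 z (hZC z hz)]
  · have hsub : Icc α β ⊆ Icc (B k).lo (B k).hi := Icc_subset_Icc (h.act k).1.le (h.act k).2.le
    have hα : α ∈ Icc α β := left_mem_Icc.2 h.lt.le
    rw [h1 _ (hZC _ (h.x_mem k ht)), h1 _ (hZC _ (h.e_mem k ht)),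
      hc.eq_of_curve ((B k).cx.mono hsub) (fun s hs => hZJ _ (h.x_mem k hs)) ht hα,
      hc.eq_of_curve ((B k).ce.mono hsub) (fun s hs => hZJ _ (h.e_mem k hs)) ht hα]
    exact ⟨rfl, rfl⟩

/-- every label of a cut missing `Z` carries as many exits as entries -/
theorem Band.balance [Fintype κ] (hU : IsOpen U) {R : ℝ} (hR : ∀ z : ℂ, R ≤ ‖z‖ → z ∈ U)
    (hr : XX U r) (hb : Bdd U r) {B : κ → Box U r} {α β : ℝ} (h : Band B α β) {V : Type}
    {J : Set ℂ} {ν : ℂ → V} (hc : Cut U J ν) (hJ : Disjoint J (Zs B α β)) (v : V) :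
    (Finset.univ.filter fun k => ν ((B k).x α) = v).card =
      (Finset.univ.filter fun k => ν ((B k).e α) = v).card := by
  obtain ⟨ρ, C, -, -, -, h01, -, hv⟩ := h.bump hU hR hr.lip.continuousOn hc hJ
  obtain ⟨h1, h2, h3⟩ := hv v
  have := h.balance_real hU hr hb h1 (fun z => by
      split_ifs
      · rw [abs_of_nonneg (h01 z).1]; exact (h01 z).2
      · simp) h2 (fun k t ht => (h3 k t ht).1) (fun k t ht => (h3 k t ht).2)
  rw [Finset.sum_boole, Finset.sum_boole] at this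
  exact_mod_cast this

end Crest.Agent.R105.Ch
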