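import Crest.Agent.R105.CBoxDefs

/-! Row 105, chain lemma: existence of charts. -/

set_option autoImplicit false

open MeasureTheory Set Filter Topology

namespace Crest.Agent.R105

private theorem h1_wd (v : ℂ) (r : ℂ → ℝ) (z : ℂ) :
    wd (perp v) r z = v.im * fderiv ℝ r z Complex.I + v.re * fderiv ℝ r z 1 := by
  simp [wd, ContinuousLinearMap.fderiv, perp_apply]

private theorem h1_dec (L : ℂ →L[ℝ] ℝ) (w : ℂ) : L w = w.re * L 1 + w.im * L Complex.I := by
  conv_lhs => rw [show w = w.re • (1 : ℂ) + w.im • Complex.I by simp]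
  rw [map_add, map_smul, map_smul, smul_eq_mul, smul_eq_mul]

private theorem h1_eqv {v : ℂ} {r : ℂ → ℝ} {z : ℂ} (h : 0 < wd (perp v) r z) :
    ∃ L : ℂ ≃L[ℝ] ℝ × ℝ, (L : ℂ →L[ℝ] ℝ × ℝ) = (perp v).prod (fderiv ℝ r z) := by
  rw [h1_wd] at h
  have hinj : Function.Injective ((perp v).prod (fderiv ℝ r z)).toLinearMap := by
    rw [injective_iff_map_eq_zero]
    intro w hw
    have h1 : perp v w = 0 := congrArg Prod.fst hw
    have h2 : fderiv ℝ r z w = 0 := congrArg Prod.snd hw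
    rw [perp_apply] at h1
    rw [h1_dec] at h2
    have e1 : (v.im * fderiv ℝ r z Complex.I + v.re * fderiv ℝ r z 1) * w.re = 0 := by
      linear_combination fderiv ℝ r z Complex.I * h1 + v.re * h2
    have e2 : (v.im * fderiv ℝ r z Complex.I + v.re * fderiv ℝ r z 1) * w.im = 0 := by
      linear_combination -fderiv ℝ r z 1 * h1 + v.im * h2
    exact Complex.ext ((mul_eq_zero.1 e1).resolve_left h.ne') ((mul_eq_zero.1 e2).resolve_left h.ne')
  exact ⟨(LinearMap.linearEquivOfInjective _ hinj (by simp)).toContinuousLinearEquiv,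
    ContinuousLinearMap.ext fun _ => rfl⟩

/-- `v = ⟨fderiv r z₀ 1, fderiv r z₀ I⟩`, so `wd (perp v) r z₀ = |v|² > 0`; inverse function theorem
(`ContDiffAt.toOpenPartialHomeomorph` for `z ↦ (perp v z, r z)`), restricted (`restrOpen`) to the open set
`A ∩ {0 < wd (perp v) r}`; `OpenPartialHomeomorph.contDiffAt_symm` at every point of the target (the
derivative `(perp v).prod (fderiv r z)` is injective because `wd (perp v) r z ≠ 0`, so it is a
`ContinuousLinearEquiv`: `LinearEquiv.ofInjectiveOfFinrankEq`/`LinearMap.linearEquivOfInjective`,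
`toContinuousLinearEquiv`). -/
theorem exists_chart {A : Set ℂ} (hA : IsOpen A) {r : ℂ → ℝ} (hr : ContDiffOn ℝ 1 r A) {z₀ : ℂ}
    (hz : z₀ ∈ A) (h0 : fderiv ℝ r z₀ ≠ 0) :
    ∃ c : Chart r, z₀ ∈ c.φ.source ∧ c.φ.source ⊆ A := by
  obtain ⟨v, hv⟩ : ∃ v : ℂ, v = ⟨fderiv ℝ r z₀ 1, fderiv ℝ r z₀ Complex.I⟩ := ⟨_, rfl⟩
  have hv0 : v ≠ 0 := by
    intro h
    rw [hv] at h
    have h1 : fderiv ℝ r z₀ 1 = 0 := congrArg Complex.re h
    have h2 : fderiv ℝ r z₀ Complex.I = 0 := congrArg Complex.im h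
    exact h0 (ContinuousLinearMap.ext fun w => by rw [h1_dec, h1, h2]; simp)
  have hp0 : 0 < wd (perp v) r z₀ := by
    have h1 : fderiv ℝ r z₀ 1 = v.re := by rw [hv]
    have h2 : fderiv ℝ r z₀ Complex.I = v.im := by rw [hv]
    rw [h1_wd, h1, h2, add_comm, ← Complex.normSq_apply]
    exact Complex.normSq_pos.2 hv0
  have hcw : ContinuousOn (wd (perp v) r) A := by
    have h := hr.continuousOn_fderiv_of_isOpen hA le_rfl
    rw [show wd (perp v) r = fun z => v.im * fderiv ℝ r z Complex.I + v.re * fderiv ℝ r z 1 from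
      funext (h1_wd v r)]
    exact (continuousOn_const.mul (h.clm_apply continuousOn_const)).add
      (continuousOn_const.mul (h.clm_apply continuousOn_const))
  have hB : IsOpen (A ∩ wd (perp v) r ⁻¹' Ioi 0) := hcw.isOpen_inter_preimage hA isOpen_Ioi
  have hc : ∀ z ∈ A, ContDiffAt ℝ 1 (fun z => (perp v z, r z)) z := fun z hz =>
    (perp v).contDiff.contDiffAt.prodMk (hr.contDiffAt (hA.mem_nhds hz))
  have hd : ∀ z ∈ A, HasFDerivAt (fun z => (perp v z, r z)) ((perp v).prod (fderiv ℝ r z)) z :=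
    fun z hz => (perp v).hasFDerivAt.prodMk
      ((hr.contDiffAt (hA.mem_nhds hz)).differentiableAt one_ne_zero).hasFDerivAt
  obtain ⟨L, hL⟩ := h1_eqv hp0
  have hd0 : HasFDerivAt (fun z => (perp v z, r z)) (L : ℂ →L[ℝ] ℝ × ℝ) z₀ := hL ▸ hd z₀ hz
  obtain ⟨φ, e1, e2, e3⟩ : ∃ φ : OpenPartialHomeomorph ℂ (ℝ × ℝ),
      (φ : ℂ → ℝ × ℝ) = (fun z => (perp v z, r z)) ∧ z₀ ∈ φ.source ∧
        φ.source ⊆ A ∩ wd (perp v) r ⁻¹' Ioi 0 :=
    ⟨((hc z₀ hz).toOpenPartialHomeomorph _ hd0 one_ne_zero).restrOpen _ hB, rfl,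
      ⟨(hc z₀ hz).mem_toOpenPartialHomeomorph_source hd0 one_ne_zero, hz, hp0⟩,
      inter_subset_right⟩
  refine ⟨⟨φ, v, hv0, fun z => congrFun e1 z, hr.mono fun z hz => (e3 hz).1,
    fun z hz => (e3 hz).2, fun a ha => ?_⟩, e2, fun z hz => (e3 hz).1⟩
  have hs := e3 (φ.map_target ha)
  obtain ⟨L', hL'⟩ := h1_eqv (v := v) (r := r) (z := φ.symm a) hs.2
  refine (φ.contDiffAt_symm (f₀' := L') ha ?_ ?_).contDiffWithinAt
  · rw [hL', e1]
    exact hd _ hs.1
  · rw [e1]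
    exact hc _ hs.1

end Crest.Agent.R105
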