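import Crest.Agent.R105.CBoxDefs

/-! Row 105, chain lemma: the jump of the principal logarithm across a flow box. -/

set_option autoImplicit false

open MeasureTheory Set Filter Topology

namespace Crest.Agent.R105

/-- With `g z = (z - pp) / (z - pm)`: on the chord `Q ∩ {r = t}` (preconnected, `Box.chord`) the function
`Λ - log (-g) - π i` is continuous (`Box.ray`, `ContinuousOn.clog`) with values in `2 π i ℤ`
(`Complex.exp_eq_one_iff`), hence constant (`IsPreconnected.constant`-type lemma for a discrete range, or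
IVT for the imaginary part); `log g = log (-g) ± π i` with opposite signs at `e t` and `x t`
(`Box.side`, `Complex.arg_neg_eq_arg_sub_pi_of_im_pos`, `Complex.arg_neg_eq_arg_add_pi_of_im_neg`). -/
theorem Box.jump {U : Set ℂ} {r : ℂ → ℝ} (B : Box U r) {t : ℝ} (ht : t ∈ Ioo B.lo B.hi)
    {Λ : ℂ → ℂ} (hc : ContinuousOn Λ (B.Q ∩ r ⁻¹' {t}))
    (he : ∀ z ∈ B.Q ∩ r ⁻¹' {t}, Complex.exp (Λ z) = (z - B.pp) / (z - B.pm)) :
    Λ (B.e t) - Complex.log ((B.e t - B.pp) / (B.e t - B.pm)) ≠
      Λ (B.x t) - Complex.log ((B.x t - B.pp) / (B.x t - B.pm)) := by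
  have hray : ∀ z ∈ B.Q ∩ r ⁻¹' {t}, -((z - B.pp) / (z - B.pm)) ∈ Complex.slitPlane := by
    intro z hz
    have h : r z = t := hz.2
    exact B.ray z hz.1 (h ▸ ht.1) (h ▸ ht.2)
  have hne : ∀ z ∈ B.Q ∩ r ⁻¹' {t}, z - B.pm ≠ 0 := fun z hz h => by
    simpa [h] using hray z hz
  have hg : ContinuousOn (fun z => -((z - B.pp) / (z - B.pm))) (B.Q ∩ r ⁻¹' {t}) :=
    (ContinuousOn.div (by fun_prop) (by fun_prop) hne).neg
  have hT : IsDiscrete (AddSubgroup.zmultiples (2 * Real.pi * Complex.I) : Set ℂ) :=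
    isDiscrete_iff_discreteTopology.2 (NormedSpace.discreteTopology_zmultiples _)
  have he' := B.e_mem t (Ioo_subset_Icc_self ht)
  have hx' := B.x_mem t (Ioo_subset_Icc_self ht)
  have key := (B.chord t).constant_of_mapsTo hT
    (f := fun z => Λ z - Complex.log (-((z - B.pp) / (z - B.pm))) - Real.pi * Complex.I)
    ((hc.sub (hg.clog hray)).sub continuousOn_const) (fun z hz => by
      have h0 := Complex.slitPlane_ne_zero (hray z hz)
      have h1 : Complex.exp (Λ z - Complex.log (-((z - B.pp) / (z - B.pm))) -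
          Real.pi * Complex.I) = 1 := by
        rw [Complex.exp_sub, Complex.exp_sub, he z hz, Complex.exp_log h0, Complex.exp_pi_mul_I,
          div_neg_self (neg_ne_zero.1 h0)]
        simp
      obtain ⟨n, hn⟩ := Complex.exp_eq_one_iff.1 h1
      exact ⟨n, (zsmul_eq_mul _ _).trans hn.symm⟩)
    (x := B.e t) (y := B.x t) ⟨he'.1, he'.2.1⟩ ⟨hx'.1, hx'.2.1⟩
  intro h
  have h1 := congrArg Complex.im key
  have h2 := congrArg Complex.im h
  simp only [Complex.sub_im, Complex.log_im] at h1 h2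
  have hpi := Real.pi_pos
  rcases mul_neg_iff.1 (B.side t ht) with ⟨h3, h4⟩ | ⟨h3, h4⟩
  · rw [Complex.arg_neg_eq_arg_sub_pi_of_im_pos h3,
      Complex.arg_neg_eq_arg_add_pi_of_im_neg h4] at h1
    linarith
  · rw [Complex.arg_neg_eq_arg_add_pi_of_im_neg h3,
      Complex.arg_neg_eq_arg_sub_pi_of_im_pos h4] at h1
    linarith

end Crest.Agent.R105
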