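import Crest.Agent.R105.CBoxForm
import Crest.Agent.R105.CBoxChart
import Crest.Agent.R105.CBoxJump

/-! Row 105, chain lemma: finitely many disjoint flow boxes carry almost all of a finite mass. -/

set_option autoImplicit false

open MeasureTheory Set Filter Topology

namespace Crest.Agent.R105

/-- collect the lemmas of `CBoxGeo` and `CBoxForm` with `m = (a + b) / 2`, `e t = Ψ (a, t)`,
`x t = Ψ (b, t)`, `pm = Ψ (m, lo)`, `pp = Ψ (m, hi)` -/
theorem Chart.exists_box {U : Set ℂ} {r : ℂ → ℝ} (c : Chart r) (hU : c.φ.source ⊆ U)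
    {a b lo hi : ℝ} (hS : Icc a b ×ˢ Icc lo hi ⊆ c.φ.target) (hab : a < b) (hlt : lo < hi) :
    ∃ B : Box U r, B.Q = c.φ.symm '' (Icc a b ×ˢ Icc lo hi) := by
  have hm : (a + b) / 2 ∈ Ioo a b := ⟨by linarith, by linarith⟩
  generalize (a + b) / 2 = m at hm
  have hm' : m ∈ Icc a b := Ioo_subset_Icc_self hm
  have ha : a ∈ Icc a b := left_mem_Icc.2 hab.le
  have hb : b ∈ Icc a b := right_mem_Icc.2 hab.le
  have hlo : lo ∈ Icc lo hi := left_mem_Icc.2 hlt.le
  have hhi : hi ∈ Icc lo hi := right_mem_Icc.2 hlt.le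
  have hr : ∀ s ∈ Icc a b, ∀ t ∈ Icc lo hi, r (c.φ.symm (s, t)) = t := fun s hs t ht =>
    c.r_symm (hS ⟨hs, ht⟩)
  have hp : ∀ s ∈ Icc a b, ∀ t ∈ Icc lo hi, perp c.v (c.φ.symm (s, t)) = s := fun s hs t ht =>
    c.perp_symm (hS ⟨hs, ht⟩)
  obtain ⟨hseg, hpar⟩ := c.seg_param hS hm hlt
  obtain ⟨κ, hκ, him⟩ := c.im_ratio hS hm hlt
  have hN : ∀ s ∈ Icc a b, ∀ t ∈ Ioo lo hi,
      0 < Complex.normSq (c.φ.symm (s, t) - c.φ.symm (m, lo)) := by
    intro s hs t ht
    refine Complex.normSq_pos.2 (sub_ne_zero.2 fun h => ?_)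
    have := congrArg r h
    rw [hr s hs t (Ioo_subset_Icc_self ht), hr m hm' lo hlo] at this
    exact ht.1.ne' this
  have hc : ∀ s ∈ Icc a b, ContinuousOn (fun t => c.φ.symm (s, t)) (Icc lo hi) := fun s hs =>
    c.φ.continuousOn_symm.comp (by fun_prop) fun t ht => hS ⟨hs, ht⟩
  refine ⟨{ Q := c.φ.symm '' (Icc a b ×ˢ Icc lo hi)
            lo := lo
            hi := hi
            e := fun t => c.φ.symm (a, t)
            x := fun t => c.φ.symm (b, t)
            pm := c.φ.symm (m, lo)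
            pp := c.φ.symm (m, hi)
            cpt := (isCompact_Icc.prod isCompact_Icc).image_of_continuousOn
              (c.φ.continuousOn_symm.mono hS)
            sub := ?_
            lt := hlt
            range := ?_
            ce := hc a ha
            cx := hc b hb
            e_mem := fun t ht => ⟨mem_image_of_mem _ ⟨ha, ht⟩, hr a ha t ht, fun h =>
              lt_irrefl _ ((c.mem_interior_iff hS (y := (a, t)) ⟨ha, ht⟩).1 h).1.1⟩
            x_mem := fun t ht => ⟨mem_image_of_mem _ ⟨hb, ht⟩, hr b hb t ht, fun h =>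
              lt_irrefl _ ((c.mem_interior_iff hS (y := (b, t)) ⟨hb, ht⟩).1 h).1.2⟩
            r_pm := hr m hm' lo hlo
            r_pp := hr m hm' hi hhi
            seg := ?_
            seg_int := ?_
            chord := c.chord_conn hS
            side := ?_
            ray := ?_
            null := c.chord_null hS
            formula := fun f hf θ hθ => c.formula hU hS hab.le hlt.le hf hθ }, rfl⟩
  · rintro _ ⟨y, hy, rfl⟩
    exact hU (c.φ.map_target (hS hy))
  · rintro _ ⟨y, hy, rfl⟩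
    rw [c.r_symm (hS hy)]
    exact hy.2
  · intro z hz
    obtain ⟨τ, hτ, rfl⟩ := hseg z hz
    exact mem_image_of_mem _ ⟨hm', hτ⟩
  · intro z hz h1 h2
    obtain ⟨τ, hτ, rfl⟩ := hseg z hz
    rw [hr m hm' τ hτ] at h1 h2
    exact (c.mem_interior_iff hS (y := (m, τ)) ⟨hm', hτ⟩).2 ⟨hm, h1, h2⟩
  · intro t ht
    have ht' := Ioo_subset_Icc_self ht
    rw [him, him, hp a ha t ht', hp b hb t ht', div_mul_div_comm]
    refine div_neg_of_neg_of_pos ?_ (mul_pos (hN a ha t ht) (hN b hb t ht))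
    have h1 : 0 < κ * κ := mul_self_pos.2 hκ
    have h2 : (a - m) * (b - m) < 0 := mul_neg_of_neg_of_pos (sub_neg.2 hm.1) (sub_pos.2 hm.2)
    nlinarith [mul_neg_of_pos_of_neg h1 h2]
  · rintro _ ⟨⟨s, t⟩, ⟨hs, ht⟩, rfl⟩ h1 h2
    rw [hr s hs t ht] at h1 h2
    rw [Complex.mem_slitPlane_iff]
    by_cases hsm : s = m
    · left
      subst hsm
      obtain ⟨l, hl, he⟩ := hpar t ⟨h1, h2⟩
      have hne : c.φ.symm (s, hi) - c.φ.symm (s, lo) ≠ 0 := by
        refine sub_ne_zero.2 fun h => ?_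
        have := congrArg r h
        rw [hr s hs hi hhi, hr s hs lo hlo] at this
        exact hlt.ne' this
      have hl0 : (l : ℂ) ≠ 0 := by exact_mod_cast hl.1.ne'
      have : -((c.φ.symm (s, t) - c.φ.symm (s, hi)) / (c.φ.symm (s, t) - c.φ.symm (s, lo))) =
          (((1 - l) / l : ℝ) : ℂ) := by
        rw [he, add_sub_cancel_left]
        push_cast
        field_simp
        ring
      rw [this, Complex.ofReal_re]
      exact div_pos (sub_pos.2 hl.2) hl.1
    · right
      rw [Complex.neg_im, him, hp s hs t ht, neg_ne_zero]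
      exact div_ne_zero (mul_ne_zero hκ (sub_ne_zero.2 hsm)) (hN s hs t ⟨h1, h2⟩).ne'

/-- `Besicovitch.exists_disjoint_closedBall_covering_ae` in `ℝ × ℝ` (closed balls are squares:
`closedBall_prod_same`, `Real.closedBall_eq_Icc`) for the measure `(μ.restrict O).map c.φ`
(`c.φ` is continuous on `O`, so a.e.-measurable), the open set `s = c.φ '' O` and radii with
`closedBall ⊆ s`; `Measure.le_map_apply`; then finitely many of the countably many squares
(continuity of the finite measure from above / `tendsto_measure_biUnion`). -/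
theorem Chart.cover {U : Set ℂ} {r : ℂ → ℝ} (c : Chart r) (hU : c.φ.source ⊆ U) (μ : Measure ℂ)
    [IsFiniteMeasure μ] {O : Set ℂ} (hO : IsOpen O) (hOs : O ⊆ c.φ.source) {ε : ℝ} (hε : 0 < ε) :
    ∃ (n : ℕ) (B : Fin n → Box U r), (∀ i, (B i).Q ⊆ O) ∧
      (Pairwise fun i j => Disjoint (B i).Q (B j).Q) ∧ μ.real (O \ ⋃ i, (B i).Q) ≤ ε := by
  classical
  have hs : IsOpen (c.φ '' O) := c.φ.isOpen_image_of_subset_source hO hOs
  have hsT : c.φ '' O ⊆ c.φ.target := by
    rintro _ ⟨z, hz, rfl⟩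
    exact c.φ.map_source (hOs hz)
  have hm : AEMeasurable c.φ (μ.restrict O) :=
    (c.φ.continuousOn.mono hOs).aemeasurable hO.measurableSet
  obtain ⟨t, ρ, htc, hts, hρ, h0, hd⟩ := Besicovitch.exists_disjoint_closedBall_covering_ae
    ((μ.restrict O).map c.φ) (fun x => {s | Metric.closedBall x s ⊆ c.φ '' O}) (c.φ '' O)
    (fun x hx δ hδ => by
      obtain ⟨s, hs0, hs1⟩ := Metric.nhds_basis_closedBall.mem_iff.1 (hs.mem_nhds hx)
      exact ⟨min s (δ / 2), (Metric.closedBall_subset_closedBall (min_le_left _ _)).trans hs1,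
        lt_min hs0 (half_pos hδ), (min_le_right _ _).trans_lt (half_lt_self hδ)⟩)
    (fun _ => 1) fun _ _ => one_pos
  have hB : ∀ x : t, ∃ B : Box U r, B.Q = c.φ.symm '' Metric.closedBall x.1 (ρ x) := by
    rintro ⟨⟨x, y⟩, hx⟩
    have h1 := (hρ _ hx).2.1
    have h2 : Metric.closedBall (x, y) (ρ (x, y)) ⊆ c.φ.target := Subset.trans (hρ _ hx).1 hsT
    rw [← closedBall_prod_same, Real.closedBall_eq_Icc, Real.closedBall_eq_Icc] at h2 ⊢
    exact c.exists_box hU h2 (by linarith) (by linarith)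
  choose B hB using hB
  have hmem : ∀ (x : t) z, z ∈ (B x).Q ↔ z ∈ O ∧ c.φ z ∈ Metric.closedBall x.1 (ρ x) := by
    intro x z
    rw [hB]
    constructor
    · rintro ⟨w, hw, rfl⟩
      obtain ⟨z, hz, rfl⟩ := (hρ _ x.2).1 hw
      rw [c.φ.left_inv (hOs hz)]
      exact ⟨hz, hw⟩
    · rintro ⟨h1, h2⟩
      exact ⟨_, h2, c.φ.left_inv (hOs h1)⟩
  have := htc.to_subtype
  have h1 := tendsto_measure_iInter_atTop (μ := μ) (s := fun T : Finset t => O \ ⋃ x ∈ T, (B x).Q)
    (fun T => (hO.measurableSet.diff (T.measurableSet_biUnion fun x _ =>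
      (B x).cpt.measurableSet)).nullMeasurableSet)
    (fun T T' h => sdiff_subset_sdiff_right (biUnion_subset_biUnion_left h))
    ⟨∅, measure_ne_top _ _⟩
  have h2 : μ (⋂ T : Finset t, O \ ⋃ x ∈ T, (B x).Q) = 0 := by
    have h3 := (Measure.le_map_apply hm _).trans h0.le
    rw [Measure.restrict_apply' hO.measurableSet] at h3
    refine measure_mono_null (fun z hz => ?_) (le_zero_iff.1 h3)
    rw [mem_iInter] at hz
    have hzO := (hz ∅).1
    refine ⟨⟨mem_image_of_mem _ hzO, fun h => ?_⟩, hzO⟩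
    obtain ⟨x, hx, h⟩ := mem_iUnion₂.1 h
    exact (hz {⟨x, hx⟩}).2 (mem_iUnion₂.2 ⟨⟨x, hx⟩, Finset.mem_singleton_self _,
      (hmem _ _).2 ⟨hzO, h⟩⟩)
  rw [h2] at h1
  obtain ⟨T, hT⟩ := (h1.eventually_lt_const (ENNReal.ofReal_pos.2 hε)).exists
  refine ⟨T.card, fun i => B (T.equivFin.symm i), fun i z hz => ((hmem _ _).1 hz).1,
    fun i j hij => ?_, ?_⟩
  · have h3 : (T.equivFin.symm i).1.1 ≠ (T.equivFin.symm j).1.1 := fun h =>
      hij (T.equivFin.symm.injective (Subtype.ext (Subtype.ext h)))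
    have h4 := hd (T.equivFin.symm i).1.2 (T.equivFin.symm j).1.2 h3
    exact disjoint_left.2 fun z a b => disjoint_left.1 h4 ((hmem _ _).1 a).2 ((hmem _ _).1 b).2
  · refine ENNReal.toReal_le_of_le_ofReal hε.le (le_trans (measure_mono ?_) hT.le)
    refine sdiff_subset_sdiff_right (iUnion₂_subset fun x hx => ?_)
    refine subset_iUnion_of_subset (T.equivFin ⟨x, hx⟩) ?_
    simp only [Equiv.symm_apply_apply, Subset.rfl]

theorem h49_boxes_fin {U A : Set ℂ} {r : ℂ → ℝ} (hAU : A ⊆ U) (μ : Measure ℂ) [IsFiniteMeasure μ]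
    {ι : Type} (c : ι → Chart r) (hc : ∀ i, (c i).φ.source ⊆ A) (t : Finset ι) :
    ∀ ε : ℝ, 0 < ε → ∃ (n : ℕ) (B : Fin n → Box U r), (∀ i, (B i).Q ⊆ A) ∧
      (Pairwise fun i j => Disjoint (B i).Q (B j).Q) ∧
        μ.real ((⋃ k ∈ t, (c k).φ.source) \ ⋃ i, (B i).Q) ≤ ε := by
  classical
  induction t using Finset.induction_on with
  | empty =>
    intro ε hε
    exact ⟨0, Fin.elim0, fun i => i.elim0, fun i => i.elim0, by simpa using hε.le⟩
  | insert k t _ ih =>
    intro ε hε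
    obtain ⟨n, B, h1, h2, h3⟩ := ih (ε / 2) (half_pos hε)
    have hF : IsClosed (⋃ i, (B i).Q) := isClosed_iUnion_of_finite fun i => (B i).cpt.isClosed
    obtain ⟨m, B', k1, k2, k3⟩ := (c k).cover ((hc k).trans hAU) μ
      ((c k).φ.open_source.sdiff hF) sdiff_subset (half_pos hε)
    have hd : ∀ i j, Disjoint (B i).Q (B' j).Q := fun i j =>
      Set.disjoint_left.2 fun z hz hz' => (k1 j hz').2 (mem_iUnion.2 ⟨i, hz⟩)
    refine ⟨n + m, Fin.append B B', fun i => ?_, fun i j hij => ?_, ?_⟩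
    · induction i using Fin.addCases with
      | left i => rw [Fin.append_left]; exact h1 i
      | right i => rw [Fin.append_right]; exact (k1 i).trans (sdiff_subset.trans (hc k))
    · induction i using Fin.addCases with
      | left i =>
        induction j using Fin.addCases with
        | left j =>
          rw [Fin.append_left, Fin.append_left]
          exact h2 fun e => hij (by rw [e])
        | right j =>
          rw [Fin.append_left, Fin.append_right]
          exact hd i j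
      | right i =>
        induction j using Fin.addCases with
        | left j =>
          rw [Fin.append_right, Fin.append_left]
          exact (hd j i).symm
        | right j =>
          rw [Fin.append_right, Fin.append_right]
          exact k2 fun e => hij (by rw [e])
    · have hs : (⋃ k' ∈ insert k t, (c k').φ.source) \ (⋃ i, (Fin.append B B' i).Q) ⊆
          (((c k).φ.source \ ⋃ i, (B i).Q) \ ⋃ i, (B' i).Q) ∪
            ((⋃ k ∈ t, (c k).φ.source) \ ⋃ i, (B i).Q) := by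
        rintro z ⟨hz, hz'⟩
        have n1 : z ∉ ⋃ i, (B i).Q := fun h => by
          obtain ⟨i, hi⟩ := mem_iUnion.1 h
          exact hz' (mem_iUnion.2 ⟨Fin.castAdd m i, by rwa [Fin.append_left]⟩)
        have n2 : z ∉ ⋃ i, (B' i).Q := fun h => by
          obtain ⟨i, hi⟩ := mem_iUnion.1 h
          exact hz' (mem_iUnion.2 ⟨Fin.natAdd n i, by rwa [Fin.append_right]⟩)
        obtain ⟨k', hk', hz2⟩ := mem_iUnion₂.1 hz
        rcases Finset.mem_insert.1 hk' with e | hk''
        · exact Or.inl ⟨⟨e ▸ hz2, n1⟩, n2⟩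
        · exact Or.inr ⟨mem_iUnion₂.2 ⟨k', hk'', hz2⟩, n1⟩
      have := (measureReal_mono (μ := μ) hs).trans (measureReal_union_le _ _)
      linarith

/-- inner regularity gives a compact `K ⊆ A` with `μ (A \ K) ≤ ε / 2`; cover it by finitely many chart
sources (`exists_chart`); induction over the list of charts, applying `Chart.cover` to
`source \ ⋃ (boxes so far)` (open); `Fin.append` or a `Finset`/`List` of boxes. -/
theorem exists_boxes_meas {U A : Set ℂ} {r : ℂ → ℝ} (hA : IsOpen A) (hAU : A ⊆ U)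
    (hr : ContDiffOn ℝ 1 r A) (h0 : ∀ z ∈ A, fderiv ℝ r z ≠ 0) (μ : Measure ℂ) [IsFiniteMeasure μ]
    {ε : ℝ} (hε : 0 < ε) :
    ∃ (n : ℕ) (B : Fin n → Box U r), (∀ i, (B i).Q ⊆ A) ∧
      (Pairwise fun i j => Disjoint (B i).Q (B j).Q) ∧ μ.real (A \ ⋃ i, (B i).Q) ≤ ε := by
  obtain ⟨K, hKA, hK, hKμ⟩ := hA.measurableSet.exists_isCompact_sdiff_lt (μ := μ) (measure_ne_top μ A)
    (ε := ENNReal.ofReal (ε / 2)) (ENNReal.ofReal_pos.2 (half_pos hε)).ne'
  choose c hc1 hc2 using fun z : A => exists_chart hA hr z.2 (h0 z z.2)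
  obtain ⟨t, ht⟩ := hK.elim_finite_subcover (fun z : A => (c z).φ.source)
    (fun z => (c z).φ.open_source) fun z hz => mem_iUnion.2 ⟨⟨z, hKA hz⟩, hc1 _⟩
  obtain ⟨n, B, h1, h2, h3⟩ := h49_boxes_fin hAU μ c hc2 t (ε / 2) (half_pos hε)
  refine ⟨n, B, h1, h2, ?_⟩
  have hs : A \ (⋃ i, (B i).Q) ⊆ (A \ K) ∪ ((⋃ k ∈ t, (c k).φ.source) \ ⋃ i, (B i).Q) := by
    rintro z ⟨hz, hz'⟩
    by_cases h : z ∈ K
    · exact Or.inr ⟨ht h, hz'⟩
    · exact Or.inl ⟨hz, h⟩
  have h4 := (measureReal_mono (μ := μ) hs).trans (measureReal_union_le _ _)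
  have h5 : μ.real (A \ K) ≤ ε / 2 := ENNReal.toReal_le_of_le_ofReal (half_pos hε).le hKμ.le
  linarith

/-- `exists_boxes_meas` for `μ = (volume.restrict U).withDensity ‖g‖ₑ` -/
theorem exists_boxes {U A : Set ℂ} {r : ℂ → ℝ} (hU : IsOpen U) (hA : IsOpen A) (hAU : A ⊆ U)
    (hr : ContDiffOn ℝ 1 r A) (h0 : ∀ z ∈ A, fderiv ℝ r z ≠ 0) {g : ℂ → ℝ}
    (hg : IntegrableOn g U) (hg0 : ∀ᵐ z, z ∈ U → z ∉ A → g z = 0) {ε : ℝ} (hε : 0 < ε) :
    ∃ (n : ℕ) (B : Fin n → Box U r), (∀ i, (B i).Q ⊆ A) ∧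
      (Pairwise fun i j => Disjoint (B i).Q (B j).Q) ∧ ∫ z in U \ ⋃ i, (B i).Q, |g z| ≤ ε := by
  have hfin : IsFiniteMeasure ((volume.restrict U).withDensity fun z => ‖g z‖ₑ) :=
    isFiniteMeasure_withDensity hg.2.ne
  obtain ⟨n, B, h1, h2, h3⟩ := exists_boxes_meas hA hAU hr h0
    ((volume.restrict U).withDensity fun z => ‖g z‖ₑ) hε
  refine ⟨n, B, h1, h2, ?_⟩
  have hF : MeasurableSet (⋃ i, (B i).Q) :=
    (isClosed_iUnion_of_finite fun i => (B i).cpt.isClosed).measurableSet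
  have hAF : MeasurableSet (A \ ⋃ i, (B i).Q) := hA.measurableSet.diff hF
  have hsub : A \ (⋃ i, (B i).Q) ⊆ U := sdiff_subset.trans hAU
  rw [setIntegral_eq_of_subset_of_ae_sdiff_eq_zero (s := A \ ⋃ i, (B i).Q)
    (hU.measurableSet.diff hF).nullMeasurableSet (sdiff_subset_sdiff_left hAU) ?_]
  · rw [Measure.real, withDensity_apply _ hAF, Measure.restrict_restrict hAF,
      inter_eq_left.2 hsub, ← integral_norm_eq_lintegral_enorm (hg.mono_set hsub).1] at h3
    exact h3
  · filter_upwards [hg0] with z hz hz'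
    rw [hz hz'.1.1 fun h => hz'.2 ⟨h, hz'.1.2⟩, abs_zero]

end Crest.Agent.R105
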