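import Crest.Agent.R105.CBoxDefs

/-! Row 105, chain lemma: the fundamental theorem of calculus along the chords of a rectangle. -/

set_option autoImplicit false

open MeasureTheory Set Filter Topology

namespace Crest.Agent.R105

/-- Fubini (`setIntegral_prod` / `integral_prod_symm`; the integrand is bounded and measurable:
`norm_fderiv_le_of_lipschitz`, `measurable_fderiv_apply_const`), Rademacher
(`LipschitzWith.ae_differentiableAt`, `Measure.ae_ae_of_ae_prod` after swapping) and
`AbsolutelyContinuousOnInterval.integral_deriv_eq_sub` (`LipschitzOnWith.absolutelyContinuousOnInterval`)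
for `s ↦ g (s, t)`. -/
theorem rect_ftc {g : ℝ × ℝ → ℝ} {K : NNReal} (hg : LipschitzWith K g) {θ : ℝ → ℝ}
    (hθ : Continuous θ) {a b c d : ℝ} (hab : a ≤ b) (hcd : c ≤ d) :
    IntegrableOn (fun y : ℝ × ℝ => θ y.2 * fderiv ℝ g y (1, 0)) (Icc a b ×ˢ Icc c d) ∧
      ∫ y in Icc a b ×ˢ Icc c d, θ y.2 * fderiv ℝ g y (1, 0) =
        ∫ t in c..d, θ t * (g (b, t) - g (a, t)) := by
  have hcpt : IsCompact (Icc a b ×ˢ Icc c d) := isCompact_Icc.prod isCompact_Icc
  have hm : Measurable fun y : ℝ × ℝ => fderiv ℝ g y (1, 0) := measurable_fderiv_apply_const ℝ g _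
  have hbd : ∀ y : ℝ × ℝ, ‖fderiv ℝ g y (1, 0)‖ ≤ K := fun y => by
    refine ((fderiv ℝ g y).le_opNorm _).trans ?_
    have h1 : ‖((1 : ℝ), (0 : ℝ))‖ = 1 := by simp [Prod.norm_def]
    rw [h1, mul_one]
    exact norm_fderiv_le_of_lipschitz ℝ hg
  have hθi : IntegrableOn (fun y : ℝ × ℝ => θ y.2) (Icc a b ×ˢ Icc c d) :=
    (hθ.comp continuous_snd).continuousOn.integrableOn_compact hcpt
  have hint : IntegrableOn (fun y : ℝ × ℝ => θ y.2 * fderiv ℝ g y (1, 0)) (Icc a b ×ˢ Icc c d) :=
    Integrable.mul_bdd (c := K) hθi hm.aestronglyMeasurable (Eventually.of_forall hbd)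
  refine ⟨hint, ?_⟩
  have hint' : Integrable (fun y : ℝ × ℝ => θ y.2 * fderiv ℝ g y (1, 0))
      ((volume.restrict (Icc a b)).prod (volume.restrict (Icc c d))) := by
    rw [Measure.prod_restrict]
    exact hint
  have hae : ∀ᵐ t : ℝ, ∀ᵐ s : ℝ, DifferentiableAt ℝ g (s, t) := by
    have h1 : ∀ᵐ y ∂((volume : Measure ℝ).prod (volume : Measure ℝ)), DifferentiableAt ℝ g y :=
      hg.ae_differentiableAt (μ := (volume : Measure (ℝ × ℝ)))
    have h2 : ∀ᵐ y ∂((volume : Measure ℝ).prod (volume : Measure ℝ)),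
        DifferentiableAt ℝ g y.swap :=
      (Measure.measurePreserving_swap (μ := (volume : Measure ℝ))
        (ν := (volume : Measure ℝ))).quasiMeasurePreserving.ae h1
    exact Measure.ae_ae_of_ae_prod h2
  rw [Measure.volume_eq_prod, ← Measure.prod_restrict, integral_prod_symm _ hint',
    intervalIntegral.integral_of_le hcd, ← integral_Icc_eq_integral_Ioc]
  refine integral_congr_ae (ae_restrict_of_ae (hae.mono fun t ht => ?_))
  simp only
  rw [integral_const_mul]
  congr 1
  have hl : LipschitzWith (K * 1) fun s : ℝ => g (s, t) :=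
    hg.comp (LipschitzWith.prodMk_right t)
  rw [← (hl.lipschitzOnWith (s := uIcc a b)).absolutelyContinuousOnInterval.integral_deriv_eq_sub,
    intervalIntegral.integral_of_le hab, ← integral_Icc_eq_integral_Ioc]
  refine integral_congr_ae (ae_restrict_of_ae (ht.mono fun s hs => ?_))
  have hd : HasDerivAt (fun s : ℝ => (s, t)) ((1 : ℝ), (0 : ℝ)) s :=
    (hasDerivAt_id s).prodMk (hasDerivAt_const s t)
  exact (hs.hasFDerivAt.comp_hasDerivAt s hd).deriv.symm

end Crest.Agent.R105
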