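import Crest.Agent.R105.CBoxGeo
import Crest.Agent.R105.CBoxFtc

/-! Row 105, chain lemma: the chord formula. -/

set_option autoImplicit false

open MeasureTheory Set Filter Topology

namespace Crest.Agent.R105

theorem h27_det (M : ℂ →L[ℝ] ℂ) :
    M.det = (M 1).re * (M Complex.I).im - (M Complex.I).re * (M 1).im := by
  rw [ContinuousLinearMap.det, ← LinearMap.det_toMatrix Complex.basisOneI, Matrix.det_fin_two]
  simp [LinearMap.toMatrix_apply]

theorem h27_lin (A : ℂ →L[ℝ] ℝ) (z : ℂ) : A z = z.re * A 1 + z.im * A Complex.I := by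
  conv_lhs => rw [show z = z.re • (1 : ℂ) + z.im • Complex.I by simp [Complex.re_add_im]]
  rw [map_add, map_smul, map_smul, smul_eq_mul, smul_eq_mul]

theorem h27_jac (A B : ℂ →L[ℝ] ℝ) (M : ℂ →L[ℝ] ℂ) :
    M.det * (A 1 * B Complex.I - A Complex.I * B 1) =
      A (M 1) * B (M Complex.I) - A (M Complex.I) * B (M 1) := by
  rw [h27_det, h27_lin A (M 1), h27_lin A (M Complex.I), h27_lin B (M 1), h27_lin B (M Complex.I)]
  ring

namespace Chart

variable {r : ℂ → ℝ} (c : Chart r) {a b lo hi : ℝ}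

theorem h27_diff {y : ℝ × ℝ} (hy : y ∈ c.φ.target) : DifferentiableAt ℝ c.φ.symm y :=
  (c.inv.contDiffAt (c.φ.open_target.mem_nhds hy)).differentiableAt one_ne_zero

theorem h27_rdiff {z : ℂ} (hz : z ∈ c.φ.source) : DifferentiableAt ℝ r z :=
  (c.c1.contDiffAt (c.φ.open_source.mem_nhds hz)).differentiableAt one_ne_zero

/-- the pointwise identity -/
theorem h27_point {y : ℝ × ℝ} (hy : y ∈ c.φ.target) (f : ℂ → ℝ) :
    |((fderiv ℝ c.φ.symm y).comp (Complex.equivRealProdCLM : ℂ →L[ℝ] ℝ × ℝ)).det| *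
      wd f r (c.φ.symm y) = fderiv ℝ (fun y => f (c.φ.symm y)) y (1, 0) := by
  have hz : c.φ.symm y ∈ c.φ.source := c.φ.map_target hy
  have hΨ := (c.h27_diff hy).hasFDerivAt
  set D := fderiv ℝ c.φ.symm y with hD
  set M : ℂ →L[ℝ] ℂ := D.comp (Complex.equivRealProdCLM : ℂ →L[ℝ] ℝ × ℝ) with hM
  have hM1 : M 1 = D (1, 0) := by simp [hM, Complex.equivRealProdCLM_apply]
  have hMI : M Complex.I = D (0, 1) := by simp [hM, Complex.equivRealProdCLM_apply]
  have hnt : ∀ᶠ w in 𝓝 y, w ∈ c.φ.target := c.φ.open_target.mem_nhds hy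
  have h1 : (fderiv ℝ r (c.φ.symm y)).comp D = ContinuousLinearMap.snd ℝ ℝ ℝ :=
    ((c.h27_rdiff hz).hasFDerivAt.comp y hΨ).unique
      ((hasFDerivAt_snd (𝕜 := ℝ) (p := y)).congr_of_eventuallyEq
        (hnt.mono fun w hw => c.r_symm hw))
  have h2 : (perp c.v).comp D = ContinuousLinearMap.fst ℝ ℝ ℝ :=
    ((perp c.v).hasFDerivAt.comp y hΨ).unique
      ((hasFDerivAt_fst (𝕜 := ℝ) (p := y)).congr_of_eventuallyEq
        (hnt.mono fun w hw => c.perp_symm hw))
  have b1 : fderiv ℝ r (c.φ.symm y) (M 1) = 0 := by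
    rw [hM1]; simpa using congrArg (fun L => L (1, 0)) h1
  have bI : fderiv ℝ r (c.φ.symm y) (M Complex.I) = 1 := by
    rw [hMI]; simpa using congrArg (fun L => L (0, 1)) h1
  have p1 : perp c.v (M 1) = 1 := by
    rw [hM1]; simpa using congrArg (fun L => L (1, 0)) h2
  have hpos : 0 < M.det := by
    have h3 := h27_jac (perp c.v) (fderiv ℝ r (c.φ.symm y)) M
    have h4 := c.pos _ hz
    rw [wd, (perp c.v).fderiv] at h4
    rw [b1, bI, p1, mul_one, mul_zero, sub_zero] at h3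
    exact pos_of_mul_pos_left (by rw [h3]; exact one_pos) h4.le
  rw [abs_of_pos hpos]
  by_cases hf : DifferentiableAt ℝ f (c.φ.symm y)
  · have h3 : fderiv ℝ (fun y => f (c.φ.symm y)) y = (fderiv ℝ f (c.φ.symm y)).comp D :=
      (hf.hasFDerivAt.comp y hΨ).fderiv
    rw [h3, wd, h27_jac, b1, bI, mul_one, mul_zero, sub_zero, hM1]
    rfl
  · have h3 : ¬ DifferentiableAt ℝ (fun y => f (c.φ.symm y)) y := by
      intro h
      apply hf
      have h4 : DifferentiableAt ℝ c.φ (c.φ.symm y) := by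
        have e : (c.φ : ℂ → ℝ × ℝ) = fun z => (perp c.v z, r z) := funext c.eq
        rw [e]
        exact (perp c.v).differentiableAt.prodMk (c.h27_rdiff hz)
      have h5 : DifferentiableAt ℝ (fun y => f (c.φ.symm y)) (c.φ (c.φ.symm y)) := by
        rwa [c.φ.right_inv hy]
      refine (h5.comp _ h4).congr_of_eventuallyEq ?_
      filter_upwards [c.φ.open_source.mem_nhds hz] with w hw
      simp only [Function.comp, c.φ.left_inv hw]
    rw [fderiv_zero_of_not_differentiableAt h3, wd, fderiv_zero_of_not_differentiableAt hf]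
    simp

theorem formula {U : Set ℂ} (hU : c.φ.source ⊆ U) (hS : Icc a b ×ˢ Icc lo hi ⊆ c.φ.target)
    (hab : a ≤ b) (hlt : lo ≤ hi) {f : ℂ → ℝ} (hf : LocallyLipschitzOn U f) {θ : ℝ → ℝ}
    (hθ : Continuous θ) :
    IntegrableOn (fun z => θ (r z) * wd f r z) (c.φ.symm '' (Icc a b ×ˢ Icc lo hi)) ∧
      ∫ z in c.φ.symm '' (Icc a b ×ˢ Icc lo hi), θ (r z) * wd f r z =
        ∫ t in lo..hi, θ t * (f (c.φ.symm (b, t)) - f (c.φ.symm (a, t))) := by
  set S : Set (ℝ × ℝ) := Icc a b ×ˢ Icc lo hi with hSd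
  have hSc : IsCompact S := isCompact_Icc.prod isCompact_Icc
  obtain ⟨K, hK, hSK, hKt⟩ := exists_compact_between hSc c.φ.open_target hS
  have hl1 : LocallyLipschitzOn K c.φ.symm := fun y hy => by
    obtain ⟨L, t, ht, h⟩ :=
      (c.inv.contDiffAt (c.φ.open_target.mem_nhds (hKt hy))).exists_lipschitzOnWith
    exact ⟨L, t, mem_nhdsWithin_of_mem_nhds ht, h⟩
  obtain ⟨L₁, h1⟩ := hl1.exists_lipschitzOnWith_of_compact hK
  have hK' : IsCompact (c.φ.symm '' K) := hK.image_of_continuousOn (c.φ.continuousOn_symm.mono hKt)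
  obtain ⟨L₂, h2⟩ := (hf.mono (s := c.φ.symm '' K) (by
    rintro _ ⟨y, hy, rfl⟩
    exact hU (c.φ.map_target (hKt hy)))).exists_lipschitzOnWith_of_compact hK'
  obtain ⟨g, hg, hgK⟩ := (h2.comp h1 (mapsTo_image _ _)).extend_real
  have hfd : ∀ y ∈ S, fderiv ℝ (fun y => f (c.φ.symm y)) y = fderiv ℝ g y := fun y hy =>
    Filter.EventuallyEq.fderiv_eq
      (Filter.eventually_of_mem (mem_interior_iff_mem_nhds.1 (hSK hy)) fun w hw => hgK hw)
  obtain ⟨i1, i2⟩ := rect_ftc hg hθ hab hlt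
  set T : ℂ →L[ℝ] ℝ × ℝ := (Complex.equivRealProdCLM : ℂ →L[ℝ] ℝ × ℝ) with hT
  have hs : MeasurableSet (T ⁻¹' S) := T.continuous.measurable hSc.measurableSet
  have himg : c.φ.symm '' S = (fun w => c.φ.symm (T w)) '' (T ⁻¹' S) := by
    have hsur : Function.Surjective T := Complex.equivRealProdCLM.surjective
    rw [← Set.image_image c.φ.symm T, Set.image_preimage_eq _ hsur]
  have hder : ∀ w ∈ T ⁻¹' S, HasFDerivWithinAt (fun w => c.φ.symm (T w))
      ((fderiv ℝ c.φ.symm (T w)).comp T) (T ⁻¹' S) w := fun w hw =>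
    ((c.h27_diff (hS hw)).hasFDerivAt.comp w T.hasFDerivAt).hasFDerivWithinAt
  have hinj : InjOn (fun w => c.φ.symm (T w)) (T ⁻¹' S) := fun w hw w' hw' h =>
    Complex.equivRealProdCLM.injective (c.φ.symm.injOn (hS hw) (hS hw') h)
  have hpt : ∀ w ∈ T ⁻¹' S, |((fderiv ℝ c.φ.symm (T w)).comp T).det| •
      (θ (r (c.φ.symm (T w))) * wd f r (c.φ.symm (T w))) =
        (fun y : ℝ × ℝ => θ y.2 * fderiv ℝ g y (1, 0)) (T w) := by
    intro w hw
    have := c.h27_point (hS hw) f
    simp only [smul_eq_mul]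
    rw [c.r_symm (hS hw), ← hfd _ hw, ← this]
    ring
  have hmp : MeasurePreserving T := Complex.volume_preserving_equiv_real_prod
  have hme : MeasurableEmbedding T := Complex.measurableEquivRealProd.measurableEmbedding
  rw [himg]
  constructor
  · rw [integrableOn_image_iff_integrableOn_abs_det_fderiv_smul volume hs hder hinj,
      integrableOn_congr_fun hpt hs]
    exact (hmp.integrableOn_comp_preimage hme).2 i1
  · rw [integral_image_eq_integral_abs_det_fderiv_smul volume hs hder hinj,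
      setIntegral_congr_fun hs hpt, hmp.setIntegral_preimage_emb hme
        (fun y : ℝ × ℝ => θ y.2 * fderiv ℝ g y (1, 0)) S, i2]
    refine intervalIntegral.integral_congr fun t ht => ?_
    rw [uIcc_of_le hlt] at ht
    have e1 := hgK (interior_subset (hSK (show (b, t) ∈ S from ⟨right_mem_Icc.2 hab, ht⟩)))
    have e2 := hgK (interior_subset (hSK (show (a, t) ∈ S from ⟨left_mem_Icc.2 hab, ht⟩)))
    simp only [Function.comp] at e1 e2
    simp only [e1, e2]

end Chart

end Crest.Agent.R105
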