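import Crest.Agent.R105.CBoxDefs

/-! Row 105, chain lemma: plane geometry of a box in a chart.
`Ψ = c.φ.symm`, `S = Icc a b ×ˢ Icc lo hi ⊆ c.φ.target`, `Q = Ψ '' S`, `m ∈ (a, b)`;
`perp c.v (Ψ y) = y.1` and `r (Ψ y) = y.2` for `y ∈ c.φ.target` (`c.eq`, `right_inv`). -/

set_option autoImplicit false

open MeasureTheory Set Filter Topology

namespace Crest.Agent.R105

namespace Chart

variable {r : ℂ → ℝ} (c : Chart r)

theorem perp_symm {y : ℝ × ℝ} (hy : y ∈ c.φ.target) : perp c.v (c.φ.symm y) = y.1 :=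
  congrArg Prod.fst ((c.eq _).symm.trans (c.φ.right_inv hy))

theorem r_symm {y : ℝ × ℝ} (hy : y ∈ c.φ.target) : r (c.φ.symm y) = y.2 :=
  congrArg Prod.snd ((c.eq _).symm.trans (c.φ.right_inv hy))

variable {a b m lo hi : ℝ}

/-- `φ` and `φ.symm` are open on source and target (`isOpen_image_of_subset_source`,
`isOpen_image_symm_of_subset_target`) -/
theorem mem_interior_iff (hS : Icc a b ×ˢ Icc lo hi ⊆ c.φ.target) {y : ℝ × ℝ}
    (hy : y ∈ Icc a b ×ˢ Icc lo hi) :
    c.φ.symm y ∈ interior (c.φ.symm '' (Icc a b ×ˢ Icc lo hi)) ↔ y ∈ Ioo a b ×ˢ Ioo lo hi := by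
  constructor
  · intro h
    have hsub : interior (c.φ.symm '' (Icc a b ×ˢ Icc lo hi)) ⊆ c.φ.source := by
      refine interior_subset.trans ?_
      rintro _ ⟨y', hy', rfl⟩
      exact c.φ.map_target (hS hy')
    have hop := c.φ.isOpen_image_of_subset_source isOpen_interior hsub
    have h2 : c.φ '' interior (c.φ.symm '' (Icc a b ×ˢ Icc lo hi)) ⊆ Icc a b ×ˢ Icc lo hi := by
      rintro _ ⟨z, hz, rfl⟩
      obtain ⟨y', hy', rfl⟩ := interior_subset hz
      rwa [c.φ.right_inv (hS hy')]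
    have h3 := interior_maximal h2 hop ⟨_, h, c.φ.right_inv (hS hy)⟩
    rwa [interior_prod_eq, interior_Icc, interior_Icc] at h3
  · intro h
    have hsub : Ioo a b ×ˢ Ioo lo hi ⊆ Icc a b ×ˢ Icc lo hi :=
      prod_mono Ioo_subset_Icc_self Ioo_subset_Icc_self
    exact interior_maximal (image_mono hsub)
      (c.φ.isOpen_image_symm_of_subset_target (isOpen_Ioo.prod isOpen_Ioo) (hsub.trans hS))
      (mem_image_of_mem _ h)

theorem h50_chord_eq (hS : Icc a b ×ˢ Icc lo hi ⊆ c.φ.target) (t : ℝ) :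
    c.φ.symm '' (Icc a b ×ˢ Icc lo hi) ∩ r ⁻¹' {t} =
      c.φ.symm '' (Icc a b ×ˢ (Icc lo hi ∩ {t})) := by
  ext z
  constructor
  · rintro ⟨⟨y, hy, rfl⟩, h⟩
    exact ⟨y, ⟨hy.1, hy.2, (c.r_symm (hS hy)).symm.trans h⟩, rfl⟩
  · rintro ⟨y, hy, rfl⟩
    exact ⟨⟨y, ⟨hy.1, hy.2.1⟩, rfl⟩, (c.r_symm (hS ⟨hy.1, hy.2.1⟩)).trans hy.2.2⟩

/-- the chord is `Ψ '' (Icc a b ×ˢ {t})` or empty -/
theorem chord_conn (hS : Icc a b ×ˢ Icc lo hi ⊆ c.φ.target) (t : ℝ) :
    IsPreconnected (c.φ.symm '' (Icc a b ×ˢ Icc lo hi) ∩ r ⁻¹' {t}) := by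
  rw [c.h50_chord_eq hS]
  refine IsPreconnected.image ?_ _ (c.φ.continuousOn_symm.mono
    ((prod_mono Subset.rfl inter_subset_left).trans hS))
  exact ((convex_Icc a b).prod ((convex_Icc lo hi).inter (convex_singleton t))).isPreconnected

/-- the image of a null set of the plane under a map that is Lipschitz on it / differentiable
(`addHaar_image_eq_zero_of_differentiableOn_of_addHaar_eq_zero` for `Ψ ∘ equivRealProdCLM`,
`Complex.volume_preserving_equiv_real_prod`) -/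
theorem chord_null (hS : Icc a b ×ˢ Icc lo hi ⊆ c.φ.target) (t : ℝ) :
    volume (c.φ.symm '' (Icc a b ×ˢ Icc lo hi) ∩ r ⁻¹' {t}) = 0 := by
  rw [c.h50_chord_eq hS]
  set N : Set (ℝ × ℝ) := Icc a b ×ˢ (Icc lo hi ∩ {t}) with hN
  have hNt : N ⊆ c.φ.target := (prod_mono Subset.rfl inter_subset_left).trans hS
  have hN0 : volume N = 0 := by
    rw [hN, Measure.volume_eq_prod, Measure.prod_prod,
      measure_mono_null inter_subset_right (measure_singleton t), mul_zero]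
  have e : c.φ.symm '' N = (fun z => c.φ.symm (Complex.equivRealProdCLM z)) ''
      (Complex.equivRealProdCLM ⁻¹' N) := by
    rw [← image_image c.φ.symm Complex.equivRealProdCLM,
      image_preimage_eq _ Complex.equivRealProdCLM.surjective]
  rw [e]
  refine addHaar_image_eq_zero_of_differentiableOn_of_addHaar_eq_zero volume ?_ ?_
  · exact (c.inv.differentiableOn one_ne_zero).comp
      Complex.equivRealProdCLM.differentiable.differentiableOn fun z hz => hNt hz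
  · exact Complex.volume_preserving_equiv_real_prod.quasiMeasurePreserving.preimage_null hN0

/-- points with the same `perp v` differ by a real multiple of `v` -/
theorem h53_line {v z w : ℂ} (hv : v ≠ 0) (h : perp v z = perp v w) :
    z - w = (((z - w) / v).re : ℂ) * v := by
  have hn : Complex.normSq v ≠ 0 := by simpa using hv
  have him : ((z - w) / v).im = 0 := by
    rw [perp_apply, perp_apply] at h
    rw [Complex.div_im, Complex.sub_im, Complex.sub_re, ← sub_div, div_eq_zero_iff]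
    left
    linarith
  have : (((z - w) / v).re : ℂ) = (z - w) / v := Complex.ext (by simp) (by simp [him])
  rw [this, div_mul_cancel₀ _ hv]

/-- The curve `τ ↦ Ψ (m, τ)` lies on the line `perp v = m`; every point of that line is
`pm + λ (pp - pm)` with `λ = Re ((z - pm) / (pp - pm))`; `τ ↦ λ` is continuous and injective on
`Icc lo hi` with the values `0` and `1` at the ends, hence strictly increasing and onto `[0, 1]`
(`ContinuousOn.strictMonoOn_of_injOn_Icc`, `intermediate_value_Icc`). -/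
theorem seg_param (hS : Icc a b ×ˢ Icc lo hi ⊆ c.φ.target) (hm : m ∈ Ioo a b) (hlt : lo < hi) :
    (∀ z ∈ segment ℝ (c.φ.symm (m, lo)) (c.φ.symm (m, hi)), ∃ τ ∈ Icc lo hi, z = c.φ.symm (m, τ)) ∧
    ∀ τ ∈ Ioo lo hi, ∃ l ∈ Ioo (0 : ℝ) 1, c.φ.symm (m, τ) =
      c.φ.symm (m, lo) + (l : ℂ) * (c.φ.symm (m, hi) - c.φ.symm (m, lo)) := by
  have hmem : ∀ τ ∈ Icc lo hi, (m, τ) ∈ c.φ.target := fun τ hτ =>
    hS ⟨Ioo_subset_Icc_self hm, hτ⟩
  have hlo := left_mem_Icc.2 hlt.le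
  have hhi := right_mem_Icc.2 hlt.le
  set s : ℝ → ℝ := fun τ => ((c.φ.symm (m, τ) - c.φ.symm (m, lo)) / c.v).re with hs
  have hline : ∀ τ ∈ Icc lo hi, c.φ.symm (m, τ) - c.φ.symm (m, lo) = (s τ : ℂ) * c.v :=
    fun τ hτ => h53_line c.v_ne (by rw [c.perp_symm (hmem τ hτ), c.perp_symm (hmem lo hlo)])
  have hinj : InjOn s (Icc lo hi) := fun τ hτ τ' hτ' h => by
    have h1 : c.φ.symm (m, τ) = c.φ.symm (m, τ') := by
      have := hline τ hτ
      rw [h, ← hline τ' hτ'] at this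
      exact sub_left_injective this
    have := congrArg r h1
    rwa [c.r_symm (hmem τ hτ), c.r_symm (hmem τ' hτ')] at this
  have hcont : ContinuousOn s (Icc lo hi) := by
    have h1 : ContinuousOn (fun τ : ℝ => c.φ.symm (m, τ)) (Icc lo hi) :=
      c.φ.continuousOn_symm.comp (Continuous.prodMk_right m).continuousOn hmem
    exact Complex.continuous_re.comp_continuousOn ((h1.sub continuousOn_const).div_const _)
  have hs0 : s lo = 0 := by simp [hs]
  have hk : s hi ≠ 0 := fun h => hlt.ne' (hinj hhi hlo (h.trans hs0.symm))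
  set l : ℝ → ℝ := fun τ => s τ / s hi with hl
  have hlc : ContinuousOn l (Icc lo hi) := hcont.div_const _
  have hli : InjOn l (Icc lo hi) := fun τ hτ τ' hτ' h =>
    hinj hτ hτ' ((div_left_inj' hk).1 h)
  have hl0 : l lo = 0 := by simp [hl, hs0]
  have hl1 : l hi = 1 := div_self hk
  have hpar : ∀ τ ∈ Icc lo hi, c.φ.symm (m, τ) =
      c.φ.symm (m, lo) + (l τ : ℂ) * (c.φ.symm (m, hi) - c.φ.symm (m, lo)) := fun τ hτ => by
    have hk' : (s hi : ℂ) ≠ 0 := by exact_mod_cast hk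
    rw [hline hi hhi, ← sub_eq_iff_eq_add', hline τ hτ]
    simp only [hl]
    push_cast
    field_simp
  have hmono : StrictMonoOn l (Icc lo hi) :=
    hlc.strictMonoOn_of_injOn_Icc hlt.le (by rw [hl0, hl1]; exact zero_le_one) hli
  refine ⟨fun z hz => ?_, fun τ hτ => ⟨l τ, ⟨?_, ?_⟩, hpar τ (Ioo_subset_Icc_self hτ)⟩⟩
  · rw [segment_eq_image'] at hz
    obtain ⟨t, ht, rfl⟩ := hz
    obtain ⟨τ, hτ, h⟩ := intermediate_value_Icc hlt.le hlc (by rw [hl0, hl1]; exact ht)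
    exact ⟨τ, hτ, by rw [hpar τ hτ, h]; simp⟩
  · exact hl0 ▸ hmono hlo (Ioo_subset_Icc_self hτ) hτ.1
  · exact hl1 ▸ hmono (Ioo_subset_Icc_self hτ) hhi hτ.2

/-- `pp - pm = κ v` with a real `κ ≠ 0` (`perp v (pp - pm) = 0`), and
`Im ((z - pp) / (z - pm)) = -κ (perp v z - m) / |z - pm|²` -/
theorem im_ratio (hS : Icc a b ×ˢ Icc lo hi ⊆ c.φ.target) (hm : m ∈ Ioo a b) (hlt : lo < hi) :
    ∃ κ : ℝ, κ ≠ 0 ∧ ∀ z : ℂ, ((z - c.φ.symm (m, hi)) / (z - c.φ.symm (m, lo))).im =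
      κ * (perp c.v z - m) / Complex.normSq (z - c.φ.symm (m, lo)) := by
  have hmem : ∀ τ ∈ Icc lo hi, (m, τ) ∈ c.φ.target := fun τ hτ =>
    hS ⟨Ioo_subset_Icc_self hm, hτ⟩
  have hlo := left_mem_Icc.2 hlt.le
  have hhi := right_mem_Icc.2 hlt.le
  set P := c.φ.symm (m, hi) with hP
  set Q := c.φ.symm (m, lo) with hQ
  have hpP : perp c.v P = m := c.perp_symm (hmem hi hhi)
  have hpQ : perp c.v Q = m := c.perp_symm (hmem lo hlo)
  obtain ⟨k, hk⟩ : ∃ k : ℝ, P - Q = (k : ℂ) * c.v := ⟨_, h53_line c.v_ne (hpP.trans hpQ.symm)⟩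
  have hk0 : k ≠ 0 := by
    rintro rfl
    have h1 : P = Q := by simpa [sub_eq_zero] using hk
    have := congrArg r h1
    rw [hP, hQ, c.r_symm (hmem hi hhi), c.r_symm (hmem lo hlo)] at this
    exact hlt.ne' this
  refine ⟨-k, neg_ne_zero.2 hk0, fun z => ?_⟩
  have hPe : P = Q + (k : ℂ) * c.v := by rw [← hk]; ring
  rw [Complex.div_im, ← sub_div, ← hpQ, perp_apply, perp_apply, hPe]
  congr 1
  simp
  ring

end Chart

end Crest.Agent.R105
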