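import Crest.Agent.R105.NDefs

/-! Row 105, block CH (chain lemma): cuts, i.e. functions locally constant off a compact subset of `U`. -/

set_option autoImplicit false

noncomputable section

namespace Crest.Agent.R105.Ch

open MeasureTheory Filter Topology Set Metric Complex
open scoped ContDiff Classical

/-- `ν` is locally constant on `U \ J`, `J` a compact subset of `U`. -/
def Cut {V : Type} (U J : Set ℂ) (ν : ℂ → V) : Prop :=
  IsCompact J ∧ J ⊆ U ∧ ∀ z ∈ U, z ∉ J → ∀ᶠ w in 𝓝 z, ν w = ν z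

/-- two points above level `τ'` that are not joined above level `τ < τ'` are separated by a cut
lying below level `τ'`. -/
def Sep (U : Set ℂ) (r : ℂ → ℝ) : Prop :=
  ∀ τ τ' : ℝ, τ < τ' → ∀ x ∈ U, ∀ y ∈ U, τ' ≤ r x → τ' ≤ r y →
    ¬ JoinedIn (U ∩ {z | τ < r z}) x y →
    ∃ (J : Set ℂ) (ν : ℂ → ℤ), Cut U J ν ∧ (∀ z ∈ J, r z < τ') ∧ ν x ≠ ν y

/-- a cut function is constant on preconnected subsets of `U \ J`
(`IsPreconnected.constant`-style: `ν` is continuous on `S` for the discrete topology). -/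
theorem Cut.eq_of_preconnected {V : Type} {U J S : Set ℂ} {ν : ℂ → V} (h : Cut U J ν)
    (hS : IsPreconnected S) (hSU : S ⊆ U) (hSJ : Disjoint S J) {x y : ℂ} (hx : x ∈ S)
    (hy : y ∈ S) : ν x = ν y := by
  let _ : TopologicalSpace V := ⊥
  have : DiscreteTopology V := ⟨rfl⟩
  refine hS.constant (fun z hz => ContinuousAt.continuousWithinAt ?_) hx hy
  exact tendsto_const_nhds.congr'
    ((h.2.2 z (hSU hz) (disjoint_left.1 hSJ hz)).mono fun w hw => hw.symm)

/-- version along a continuous curve on an interval. -/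
theorem Cut.eq_of_curve {V : Type} {U J : Set ℂ} {ν : ℂ → V} (h : Cut U J ν) {γ : ℝ → ℂ}
    {a b : ℝ} (hγ : ContinuousOn γ (Icc a b)) (hU : ∀ t ∈ Icc a b, γ t ∈ U ∧ γ t ∉ J)
    {s t : ℝ} (hs : s ∈ Icc a b) (ht : t ∈ Icc a b) : ν (γ s) = ν (γ t) := by
  refine h.eq_of_preconnected (isPreconnected_Icc.image γ hγ) ?_ (disjoint_left.2 ?_)
    (mem_image_of_mem γ hs) (mem_image_of_mem γ ht)
  · rintro _ ⟨u, hu, rfl⟩
    exact (hU u hu).1
  · rintro _ ⟨u, hu, rfl⟩
    exact (hU u hu).2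

/-- the product of finitely many cuts. -/
theorem Cut.pi {ι V : Type} [Finite ι] {U : Set ℂ} {J : ι → Set ℂ} {ν : ι → ℂ → V}
    (h : ∀ i, Cut U (J i) (ν i)) : Cut U (⋃ i, J i) (fun z i => ν i z) := by
  refine ⟨isCompact_iUnion fun i => (h i).1, iUnion_subset fun i => (h i).2.1, fun z hz hJ => ?_⟩
  filter_upwards [eventually_all.2 fun i => (h i).2.2 z hz fun hi => hJ (mem_iUnion.2 ⟨i, hi⟩)]
    with w hw using funext hw

/-- the product of two cuts. -/
theorem Cut.prod {V W : Type} {U J J' : Set ℂ} {ν : ℂ → V} {ν' : ℂ → W} (h : Cut U J ν)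
    (h' : Cut U J' ν') : Cut U (J ∪ J') (fun z => (ν z, ν' z)) := by
  refine ⟨h.1.union h'.1, union_subset h.2.1 h'.2.1, fun z hz hJ => ?_⟩
  filter_upwards [h.2.2 z hz fun hi => hJ (Or.inl hi), h'.2.2 z hz fun hi => hJ (Or.inr hi)]
    with w hw hw' using Prod.ext hw hw'

/-- the set where `ν` fails to be locally constant is a cut set as soon as it lies in a compact
subset of `U` (it is relatively closed: `eventually_eventually_nhds`). -/
theorem cut_of_subset {V : Type} {U C : Set ℂ} {ν : ℂ → V} (hC : IsCompact C) (hCU : C ⊆ U)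
    (h : ∀ z ∈ U, z ∉ C → ∀ᶠ w in 𝓝 z, ν w = ν z) :
    Cut U {z | z ∈ C ∧ ¬ ∀ᶠ w in 𝓝 z, ν w = ν z} ν := by
  refine ⟨hC.inter_right (t := {z | ∀ᶠ w in 𝓝 z, ν w = ν z}ᶜ) (IsOpen.isClosed_compl ?_),
    fun z hz => hCU hz.1, fun z hz hJ => ?_⟩
  · refine isOpen_iff_mem_nhds.2 fun z (hz : ∀ᶠ w in 𝓝 z, ν w = ν z) => ?_
    filter_upwards [eventually_eventually_nhds.2 hz, hz] with w hw hw'
    exact hw.mono fun u hu => hu.trans hw'.symm
  · by_contra hn
    by_cases hzC : z ∈ C
    · exact hJ ⟨hzC, hn⟩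
    · exact hn (h z hz hzC)

theorem h88_ext_preconn {R : ℝ} (hR : 0 < R) : IsPreconnected {z : ℂ | R ≤ ‖z‖} := by
  have h1 : IsPreconnected (sphere (0 : ℂ) 1) :=
    isPreconnected_sphere (by rw [Complex.rank_real_complex]; norm_num) 0 1
  have h2 : IsPreconnected ((sphere (0 : ℂ) 1) ×ˢ (Ici R)) := h1.prod isPreconnected_Ici
  have h3 := h2.image (fun p : ℂ × ℝ => (p.2 : ℂ) * p.1) (by fun_prop)
  convert h3 using 1
  ext z
  simp only [mem_ofPred_eq, mem_image, mem_prod, mem_sphere_zero_iff_norm, mem_Ici, Prod.exists]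
  constructor
  · intro hz
    have hz0 : 0 < ‖z‖ := hR.trans_le hz
    have hz1 : ((‖z‖ : ℝ) : ℂ) ≠ 0 := by exact_mod_cast hz0.ne'
    refine ⟨z / (‖z‖ : ℂ), ‖z‖, ⟨?_, hz⟩, ?_⟩
    · rw [norm_div, Complex.norm_real, Real.norm_eq_abs, abs_of_pos hz0, div_self hz0.ne']
    · field_simp
  · rintro ⟨a, t, ⟨ha, ht⟩, rfl⟩
    rw [norm_mul, ha, mul_one, Complex.norm_real, Real.norm_eq_abs]
    exact ht.trans (le_abs_self t)

/-- a locally Lipschitz cut function is in `A0` (constant on the preconnected exterior of a large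
disc; the derivative vanishes off the compact `J` and is bounded on it, since `a` is Lipschitz on
a compact neighbourhood of `J`: `LocallyLipschitzOn.exists_lipschitzOnWith_of_compact`,
`norm_fderiv_le_of_lipschitzOn`). -/
theorem A0_of_cut {U J : Set ℂ} {a : ℂ → ℝ} {R : ℝ} (hU : IsOpen U)
    (hR : ∀ z : ℂ, R ≤ ‖z‖ → z ∈ U) (ha : LocallyLipschitzOn U a) (h : Cut U J a) : A0 U a := by
  refine ⟨⟨ha, ?_, ?_⟩, ⟨J, h.1, h.2.1, h.2.2⟩⟩
  · obtain ⟨R', hR'⟩ := h.1.isBounded.subset_ball (0 : ℂ)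
    have hpos : 0 < max (max R R') 1 := lt_of_lt_of_le one_pos (le_max_right _ _)
    have hS := h88_ext_preconn hpos
    have hSU : {z : ℂ | max (max R R') 1 ≤ ‖z‖} ⊆ U := fun z hz =>
      hR z (((le_max_left _ _).trans (le_max_left _ _)).trans hz)
    have hSJ : Disjoint {z : ℂ | max (max R R') 1 ≤ ‖z‖} J := by
      rw [Set.disjoint_left]
      intro z hz hzJ
      have h1 := hR' hzJ
      rw [mem_ball_zero_iff] at h1
      have h2 : R' ≤ ‖z‖ := ((le_max_right _ _).trans (le_max_left _ _)).trans hz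
      linarith
    have h0 : ((max (max R R') 1 : ℝ) : ℂ) ∈ {z : ℂ | max (max R R') 1 ≤ ‖z‖} := by
      simp only [mem_ofPred_eq, Complex.norm_real, Real.norm_eq_abs]
      exact le_abs_self _
    exact ⟨max (max R R') 1, a _, fun z hz => h.eq_of_preconnected hS hSU hSJ hz h0⟩
  · obtain ⟨C, hC, hJC, hCU⟩ := exists_compact_between h.1 hU h.2.1
    obtain ⟨K, hK⟩ := (ha.mono hCU).exists_lipschitzOnWith_of_compact hC
    have hle : ∀ z ∈ U, ‖fderiv ℝ a z‖ₑ ^ 2 ≤ J.indicator (fun _ => (K : ENNReal) ^ 2) z := by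
      intro z hz
      by_cases hzJ : z ∈ J
      · rw [indicator_of_mem hzJ]
        have h1 : ‖fderiv ℝ a z‖ ≤ K :=
          norm_fderiv_le_of_lipschitzOn ℝ (mem_interior_iff_mem_nhds.1 (hJC hzJ)) hK
        have h2 : ‖fderiv ℝ a z‖ₑ ≤ (K : ENNReal) := by
          rw [← ofReal_norm, ← ENNReal.ofReal_coe_nnreal]
          exact ENNReal.ofReal_le_ofReal h1
        exact pow_le_pow_left' h2 2
      · have h1 : a =ᶠ[𝓝 z] fun _ => a z := h.2.2 z hz hzJ
        have h2 : fderiv ℝ a z = 0 := by rw [h1.fderiv_eq]; simp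
        have h3 : ‖(0 : ℂ →L[ℝ] ℝ)‖ₑ = 0 := by rw [← ofReal_norm, norm_zero, ENNReal.ofReal_zero]
        rw [h2, h3]
        simp
    calc En U a ≤ ∫⁻ z in U, J.indicator (fun _ => (K : ENNReal) ^ 2) z :=
          setLIntegral_mono' hU.measurableSet hle
      _ ≤ ∫⁻ z, J.indicator (fun _ => (K : ENNReal) ^ 2) z := setLIntegral_le_lintegral _ _
      _ = (K : ENNReal) ^ 2 * volume J := by
          rw [lintegral_indicator_const h.1.measurableSet]
      _ < ⊤ := ENNReal.mul_lt_top (ENNReal.pow_lt_top ENNReal.coe_lt_top) h.1.measure_lt_top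

/-- smoothing of the level sets of a cut: `ρ` is smooth (or Lipschitz), `0` near `J`, `1` off a
compact `C ⊆ N` (take `J ⊆ interior C₁`, `C₁ ⊆ interior C`, `C ⊆ N` by `exists_compact_between`,
and `exists_contMDiff_zero_one..`/`exists_smooth_zero_one_of_isClosed` for `C₁` and
`(interior C)ᶜ`).  At `z ∈ J` the product vanishes near `z`; at `z ∉ J` it is locally `ρ` or `0`;
use `A0_of_cut` with the cut set `C`. -/
theorem Cut.bump {V : Type} {U J N : Set ℂ} {ν : ℂ → V} {R : ℝ} (hU : IsOpen U)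
    (hR : ∀ z : ℂ, R ≤ ‖z‖ → z ∈ U) (h : Cut U J ν)
    (hN : IsOpen N) (hJN : J ⊆ N) (hNU : N ⊆ U) :
    ∃ (ρ : ℂ → ℝ) (C : Set ℂ), IsCompact C ∧ J ⊆ C ∧ C ⊆ N ∧ (∀ z, 0 ≤ ρ z ∧ ρ z ≤ 1) ∧
      (∀ z, z ∉ C → ρ z = 1) ∧ ∀ v : V, A0 U (fun z => if ν z = v then ρ z else 0) := by
  obtain ⟨hJ, hJU, hν⟩ := h
  obtain ⟨C, hC, hJC, hCN⟩ := exists_compact_between hJ hN hJN
  obtain ⟨C₁, hC₁, hJ1, h1C⟩ := exists_compact_between hJ isOpen_interior hJC
  obtain ⟨f, hf0, hf1, hf01⟩ := exists_contMDiffMap_zero_one_of_isClosed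
    (modelWithCornersSelf ℝ ℂ) (n := 1) hC₁.isClosed (isOpen_interior (s := C)).isClosed_compl
    (disjoint_compl_right_iff_subset.2 h1C)
  have hf : ContDiff ℝ 1 (fun z => f z) := f.contMDiff.contDiff
  have hone : ∀ z, z ∉ C → f z = 1 := fun z hz => hf1 fun h => hz (interior_subset h)
  refine ⟨fun z => f z, C, hC, hJC.trans interior_subset, hCN, fun z => hf01 z, hone, fun v => ?_⟩
  refine A0_of_cut (J := C) hU hR (fun z hz => ?_) ⟨hC, hCN.trans hNU, fun z hz hzC => ?_⟩
  · have key : ContDiffAt ℝ 1 (fun z => if ν z = v then f z else 0) z := by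
      by_cases hzJ : z ∈ J
      · refine (contDiffAt_const (c := (0 : ℝ))).congr_of_eventuallyEq ?_
        filter_upwards [mem_interior_iff_mem_nhds.1 (hJ1 hzJ)] with w hw
        have : f w = 0 := hf0 hw
        simp [this]
      · by_cases hv : ν z = v
        · refine hf.contDiffAt.congr_of_eventuallyEq ?_
          filter_upwards [hν z hz hzJ] with w hw
          simp [hw, hv]
        · refine (contDiffAt_const (c := (0 : ℝ))).congr_of_eventuallyEq ?_
          filter_upwards [hν z hz hzJ] with w hw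
          simp [hw, hv]
    obtain ⟨K, t, ht, hK⟩ := key.exists_lipschitzOnWith
    exact ⟨K, t, mem_nhdsWithin_of_mem_nhds ht, hK⟩
  · filter_upwards [hν z hz fun h => hzC (interior_subset (hJC h)),
      hC.isClosed.isOpen_compl.mem_nhds hzC] with w hw hw'
    rw [hw, hone w hw', hone z hzC]

theorem A0_cut {U : Set ℂ} {a : ℂ → ℝ} (h : A0 U a) : ∃ J, Cut U J a := h.loc

theorem locLip_mul {U : Set ℂ} {a b : ℂ → ℝ} (hU : IsOpen U) (ha : LocallyLipschitzOn U a)
    (hb : LocallyLipschitzOn U b) : LocallyLipschitzOn U (fun z => a z * b z) := by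
  intro x hx
  obtain ⟨K1, t1, ht1, h1⟩ := ha hx
  obtain ⟨K2, t2, ht2, h2⟩ := hb hx
  have hx1 : x ∈ t1 := mem_of_mem_nhdsWithin hx ht1
  have hx2 : x ∈ t2 := mem_of_mem_nhdsWithin hx ht2
  have hA : 0 ≤ (|a x| + K1) * K2 + (|b x| + K2) * K1 := by positivity
  refine ⟨⟨_, hA⟩, t1 ∩ t2 ∩ ball x 1, inter_mem (inter_mem ht1 ht2)
    (mem_nhdsWithin_of_mem_nhds (ball_mem_nhds x one_pos)), ?_⟩
  refine LipschitzOnWith.of_dist_le_mul fun y hy z hz => ?_
  have e1 := h1.dist_le_mul y hy.1.1 z hz.1.1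
  have e2 := h2.dist_le_mul y hy.1.2 z hz.1.2
  have e3 := h1.dist_le_mul y hy.1.1 x hx1
  have e4 := h2.dist_le_mul z hz.1.2 x hx2
  have d1 : dist y x ≤ 1 := (mem_ball.1 hy.2).le
  have d2 : dist z x ≤ 1 := (mem_ball.1 hz.2).le
  have k1 : (0 : ℝ) ≤ K1 := K1.coe_nonneg
  have k2 : (0 : ℝ) ≤ K2 := K2.coe_nonneg
  rw [Real.dist_eq] at e1 e2 e3 e4 ⊢
  have b1 : |a y| ≤ |a x| + K1 := by
    have := abs_sub_abs_le_abs_sub (a y) (a x)
    nlinarith
  have b2 : |b z| ≤ |b x| + K2 := by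
    have := abs_sub_abs_le_abs_sub (b z) (b x)
    nlinarith
  have hd : 0 ≤ dist y z := dist_nonneg
  calc |a y * b y - a z * b z| = |a y * (b y - b z) + b z * (a y - a z)| := by ring_nf
    _ ≤ |a y| * |b y - b z| + |b z| * |a y - a z| := by
        rw [← abs_mul, ← abs_mul]; exact abs_add_le _ _
    _ ≤ (|a x| + K1) * (K2 * dist y z) + (|b x| + K2) * (K1 * dist y z) :=
        add_le_add (mul_le_mul b1 e2 (abs_nonneg _) (by positivity))
          (mul_le_mul b2 e1 (abs_nonneg _) (by positivity))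
    _ = ((|a x| + K1) * K2 + (|b x| + K2) * K1) * dist y z := by ring

theorem A0_mul {U : Set ℂ} {a b : ℂ → ℝ} {R : ℝ} (hU : IsOpen U)
    (hR : ∀ z : ℂ, R ≤ ‖z‖ → z ∈ U) (ha : A0 U a) (hb : A0 U b) :
    A0 U (fun z => a z * b z) := by
  obtain ⟨J, hJ⟩ := A0_cut ha
  obtain ⟨J', hJ'⟩ := A0_cut hb
  refine A0_of_cut (J := J ∪ J') hU hR (locLip_mul hU ha.xx.lip hb.xx.lip)
    ⟨hJ.1.union hJ'.1, union_subset hJ.2.1 hJ'.2.1, fun z hz hzJ => ?_⟩
  filter_upwards [hJ.2.2 z hz fun h => hzJ (Or.inl h), hJ'.2.2 z hz fun h => hzJ (Or.inr h)]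
    with w h1 h2
  rw [h1, h2]

theorem A0_const (U : Set ℂ) (c : ℝ) : A0 U (fun _ => c) := by
  refine ⟨⟨(LipschitzWith.const c).locallyLipschitz.locallyLipschitzOn, ⟨0, c, fun _ _ => rfl⟩, ?_⟩,
    ⟨∅, isCompact_empty, empty_subset _, fun _ _ _ => Eventually.of_forall fun _ => rfl⟩⟩
  have h3 : ‖(0 : ℂ →L[ℝ] ℝ)‖ₑ = 0 := by rw [← ofReal_norm, norm_zero, ENNReal.ofReal_zero]
  simp [En, h3]

/-- Rademacher on an open set. -/
theorem ae_diff {U : Set ℂ} {u : ℂ → ℝ} (hU : IsOpen U) (hu : LocallyLipschitzOn U u) :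
    ∀ᵐ z ∂(volume : Measure ℂ), z ∈ U → DifferentiableAt ℝ u z := by
  rw [ae_iff]
  refine measure_null_of_locally_null _ fun x hx => ?_
  have hxU : x ∈ U := by by_contra h; exact hx fun h' => absurd h' h
  obtain ⟨K, t, ht, hK⟩ := hu hxU
  rw [hU.nhdsWithin_eq hxU] at ht
  refine ⟨_, inter_mem_nhdsWithin _ (interior_mem_nhds.2 ht), ?_⟩
  have h1 := hK.ae_differentiableWithinAt_of_mem (μ := (volume : Measure ℂ))
  rw [ae_iff] at h1
  refine measure_mono_null ?_ h1
  intro z hz h2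
  refine hz.1 fun _ => ?_
  exact (h2 (interior_subset hz.2)).differentiableAt (mem_interior_iff_mem_nhds.1 hz.2)

/-- a Lipschitz function of finitely many locally Lipschitz functions is locally Lipschitz. -/
theorem locLip_comp {ι : Type} [Fintype ι] {U : Set ℂ} {u : ι → ℂ → ℝ} {G : (ι → ℝ) → ℝ}
    {L : ι → ℝ} (hu : ∀ i, LocallyLipschitzOn U (u i)) (hL : ∀ i, 0 ≤ L i)
    (hG : ∀ x y, |G x - G y| ≤ ∑ i, L i * |x i - y i|) :
    LocallyLipschitzOn U (fun z => G (fun i => u i z)) := by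
  intro x hx
  choose K t ht hK using fun i => hu i hx
  refine ⟨∑ i, (L i).toNNReal * K i, ⋂ i, t i, Filter.iInter_mem.2 ht, ?_⟩
  refine LipschitzOnWith.of_dist_le_mul fun y hy z hz => ?_
  rw [Real.dist_eq]
  refine (hG _ _).trans ?_
  push_cast
  rw [Finset.sum_mul]
  refine Finset.sum_le_sum fun i _ => ?_
  rw [Real.coe_toNNReal _ (hL i), mul_assoc, ← Real.dist_eq]
  exact mul_le_mul_of_nonneg_left
    ((hK i).dist_le_mul _ (mem_iInter.1 hy i) _ (mem_iInter.1 hz i)) (hL i)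

/-- chain rule bound for a Lipschitz outer function: `wd f r z = fderiv ℝ f z v` for the vector
`v = r_y - r_x I`; at a point where all `u i` and `G ∘ u` are differentiable compare the
difference quotients along `v` (a.e. point, by `ae_diff` and `locLip_comp`). -/
theorem wd_comp_le {ι : Type} [Fintype ι] {U : Set ℂ} {u : ι → ℂ → ℝ} {G : (ι → ℝ) → ℝ}
    {L : ι → ℝ} (hU : IsOpen U) (hu : ∀ i, LocallyLipschitzOn U (u i)) (hL : ∀ i, 0 ≤ L i)
    (hG : ∀ x y, |G x - G y| ≤ ∑ i, L i * |x i - y i|) (r : ℂ → ℝ) :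
    ∀ᵐ z ∂(volume : Measure ℂ), z ∈ U →
      |wd (fun z => G (fun i => u i z)) r z| ≤ ∑ i, L i * |wd (u i) r z| := by
  have h1 := ae_diff hU (locLip_comp hu hL hG)
  have h2 := ae_all_iff.2 fun i => ae_diff hU (hu i)
  filter_upwards [h1, h2] with z h1 h2 hz
  set v : ℂ := fderiv ℝ r z I • (1 : ℂ) - fderiv ℝ r z 1 • I with hv
  have hw : ∀ f : ℂ → ℝ, wd f r z = fderiv ℝ f z v := by
    intro f
    rw [hv, map_sub, map_smul, map_smul, wd, smul_eq_mul, smul_eq_mul]; ring
  have t1 := ((h1 hz).hasFDerivAt.hasLineDerivAt v).tendsto_slope_zero.abs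
  have t2 := tendsto_finsetSum Finset.univ fun i _ =>
    (((h2 i hz).hasFDerivAt.hasLineDerivAt v).tendsto_slope_zero.abs).const_mul (L i)
  simp only [hw]
  refine le_of_tendsto_of_tendsto' t1 t2 fun t => ?_
  simp only [smul_eq_mul, abs_mul]
  refine (mul_le_mul_of_nonneg_left (hG _ _) (abs_nonneg _)).trans ?_
  rw [Finset.mul_sum]
  exact Finset.sum_le_sum fun i _ => le_of_eq (by ring)

theorem measurable_wd (f g : ℂ → ℝ) : Measurable (wd f g) := by
  unfold wd
  exact ((measurable_fderiv_apply_const ℝ f 1).mul (measurable_fderiv_apply_const ℝ g I)).sub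
    ((measurable_fderiv_apply_const ℝ f I).mul (measurable_fderiv_apply_const ℝ g 1))

/-- finite energies make the density integrable (`|wd| ≤ 2 ‖Df‖ ‖Dg‖ ≤ ‖Df‖² + ‖Dg‖²`). -/
theorem integrableOn_wd {U : Set ℂ} {f g : ℂ → ℝ} (hf : En U f < ⊤) (hg : En U g < ⊤) :
    IntegrableOn (wd f g) U := by
  have key : ∀ u : ℂ → ℝ, En U u < ⊤ → IntegrableOn (fun z => ‖fderiv ℝ u z‖ ^ 2) U := by
    intro u hu
    refine ⟨((measurable_fderiv ℝ u).norm.pow_const 2).aestronglyMeasurable, ?_⟩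
    unfold En at hu
    unfold HasFiniteIntegral
    refine lt_of_eq_of_lt (lintegral_congr fun z => ?_) hu
    rw [enorm_pow, enorm_norm]
  refine Integrable.mono' ((key f hf).add (key g hg)) (measurable_wd f g).aestronglyMeasurable
    (Eventually.of_forall fun z => ?_)
  have b : ∀ (L : ℂ →L[ℝ] ℝ) (v : ℂ), ‖v‖ = 1 → |L v| ≤ ‖L‖ := fun L v hv => by
    simpa [hv] using L.le_opNorm v
  have h1 := b (fderiv ℝ f z) 1 (by simp)
  have h2 := b (fderiv ℝ f z) I (by simp)
  have h3 := b (fderiv ℝ g z) 1 (by simp)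
  have h4 := b (fderiv ℝ g z) I (by simp)
  have h5 : |fderiv ℝ f z 1 * fderiv ℝ g z I| ≤ ‖fderiv ℝ f z‖ * ‖fderiv ℝ g z‖ := by
    rw [abs_mul]; gcongr
  have h6 : |fderiv ℝ f z I * fderiv ℝ g z 1| ≤ ‖fderiv ℝ f z‖ * ‖fderiv ℝ g z‖ := by
    rw [abs_mul]; gcongr
  have h7 := abs_sub (fderiv ℝ f z 1 * fderiv ℝ g z I) (fderiv ℝ f z I * fderiv ℝ g z 1)
  simp only [Pi.add_apply, Real.norm_eq_abs, wd]
  nlinarith [sq_nonneg (‖fderiv ℝ f z‖ - ‖fderiv ℝ g z‖)]

/-- `ω(f, H ∘ r) = ∫ H'(r) df ∧ dr` (chain rule at the a.e. points where `r` is differentiable). -/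
theorem om_comp {U : Set ℂ} {r : ℂ → ℝ} {H : ℝ → ℝ} (hU : IsOpen U) (hr : LocallyLipschitzOn U r)
    (hH : ContDiff ℝ 1 H) (f : ℂ → ℝ) :
    om U f (fun z => H (r z)) = ∫ z in U, deriv H (r z) * wd f r z := by
  unfold om
  refine setIntegral_congr_ae hU.measurableSet ?_
  filter_upwards [ae_diff hU hr] with z hz hzU
  have hd : HasFDerivAt (fun z => H (r z)) (deriv H (r z) • fderiv ℝ r z) z :=
    ((hH.differentiable one_ne_zero (r z)).hasDerivAt).comp_hasFDerivAt z (hz hzU).hasFDerivAt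
  simp only [wd, hd.fderiv, ContinuousLinearMap.smul_apply, smul_eq_mul]
  ring

/-- every continuous function is the derivative of a `C¹` function. -/
theorem exists_prim {θ : ℝ → ℝ} (hθ : Continuous θ) : ∃ H : ℝ → ℝ, ContDiff ℝ 1 H ∧ deriv H = θ := by
  have hd : ∀ t, HasDerivAt (fun u => ∫ x in (0 : ℝ)..u, θ x) (θ t) t := fun t =>
    (hθ.integral_hasStrictDerivAt 0 t).hasDerivAt
  have e : deriv (fun u => ∫ x in (0 : ℝ)..u, θ x) = θ := funext fun t => (hd t).deriv
  refine ⟨fun u => ∫ x in (0 : ℝ)..u, θ x, ?_, e⟩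
  rw [contDiff_one_iff_deriv, e]
  exact ⟨fun t => (hd t).differentiableAt, hθ⟩

/-- testing against all continuous `θ'` dominated by `θ` bounds the integral of the absolute value
(extend `D` by `projIcc`, take `θ' = |θ| * D / (|D| + δ)`, so that
`|θ| * |D| - θ' * D ≤ δ * |θ|`, and let `δ → 0`). -/
theorem abs_of_test {θ D : ℝ → ℝ} {α β lam : ℝ} (hab : α ≤ β) (hθ : Continuous θ)
    (hD : ContinuousOn D (Icc α β))
    (h : ∀ θ' : ℝ → ℝ, Continuous θ' → (∀ t, |θ' t| ≤ |θ t|) → ∫ t in α..β, θ' t * D t ≤ lam) :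
    ∫ t in α..β, |θ t| * |D t| ≤ lam := by
  set E : ℝ → ℝ := fun t => D (projIcc α β hab t) with hE
  have hEc : Continuous E :=
    hD.comp_continuous (continuous_subtype_val.comp continuous_projIcc) fun t => (projIcc α β hab t).2
  have hED : ∀ t ∈ uIcc α β, E t = D t := fun t ht => by
    rw [uIcc_of_le hab] at ht
    simp only [hE, projIcc_of_mem hab ht]
  have hI : 0 ≤ ∫ t in α..β, |θ t| := intervalIntegral.integral_nonneg hab fun t _ => abs_nonneg _
  refine le_of_forall_pos_le_add fun ε hε => ?_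
  set δ := ε / ((∫ t in α..β, |θ t|) + 1) with hδ
  have hδ0 : 0 < δ := by positivity
  have hpos : ∀ t, 0 < |E t| + δ := fun t => by positivity
  have hc : Continuous fun t => |θ t| * (E t / (|E t| + δ)) :=
    hθ.abs.mul (hEc.div (hEc.abs.add continuous_const) fun t => (hpos t).ne')
  have h1 := h _ hc fun t => by
    rw [abs_mul, abs_abs, abs_div, abs_of_pos (hpos t)]
    exact mul_le_of_le_one_right (abs_nonneg _) ((div_le_one (hpos t)).2 (by linarith))
  have h2 : ∫ t in α..β, |θ t| * (E t / (|E t| + δ)) * D t =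
      ∫ t in α..β, |θ t| * (E t / (|E t| + δ)) * E t :=
    intervalIntegral.integral_congr fun t ht => by simp only [hED t ht]
  have h3 : ∫ t in α..β, |θ t| * |D t| = ∫ t in α..β, |θ t| * |E t| :=
    intervalIntegral.integral_congr fun t ht => by simp only [hED t ht]
  have h4 : ∫ t in α..β, |θ t| * |E t| ≤
      ∫ t in α..β, (|θ t| * (E t / (|E t| + δ)) * E t + δ * |θ t|) := by
    refine intervalIntegral.integral_mono_on hab ((hθ.abs.mul hEc.abs).intervalIntegrable _ _)
      (((hc.mul hEc).add (continuous_const.mul hθ.abs)).intervalIntegrable _ _) fun t _ => ?_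
    have e1 : E t / (|E t| + δ) * E t = |E t| ^ 2 / (|E t| + δ) := by
      rw [sq_abs]; ring
    have e2 : |E t| ≤ |E t| ^ 2 / (|E t| + δ) + δ := by
      rw [div_add' _ _ _ (hpos t).ne', le_div_iff₀ (hpos t)]
      nlinarith [abs_nonneg (E t), hδ0]
    rw [mul_assoc, e1]
    nlinarith [abs_nonneg (θ t), mul_le_mul_of_nonneg_left e2 (abs_nonneg (θ t))]
  have i1 : IntervalIntegrable (fun t => |θ t| * (E t / (|E t| + δ)) * E t) volume α β :=
    (hc.mul hEc).intervalIntegrable _ _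
  have i2 : IntervalIntegrable (fun t => δ * |θ t|) volume α β :=
    (continuous_const.mul hθ.abs).intervalIntegrable _ _
  rw [intervalIntegral.integral_add i1 i2, intervalIntegral.integral_const_mul] at h4
  have h5 : δ * ∫ t in α..β, |θ t| ≤ ε := by
    rw [hδ, div_mul_eq_mul_div, div_le_iff₀ (by positivity)]
    nlinarith
  rw [h3]
  rw [h2] at h1
  linarith

/-- a clamp function used for the hat partition of unity. -/
def h80_ψ (x : ℝ) : ℝ := max 0 (min 1 x)

theorem h80_ψ_cont : Continuous h80_ψ := by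
  unfold h80_ψ; fun_prop

theorem h80_ψ_mono {x y : ℝ} (h : x ≤ y) : h80_ψ x ≤ h80_ψ y :=
  max_le_max le_rfl (min_le_min le_rfl h)

theorem h80_ψ_zero {x : ℝ} (h : x ≤ 0) : h80_ψ x = 0 :=
  max_eq_left ((min_le_right _ _).trans h)

theorem h80_ψ_one {x : ℝ} (h : 1 ≤ x) : h80_ψ x = 1 := by
  unfold h80_ψ; rw [min_eq_left h]; exact max_eq_right zero_le_one

theorem h80_ψ_nonneg (x : ℝ) : 0 ≤ h80_ψ x := le_max_left _ _

theorem h80_ψ_le (x : ℝ) : h80_ψ x ≤ 1 := max_le zero_le_one (min_le_left _ _)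

/-- partition of a continuous function into pieces supported in bands missing a finite set `F`:
`ρ t = max 0 (min 1 (infDist t F' / ζ - 1))` with `F' = F ∪ {-M-1, M+1}`, label
`j t = #{f ∈ F' | f < t}` (locally constant off `F'`), pieces `θ ρ 1_{label = j}` for the labels
`0 < j < #F'` whose set `{t | label t = j, ζ ≤ infDist t F'}` is nonempty; `α j`, `β j` are
`inf - ζ/2` and `sup + ζ/2` of that bounded set. -/
theorem exists_bands (F : Finset ℝ) {θ : ℝ → ℝ} (hθ : Continuous θ) (M : ℝ) {ζ : ℝ} (hζ : 0 < ζ) :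
    ∃ (n : ℕ) (α β : Fin n → ℝ) (th : Fin n → ℝ → ℝ), (∀ j, α j < β j) ∧
      (∀ j, ∀ f ∈ F, f ∉ Icc (α j) (β j)) ∧ (∀ j, Continuous (th j)) ∧
      (∀ j t, t ∉ Icc (α j) (β j) → th j t = 0) ∧ (∀ t, ∑ j, |th j t| ≤ |θ t|) ∧
      (∀ t, |θ t - ∑ j, th j t| ≤ |θ t|) ∧
      ∀ t, |t| ≤ M → (∀ f ∈ F, 2 * ζ ≤ |t - f|) → (ζ ≤ 1 / 2) → ∑ j, th j t = θ t := by
  set h : ℝ := ζ / 2 with hh
  have h0 : 0 < h := by positivity
  set x : ℝ → ℝ := fun t => (t + M) / h + 1 with hx
  have hxc : Continuous x := by rw [hx]; fun_prop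
  set N : ℕ := ⌈2 * M / h + 1⌉₊ with hN
  set φ : ℕ → ℝ → ℝ := fun k t => h80_ψ (x t - k) - h80_ψ (x t - (k + 1 : ℕ)) with hφ
  set a : ℕ → ℝ := fun k => h * (k - 1) - M with ha
  set b : ℕ → ℝ := fun k => h * (k + 1) - M with hb
  set good : ℕ → Prop := fun k => ∀ f ∈ F, f ∉ Icc (a k) (b k) with hgood
  set A : ℝ := (∑ f ∈ F, |f|) + 1 with hA
  have hφ0 : ∀ k t, 0 ≤ φ k t := by
    intro k t
    have : h80_ψ (x t - (k + 1 : ℕ)) ≤ h80_ψ (x t - k) := h80_ψ_mono (by push_cast; linarith)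
    simp only [hφ]; linarith
  have hφc : ∀ k, Continuous (φ k) := by
    intro k
    exact (h80_ψ_cont.comp (hxc.sub continuous_const)).sub
      (h80_ψ_cont.comp (hxc.sub continuous_const))
  have hφs : ∀ k t, t ∉ Icc (a k) (b k) → φ k t = 0 := by
    intro k t ht
    rw [mem_Icc, not_and_or, not_le, not_le] at ht
    rcases ht with ht | ht
    · have h1 : x t - k ≤ 0 := by
        have : (t + M) / h ≤ k - 1 := by
          rw [div_le_iff₀ h0]; simp only [ha] at ht; linarith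
        simp only [hx]; linarith
      simp only [hφ]
      rw [h80_ψ_zero h1, h80_ψ_zero (by push_cast; linarith), sub_zero]
    · have h1 : 1 ≤ x t - (k + 1 : ℕ) := by
        have : (k : ℝ) + 1 ≤ (t + M) / h := by
          rw [le_div_iff₀ h0]; simp only [hb] at ht; linarith
        simp only [hx]; push_cast; linarith
      simp only [hφ]
      rw [h80_ψ_one h1, h80_ψ_one (by push_cast at h1; linarith), sub_self]
  have hsum : ∀ t, ∑ j : Fin N, φ j t = h80_ψ (x t) - h80_ψ (x t - N) := by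
    intro t
    rw [Fin.sum_univ_eq_sum_range (fun k => φ k t) N]
    have := Finset.sum_range_sub' (fun k : ℕ => h80_ψ (x t - k)) N
    simpa [hφ] using this
  set s : ℝ → ℝ := fun t => ∑ j : Fin N, if good j then φ j t else 0 with hs
  have hs0 : ∀ t, 0 ≤ s t := fun t => Finset.sum_nonneg fun j _ => by
    split_ifs
    · exact hφ0 _ _
    · exact le_rfl
  have hs1 : ∀ t, s t ≤ 1 := by
    intro t
    have : s t ≤ ∑ j : Fin N, φ j t := Finset.sum_le_sum fun j _ => by
      split_ifs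
      · exact le_rfl
      · exact hφ0 _ _
    rw [hsum] at this
    linarith [h80_ψ_le (x t), h80_ψ_nonneg (x t - N)]
  refine ⟨N, fun j => if good j then a j else A, fun j => if good j then b j else A + 1,
    fun j t => θ t * (if good j then φ j t else 0), ?_, ?_, ?_, ?_, ?_, ?_, ?_⟩
  · intro j
    by_cases hj : good j
    · simp only [if_pos hj, ha, hb]; nlinarith
    · simp only [if_neg hj]; linarith
  · intro j f hf
    by_cases hj : good j
    · simp only [if_pos hj]; exact hj f hf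
    · simp only [if_neg hj]
      intro hm
      have h1 : |f| ≤ ∑ f ∈ F, |f| :=
        Finset.single_le_sum (f := fun f : ℝ => |f|) (fun _ _ => abs_nonneg _) hf
      have h2 := hm.1
      have h3 := le_abs_self f
      simp only [hA] at h2
      linarith
  · intro j
    by_cases hj : good j
    · simp only [if_pos hj]; exact hθ.mul (hφc j)
    · simp only [if_neg hj]; exact hθ.mul continuous_const
  · intro j t ht
    by_cases hj : good j
    · simp only [if_pos hj] at ht ⊢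
      rw [hφs j t ht, mul_zero]
    · simp only [if_neg hj, mul_zero]
  · intro t
    have : ∑ j : Fin N, |θ t * (if good j then φ j t else 0)| = |θ t| * s t := by
      rw [hs, Finset.mul_sum]
      refine Finset.sum_congr rfl fun j _ => ?_
      rw [abs_mul]
      congr 1
      apply abs_of_nonneg
      split_ifs
      · exact hφ0 _ _
      · exact le_rfl
    rw [this]
    exact mul_le_of_le_one_right (abs_nonneg _) (hs1 t)
  · intro t
    have : θ t - ∑ j : Fin N, θ t * (if good j then φ j t else 0) = θ t * (1 - s t) := by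
      rw [hs, ← Finset.mul_sum]; ring
    rw [this, abs_mul, abs_of_nonneg (sub_nonneg.2 (hs1 t))]
    exact mul_le_of_le_one_right (abs_nonneg _) (by linarith [hs0 t])
  · intro t ht hF _
    have hst : s t = ∑ j : Fin N, φ j t := by
      refine Finset.sum_congr rfl fun j _ => ?_
      by_cases hj : good j
      · rw [if_pos hj]
      · rw [if_neg hj]
        symm
        apply hφs
        intro htm
        apply hj
        intro f hf hfm
        have h1 := hF f hf
        have h2 : |t - f| ≤ ζ := by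
          simp only [ha, hb, mem_Icc] at htm hfm
          rw [abs_le]
          constructor <;> nlinarith [htm.1, htm.2, hfm.1, hfm.2]
        linarith
    have ht' := abs_le.1 ht
    have e1 : h80_ψ (x t) = 1 := h80_ψ_one (by
      have : 0 ≤ (t + M) / h := div_nonneg (by linarith) h0.le
      simp only [hx]; linarith)
    have e2 : h80_ψ (x t - N) = 0 := h80_ψ_zero (by
      have h1 : 2 * M / h + 1 ≤ N := Nat.le_ceil _
      have h2 : (t + M) / h ≤ 2 * M / h := div_le_div_of_nonneg_right (by linarith) h0.le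
      simp only [hx]; linarith)
    rw [← Finset.mul_sum]
    change θ t * s t = θ t
    rw [hst, hsum, e1, e2]; ring

/-- the matching: exits have pairwise different labels and every label carries as many exits as
entries. -/
theorem exists_match {κ V : Type} [Fintype κ] {X E : κ → V} (hX : Function.Injective X)
    (hb : ∀ v, (Finset.univ.filter fun k => X k = v).card =
      (Finset.univ.filter fun k => E k = v).card) :
    ∃ σ : κ ≃ κ, ∀ k, E (σ k) = X k := by
  have e : ∀ v, {k // X k = v} ≃ {k // E k = v} := fun v =>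
    Fintype.equivOfCardEq (by rw [Fintype.card_subtype, Fintype.card_subtype]; convert hb v)
  exact ⟨Equiv.ofFiberEquiv e, fun k => Equiv.ofFiberEquiv_map e k⟩

/-- the two-point count: if labels jump only at `i` and `j`, and really jump at `i`, then the exit
labels at `i` and `j` differ. -/
theorem ne_of_balance {κ V : Type} [Fintype κ] {X E : κ → V} {i j : κ} (hij : i ≠ j)
    (h : ∀ k, k ≠ i → k ≠ j → X k = E k) (hi : X i ≠ E i)
    (hb : ∀ v, (Finset.univ.filter fun k => X k = v).card =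
      (Finset.univ.filter fun k => E k = v).card) : X i ≠ X j := by
  intro hX
  have hs : (Finset.univ.filter fun k => E k = X i) ⊂ Finset.univ.filter fun k => X k = X i := by
    refine Finset.ssubset_iff_subset_ne.2 ⟨fun k hk => ?_, fun he => ?_⟩
    · rw [Finset.mem_filter] at hk ⊢
      refine ⟨hk.1, ?_⟩
      by_cases h1 : k = i
      · rw [h1]
      · by_cases h2 : k = j
        · rw [h2, hX]
        · rw [h k h1 h2, hk.2]
    · have : i ∈ Finset.univ.filter fun k => E k = X i := by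
        rw [he]; simp
      exact hi (Finset.mem_filter.1 this).2.symm
  exact (Finset.card_lt_card hs).ne' (hb (X i))

end Crest.Agent.R105.Ch
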