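import Crest.Agent.R105.CAtom

/-! Row 105, block CH: the estimate in one band. -/

set_option autoImplicit false

noncomputable section

namespace Crest.Agent.R105.Ch

open MeasureTheory Filter Topology Set Metric Complex
open scoped ContDiff Classical

variable {U : Set ℂ} {r : ℂ → ℝ} {κ : Type}

/-- mass of `θ` on the cluster interval of `q` -/
def iq (Λ : Lumps U) (r : ℂ → ℝ) (θ : ℝ → ℝ) (q : Λ.E) : ℝ :=
  ∫ t in Icc (Λ.lo r q) (Λ.hi r q), |θ t|

/-- admissibility for one generator, in terms of `θ = H'` -/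
def Adm1 (Λ : Lumps U) (F : Finset Λ.E) (r u : ℂ → ℝ) (e : Λ.E → ℝ) : Prop :=
  ∀ θ : ℝ → ℝ, Continuous θ → ∀ χ, A0 U χ → (∀ p ∈ F, Λ.val χ p = 0) →
    |∫ z in U, θ (r z) * wd (fun z => u z * χ z) r z| ≤
      ∑' q, e q * (|Λ.val χ q| * iq Λ r θ q)

/-- `exists_prim`, `om_comp_right` -/
theorem adm1_of_adm (hU : IsOpen U) {Λ : Lumps U} {M : Set (ℂ → ℝ)} {F : Finset Λ.E}
    {u : ℂ → ℝ} {e : Λ.E → ℝ} (h : Adm Λ M F u e) (hM : r ∈ M) (hr : XX U r) :
    Adm1 Λ F r u e := by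
  intro θ hθ χ hχ hF
  obtain ⟨H, hH, hd⟩ := exists_prim hθ
  have := h.le r hM H hH χ hχ hF
  rw [om_comp_right hU hH hr.lip] at this
  simpa only [wt, iq, hd] using this

/-- `wt_l2` with `χ = 1` (`exists_prim`, `A0.const`, `val_eq`) -/
theorem iq_l2 {Λ : Lumps U} (hr : Reg Λ r) {θ : ℝ → ℝ} (hθ : Continuous θ) :
    L2w (iq Λ r θ) := by
  obtain ⟨H, hH, hd⟩ := exists_prim hθ
  have h := wt_l2 Λ hr hH (Crest.Agent.R105.A0.const (U := U) 1)
  have e : wt Λ r H (fun _ => 1) = iq Λ r θ := funext fun q => by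
    have hv : Λ.val (fun _ => (1 : ℝ)) q = 1 :=
      (val_eq Λ (n := 0) ⟨1, fun _ _ => by simp⟩ fun _ _ => rfl).1
    simp only [wt, iq, hd, hv, abs_one, one_mul]
  rwa [e] at h

theorem iq_mono (Λ : Lumps U) (r : ℂ → ℝ) {θ θ' : ℝ → ℝ} (hθ : Continuous θ) (hθ' : Continuous θ')
    (h : ∀ t, |θ' t| ≤ |θ t|) (q : Λ.E) : iq Λ r θ' q ≤ iq Λ r θ q := by
  exact setIntegral_mono_on hθ'.abs.integrableOn_Icc hθ.abs.integrableOn_Icc measurableSet_Icc
    fun t _ => h t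

theorem iq_sum_le (Λ : Lumps U) (r : ℂ → ℝ) {θ : ℝ → ℝ} (hθ : Continuous θ) {n : ℕ}
    {th : Fin n → ℝ → ℝ} (hth : ∀ j, Continuous (th j)) (h : ∀ t, ∑ j, |th j t| ≤ |θ t|)
    (q : Λ.E) : ∑ j, iq Λ r (th j) q ≤ iq Λ r θ q := by
  unfold iq
  rw [← integral_finset_sum _ fun j _ => (hth j).abs.integrableOn_Icc]
  exact setIntegral_mono_on
    (continuous_finset_sum _ fun j _ => (hth j).abs).integrableOn_Icc hθ.abs.integrableOn_Icc
    measurableSet_Icc fun t _ => h t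

theorem h93_a_le [Fintype κ] {Λ : Lumps U} {B : κ → Box U r} {α β : ℝ} {F : Finset Λ.E}
    {a : κ → ℂ → ℝ} {σ : κ ≃ κ} (ha : Atoms Λ B α β F a σ) (k : κ) (z : ℂ) : |a k z| ≤ 1 := by
  rw [abs_of_nonneg (ha.nonneg k z)]
  exact (Finset.single_le_sum (f := fun l => a l z) (fun l _ => ha.nonneg l z)
    (Finset.mem_univ k)).trans (ha.sum_le z)

theorem h93_int [Fintype κ] (hU : IsOpen U) {Λ : Lumps U} (hr : Reg Λ r) {B : κ → Box U r}
    {α β : ℝ} {F : Finset Λ.E} {a : κ → ℂ → ℝ} {σ : κ ≃ κ}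
    (ha : Atoms Λ B α β F a σ) {u : ℂ → ℝ} (hu : XX U u) {θ : ℝ → ℝ} (hθ : Continuous θ) (k : κ) :
    IntegrableOn (fun z => |θ (r z)| * (a k z * |wd u r z|)) (Rs B) := by
  have hm := measurableSet_Rs hU B
  have hsub : Rs B ⊆ U := diff_subset
  have hi : IntegrableOn (wd u r) U := integrableOn_wd hu.en hr.xx.en
  have hi1 : IntegrableOn (fun z => a k z * |wd u r z|) (Rs B) :=
    Integrable.bdd_mul (c := 1) (Integrable.abs (hi.mono_set hsub))
      (((ha.a0 k).xx.lip.continuousOn.mono hsub).aestronglyMeasurable hm)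
      (Eventually.of_forall (h93_a_le ha k))
  exact integrableOn_th hU hr.xx.lip.continuousOn hr.bdd (θ := fun t => |θ t|) hθ.abs hm hsub hi1

theorem h93_val [Fintype κ] {Λ : Lumps U} {B : κ → Box U r} {α β : ℝ} {F : Finset Λ.E}
    {a : κ → ℂ → ℝ} {σ : κ ≃ κ} (ha : Atoms Λ B α β F a σ) (k : κ) (q : Λ.E) :
    0 ≤ Λ.val (a k) q ∧ Λ.val (a k) q ≤ 1 := by
  rcases ha.val01 k q with h | h <;> rw [h] <;> norm_num

theorem h93_summ [Fintype κ] {Λ : Lumps U} (hr : Reg Λ r) {B : κ → Box U r} {α β : ℝ}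
    {F : Finset Λ.E} {a : κ → ℂ → ℝ} {σ : κ ≃ κ} (ha : Atoms Λ B α β F a σ) {e : Λ.E → ℝ}
    (he : L2w e) {θ : ℝ → ℝ} (hθ : Continuous θ) (k : κ) :
    Summable fun q => e q * (|Λ.val (a k) q| * iq Λ r θ q) := by
  have hq := iq_l2 hr hθ
  refine Summable.of_nonneg_of_le
    (fun q => mul_nonneg (he.1 q) (mul_nonneg (abs_nonneg _) (hq.1 q))) (fun q => ?_)
    (L2w.summable_mul he hq).1
  refine mul_le_mul_of_nonneg_left ?_ (he.1 q)
  rw [abs_of_nonneg (h93_val ha k q).1]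
  exact mul_le_of_le_one_left (hq.1 q) (h93_val ha k q).2

/-- one atom free of excluded ends: `abs_of_test` with `D t = u (x k t) - u (e (σ k) t)`; for
`|θ'| ≤ |θ|` (so `θ'` vanishes off the band) `Band.test` with `ax l = if l = k then 1 else 0`,
`ae l = if l = σ k then 1 else 0` gives `∫ θ' D = ∫_U θ'(r) wd (u a) r - ∫_R θ'(r) a wd u r`;
then `Adm1`, `iq_mono`, `iq_l2`, `L2w.summable_mul` (`|val| ≤ 1`). -/
theorem Atoms.one [Fintype κ] (hU : IsOpen U) {Λ : Lumps U} (hr : Reg Λ r) {B : κ → Box U r}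
    {α β : ℝ} (h : Band B α β) {F : Finset Λ.E} {a : κ → ℂ → ℝ} {σ : κ ≃ κ}
    (ha : Atoms Λ B α β F a σ) {u : ℂ → ℝ} {e : Λ.E → ℝ} (hu : XX U u) (he : L2w e)
    (hA : Adm1 Λ F r u e) {θ : ℝ → ℝ} (hθ : Continuous θ) (h0 : ∀ t, t ∉ Icc α β → θ t = 0)
    (k : κ) (hk : ∀ p ∈ F, Λ.val (a k) p = 0) :
    ∫ t in α..β, |θ t| * |u ((B k).x t) - u ((B (σ k)).e t)| ≤
      (∑' q, e q * (|Λ.val (a k) q| * iq Λ r θ q)) +
        ∫ z in Rs B, |θ (r z)| * (a k z * |wd u r z|) := by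
  have hab := h.lt.le
  have hrc : ContinuousOn r U := hr.xx.lip.continuousOn
  have hI : ∀ l, Icc α β ⊆ Icc (B l).lo (B l).hi := fun l =>
    Icc_subset_Icc (h.act l).1.le (h.act l).2.le
  have cx : ∀ l, ContinuousOn (fun t => u ((B l).x t)) (Icc α β) := fun l =>
    hu.lip.continuousOn.comp ((B l).cx.mono (hI l))
      (fun t ht => (B l).sub ((B l).x_mem t (hI l ht)).1)
  have ce : ∀ l, ContinuousOn (fun t => u ((B l).e t)) (Icc α β) := fun l =>
    hu.lip.continuousOn.comp ((B l).ce.mono (hI l))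
      (fun t ht => (B l).sub ((B l).e_mem t (hI l ht)).1)
  have hi : IntegrableOn (wd u r) U := integrableOn_wd hu.en hr.xx.en
  refine abs_of_test (D := fun t => u ((B k).x t) - u ((B (σ k)).e t)) hab hθ
    ((cx k).sub (ce (σ k))) fun θ' hθ' hle => ?_
  have h0' : ∀ t, t ∉ Icc α β → θ' t = 0 := fun t ht => by
    have := hle t
    rw [h0 t ht, abs_zero] at this
    exact abs_nonpos_iff.1 this
  obtain ⟨i1, e1⟩ := h.test hU hrc hr.bdd hu.lip hi (ha.a0 k).xx.lip (h93_a_le ha k) (ha.loc k)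
    (ax := fun l => if l = k then 1 else 0) (ae := fun l => if l = σ k then 1 else 0)
    (fun l t ht => ha.ax k l t ht) (fun l t ht => ha.ae k l t ht) hθ' h0'
  have e2 : ∑ l, ∫ t in α..β, θ' t * ((if l = k then 1 else 0) * u ((B l).x t) -
      (if l = σ k then 1 else 0) * u ((B l).e t)) =
      ∫ t in α..β, θ' t * (u ((B k).x t) - u ((B (σ k)).e t)) := by
    rw [← intervalIntegral.integral_finsetSum]
    · refine intervalIntegral.integral_congr fun t _ => ?_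
      simp only [← Finset.mul_sum, Finset.sum_sub_distrib, ite_mul, one_mul, zero_mul,
        Finset.sum_ite_eq', Finset.mem_univ, if_true]
    · intro l _
      refine ContinuousOn.intervalIntegrable ?_
      rw [uIcc_of_le hab]
      exact hθ'.continuousOn.mul ((continuousOn_const.mul (cx l)).sub
        (continuousOn_const.mul (ce l)))
  rw [e2] at e1
  have b1 := (le_abs_self _).trans (hA θ' hθ' (a k) (ha.a0 k) hk)
  have b2 : ∑' q, e q * (|Λ.val (a k) q| * iq Λ r θ' q) ≤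
      ∑' q, e q * (|Λ.val (a k) q| * iq Λ r θ q) :=
    Summable.tsum_le_tsum (fun q => mul_le_mul_of_nonneg_left
      (mul_le_mul_of_nonneg_left (iq_mono Λ r hθ hθ' hle q) (abs_nonneg _)) (he.1 q))
      (h93_summ hr ha he hθ' k) (h93_summ hr ha he hθ k)
  have b3 : -∫ z in Rs B, θ' (r z) * (a k z * wd u r z) ≤
      ∫ z in Rs B, |θ (r z)| * (a k z * |wd u r z|) := by
    rw [← integral_neg]
    refine integral_mono i1.neg (h93_int hU hr ha hu hθ k) fun z => ?_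
    refine (neg_le_abs _).trans ?_
    rw [abs_mul, abs_mul, abs_of_nonneg (ha.nonneg k z)]
    exact mul_le_mul_of_nonneg_right (hle _) (mul_nonneg (ha.nonneg k z) (abs_nonneg _))
  linarith

/-- summing over the atoms free of excluded ends (`Summable.tsum_finsetSum`, `val_sum`, `val01`,
`sum_le`, `integral_finset_sum`, `Band.test`/`integrableOn_th` for integrability). -/
theorem Atoms.sum [Fintype κ] (hU : IsOpen U) {Λ : Lumps U} (hr : Reg Λ r) {B : κ → Box U r}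
    {α β : ℝ} (h : Band B α β) {F : Finset Λ.E} {a : κ → ℂ → ℝ} {σ : κ ≃ κ}
    (ha : Atoms Λ B α β F a σ) {u : ℂ → ℝ} {e : Λ.E → ℝ} (hu : XX U u) (he : L2w e)
    (hA : Adm1 Λ F r u e) {θ : ℝ → ℝ} (hθ : Continuous θ) (h0 : ∀ t, t ∉ Icc α β → θ t = 0) :
    ∑ k ∈ Finset.univ.filter (fun k => ∀ p ∈ F, Λ.val (a k) p = 0),
        ∫ t in α..β, |θ t| * |u ((B k).x t) - u ((B (σ k)).e t)| ≤
      (∑' q, (if q ∈ F then 0 else e q) * iq Λ r θ q) +
        ∫ z in Rs B, |θ (r z)| * |wd u r z| := by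
  set S := Finset.univ.filter (fun k => ∀ p ∈ F, Λ.val (a k) p = 0) with hS
  have hq := iq_l2 hr hθ
  have hm := measurableSet_Rs hU B
  have hsub : Rs B ⊆ U := diff_subset
  refine (Finset.sum_le_sum fun k hk =>
    ha.one hU hr h hu he hA hθ h0 k (Finset.mem_filter.1 hk).2).trans ?_
  rw [Finset.sum_add_distrib]
  refine add_le_add ?_ ?_
  · rw [← Summable.tsum_finsetSum fun k _ => h93_summ hr ha he hθ k]
    refine Summable.tsum_le_tsum (fun q => ?_)
      (summable_sum fun k _ => h93_summ hr ha he hθ k) ?_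
    · by_cases hqF : q ∈ F
      · rw [if_pos hqF, zero_mul]
        refine le_of_eq (Finset.sum_eq_zero fun k hk => ?_)
        rw [(Finset.mem_filter.1 hk).2 q hqF, abs_zero, zero_mul, mul_zero]
      · rw [if_neg hqF, ← Finset.mul_sum, ← Finset.sum_mul]
        refine mul_le_mul_of_nonneg_left (mul_le_of_le_one_left (hq.1 q) ?_) (he.1 q)
        refine le_trans ?_ (ha.val_sum q)
        refine (Finset.sum_le_sum fun k _ => (abs_of_nonneg (h93_val ha k q).1).le).trans ?_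
        exact Finset.sum_le_sum_of_subset_of_nonneg (Finset.subset_univ _)
          fun k _ _ => (h93_val ha k q).1
    · refine Summable.of_nonneg_of_le (fun q => mul_nonneg ?_ (hq.1 q)) (fun q => ?_)
        (L2w.summable_mul he hq).1
      · split_ifs
        · exact le_rfl
        · exact he.1 q
      · refine mul_le_mul_of_nonneg_right ?_ (hq.1 q)
        split_ifs
        · exact he.1 q
        · exact le_rfl
  · rw [← integral_finsetSum _ fun k _ => h93_int hU hr ha hu hθ k]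
    have hi : IntegrableOn (wd u r) U := integrableOn_wd hu.en hr.xx.en
    refine integral_mono (integrable_finsetSum _ fun k _ => h93_int hU hr ha hu hθ k)
      (integrableOn_th hU hr.xx.lip.continuousOn hr.bdd (θ := fun t => |θ t|) hθ.abs hm hsub
        (Integrable.abs (hi.mono_set hsub))) fun z => ?_
    simp only
    rw [← Finset.mul_sum, ← Finset.sum_mul]
    refine mul_le_mul_of_nonneg_left (mul_le_of_le_one_left (abs_nonneg _) ?_) (abs_nonneg _)
    exact (Finset.sum_le_sum_of_subset_of_nonneg (Finset.subset_univ _)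
      fun k _ _ => ha.nonneg k z).trans (ha.sum_le z)

/-- the atoms containing an excluded end: each such atom `k` has `p ∈ F` with `val (a k) p = 1`,
`[α, β] ⊆ I_p` (so `∫ α..β |θ| ≤ iq θ p`), and `p` determines `k` (`val_sum`, `val01`); e.g.
`∑_{k bad} c ≤ ∑_k ∑_{p ∈ F} val (a k) p * iq θ p ≤ ∑_{p ∈ F} iq θ p`. -/
theorem Atoms.bad [Fintype κ] {Λ : Lumps U} {B : κ → Box U r}
    {α β : ℝ} (h : Band B α β) {F : Finset Λ.E} {a : κ → ℂ → ℝ} {σ : κ ≃ κ}
    (ha : Atoms Λ B α β F a σ) {θ : ℝ → ℝ} (hθ : Continuous θ) :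
    ∑ _k ∈ Finset.univ.filter (fun k => ¬ ∀ p ∈ F, Λ.val (a k) p = 0), ∫ t in α..β, |θ t| ≤
      ∑ p ∈ F, iq Λ r θ p := by
  have hv : ∀ k q, 0 ≤ Λ.val (a k) q := fun k q => by
    rcases ha.val01 k q with e | e <;> simp [e]
  have hi : ∀ q, 0 ≤ iq Λ r θ q := fun q => integral_nonneg fun _ => abs_nonneg _
  calc ∑ _k ∈ Finset.univ.filter (fun k => ¬ ∀ p ∈ F, Λ.val (a k) p = 0), ∫ t in α..β, |θ t|
      ≤ ∑ k ∈ Finset.univ.filter (fun k => ¬ ∀ p ∈ F, Λ.val (a k) p = 0),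
          ∑ p ∈ F, Λ.val (a k) p * iq Λ r θ p := by
        refine Finset.sum_le_sum fun k hk => ?_
        obtain ⟨p, hp, hne⟩ : ∃ p ∈ F, Λ.val (a k) p ≠ 0 := by
          simpa using (Finset.mem_filter.1 hk).2
        refine le_trans ?_ (Finset.single_le_sum (fun q _ => mul_nonneg (hv k q) (hi q)) hp)
        rw [(ha.val01 k p).resolve_left hne, one_mul, intervalIntegral.integral_of_le h.lt.le,
          ← integral_Icc_eq_integral_Ioc]
        exact setIntegral_mono_set hθ.abs.integrableOn_Icc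
          (Eventually.of_forall fun _ => abs_nonneg _) (ha.excl k p hp hne).eventuallyLE
    _ ≤ ∑ k, ∑ p ∈ F, Λ.val (a k) p * iq Λ r θ p :=
        Finset.sum_le_sum_of_subset_of_nonneg (Finset.filter_subset _ _) fun k _ _ =>
          Finset.sum_nonneg fun q _ => mul_nonneg (hv k q) (hi q)
    _ ≤ ∑ p ∈ F, iq Λ r θ p := by
        rw [Finset.sum_comm]
        refine Finset.sum_le_sum fun p _ => ?_
        rw [← Finset.sum_mul]
        exact mul_le_of_le_one_left (hi p) (ha.val_sum p)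

/-- pointwise a.e. bound (`ae_diff`, `norm_fderiv_comp2_le` with the vector
`w = r_y • 1 - r_x • I`, for which `wd f r z = fderiv ℝ f z w`). -/
theorem wd_comp2_le (hU : IsOpen U) {u₁ u₂ : ℂ → ℝ} (h₁ : XX U u₁) (h₂ : XX U u₂)
    {G : ℝ → ℝ → ℝ} {L₁ L₂ : ℝ}
    (hG : ∀ s t s' t', |G s t - G s' t'| ≤ L₁ * |s - s'| + L₂ * |t - t'|) (r : ℂ → ℝ) :
    ∀ᵐ z ∂(volume : Measure ℂ), z ∈ U →
      |wd (fun z => G (u₁ z) (u₂ z)) r z| ≤ L₁ * |wd u₁ r z| + L₂ * |wd u₂ r z| := by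
  have e : ∀ (f : ℂ → ℝ) (z : ℂ), wd f r z =
      fderiv ℝ f z (fderiv ℝ r z I • (1 : ℂ) - fderiv ℝ r z 1 • I) := fun f z => by
    simp only [wd, map_sub, map_smul, smul_eq_mul]
    ring
  filter_upwards [ae_diff hU h₁.lip, ae_diff hU h₂.lip] with z a1 a2 hz
  simp only [e]
  exact norm_fderiv_comp2_le hG (a1 hz) (a2 hz) _

/-- the weight of the conclusion -/
theorem l2_hat {E : Type} (F : Finset E) {e₁ e₂ : E → ℝ} (h₁ : L2w e₁) (h₂ : L2w e₂)
    {L₁ L₂ Bc : ℝ} (hL₁ : 0 ≤ L₁) (hL₂ : 0 ≤ L₂) (hB : 0 ≤ Bc) :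
    L2w (fun q => if q ∈ F then Bc else L₁ * e₁ q + L₂ * e₂ q) := by
  have a1 : L2w fun q => if q ∈ F then Bc else 0 :=
    ⟨fun q => by dsimp only; split_ifs <;> simp [hB],
      summable_of_ne_finset_zero (s := F) fun q hq => by simp [hq]⟩
  have a2 := ((h₁.smul hL₁).1.add (h₂.smul hL₂).1).1
  refine ((a1.add a2).1.of_le (fun q => ?_) fun q => ?_).1
  · split_ifs
    · exact hB
    · exact a2.1 q
  · have := a2.1 q
    split_ifs <;> simp only at this <;> linarith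

/-- splitting of the weighted sum -/
theorem tsum_hat {E : Type} (F : Finset E) {e₁ e₂ w : E → ℝ} (h₁ : L2w e₁) (h₂ : L2w e₂)
    (hw : L2w w) (L₁ L₂ Bc : ℝ) :
    ∑' q, (if q ∈ F then Bc else L₁ * e₁ q + L₂ * e₂ q) * w q =
      L₁ * (∑' q, (if q ∈ F then 0 else e₁ q) * w q) +
        L₂ * (∑' q, (if q ∈ F then 0 else e₂ q) * w q) + Bc * ∑ p ∈ F, w p := by
  have a : ∀ {e : E → ℝ}, L2w e → Summable fun q => (if q ∈ F then 0 else e q) * w q :=
    fun {e} he => ((he.of_le (e := fun q => if q ∈ F then 0 else e q)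
      (fun q => by have := he.1 q; split_ifs <;> simp [this])
      (fun q => by have := he.1 q; split_ifs <;> simp [this])).1.summable_mul hw).1
  have b : HasSum (fun q => if q ∈ F then w q else 0) (∑ p ∈ F, w p) := by
    have := hasSum_sum_of_ne_finset_zero (L := SummationFilter.unconditional E)
      (f := fun q => if q ∈ F then w q else 0) (s := F) fun q hq => if_neg hq
    rwa [Finset.sum_congr rfl fun q hq => if_pos hq] at this
  rw [← ((((a h₁).hasSum.mul_left L₁).add ((a h₂).hasSum.mul_left L₂)).add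
    (b.mul_left Bc)).tsum_eq]
  refine tsum_congr fun q => ?_
  split_ifs <;> ring

/-- THE BAND ESTIMATE.  `Band.split` for `f = G (u₁, u₂)`; reindex the entries by `σ`
(`Equiv.sum_comp`): the box sum is `∑ k, ∫ θ (f (x k t) - f (e (σ k) t))`; good atoms by the
Lipschitz bound and `Atoms.sum`, bad atoms (then `F ≠ ∅`) by `|Δ f| ≤ Bc` and `Atoms.bad`;
the rest by `wd_comp2_le`; `tsum_hat`. -/
theorem Atoms.est [Fintype κ] (hU : IsOpen U) {Λ : Lumps U} (hr : Reg Λ r) {B : κ → Box U r}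
    {α β : ℝ} (h : Band B α β) {F : Finset Λ.E} {a : κ → ℂ → ℝ} {σ : κ ≃ κ}
    (ha : Atoms Λ B α β F a σ) {u₁ u₂ : ℂ → ℝ} {e₁ e₂ : Λ.E → ℝ} (h₁ : XX U u₁) (h₂ : XX U u₂)
    (he₁ : L2w e₁) (he₂ : L2w e₂) (hA₁ : Adm1 Λ F r u₁ e₁) (hA₂ : Adm1 Λ F r u₂ e₂)
    {G : ℝ → ℝ → ℝ} {L₁ L₂ Bc : ℝ} (hL₁ : 0 ≤ L₁) (hL₂ : 0 ≤ L₂) (hB : 0 ≤ Bc)
    (hG : ∀ s t s' t', |G s t - G s' t'| ≤ L₁ * |s - s'| + L₂ * |t - t'|)
    (hF : F = ∅ ∨ ∀ s t, |G s t| ≤ Bc / 2)
    {θ : ℝ → ℝ} (hθ : Continuous θ) (h0 : ∀ t, t ∉ Icc α β → θ t = 0) :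
    |∫ z in U, θ (r z) * wd (fun z => G (u₁ z) (u₂ z)) r z| ≤
      (∑' q, (if q ∈ F then Bc else L₁ * e₁ q + L₂ * e₂ q) * iq Λ r θ q) +
        2 * ∫ z in Rs B, |θ (r z)| * (L₁ * |wd u₁ r z| + L₂ * |wd u₂ r z|) := by
  have hf : XX U (fun z => G (u₁ z) (u₂ z)) := XX.comp2 hU hG h₁ h₂
  have hm := measurableSet_Rs hU B
  have hsub : Rs B ⊆ U := sdiff_subset
  have hrc := hr.xx.lip.continuousOn
  have hI : ∀ k, uIcc α β ⊆ Icc (B k).lo (B k).hi := fun k => by
    rw [uIcc_of_le h.lt.le]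
    exact Icc_subset_Icc (h.act k).1.le (h.act k).2.le
  have cx : ∀ {u : ℂ → ℝ}, XX U u → ∀ k, ContinuousOn (fun t => u ((B k).x t)) (uIcc α β) :=
    fun hu k => hu.lip.continuousOn.comp ((B k).cx.mono (hI k))
      fun t ht => (B k).sub ((B k).x_mem t (hI k ht)).1
  have ce : ∀ {u : ℂ → ℝ}, XX U u → ∀ k, ContinuousOn (fun t => u ((B k).e t)) (uIcc α β) :=
    fun hu k => hu.lip.continuousOn.comp ((B k).ce.mono (hI k))
      fun t ht => (B k).sub ((B k).e_mem t (hI k ht)).1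
  have iw : ∀ {u : ℂ → ℝ}, XX U u → IntegrableOn (wd u r) (Rs B) :=
    fun hu => (wd_integrableOn hu.en hr.xx.en).mono_set hsub
  have ia : ∀ {u : ℂ → ℝ}, XX U u → IntegrableOn (fun z => |θ (r z)| * |wd u r z|) (Rs B) :=
    fun hu => integrableOn_th hU hrc hr.bdd (θ := fun t => |θ t|) hθ.abs hm hsub (iw hu).abs
  have hi := integrableOn_th hU hrc hr.bdd hθ hm hsub (iw hf)
  have hsp := h.split hU hf.lip hθ h0 hi
  -- reindexing
  have hre : (∑ k, ∫ t in α..β, θ t * (G (u₁ ((B k).x t)) (u₂ ((B k).x t)) -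
      G (u₁ ((B k).e t)) (u₂ ((B k).e t)))) =
      ∑ k, ∫ t in α..β, θ t * (G (u₁ ((B k).x t)) (u₂ ((B k).x t)) -
        G (u₁ ((B (σ k)).e t)) (u₂ ((B (σ k)).e t))) := by
    have e1 : ∀ k l, (∫ t in α..β, θ t * (G (u₁ ((B k).x t)) (u₂ ((B k).x t)) -
        G (u₁ ((B l).e t)) (u₂ ((B l).e t)))) =
        (∫ t in α..β, θ t * G (u₁ ((B k).x t)) (u₂ ((B k).x t))) -
          ∫ t in α..β, θ t * G (u₁ ((B l).e t)) (u₂ ((B l).e t)) := by
      intro k l
      simp only [mul_sub]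
      exact intervalIntegral.integral_sub (hθ.continuousOn.mul (cx hf k)).intervalIntegrable
        (hθ.continuousOn.mul (ce hf l)).intervalIntegrable
    simp only [e1, Finset.sum_sub_distrib]
    rw [Equiv.sum_comp σ fun l => ∫ t in α..β, θ t * G (u₁ ((B l).e t)) (u₂ ((B l).e t))]
  -- the rest
  have hR : (∫ z in Rs B, |θ (r z)| * (L₁ * |wd u₁ r z| + L₂ * |wd u₂ r z|)) =
      L₁ * (∫ z in Rs B, |θ (r z)| * |wd u₁ r z|) + L₂ * ∫ z in Rs B, |θ (r z)| * |wd u₂ r z| := by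
    rw [← integral_const_mul, ← integral_const_mul,
      ← integral_add ((ia h₁).const_mul L₁) ((ia h₂).const_mul L₂)]
    exact integral_congr_ae (Eventually.of_forall fun z => by ring)
  have hrest : |∫ z in Rs B, θ (r z) * wd (fun z => G (u₁ z) (u₂ z)) r z| ≤
      ∫ z in Rs B, |θ (r z)| * (L₁ * |wd u₁ r z| + L₂ * |wd u₂ r z|) := by
    refine abs_integral_le_integral_abs.trans (integral_mono_ae hi.abs ?_ ?_)
    · refine (((ia h₁).const_mul L₁).add ((ia h₂).const_mul L₂)).congr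
        (Eventually.of_forall fun z => ?_)
      simp only [Pi.add_apply]; ring
    · filter_upwards [ae_restrict_of_ae (wd_comp2_le hU h₁ h₂ hG r), ae_restrict_mem hm]
        with z hz hzR
      rw [abs_mul]
      exact mul_le_mul_of_nonneg_left (hz (hsub hzR)) (abs_nonneg _)
  -- one atom
  have cd : ∀ {u : ℂ → ℝ}, XX U u → ∀ k, IntervalIntegrable
      (fun t => |θ t| * |u ((B k).x t) - u ((B (σ k)).e t)|) volume α β :=
    fun hu k => (hθ.abs.continuousOn.mul ((cx hu k).sub (ce hu (σ k))).abs).intervalIntegrable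
  have habs : ∀ k, |∫ t in α..β, θ t * (G (u₁ ((B k).x t)) (u₂ ((B k).x t)) -
        G (u₁ ((B (σ k)).e t)) (u₂ ((B (σ k)).e t)))| ≤
      ∫ t in α..β, |θ t| * |G (u₁ ((B k).x t)) (u₂ ((B k).x t)) -
        G (u₁ ((B (σ k)).e t)) (u₂ ((B (σ k)).e t))| := fun k => by
    refine (intervalIntegral.abs_integral_le_integral_abs h.lt.le).trans (le_of_eq ?_)
    simp only [abs_mul]
  have hgood : ∀ k, |∫ t in α..β, θ t * (G (u₁ ((B k).x t)) (u₂ ((B k).x t)) -
        G (u₁ ((B (σ k)).e t)) (u₂ ((B (σ k)).e t)))| ≤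
      L₁ * (∫ t in α..β, |θ t| * |u₁ ((B k).x t) - u₁ ((B (σ k)).e t)|) +
        L₂ * ∫ t in α..β, |θ t| * |u₂ ((B k).x t) - u₂ ((B (σ k)).e t)| := fun k => by
    refine (habs k).trans ?_
    rw [← intervalIntegral.integral_const_mul, ← intervalIntegral.integral_const_mul,
      ← intervalIntegral.integral_add ((cd h₁ k).const_mul L₁) ((cd h₂ k).const_mul L₂)]
    refine intervalIntegral.integral_mono_on h.lt.le (cd hf k)
      (((cd h₁ k).const_mul L₁).add ((cd h₂ k).const_mul L₂)) fun t _ => ?_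
    have := mul_le_mul_of_nonneg_left (hG (u₁ ((B k).x t)) (u₂ ((B k).x t))
      (u₁ ((B (σ k)).e t)) (u₂ ((B (σ k)).e t))) (abs_nonneg (θ t))
    linarith
  have hbad : ∀ k, (¬ ∀ p ∈ F, Λ.val (a k) p = 0) →
      |∫ t in α..β, θ t * (G (u₁ ((B k).x t)) (u₂ ((B k).x t)) -
        G (u₁ ((B (σ k)).e t)) (u₂ ((B (σ k)).e t)))| ≤ Bc * ∫ t in α..β, |θ t| := fun k hk => by
    have hF' : ∀ s t, |G s t| ≤ Bc / 2 := hF.resolve_left fun hF0 => hk (by simp [hF0])
    refine (habs k).trans ?_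
    rw [← intervalIntegral.integral_const_mul]
    refine intervalIntegral.integral_mono_on h.lt.le (cd hf k)
      ((hθ.abs.intervalIntegrable α β).const_mul Bc) fun t _ => ?_
    rw [mul_comm Bc]
    refine mul_le_mul_of_nonneg_left ((abs_sub _ _).trans ?_) (abs_nonneg _)
    linarith [hF' (u₁ ((B k).x t)) (u₂ ((B k).x t)),
      hF' (u₁ ((B (σ k)).e t)) (u₂ ((B (σ k)).e t))]
  have s1 := mul_le_mul_of_nonneg_left (ha.sum hU hr h h₁ he₁ hA₁ hθ h0) hL₁
  have s2 := mul_le_mul_of_nonneg_left (ha.sum hU hr h h₂ he₂ hA₂ hθ h0) hL₂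
  have s3 := mul_le_mul_of_nonneg_left (ha.bad h hθ) hB
  have g1 := Finset.sum_le_sum (s := Finset.univ.filter fun k => ∀ p ∈ F, Λ.val (a k) p = 0)
    fun k _ => hgood k
  have g2 := Finset.sum_le_sum (s := Finset.univ.filter fun k => ¬ ∀ p ∈ F, Λ.val (a k) p = 0)
    fun k hk => hbad k (Finset.mem_filter.1 hk).2
  rw [Finset.sum_add_distrib, ← Finset.mul_sum, ← Finset.mul_sum] at g1
  rw [← Finset.mul_sum] at g2
  have g3 := Finset.sum_filter_add_sum_filter_not Finset.univ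
    (fun k => ∀ p ∈ F, Λ.val (a k) p = 0)
    fun k => |∫ t in α..β, θ t * (G (u₁ ((B k).x t)) (u₂ ((B k).x t)) -
        G (u₁ ((B (σ k)).e t)) (u₂ ((B (σ k)).e t)))|
  have g4 := Finset.abs_sum_le_sum_abs
    (fun k => ∫ t in α..β, θ t * (G (u₁ ((B k).x t)) (u₂ ((B k).x t)) -
        G (u₁ ((B (σ k)).e t)) (u₂ ((B (σ k)).e t)))) Finset.univ
  rw [hsp, hre, tsum_hat F he₁ he₂ (iq_l2 hr hθ), hR]
  rw [hR] at hrest
  refine (abs_add_le _ _).trans ?_
  linarith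

end Crest.Agent.R105.Ch
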