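import Crest.Agent.R105.CCut

/-! Row 105, block CH: the winding number cut of a closed loop `segment Q P ∪ J'`. -/

set_option autoImplicit false

noncomputable section

namespace Crest.Agent.R105.Ch

open MeasureTheory Filter Topology Set Metric Complex
open scoped ContDiff Classical Real

/-- off the segment the ratio is not a nonpositive real. -/
theorem slit_of_not_mem {P Q z : ℂ} (hz : z ∉ segment ℝ Q P) :
    (z - P) / (z - Q) ∈ slitPlane := by
  by_contra h
  rw [mem_slitPlane_iff, not_or, not_lt, not_not] at h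
  have hQ : z - Q ≠ 0 := sub_ne_zero.2 fun e => hz (e ▸ left_mem_segment ℝ Q P)
  obtain ⟨s, hs, e⟩ : ∃ s : ℝ, 0 ≤ s ∧ (z - P) / (z - Q) = -(s : ℂ) :=
    ⟨-((z - P) / (z - Q)).re, by linarith [h.1], Complex.ext (by simp) (by simpa using h.2)⟩
  rw [div_eq_iff hQ] at e
  have h1 : (0 : ℝ) < 1 + s := by linarith
  have h2 : (1 : ℂ) + s ≠ 0 := by exact_mod_cast h1.ne'
  refine hz ⟨s / (1 + s), 1 / (1 + s), by positivity, by positivity, by field_simp; ring, ?_⟩
  simp only [real_smul]
  push_cast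
  field_simp
  linear_combination -e

/-- Eilenberg, easy direction: off a path from `Q` to `P` the ratio has a continuous logarithm
(`Complex.isCoveringMap_exp.liftHomotopy` on the subtype `(range γ)ᶜ`, homotopy
`(s, z) ↦ (z - γ s) / (z - Q)` starting at `1`). -/
theorem exists_log_path {P Q : ℂ} (γ : Path Q P) :
    ∃ Λ : ℂ → ℂ, ContinuousOn Λ (range γ)ᶜ ∧
      ∀ z, z ∉ range γ → Complex.exp (Λ z) = (z - P) / (z - Q) := by
  have hne : ∀ (z : ((range γ)ᶜ : Set ℂ)) (s : unitInterval), (z : ℂ) - γ s ≠ 0 :=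
    fun z s => sub_ne_zero.2 fun e => z.2 ⟨s, e.symm⟩
  have hQ : ∀ z : ((range γ)ᶜ : Set ℂ), (z : ℂ) - Q ≠ 0 := fun z => by
    simpa using hne z 0
  have hc : Continuous fun q : unitInterval × ((range γ)ᶜ : Set ℂ) =>
      ((q.2 : ℂ) - γ q.1) / ((q.2 : ℂ) - Q) :=
    Continuous.div (by fun_prop) (by fun_prop) fun q => hQ q.2
  let H : C(unitInterval × ((range γ)ᶜ : Set ℂ), {z : ℂ // z ≠ 0}) :=
    ⟨fun q => ⟨((q.2 : ℂ) - γ q.1) / ((q.2 : ℂ) - Q), div_ne_zero (hne _ _) (hQ _)⟩,
      hc.subtype_mk _⟩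
  have H0 : ∀ a, H (0, a) = (fun z : ℂ => (⟨_, z.exp_ne_zero⟩ : {z : ℂ // z ≠ 0}))
      ((ContinuousMap.const _ (0 : ℂ) : C(((range γ)ᶜ : Set ℂ), ℂ)) a) := fun a =>
    Subtype.ext (by simp [H, div_self (hQ a)])
  let L := Complex.isCoveringMap_exp.liftHomotopy H _ H0
  refine ⟨fun z => if h : z ∈ (range γ)ᶜ then L (1, ⟨z, h⟩) else 0, ?_, fun z hz => ?_⟩
  · rw [continuousOn_iff_continuous_domRestrict]
    have : ((range γ)ᶜ).domRestrict (fun z => if h : z ∈ (range γ)ᶜ then L (1, ⟨z, h⟩) else 0) =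
        fun a => L (1, a) := funext fun a => dif_pos a.2
    rw [this]
    fun_prop
  · have h1 := congrArg Subtype.val
      (congrFun (Complex.isCoveringMap_exp.liftHomotopy_lifts H _ H0) (1, ⟨z, hz⟩))
    simp only [dif_pos (show z ∈ (range γ)ᶜ from hz)]
    refine h1.trans ?_
    simp [H]

/-- the loop cut: `ν = (Λ - log ratio) / (2 π i)` is an integer off `range γ ∪ segment`, locally
constant there, and it jumps along every preconnected set `S` missing `range γ` on which
`-ratio` stays in the slit plane, between two points `e, x` where the imaginary parts of the ratio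
have opposite signs (on `S` the function `Λ - log (-ratio)` is continuous with values in
`π i + 2 π i ℤ`, hence constant; `log w = log (-w) ± π i` according to the sign of `im w`). -/
theorem loop_cut {P Q : ℂ} (γ : Path Q P) :
    ∃ ν : ℂ → ℤ, (∀ z, z ∉ range γ → z ∉ segment ℝ Q P → ∀ᶠ w in 𝓝 z, ν w = ν z) ∧
      ∀ S : Set ℂ, IsPreconnected S → Disjoint S (range γ) →
        (∀ z ∈ S, -((z - P) / (z - Q)) ∈ slitPlane) → ∀ e ∈ S, ∀ x ∈ S,
        ((e - P) / (e - Q)).im * ((x - P) / (x - Q)).im < 0 → ν x ≠ ν e := by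
  obtain ⟨Λ, hΛ, hexp⟩ := exists_log_path γ
  have hconst : ∀ {S : Set ℂ} {g : ℂ → ℂ} {c : ℂ}, IsPreconnected S → ContinuousOn g S →
      (∀ z ∈ S, Complex.exp (g z) = c) → ∀ a ∈ S, ∀ b ∈ S, g a = g b :=
    fun hS hg hc a ha b hb => Complex.isCoveringMap_exp.constOn_of_comp hS hg
      (fun a ha b hb => Subtype.ext ((hc a ha).trans (hc b hb).symm)) ha hb
  have hr : ContinuousOn (fun z => (z - P) / (z - Q)) (range γ)ᶜ :=
    ContinuousOn.div (by fun_prop) (by fun_prop) fun z hz h =>
      hz ⟨0, γ.source.trans (sub_eq_zero.1 h).symm⟩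
  have hne : ∀ z, z ∉ range γ → (z - P) / (z - Q) ≠ 0 := fun z hz =>
    hexp z hz ▸ Complex.exp_ne_zero _
  refine ⟨fun z => round ((Λ z - Complex.log ((z - P) / (z - Q))).im / (2 * π)), ?_, ?_⟩
  · intro z hz hz'
    have hseg : IsClosed (segment ℝ Q P) := by
      rw [segment_eq_image_lineMap]
      exact (isCompact_Icc.image AffineMap.lineMap_continuous).isClosed
    obtain ⟨ε, hε, hb⟩ := Metric.isOpen_iff.1
      ((isCompact_range γ.continuous).isClosed.isOpen_compl.inter hseg.isOpen_compl) z ⟨hz, hz'⟩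
    filter_upwards [ball_mem_nhds z hε] with w hw
    rw [hconst (g := fun z => Λ z - Complex.log ((z - P) / (z - Q))) (c := 1)
      (convex_ball z ε).isPreconnected
      ((hΛ.mono fun y hy => (hb hy).1).sub ((hr.mono fun y hy => (hb hy).1).clog
        fun y hy => slit_of_not_mem (hb hy).2))
      (fun y hy => by
        rw [Complex.exp_sub, hexp y (hb hy).1, Complex.exp_log (hne y (hb hy).1),
          div_self (hne y (hb hy).1)]) w hw z (mem_ball_self hε)]
  · intro S hS hd hs e he x hx hlt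
    have hsub : S ⊆ (range γ)ᶜ := hd.subset_compl_right
    have key := congrArg Complex.im
      (hconst (g := fun z => Λ z - Complex.log (-((z - P) / (z - Q)))) (c := -1) hS
        ((hΛ.mono hsub).sub ((hr.mono hsub).neg.clog hs))
        (fun y hy => by
          rw [Complex.exp_sub, hexp y (hsub hy), Complex.exp_log (neg_ne_zero.2 (hne y (hsub hy))),
            div_neg, div_self (hne y (hsub hy))]) x hx e he)
    simp only [Complex.sub_im, Complex.log_im] at key ⊢
    have hπ : (2 * π) ≠ 0 := by positivity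
    rcases mul_neg_iff.1 hlt with ⟨h1, h2⟩ | ⟨h1, h2⟩
    · rw [Complex.arg_neg_eq_arg_sub_pi_of_im_pos h1,
        Complex.arg_neg_eq_arg_add_pi_of_im_neg h2] at key
      rw [show ((Λ x).im - ((x - P) / (x - Q)).arg) / (2 * π) =
        ((Λ e).im - ((e - P) / (e - Q)).arg) / (2 * π) + 1 by field_simp; linarith, round_add_one]
      omega
    · rw [Complex.arg_neg_eq_arg_sub_pi_of_im_pos h2,
        Complex.arg_neg_eq_arg_add_pi_of_im_neg h1] at key
      rw [show ((Λ x).im - ((x - P) / (x - Q)).arg) / (2 * π) =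
        ((Λ e).im - ((e - P) / (e - Q)).arg) / (2 * π) - 1 by field_simp; linarith, round_sub_one]
      omega

end Crest.Agent.R105.Ch
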