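import Crest.Agent.R105.CCut
import Crest.Agent.R105.NT3

/-! Row 105, block CH: generators for which the chain lemma holds. -/

set_option autoImplicit false

noncomputable section

namespace Crest.Agent.R105.Ch

open MeasureTheory Filter Topology Set Metric Complex
open scoped ContDiff Classical

variable {U : Set ℂ} {r : ℂ → ℝ}

/-- the hypotheses on a generator used by the chain lemma -/
structure Gen (Λ : Lumps U) (r : ℂ → ℝ) : Prop where
  reg : Reg Λ r
  conn : IsPreconnected U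
  smooth : ∃ A : Set ℂ, IsOpen A ∧ A ⊆ U ∧ ContDiffOn ℝ 1 r A ∧ (∀ z ∈ A, fderiv ℝ r z ≠ 0) ∧
    ∀ᵐ z, z ∈ U → z ∉ A → fderiv ℝ r z = 0
  up : Sep U r
  down : Sep U (fun z => - r z)

theorem h44_joined {S : Set ℂ} (ho : IsOpen S) (hc : IsPreconnected S) {x y : ℂ} (hx : x ∈ S)
    (hy : y ∈ S) : JoinedIn S x y :=
  (ho.isConnected_iff_isPathConnected.1 ⟨⟨x, hx⟩, hc⟩).joinedIn x hx y hy

theorem h44_sep (hU : IsOpen U) (hr : ContinuousOn r U)
    (h : ∀ t, IsPreconnected {z | z ∈ U ∧ t < r z}) : Sep U r :=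
  fun τ _ hτ _ hx _ hy h1 h2 hn => (hn (h44_joined
    (hr.isOpen_inter_preimage hU (isOpen_Ioi (a := τ))) (h τ) ⟨hx, hτ.trans_le h1⟩
      ⟨hy, hτ.trans_le h2⟩)).elim

theorem h44_bdd_neg (hb : Bdd U r) : Bdd U fun z => - r z :=
  let ⟨B, hB⟩ := hb; ⟨B, fun z hz => by rw [abs_neg]; exact hB z hz⟩

/-- monotone generators: the open preconnected sets `{τ < r}`, `{r < τ}` are path connected
(`IsOpen.isConnected_iff_isPathConnected`), so `Sep` is void; `U = {t < r}` for `t` below the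
bound. -/
theorem Gen.of_mono (hU : IsOpen U) {Λ : Lumps U} (h : Mono Λ r) : Gen Λ r := by
  have hr := h.reg.xx.lip.continuousOn
  refine ⟨h.reg, ?_, h.smooth, h44_sep hU hr h.up, h44_sep hU hr.neg fun t => ?_⟩
  · obtain ⟨B, hB⟩ := h.reg.bdd
    have e : U = {z | z ∈ U ∧ -B - 1 < r z} :=
      Set.ext fun z => ⟨fun hz => ⟨hz, by linarith [(abs_le.1 (hB z hz)).1]⟩, fun hz => hz.1⟩
    rw [e]; exact h.up _
  · simpa only [lt_neg] using h.down (-t)

/-- functions continuous at all ends.  Let `G₁` be the path component of `x` in the open set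
`G = U ∩ {τ < r}` (open, and `G \ G₁` is open), `τ < τ'' < τ'`.  By `Lumps.near` (oscillation zero)
and `Lumps.koenig'` there is a level `n` such that every lump lies in `{τ < r}` or in `{r < τ''}`;
`r = c` on the preconnected exterior `Ex = {R' < ‖z‖}`, `R' ≥ Λ.R`.  Let `Bad` be the union of the
(finitely many) lumps of level `n` not contained in `G`, and of `Ex` if `c ≤ τ`;
`ν z = if z ∈ G₁ ∧ z ∉ Bad then 1 else 0`.  It is locally constant off the compact
`C n ∪ {Λ.R ≤ ‖z‖ ≤ R'}` (`Lumps.cover`, `Lumps.part`, lumps lie in `ball 0 Λ.R`) and at every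
`z ∈ U` with `τ' ≤ r z` (there `τ'' < r` nearby, so no point of `Bad` is near); `cut_of_subset`. -/
theorem sep_of_osc (hU : IsOpen U) (Λ : Lumps U) (hr : XX U r) (hb : Bdd U r)
    (h0 : ∀ q, Λ.osc r q = 0) : Sep U r := by
  intro τ τ' hτ x hx y hy hrx hry hJ
  have hc := hr.lip.continuousOn
  set G := U ∩ {z | τ < r z} with hG
  have hGo : IsOpen G := hc.isOpen_inter_preimage hU isOpen_Ioi
  obtain ⟨n, hn⟩ := Λ.koenig' (fun s => (∀ z ∈ s, τ < r z) ∨ ∀ z ∈ s, r z < (τ + τ') / 2)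
    (fun s t hst h => h.imp (fun h z hz => h z (hst hz)) fun h z hz => h z (hst hz)) fun q => by
      obtain ⟨n, hn⟩ := Λ.near hb q (η := (τ' - τ) / 8) (by linarith)
      have e : Λ.hi r q - Λ.lo r q = 0 := h0 q
      refine ⟨n, ?_⟩
      by_cases h : τ < Λ.lo r q - (τ' - τ) / 8
      · exact Or.inl fun z hz => h.trans_le (hn z hz).1
      · exact Or.inr fun z hz => by linarith [(hn z hz).2, not_lt.1 h]
  replace hn := hn n le_rfl
  obtain ⟨R₀, c, hR₀⟩ := hr.inf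
  set Bad : Set ℂ := {z | ∃ q, z ∈ Λ.W n q ∧ ¬ ∀ w ∈ Λ.W n q, τ < r w} with hBad
  have hB : ∀ z ∈ Bad, r z < (τ + τ') / 2 := fun z ⟨q, h1, h2⟩ => (hn q).resolve_left h2 z h1
  set ν : ℂ → ℤ := fun z => if JoinedIn G x z ∧ z ∉ Bad then 1 else 0 with hν
  have L1 : ∀ z ∈ G, (∀ᶠ w in 𝓝 z, w ∉ Bad) → ∀ᶠ w in 𝓝 z, ν w = ν z := fun z hz h => by
    filter_upwards [h, (hGo.pathComponentIn z).mem_nhds (mem_pathComponentIn_self hz)] with w a1 a2
    have a3 : JoinedIn G z w := a2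
    exact if_congr ⟨fun a => ⟨a.1.trans a3.symm, h.self_of_nhds⟩, fun a => ⟨a.1.trans a3, a1⟩⟩
      rfl rfl
  have L2 : ∀ z, (∀ᶠ w in 𝓝 z, w ∈ Bad ∨ w ∉ G) → ∀ᶠ w in 𝓝 z, ν w = ν z := fun z h => by
    have key : ∀ w, (w ∈ Bad ∨ w ∉ G) → ν w = 0 := fun w hw =>
      if_neg fun a => hw.elim a.2 fun b => b a.1.target_mem
    filter_upwards [h] with w hw
    rw [key w hw, key z h.self_of_nhds]
  have L3 : ∀ z ∈ U, τ' ≤ r z → ∀ᶠ w in 𝓝 z, w ∉ Bad := fun z hz h => by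
    filter_upwards [(hc.continuousAt (hU.mem_nhds hz)).eventually
      (lt_mem_nhds (by linarith : (τ + τ') / 2 < r z))] with w hw hw'
    exact lt_asymm hw (hB w hw')
  refine ⟨_, ν, cut_of_subset (C := Λ.C n ∪ (closedBall 0 (max R₀ Λ.R) \ ball 0 Λ.R))
    ((Λ.cpt n).union ((isCompact_closedBall _ _).diff isOpen_ball))
    (union_subset (Λ.csub n) fun z hz => Λ.far z (by simpa using hz.2)) fun z hz hzC => ?_,
    fun z hz => ?_, ?_⟩
  · rw [mem_union, not_or] at hzC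
    rcases Λ.cover n z hz hzC.1 with h | ⟨q, hq⟩
    · have h1 : max R₀ Λ.R < ‖z‖ := by
        by_contra h1
        exact hzC.2 ⟨by simpa using not_lt.1 h1, by simpa using h⟩
      have h2 : ∀ᶠ w in 𝓝 z, max R₀ Λ.R < ‖w‖ :=
        continuous_norm.continuousAt.eventually (lt_mem_nhds h1)
      by_cases hτc : τ < c
      · refine L1 z ⟨hz, ?_⟩ (h2.mono fun w hw ⟨q, a, _⟩ => ?_)
        · change τ < r z
          rwa [hR₀ z ((le_max_left _ _).trans h1.le)]
        · have := (Λ.sub n q a).2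
          rw [mem_ball_zero_iff] at this
          linarith [le_max_right R₀ Λ.R]
      · refine L2 z (h2.mono fun w hw => Or.inr fun a => hτc ?_)
        rw [← hR₀ w ((le_max_left _ _).trans hw.le)]
        exact a.2
    · have h2 : ∀ᶠ w in 𝓝 z, w ∈ Λ.W n q := (Λ.op n q).mem_nhds hq
      by_cases h : ∀ w ∈ Λ.W n q, τ < r w
      · refine L1 z ⟨hz, h z hq⟩ (h2.mono fun w hw ⟨q', a, b⟩ => ?_)
        rcases Λ.part n q q' with e | e
        · exact b (e ▸ h)
        · exact Set.disjoint_left.1 e hw a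
      · exact L2 z (h2.mono fun w hw => Or.inl ⟨q, hw, h⟩)
  · by_contra h
    have hzU : z ∈ U := hz.1.elim (fun a => Λ.csub n a) fun a => Λ.far z (by simpa using a.2)
    exact hz.2 (L1 z ⟨hzU, hτ.trans_le (not_lt.1 h)⟩ (L3 z hzU (not_lt.1 h)))
  · have e1 : ν x = 1 := if_pos ⟨JoinedIn.refl ⟨hx, hτ.trans_le hrx⟩, (L3 x hx hrx).self_of_nhds⟩
    have e2 : ν y = 0 := if_neg fun a => hJ a.1
    rw [e1, e2]
    exact one_ne_zero

/-- `lo (-r) = - hi r` in the form needed here: the oscillation of `-r` vanishes too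
(`Lumps.osc_comp2_le` with `G s t = -s`, `Lumps.osc_nonneg`). -/
theorem osc_neg (Λ : Lumps U) (hb : Bdd U r) (h0 : ∀ q, Λ.osc r q = 0) (q : Λ.E) :
    Λ.osc (fun z => - r z) q = 0 := by
  refine le_antisymm ?_ (Λ.osc_nonneg (h44_bdd_neg hb) q)
  have := Λ.osc_comp2_le hb hb (G := fun s _ => -s) zero_le_one le_rfl (fun s t s' t' => by
    rw [neg_sub_neg, abs_sub_comm]; simp) q
  simpa [h0] using this

/-- continuous `C¹` generators: `A = U ∩ {fderiv r ≠ 0}`. -/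
theorem Gen.of_cont (hU : IsOpen U) (hc : IsPreconnected U) {Λ : Lumps U} (h : Reg Λ r)
    (h1 : ContDiffOn ℝ 1 r U) (h0 : ∀ q, Λ.osc r q = 0) : Gen Λ r := by
  refine ⟨h, hc, ⟨U ∩ fderiv ℝ r ⁻¹' {0}ᶜ, ?_, inter_subset_left, h1.mono inter_subset_left,
    fun z hz => hz.2, Eventually.of_forall fun z hz hn => ?_⟩, sep_of_osc hU Λ h.xx h.bdd h0,
    sep_of_osc hU Λ h.xx.neg (h44_bdd_neg h.bdd) (osc_neg Λ h.bdd h0)⟩
  · exact (h1.continuousOn_fderiv_of_isOpen hU le_rfl).isOpen_inter_preimage hU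
      isOpen_compl_singleton
  · by_contra h
    exact hn ⟨hz, h⟩

/-- the merge level of two points: `m = sSup {τ | JoinedIn (U ∩ {τ < r}) P P'}` (nonempty since
`U` is path connected and `r` is bounded, bounded above by `r P`). -/
theorem exists_merge (hU : IsOpen U) (hc : IsPreconnected U) (hb : Bdd U r) {P P' : ℂ}
    (hP : P ∈ U) (hP' : P' ∈ U) : ∃ m : ℝ, ∀ τ : ℝ,
      (τ < m → JoinedIn (U ∩ {z | τ < r z}) P P') ∧
      (m < τ → ¬ JoinedIn (U ∩ {z | τ < r z}) P P') := by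
  obtain ⟨B, hB⟩ := hb
  have hne : {τ | JoinedIn (U ∩ {z | τ < r z}) P P'}.Nonempty :=
    ⟨-B - 1, (h44_joined hU hc hP hP').mono fun z hz =>
      ⟨hz, show -B - 1 < r z by linarith [(abs_le.1 (hB z hz)).1]⟩⟩
  have hbd : BddAbove {τ | JoinedIn (U ∩ {z | τ < r z}) P P'} :=
    ⟨r P, fun τ hτ => le_of_lt hτ.source_mem.2⟩
  refine ⟨sSup {τ | JoinedIn (U ∩ {z | τ < r z}) P P'}, fun τ => ⟨fun h => ?_, fun h hj => ?_⟩⟩
  · obtain ⟨σ, hσ, hlt⟩ := exists_lt_of_lt_csSup hne h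
    exact JoinedIn.mono hσ fun z hz => ⟨hz.1, hlt.trans hz.2⟩
  · exact (le_csSup hbd hj).not_gt h

end Crest.Agent.R105.Ch
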