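import Crest.Agent.R105.CEst
import Crest.Agent.R105.CSep
import Crest.Agent.R105.CBox

/-! Row 105, block CH: the chain lemma for one generator and `χ = 1`. -/

set_option autoImplicit false

noncomputable section

namespace Crest.Agent.R105.Ch

open MeasureTheory Filter Topology Set Metric Complex
open scoped ContDiff Classical

variable {U : Set ℂ} {r : ℂ → ℝ}

/-- the finite exceptional set of levels: all `lo`, `hi` of boxes, the merge levels
(`exists_merge` for `r` at `pp i, pp j` and for `-r` at `pm i, pm j`, the latter with the sign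
changed) and the ends of the cluster intervals of the `p ∈ F`. -/
theorem exists_exc (hU : IsOpen U) (hc : IsPreconnected U) (hb : Bdd U r) (Λ : Lumps U) {n : ℕ}
    (B : Fin n → Box U r) (F : Finset Λ.E) : ∃ X : Finset ℝ, ∀ α β : ℝ, α < β →
      (∀ f ∈ X, f ∉ Icc α β) →
      (∀ k, (B k).lo ∉ Icc α β ∧ (B k).hi ∉ Icc α β) ∧
      (∀ i j, NoMerge U r (B i) (B j) α β) ∧
      ∀ p ∈ F, Λ.lo r p ∉ Icc α β ∧ Λ.hi r p ∉ Icc α β := by
  have hpp : ∀ i, (B i).pp ∈ U := fun i => (B i).sub ((B i).seg (right_mem_segment _ _ _))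
  have hpm : ∀ i, (B i).pm ∈ U := fun i => (B i).sub ((B i).seg (left_mem_segment _ _ _))
  have hb' : Bdd U fun z => - r z := by
    obtain ⟨C, hC⟩ := hb
    exact ⟨C, fun z hz => by rw [abs_neg]; exact hC z hz⟩
  choose m hm using fun i j => exists_merge hU hc hb (hpp i) (hpp j)
  choose m' hm' using fun i j => exists_merge hU hc hb' (hpm i) (hpm j)
  have hneg : ∀ τ : ℝ, {z | -τ < -r z} = {z | r z < τ} := fun τ => by
    ext z
    simp only [mem_ofPred_eq, neg_lt_neg_iff]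
  refine ⟨((Finset.univ.image fun k => (B k).lo) ∪ (Finset.univ.image fun k => (B k).hi)) ∪
    ((Finset.univ.image fun p : Fin n × Fin n => m p.1 p.2) ∪
      (Finset.univ.image fun p : Fin n × Fin n => -m' p.1 p.2)) ∪
    (F.image (Λ.lo r) ∪ F.image (Λ.hi r)), fun α β hab hX => ⟨fun k => ⟨hX _ ?_, hX _ ?_⟩,
      fun i j => ?_, fun p hp => ⟨hX _ ?_, hX _ ?_⟩⟩⟩
  · simp
  · simp
  · have h1 := hX (m i j) (Finset.mem_union_left _ (Finset.mem_union_right _
      (Finset.mem_union_left _ (Finset.mem_image_of_mem _ (Finset.mem_univ (i, j))))))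
    have h2 := hX (-m' i j) (Finset.mem_union_left _ (Finset.mem_union_right _
      (Finset.mem_union_right _ (Finset.mem_image_of_mem _ (Finset.mem_univ (i, j))))))
    rw [mem_Icc, not_and_or, not_le, not_le] at h1 h2
    rcases h1 with h1 | h1
    · exact Or.inl ⟨(m i j + α) / 2, by linarith, (hm i j _).2 (by linarith)⟩
    rcases h2 with h2 | h2
    · refine Or.inr (Or.inr ⟨(hm i j _).1 h1, ?_⟩)
      rw [← hneg]
      exact (hm' i j _).1 (by linarith)
    · refine Or.inr (Or.inl ⟨(β + -m' i j) / 2, by linarith, ?_⟩)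
      rw [← hneg]
      exact (hm' i j _).2 (by linarith)
  · exact Finset.mem_union_right _ (Finset.mem_union_left _ (Finset.mem_image_of_mem _ hp))
  · exact Finset.mem_union_right _ (Finset.mem_union_right _ (Finset.mem_image_of_mem _ hp))

/-- levels near a finite set carry little mass: the sets decrease to `U ∩ {r ∈ X}` as `ζ → 0`
(dominated convergence / `tendsto_setIntegral_of_antitone`), where `fderiv r = 0` a.e.
(`ae_fderiv_eq_zero_of_eq`). -/
theorem exists_near (hU : IsOpen U) (hr : XX U r) (X : Finset ℝ) {g : ℂ → ℝ}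
    (hg : IntegrableOn g U) (hg0 : ∀ z, fderiv ℝ r z = 0 → g z = 0) {ε : ℝ} (hε : 0 < ε) :
    ∃ ζ : ℝ, 0 < ζ ∧ ζ ≤ 1 / 2 ∧
      ∫ z in U ∩ {z | ∃ f ∈ X, |r z - f| < 2 * ζ}, |g z| ≤ ε := by
  set ζ : ℕ → ℝ := fun n => 1 / ((n : ℝ) + 1) with hζ
  have hζ0 : Tendsto ζ atTop (𝓝 0) := tendsto_one_div_add_atTop_nhds_zero_nat
  have hζa : Antitone ζ := fun m n h => Nat.one_div_le_one_div h
  set s : ℕ → Set ℂ := fun n => U ∩ {z | ∃ f ∈ X, |r z - f| < 2 * ζ n} with hs
  have hso : ∀ n, IsOpen (s n) := fun n => by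
    have h1 : IsOpen {t : ℝ | ∃ f ∈ X, |t - f| < 2 * ζ n} := by
      have : {t : ℝ | ∃ f ∈ X, |t - f| < 2 * ζ n} = ⋃ f ∈ X, {t : ℝ | |t - f| < 2 * ζ n} := by
        ext t; simp
      rw [this]
      exact isOpen_biUnion fun f _ => isOpen_lt (by fun_prop) continuous_const
    exact hr.lip.continuousOn.isOpen_inter_preimage hU h1
  have hsa : Antitone s := fun m n h z hz => by
    obtain ⟨hzU, f, hf, hz⟩ := hz
    exact ⟨hzU, f, hf, hz.trans_le (by linarith [hζa h])⟩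
  have hlim := tendsto_setIntegral_of_antitone (f := fun z => |g z|) (μ := volume)
    (fun n => (hso n).measurableSet) hsa ⟨0, IntegrableOn.mono_set hg.abs inter_subset_left⟩
  have hz : ∫ z in ⋂ n, s n, |g z| = 0 := by
    refine setIntegral_eq_zero_of_ae_eq_zero ?_
    have := (ae_ball_iff X.countable_toSet).2 fun a _ => ae_fderiv_eq_zero_of_eq hU hr.lip a
    filter_upwards [this] with z hz hzs
    have hzU : z ∈ U := (mem_iInter.1 hzs 0).1
    have hX : r z ∈ X := by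
      by_contra hn
      have h2 : ∀ᶠ n in atTop, ∀ f ∈ X, 2 * ζ n < |r z - f| := by
        refine (eventually_all_finset X).2 fun f hf => ?_
        have h3 : 0 < |r z - f| := abs_pos.2 (sub_ne_zero.2 fun h => hn (h ▸ hf))
        have h4 : Tendsto (fun n => 2 * ζ n) atTop (𝓝 0) := by simpa using hζ0.const_mul 2
        exact h4.eventually (gt_mem_nhds h3)
      obtain ⟨n, hn'⟩ := h2.exists
      obtain ⟨-, f, hf, h5⟩ := mem_iInter.1 hzs n
      exact lt_asymm h5 (hn' f hf)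
    rw [hg0 z (hz (r z) hX hzU rfl), abs_zero]
  rw [hz] at hlim
  obtain ⟨n, h1, h2⟩ := ((hlim.eventually (ge_mem_nhds hε)).and
    (hζ0.eventually (ge_mem_nhds (by norm_num : (0 : ℝ) < 1 / 2)))).exists
  exact ⟨ζ n, by simp only [hζ]; positivity, h2, h1⟩

/-- the band estimate with all boxes: apply `Band.atoms` and `Atoms.est` to the subtype of the
boxes with `lo < α ∧ β < hi`; on the other boxes `r ∉ [α, β]` (`Box.range`), so `θ (r z) = 0` and
the integral over the larger rest equals the one over `Rs B`. -/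
theorem band_all (hU : IsOpen U) {Λ : Lumps U} (hg : Gen Λ r) {n : ℕ} {B : Fin n → Box U r}
    (hd : Pairwise fun i j => Disjoint (B i).Q (B j).Q) {α β : ℝ} (hab : α < β)
    {F : Finset Λ.E} (hB : ∀ k, (B k).lo ∉ Icc α β ∧ (B k).hi ∉ Icc α β)
    (hm : ∀ i j, NoMerge U r (B i) (B j) α β)
    (hFI : ∀ p ∈ F, Λ.lo r p ∉ Icc α β ∧ Λ.hi r p ∉ Icc α β)
    {u₁ u₂ : ℂ → ℝ} {e₁ e₂ : Λ.E → ℝ} (h₁ : XX U u₁) (h₂ : XX U u₂)
    (he₁ : L2w e₁) (he₂ : L2w e₂) (hA₁ : Adm1 Λ F r u₁ e₁) (hA₂ : Adm1 Λ F r u₂ e₂)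
    {G : ℝ → ℝ → ℝ} {L₁ L₂ Bc : ℝ} (hL₁ : 0 ≤ L₁) (hL₂ : 0 ≤ L₂) (hBc : 0 ≤ Bc)
    (hG : ∀ s t s' t', |G s t - G s' t'| ≤ L₁ * |s - s'| + L₂ * |t - t'|)
    (hF : F = ∅ ∨ ∀ s t, |G s t| ≤ Bc / 2)
    {θ : ℝ → ℝ} (hθ : Continuous θ) (h0 : ∀ t, t ∉ Icc α β → θ t = 0) :
    |∫ z in U, θ (r z) * wd (fun z => G (u₁ z) (u₂ z)) r z| ≤
      (∑' q, (if q ∈ F then Bc else L₁ * e₁ q + L₂ * e₂ q) * iq Λ r θ q) +
        2 * ∫ z in Rs B, |θ (r z)| * (L₁ * |wd u₁ r z| + L₂ * |wd u₂ r z|) := by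
  let B' : {k : Fin n // (B k).lo < α ∧ β < (B k).hi} → Box U r := fun k => B k.1
  have hband : Band B' α β :=
    ⟨hab, fun k => k.2, fun i j hij => hd fun h => hij (Subtype.ext h)⟩
  obtain ⟨a, σ, ha⟩ := hband.atoms hU Λ hg.reg.xx hg.reg.bdd hg.up hg.down
    (fun i j _ => hm i.1 j.1) F hFI
  have hest := ha.est hU hg.reg hband h₁ h₂ he₁ he₂ hA₁ hA₂ hL₁ hL₂ hBc hG hF hθ h0
  have hsub : Rs B ⊆ Rs B' := by
    intro z hz
    refine ⟨hz.1, fun h => hz.2 ?_⟩
    obtain ⟨k, hk⟩ := mem_iUnion.1 h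
    exact mem_iUnion.2 ⟨k.1, hk⟩
  rwa [setIntegral_eq_of_subset_of_forall_sdiff_eq_zero (measurableSet_Rs hU B') hsub] at hest
  intro z hz
  have hz2 : z ∈ ⋃ k, (B k).Q := by
    by_contra h
    exact hz.2 ⟨hz.1.1, h⟩
  obtain ⟨k, hk⟩ := mem_iUnion.1 hz2
  have hr := (B k).range z hk
  have : r z ∉ Icc α β := by
    intro hz3
    have h1 : (B k).lo < α := by
      by_contra h
      exact (hB k).1 ⟨not_lt.1 h, hr.1.trans hz3.2⟩
    have h2 : β < (B k).hi := by
      by_contra h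
      exact (hB k).2 ⟨hz3.1.trans hr.2, not_lt.1 h⟩
    exact hz.1.2 (mem_iUnion.2 ⟨⟨k, h1, h2⟩, hk⟩)
  rw [h0 _ this, abs_zero, zero_mul]

/-- THE CHAIN LEMMA for one generator and `χ = 1`. -/
theorem core (hU : IsOpen U) {Λ : Lumps U} (hg : Gen Λ r) {F : Finset Λ.E}
    {u₁ u₂ : ℂ → ℝ} {e₁ e₂ : Λ.E → ℝ} (h₁ : XX U u₁) (h₂ : XX U u₂)
    (he₁ : L2w e₁) (he₂ : L2w e₂) (hA₁ : Adm1 Λ F r u₁ e₁) (hA₂ : Adm1 Λ F r u₂ e₂)
    {G : ℝ → ℝ → ℝ} {L₁ L₂ Bc : ℝ} (hL₁ : 0 ≤ L₁) (hL₂ : 0 ≤ L₂) (hBc : 0 ≤ Bc)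
    (hG : ∀ s t s' t', |G s t - G s' t'| ≤ L₁ * |s - s'| + L₂ * |t - t'|)
    (hF : F = ∅ ∨ ∀ s t, |G s t| ≤ Bc / 2) {θ : ℝ → ℝ} (hθ : Continuous θ) :
    |∫ z in U, θ (r z) * wd (fun z => G (u₁ z) (u₂ z)) r z| ≤
      ∑' q, (if q ∈ F then Bc else L₁ * e₁ q + L₂ * e₂ q) * iq Λ r θ q := by
  obtain ⟨A, hA, hAU, hr1, hr0, hae⟩ := hg.smooth
  have hr := hg.reg.xx
  have hb := hg.reg.bdd
  have hrc : ContinuousOn r U := hr.lip.continuousOn
  obtain ⟨M, hM⟩ := hb
  have hb : Bdd U r := ⟨M, hM⟩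
  obtain ⟨T, hT⟩ := (isCompact_Icc (a := -M) (b := M)).exists_bound_of_continuousOn
    hθ.continuousOn
  have hT' : ∀ z ∈ U, |θ (r z)| ≤ max T 0 := fun z hz =>
    le_max_of_le_left (by simpa using hT (r z) (abs_le.1 (hM z hz)))
  set T' := max T 0 with hT'def
  have hT0 : 0 ≤ T' := le_max_right _ _
  set g : ℂ → ℝ := fun z => L₁ * |wd u₁ r z| + L₂ * |wd u₂ r z| with hgdef
  have hg0 : ∀ z, 0 ≤ g z := fun z => by positivity
  have hgi : IntegrableOn g U :=
    ((wd_integrableOn h₁.en hr.en).abs.const_mul L₁).add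
      ((wd_integrableOn h₂.en hr.en).abs.const_mul L₂)
  have hgz : ∀ z, fderiv ℝ r z = 0 → g z = 0 := fun z hz => by simp [hgdef, wd, hz]
  have hf : XX U (fun z => G (u₁ z) (u₂ z)) := XX.comp2 hU hG h₁ h₂
  set W : ℂ → ℝ := wd (fun z => G (u₁ z) (u₂ z)) r with hWdef
  have hWi : IntegrableOn W U := wd_integrableOn hf.en hr.en
  have hWg : ∀ᵐ z ∂(volume : Measure ℂ), z ∈ U → |W z| ≤ g z := wd_comp2_le hU h₁ h₂ hG r
  set eh : Λ.E → ℝ := fun q => if q ∈ F then Bc else L₁ * e₁ q + L₂ * e₂ q with hehdef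
  have heh : L2w eh := l2_hat F he₁ he₂ hL₁ hL₂ hBc
  refine le_of_forall_pos_le_add fun ε hε => ?_
  have hε' : 0 < ε / (3 * T' + 1) := by positivity
  set δ := ε / (3 * T' + 1) with hδ
  obtain ⟨n, B, -, hd, hR⟩ := exists_boxes hU hA hAU hr1 hr0 hgi
    (by filter_upwards [hae] with z hz h1 h2 using hgz z (hz h1 h2)) hε'
  obtain ⟨X, hX⟩ := exists_exc hU hg.conn hb Λ B F
  obtain ⟨ζ, hζ, hζ2, hN⟩ := exists_near hU hr X hgi hgz hε'
  obtain ⟨m, α, β, th, hab, hXb, hth, hth0, hsum, hrem, hone⟩ := exists_bands X hθ M hζ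
  have hRm : MeasurableSet (Rs B) := measurableSet_Rs hU B
  have hRU : Rs B ⊆ U := diff_subset
  have hband : ∀ j, |∫ z in U, th j (r z) * W z| ≤
      (∑' q, eh q * iq Λ r (th j) q) + 2 * ∫ z in Rs B, |th j (r z)| * g z := fun j => by
    obtain ⟨k1, k2, k3⟩ := hX (α j) (β j) (hab j) (hXb j)
    exact band_all hU hg hd (hab j) k1 k2 k3 h₁ h₂ he₁ he₂ hA₁ hA₂ hL₁ hL₂ hBc hG hF (hth j)
      (hth0 j)
  have hi1 : ∀ j, IntegrableOn (fun z => th j (r z) * W z) U := fun j =>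
    integrableOn_th hU hrc hb (hth j) hU.measurableSet subset_rfl hWi
  have hρc : Continuous fun t => θ t - ∑ j, th j t :=
    hθ.sub (continuous_finsetSum _ fun j _ => hth j)
  have hi2 : IntegrableOn (fun z => (θ (r z) - ∑ j, th j (r z)) * W z) U :=
    integrableOn_th (θ := fun t => θ t - ∑ j, th j t) hU hrc hb hρc hU.measurableSet
      subset_rfl hWi
  have hsplit : ∫ z in U, θ (r z) * W z = (∑ j, ∫ z in U, th j (r z) * W z) +
      ∫ z in U, (θ (r z) - ∑ j, th j (r z)) * W z := by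
    rw [← integral_finsetSum _ fun j _ => hi1 j,
      ← integral_add (integrable_finsetSum _ fun j _ => hi1 j) hi2]
    refine integral_congr_ae (Eventually.of_forall fun z => ?_)
    simp only [← Finset.sum_mul]
    ring
  have hS : ∑ j, ∑' q, eh q * iq Λ r (th j) q ≤ ∑' q, eh q * iq Λ r θ q := by
    have hs : ∀ j, Summable fun q => eh q * iq Λ r (th j) q := fun j =>
      (heh.summable_mul (iq_l2 hg.reg (hth j))).1
    rw [← Summable.tsum_finsetSum fun j _ => hs j]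
    refine Summable.tsum_le_tsum (fun q => ?_) (summable_sum fun j _ => hs j)
      (heh.summable_mul (iq_l2 hg.reg hθ)).1
    rw [← Finset.mul_sum]
    exact mul_le_mul_of_nonneg_left (iq_sum_le Λ r hθ hth hsum q) (heh.1 q)
  have hi3 : ∀ j, IntegrableOn (fun z => |th j (r z)| * g z) (Rs B) := fun j =>
    integrableOn_th (θ := fun t => |th j t|) hU hrc hb (hth j).abs hRm hRU (hgi.mono_set hRU)
  have hRr : ∑ j, ∫ z in Rs B, |th j (r z)| * g z ≤ T' * δ := by
    rw [← integral_finsetSum _ fun j _ => hi3 j]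
    calc ∫ z in Rs B, ∑ j, |th j (r z)| * g z ≤ ∫ z in Rs B, T' * |g z| := by
          refine setIntegral_mono_on (integrable_finsetSum _ fun j _ => hi3 j)
            ((hgi.mono_set hRU).abs.const_mul T') hRm fun z hz => ?_
          rw [← Finset.sum_mul, abs_of_nonneg (hg0 z)]
          exact mul_le_mul_of_nonneg_right ((hsum _).trans (hT' z (hRU hz))) (hg0 z)
      _ = T' * ∫ z in Rs B, |g z| := integral_const_mul _ _
      _ ≤ T' * δ := mul_le_mul_of_nonneg_left hR hT0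
  set N : Set ℂ := U ∩ {z | ∃ f ∈ X, |r z - f| < 2 * ζ} with hNdef
  have hNo : IsOpen N := by
    have : N = ⋃ f ∈ X, U ∩ r ⁻¹' (ball f (2 * ζ)) := by
      ext z
      simp only [hNdef, mem_inter_iff, mem_setOf_eq, mem_iUnion, mem_preimage, mem_ball,
        Real.dist_eq, exists_prop]
      constructor
      · rintro ⟨h1, f, h2, h3⟩
        exact ⟨f, h2, h1, h3⟩
      · rintro ⟨f, h2, h1, h3⟩
        exact ⟨h1, f, h2, h3⟩
    rw [this]
    exact isOpen_biUnion fun f _ => hrc.isOpen_inter_preimage hU isOpen_ball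
  have hNU : N ⊆ U := inter_subset_left
  have hrest : |∫ z in U, (θ (r z) - ∑ j, th j (r z)) * W z| ≤ T' * δ := by
    calc |∫ z in U, (θ (r z) - ∑ j, th j (r z)) * W z|
        ≤ ∫ z in U, |(θ (r z) - ∑ j, th j (r z)) * W z| := abs_integral_le_integral_abs
      _ ≤ ∫ z in U, N.indicator (fun z => T' * |g z|) z := by
          refine integral_mono_ae hi2.abs
            ((hgi.abs.const_mul T').indicator hNo.measurableSet) ?_
          rw [EventuallyLE, ae_restrict_iff' hU.measurableSet]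
          filter_upwards [hWg] with z hz hzU
          by_cases hzN : z ∈ N
          · rw [indicator_of_mem hzN, abs_mul, abs_of_nonneg (hg0 z)]
            exact mul_le_mul ((hrem _).trans (hT' z hzU)) (hz hzU) (abs_nonneg _) hT0
          · rw [indicator_of_notMem hzN]
            have : ∑ j, th j (r z) = θ (r z) := by
              refine hone _ (hM z hzU) (fun f hf => ?_) hζ2
              by_contra hc
              exact hzN ⟨hzU, f, hf, not_le.1 hc⟩
            simp [this]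
      _ = ∫ z in N, T' * |g z| := by
          rw [setIntegral_indicator hNo.measurableSet, inter_eq_right.2 hNU]
      _ = T' * ∫ z in N, |g z| := integral_const_mul _ _
      _ ≤ T' * δ := mul_le_mul_of_nonneg_left hN hT0
  have hfin : 3 * T' * δ ≤ ε := by
    rw [hδ, ← mul_div_assoc, div_le_iff₀ (by positivity)]
    nlinarith
  have h5 : |∑ j, ∫ z in U, th j (r z) * W z| ≤
      (∑ j, ∑' q, eh q * iq Λ r (th j) q) + 2 * ∑ j, ∫ z in Rs B, |th j (r z)| * g z := by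
    rw [Finset.mul_sum, ← Finset.sum_add_distrib]
    exact (Finset.abs_sum_le_sum_abs _ _).trans (Finset.sum_le_sum fun j _ => hband j)
  rw [hsplit]
  have h6 := abs_add_le (∑ j, ∫ z in U, th j (r z) * W z)
    (∫ z in U, (θ (r z) - ∑ j, th j (r z)) * W z)
  nlinarith

end Crest.Agent.R105.Ch
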