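import Crest.Agent.R105.E1d

/-! Row 105, block END: stage 1 (the minimiser, its Euler-Lagrange bound and the gap). -/

set_option autoImplicit false

open MeasureTheory Set Filter Topology Complex
open scoped ENNReal

namespace Crest.Agent.R105.End

variable {U : Set ℂ} {Λ : Lumps U} {M : Set (ℂ → ℝ)}

theorem gL_hol (hU : IsOpen U) {F : ℂ → ℂ} (hF : DifferentiableOn ℂ F U)
    {k : Lp ℂ 2 (volume.restrict U)} (hk : deriv F =ᵐ[volume.restrict U] k) :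
    (En U (fun z => (F z).re) < ⊤ ∧ gL U (fun z => (F z).re) = k) ∧
      (En U (fun z => (F z).im) < ⊤ ∧ gL U (fun z => (F z).im) = -(I • k)) ∧
      ∫⁻ z in U, ‖deriv F z‖ₑ ^ 2 < ⊤ := by
  have hd : ∀ᵐ z ∂(volume.restrict U), HasDerivAt F (deriv F z) z :=
    (ae_restrict_iff' hU.measurableSet).2 (Eventually.of_forall fun z hz =>
      (hF.differentiableAt (hU.mem_nhds hz)).hasDerivAt)
  have h1 : gz (fun z => (F z).re) =ᵐ[volume.restrict U] k := by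
    filter_upwards [hd, hk] with z h1 h2
    rw [gz_re h1, h2]
  have h2 : gz (fun z => (F z).im) =ᵐ[volume.restrict U] (-(I • k) : Lp ℂ 2 _) := by
    filter_upwards [hd, hk, Lp.coeFn_neg (I • k), Lp.coeFn_smul I k] with z h1 h2 h3 h4
    rw [gz_im h1, h2, h3, Pi.neg_apply, h4, Pi.smul_apply, smul_eq_mul, neg_mul]
  refine ⟨⟨(En_of_ae h1).1 ▸ ENNReal.ofReal_lt_top, (En_of_ae h1).2⟩,
    ⟨(En_of_ae h2).1 ▸ ENNReal.ofReal_lt_top, (En_of_ae h2).2⟩, ?_⟩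
  rw [lintegral_congr_ae (g := fun z => ‖k z‖ₑ ^ 2) (by
    filter_upwards [hk] with z hz
    rw [hz]), lint_sq_Lp]
  exact ENNReal.ofReal_lt_top

theorem locLip_add {u v : ℂ → ℝ} (hu : LocallyLipschitzOn U u) (hv : LocallyLipschitzOn U v) :
    LocallyLipschitzOn U fun z => u z + v z := by
  intro z hz
  obtain ⟨K, t, ht, h⟩ := hu hz
  obtain ⟨K', t', ht', h'⟩ := hv hz
  exact ⟨K + K', t ∩ t', inter_mem ht ht',
    (h.mono inter_subset_left).add (h'.mono inter_subset_right)⟩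

theorem locLip_sub {u v : ℂ → ℝ} (hu : LocallyLipschitzOn U u) (hv : LocallyLipschitzOn U v) :
    LocallyLipschitzOn U fun z => u z - v z := by
  intro z hz
  obtain ⟨K, t, ht, h⟩ := hu hz
  obtain ⟨K', t', ht', h'⟩ := hv hz
  exact ⟨K + K', t ∩ t', inter_mem ht ht',
    (h.mono inter_subset_left).sub (h'.mono inter_subset_right)⟩

/-- localisation does not change the pairing -/
theorem om_loc (hU : IsOpen U) {ξ p f α : ℂ → ℝ} (hξ : Cut Λ ξ) (hp : XX U p)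
    (hf : LocallyLipschitzOn U f) (hf' : En U f < ⊤) (hb : Bdd U fun z => (1 - ξ z) * f z)
    (hα : ∀ z, α z = p z + ξ z * f z) : XX U α ∧ ∀ u, LocallyLipschitzOn U u → En U u < ⊤ →
      om U u α = inner ℝ (gL U u) (I • (gL U p + gL U f)) := by
  obtain rfl : α = fun z => p z + ξ z * f z := funext hα
  have hx := xx_cut hU hξ hf hf'
  refine ⟨hp.add hU hx, fun u hu hu' => ?_⟩
  have h1 := gL_sub hU hf hx.lip hf' hx.en
  have h2 : En U (fun z => f z - ξ z * f z) < ⊤ := h1.1 ▸ ENNReal.ofReal_lt_top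
  have h3 := om_outer hU Λ.far hu hu' (locLip_sub hf hx.lip) h2
    (fun z _ hz => by rw [hξ.one z hz.le, one_mul, sub_self])
    (by simpa only [sub_mul, one_mul] using hb)
  rw [om_eq_inner hu' h2, h1.2, smul_sub, inner_sub_right] at h3
  rw [om_eq_inner hu' (hp.add hU hx).en, (gL_add hU hp.lip hx.lip hp.en hx.en).2, smul_add,
    smul_add, inner_add_right, inner_add_right]
  linarith

/-- localised approximants of one component -/
theorem appr_one (hc : Ctx Λ M) {ξ x f a : ℂ → ℝ} (hξ : Cut Λ ξ)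
    (hp : XX U fun z => ξ z * x z) (hf : LocallyLipschitzOn U f) (hf' : En U f < ⊤)
    (ha : ∀ z, a z = ξ z * (x z + f z)) {v : ℕ → ℂ → ℝ} (hv : ∀ k, XX U (v k))
    (hl : Tendsto (fun k => gL U (v k)) atTop (𝓝 (gL U (fun z => ξ z * x z) + gL U f))) :
    ∃ (φ : ℕ → ℕ) (c : ℕ → ℝ), StrictMono φ ∧
      Tendsto (fun n => En U (fun z => ξ z * (v (φ n) z - c n + (1 - ξ z) * x z) - a z)) atTop
        (𝓝 0) ∧
      ∀ᵐ z, z ∈ U → Tendsto (fun n => ξ z * (v (φ n) z - c n + (1 - ξ z) * x z)) atTop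
        (𝓝 (a z)) := by
  have hU := hc.op
  have h1 := gL_add hU hp.lip hf hp.en hf'
  have h2 : En U (fun z => ξ z * x z + f z) < ⊤ := h1.1 ▸ ENNReal.ofReal_lt_top
  have h3 := locLip_add hp.lip hf
  have hw : ∀ k, LocallyLipschitzOn U fun z => v k z - (ξ z * x z + f z) :=
    fun k => locLip_sub (hv k).lip h3
  have h4 : Tendsto (fun k => En U fun z => v k z - (ξ z * x z + f z)) atTop (𝓝 0) := by
    simp only [fun k => (gL_sub hU (hv k).lip h3 (hv k).en h2).1, h1.2]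
    have h5 := ENNReal.tendsto_ofReal ((tendsto_iff_norm_sub_tendsto_zero.1 hl).pow 2)
    simpa using h5
  obtain ⟨φ, c, hφ, h5⟩ := hb_poinc hU hc.conn hw h4
  have h6 : Tendsto (fun n => En U fun z => v (φ n) z - (ξ z * x z + f z) - c n) atTop (𝓝 0) := by
    simpa only [En, fderiv_sub_const, Function.comp_def] using h4.comp hφ.tendsto_atTop
  have h7 := en_mul_A0 hU Λ (fun n => locLip_sub (hw (φ n)) (XX.const (U := U) (c n)).lip) h6 h5
    (hξ.a0 hU).1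
  refine ⟨φ, c, hφ, ?_, ?_⟩
  · refine h7.congr fun n => ?_
    congr 1
    funext z
    rw [ha]
    ring
  · filter_upwards [h5] with z hz hzU
    have h8 := ((hz hzU).const_mul (ξ z)).add_const (a z)
    rw [mul_zero, zero_add] at h8
    refine h8.congr fun n => ?_
    rw [ha]
    ring

theorem inBall_loc {ξ v₁ v₂ x y : ℂ → ℝ} (hξ : Cut Λ ξ) {q : Λ.E} {c : ℂ} {r : ℝ} (c₁ c₂ : ℝ)
    (h : InBall Λ v₁ v₂ q c r) :
    InBall Λ (fun z => ξ z * (v₁ z - c₁ + (1 - ξ z) * x z))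
      (fun z => ξ z * (v₂ z - c₂ + (1 - ξ z) * y z)) q (c - ⟨c₁, c₂⟩) r := by
  intro η hη
  obtain ⟨n, hn⟩ := h η hη
  refine ⟨n, fun z hz => le_of_eq_of_le ?_ (hn z hz)⟩
  congr 1
  apply Complex.ext <;> simp [hξ.lump hz]

/-- orthogonality relations of the minimiser -/
theorem Mini.perp (hc : Ctx Λ M) {G₁ G₂ V₁ V₂ : Lp ℂ 2 (volume.restrict U)} {ρ : Λ.E → ℝ}
    {v₁ v₂ : ℕ → ℂ → ℝ} {c : ℕ → Λ.E → ℂ} {r : ℕ → Λ.E → ℝ}
    (h : Mini Λ M G₁ G₂ V₁ V₂ ρ v₁ v₂ c r) {a : ℂ → ℝ} (ha : A0 U a) :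
    inner ℝ (gL U a) (V₁ + G₁) = 0 ∧ inner ℝ (gL U a) (V₂ + G₂) = 0 ∧
      inner ℝ V₁ (I • gL U a) = 0 ∧ inner ℝ V₂ (I • gL U a) = 0 := by
  have hU := hc.op
  obtain ⟨h1, h2⟩ := rt_A0 hc ha
  obtain ⟨h3, h4⟩ := rt_A0 hc (A0.const (U := U) 0)
  have h0 : L2w fun _ : Λ.E => (0 : ℝ) := ⟨fun _ => le_rfl, by simp⟩
  have lim : ∀ {v : ℕ → ℂ → ℝ} {V : Lp ℂ 2 (volume.restrict U)}, (∀ k, RT Λ M (v k)) →
      Tendsto (fun k => gL U (v k)) atTop (𝓝 V) → inner ℝ V (I • gL U a) = 0 := by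
    intro v V hv hl
    refine tendsto_nhds_unique (hl.inner (𝕜 := ℝ) tendsto_const_nhds) ?_
    simp only [fun k => (om_eq_inner (hv k).reg.xx.en ha.xx.en).symm,
      fun k => om_A0 hU (hv k).reg.xx.lip ha]
    exact tendsto_const_nhds
  refine ⟨?_, ?_, lim h.rt₁ h.t₁, lim h.rt₂ h.t₂⟩
  · have h5 := h.var a (fun _ => 0) _ _ h1 h3 h0 fun q => by
      simpa only [h2, h4, add_zero] using inBall_osc h1.reg.bdd h3.reg.bdd q
    simpa [gL_zero] using h5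
  · have h5 := h.var (fun _ => 0) a _ _ h3 h1 h0 fun q => by
      simpa only [h2, h4, add_zero] using inBall_osc h3.reg.bdd h1.reg.bdd q
    simpa [gL_zero] using h5

theorem st1 (hP : Pos) : St1 := by
  intro U Λ M hc hI
  have hU := hc.op
  obtain ⟨ξ, hξ⟩ := exists_cut Λ
  obtain ⟨hp₁, hp₂⟩ := xx_model hξ
  set P₁ := gL U (fun z => ξ z * z.re) with hP₁
  set P₂ := gL U (fun z => ξ z * z.im) with hP₂
  set G := -P₁ + I • P₂ with hG
  obtain ⟨V₁, V₂, ρ, v₁, v₂, c, r, hm⟩ := exists_mini hc G (I • G)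
  have hIG : I • G = -(I • P₁) - P₂ := by
    rw [hG, smul_add, I_smul_I_smul, smul_neg, sub_eq_add_neg]
  have hpa : ∀ a, A0 U a → inner ℝ P₁ (I • gL U a) = 0 ∧ inner ℝ P₂ (I • gL U a) = 0 :=
    fun a ha => ⟨(om_eq_inner hp₁.en ha.xx.en).symm.trans (om_A0 hU hp₁.lip ha),
      (om_eq_inner hp₂.en ha.xx.en).symm.trans (om_A0 hU hp₂.lip ha)⟩
  obtain ⟨F₁, hF₁, hk₁⟩ := prim_of_perp hU hc.conn (V₁ - P₁) fun a ha => by
    obtain ⟨h1, -, h3, -⟩ := hm.perp hc ha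
    obtain ⟨h5, h6⟩ := hpa a ha
    refine ⟨?_, ?_⟩
    · rw [real_inner_comm, inner_I_skew, neg_eq_zero] at h6
      rw [hG, inner_add_right, inner_add_right, inner_neg_right, h6] at h1
      rw [inner_sub_right]
      linarith
    · rw [real_inner_comm, inner_sub_left, h3, h5, sub_zero]
  obtain ⟨F₂, hF₂, hk₂⟩ := prim_of_perp hU hc.conn (I • (V₂ - P₂)) fun a ha => by
    obtain ⟨-, h2, -, h4⟩ := hm.perp hc ha
    obtain ⟨h5, h6⟩ := hpa a ha
    refine ⟨?_, ?_⟩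
    · rw [real_inner_comm, inner_I_skew, inner_sub_left, h4, h6, sub_zero, neg_zero]
    · rw [real_inner_comm, inner_I_skew, neg_eq_zero] at h5
      rw [hIG, inner_add_right, inner_sub_right, inner_neg_right, h5] at h2
      rw [inner_I_skew, I_smul_I_smul, inner_neg_right, neg_neg, inner_sub_right]
      linarith
  obtain ⟨⟨r₁, r₁'⟩, ⟨i₁, i₁'⟩, e₁⟩ := gL_hol hU hF₁ hk₁
  obtain ⟨⟨r₂, r₂'⟩, ⟨i₂, i₂'⟩, e₂⟩ := gL_hol hU hF₂ hk₂
  obtain ⟨b₁, hb₁⟩ := lim_inf hU Λ.far hF₁ e₁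
  obtain ⟨b₂, hb₂⟩ := lim_inf hU Λ.far hF₂ e₂
  have bd₁ := bdd_outer hU hξ hF₁ hb₁
  have bd₂ := bdd_outer hU hξ hF₂ hb₂
  have xa := (om_loc (α := reC ξ fun z => z + F₁ z) hU hξ hp₁ (locLip_re hU hF₁) r₁ bd₁.1
    fun z => by simp only [reC, add_re, mul_add]).1
  have xb := (om_loc (α := imC ξ fun z => z + F₂ z) hU hξ hp₂ (locLip_im hU hF₂) i₂ bd₂.2
    fun z => by simp only [imC, add_im, mul_add]).1
  obtain ⟨xα, hα⟩ := om_loc (α := reC ξ fun z => z + F₂ z) hU hξ hp₁ (locLip_re hU hF₂) r₂ bd₂.1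
    fun z => by simp only [reC, add_re, mul_add]
  obtain ⟨xβ, hβ⟩ := om_loc (α := imC ξ fun z => z + F₁ z) hU hξ hp₂ (locLip_im hU hF₁) i₁ bd₁.2
    fun z => by simp only [imC, add_im, mul_add]
  have eβ : I • (P₂ + gL U fun z => (F₁ z).im) = V₁ + G := by
    rw [i₁', smul_add, smul_neg, I_smul_I_smul, hG]
    abel
  have eα : I • (P₁ + gL U fun z => (F₂ z).re) = -(V₂ + I • G) := by
    rw [r₂', smul_add, I_smul_I_smul, hIG]
    abel
  rw [← hP₁, eα] at hα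
  rw [← hP₂, eβ] at hβ
  have hD : ∀ᵐ z ∂(volume.restrict U), ‖deriv (fun z => z + F₁ z) z - deriv (fun z => z + F₂ z) z‖ ^ 2
      = inner ℝ ((V₁ - I • V₂ + G) z) ((V₁ - I • V₂ + G) z) := by
    have e : V₁ - I • V₂ + G = (V₁ - P₁) - I • (V₂ - P₂) := by
      rw [hG, smul_sub]
      abel
    rw [e]
    filter_upwards [hk₁, hk₂, Lp.coeFn_sub (V₁ - P₁) (I • (V₂ - P₂)),
      ae_restrict_mem hU.measurableSet] with z h1 h2 h3 hz
    rw [h3, Pi.sub_apply, ← h1, ← h2, real_inner_self_eq_norm_sq,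
      deriv_fun_add differentiableAt_fun_id (hF₁.differentiableAt (hU.mem_nhds hz)),
      deriv_fun_add differentiableAt_fun_id (hF₂.differentiableAt (hU.mem_nhds hz)),
      add_sub_add_left_eq_sub]
  refine ⟨fun z => z + F₁ z, fun z => z + F₂ z, ξ, ρ, hξ, differentiableOn_id.add hF₁,
    differentiableOn_id.add hF₂, ⟨b₁, by simpa using hb₁⟩, xa, xb,
    ⟨xα, xβ, hm.l2ρ, fun φ₁ φ₂ c r k₁ k₂ kr kb => ?_⟩, ?_,
    (L2.integrable_inner (𝕜 := ℝ) _ _).congr (EventuallyEq.symm hD), ?_⟩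
  · rw [ell, hβ _ k₁.reg.xx.lip k₁.reg.xx.en, hα _ k₂.reg.xx.lip k₂.reg.xx.en, inner_neg_right,
      sub_neg_eq_add]
    exact hm.var φ₁ φ₂ c r k₁ k₂ kr kb
  · obtain ⟨φ, c₁, hφ, a₁, a₂⟩ := appr_one (x := fun z => z.re) (a := reC ξ fun z => z + F₁ z)
      hc hξ hp₁ (locLip_re hU hF₁) r₁ (fun z => by simp only [reC, add_re])
      (fun k => (hm.rt₁ k).reg.xx) (by
        rw [r₁', ← hP₁, add_sub_cancel]
        exact hm.t₁)
    obtain ⟨ψ, c₂, hψ, a₃, a₄⟩ := appr_one (x := fun z => z.im) (a := imC ξ fun z => z + F₂ z)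
      (v := fun n => v₂ (φ n))
      hc hξ hp₂ (locLip_im hU hF₂) i₂ (fun z => by simp only [imC, add_im])
      (fun k => (hm.rt₂ _).reg.xx) (by
        rw [i₂', I_smul_I_smul, neg_neg, ← hP₂, add_sub_cancel]
        exact hm.t₂.comp hφ.tendsto_atTop)
    refine ⟨fun n z => ξ z * (v₁ (φ (ψ n)) z - c₁ (ψ n) + (1 - ξ z) * z.re),
      fun n z => ξ z * (v₂ (φ (ψ n)) z - c₂ n + (1 - ξ z) * z.im),
      fun n q => c (φ (ψ n)) q - ⟨c₁ (ψ n), c₂ n⟩, fun n => r (φ (ψ n)),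
      fun n => rt_loc hc hξ (hm.rt₁ _) reCLM.contDiff _,
      fun n => rt_loc hc hξ (hm.rt₂ _) imCLM.contDiff _, fun n => hm.l2 _,
      fun n q => inBall_loc hξ _ _ (hm.ball _ q), a₁.comp hψ.tendsto_atTop, a₃, ?_, a₄,
      hm.lim.comp (hφ.comp hψ).tendsto_atTop⟩
    filter_upwards [a₂] with z hz hzU using (hz hzU).comp hψ.tendsto_atTop
  · have h1 := gL_add hU hp₂.lip (locLip_im hU hF₁) hp₂.en i₁
    have h2 : En U (fun z => ξ z * z.im + (F₁ z).im) < ⊤ := h1.1 ▸ ENNReal.ofReal_lt_top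
    have h3 : om U (reC ξ fun z => z + F₂ z) (imC ξ fun z => z + F₁ z) =
        inner ℝ (I • (V₂ + I • G)) (V₁ + G) := by
      have h4 := om_eq_inner xα.en h2
      rw [h1.2, ← hP₂, eβ, om_skew, hα _ (locLip_add hp₂.lip (locLip_im hU hF₁)) h2, h1.2, ← hP₂,
        inner_neg_right, neg_neg] at h4
      rw [hβ _ xα.lip xα.en, ← h4, ← eβ, inner_I_skew, I_smul_I_smul, inner_neg_right, neg_neg,
        real_inner_comm]
    rw [integral_congr_ae hD, ← L2.inner_def, real_inner_self_eq_norm_sq, h3]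
    refine gap_alg V₁ V₂ G _ hm.eq (ge_of_tendsto' ((((hm.t₁.sub (hm.t₂.const_smul I)).add_const
      G).norm.pow 2).add ((hm.t₁.inner (𝕜 := ℝ) (hm.t₂.const_smul I)).const_mul 2) |>.add hm.sq)
      fun k => ?_)
    have h5 := hP U Λ M ξ (v₁ k) (v₂ k) _ _ (c k) (r k) hc hI hξ (hm.rt₁ k) (hm.rt₂ k) (hm.l2 k)
      (hm.ball k) (fun _ => rfl) (fun _ => rfl)
    rwa [pos_form hU hξ (hm.rt₁ k).reg.xx (hm.rt₂ k).reg.xx (fun _ => rfl) (fun _ => rfl),
      om_eq_inner (hm.rt₁ k).reg.xx.en (hm.rt₂ k).reg.xx.en] at h5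

end Crest.Agent.R105.End
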