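import Crest.Agent.R105.NT3

/-! Row 105, block END (E1): gradients as elements of `L²(U, ℂ)`. -/

set_option autoImplicit false

open MeasureTheory Set Filter Topology Complex
open scoped ENNReal

namespace Crest.Agent.R105

noncomputable section

variable {U : Set ℂ}

/-- `u_x - i u_y` -/
def gz (u : ℂ → ℝ) (z : ℂ) : ℂ := ((fderiv ℝ u z 1 : ℝ) : ℂ) - I * ((fderiv ℝ u z I : ℝ) : ℂ)

theorem norm_gz (u : ℂ → ℝ) (z : ℂ) : ‖gz u z‖ = ‖fderiv ℝ u z‖ := by
  have h : fderiv ℝ u z = innerSL ℝ ((starRingEnd ℂ) (gz u z)) := by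
    ext w
    have := h99_clm_apply (fderiv ℝ u z) w.re w.im
    rw [re_add_im] at this
    rw [this]
    simp [gz, Complex.inner]
  rw [h, innerSL_apply_norm, Complex.norm_conj]

theorem enorm_gz (u : ℂ → ℝ) (z : ℂ) : ‖gz u z‖ₑ = ‖fderiv ℝ u z‖ₑ := by
  rw [← ofReal_norm, ← ofReal_norm, norm_gz]

theorem measurable_gz (u : ℂ → ℝ) : Measurable (gz u) := by
  unfold gz
  exact (measurable_ofReal.comp (measurable_fderiv_apply_const ℝ u _)).sub
    ((measurable_ofReal.comp (measurable_fderiv_apply_const ℝ u _)).const_mul _)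

theorem En_eq_gz (U : Set ℂ) (u : ℂ → ℝ) : En U u = ∫⁻ z in U, ‖gz u z‖ₑ ^ 2 := by
  simp only [En, enorm_gz]

theorem memLp_two_iff {f : ℂ → ℂ} (hf : AEStronglyMeasurable f (volume.restrict U)) :
    MemLp f 2 (volume.restrict U) ↔ ∫⁻ z in U, ‖f z‖ₑ ^ 2 < ⊤ := by
  rw [MemLp, eLpNorm_lt_top_iff_lintegral_rpow_enorm_lt_top two_ne_zero ENNReal.ofNat_ne_top]
  simp only [ENNReal.toReal_ofNat, ENNReal.rpow_two]
  exact ⟨fun h => h.2, fun h => ⟨hf, h⟩⟩

theorem memLp_gz {u : ℂ → ℝ} (h : En U u < ⊤) : MemLp (gz u) 2 (volume.restrict U) :=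
  (memLp_two_iff (measurable_gz u).aestronglyMeasurable).2 (by rwa [← En_eq_gz])

theorem lint_sq_Lp (f : Lp ℂ 2 (volume.restrict U)) :
    ∫⁻ z in U, ‖f z‖ₑ ^ 2 = ENNReal.ofReal (‖f‖ ^ 2) := by
  rw [ENNReal.ofReal_pow (norm_nonneg _), ofReal_norm, Lp.enorm_def,
    eLpNorm_eq_lintegral_rpow_enorm_toReal two_ne_zero ENNReal.ofNat_ne_top]
  simp only [ENNReal.toReal_ofNat, ENNReal.rpow_two]
  rw [← ENNReal.rpow_two, ← ENNReal.rpow_mul]
  norm_num

open Classical in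
/-- the gradient as an element of `L²` -/
def gL (U : Set ℂ) (u : ℂ → ℝ) : Lp ℂ 2 (volume.restrict U) :=
  if h : En U u < ⊤ then (memLp_gz h).toLp _ else 0

theorem gL_ae {u : ℂ → ℝ} (h : En U u < ⊤) : gL U u =ᵐ[volume.restrict U] gz u := by
  rw [gL, dif_pos h]
  exact MemLp.coeFn_toLp _

theorem wd_eq_inner (u c : ℂ → ℝ) (z : ℂ) : wd u c z = inner ℝ (gz u z) (I * gz c z) := by
  simp [wd, gz, Complex.inner]
  ring

theorem om_eq_inner {u c : ℂ → ℝ} (hu : En U u < ⊤) (hc : En U c < ⊤) :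
    om U u c = inner ℝ (gL U u) (I • gL U c) := by
  rw [om, L2.inner_def]
  refine integral_congr_ae ?_
  filter_upwards [gL_ae hu, gL_ae hc, Lp.coeFn_smul I (gL U c)] with z h1 h2 h3
  rw [h1, h3, Pi.smul_apply, h2, smul_eq_mul, wd_eq_inner]

theorem gz_add {u v : ℂ → ℝ} {z : ℂ} (hu : DifferentiableAt ℝ u z) (hv : DifferentiableAt ℝ v z) :
    gz (fun z => u z + v z) z = gz u z + gz v z := by
  simp only [gz, fderiv_fun_add hu hv, add_apply]
  push_cast
  ring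

theorem gz_sub {u v : ℂ → ℝ} {z : ℂ} (hu : DifferentiableAt ℝ u z) (hv : DifferentiableAt ℝ v z) :
    gz (fun z => u z - v z) z = gz u z - gz v z := by
  simp only [gz, fderiv_fun_sub hu hv, sub_apply]
  push_cast
  ring

theorem gz_smul (a : ℝ) (u : ℂ → ℝ) (z : ℂ) : gz (fun z => a * u z) z = a • gz u z := by
  have h : fderiv ℝ (fun z => a * u z) z = a • fderiv ℝ u z :=
    congrFun (fderiv_const_smul_field (𝕜 := ℝ) (f := u) a) z
  simp only [gz, h, smul_apply, smul_eq_mul, real_smul]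
  push_cast
  ring

theorem ae_diff' (hU : IsOpen U) {u : ℂ → ℝ} (hu : LocallyLipschitzOn U u) :
    ∀ᵐ z ∂(volume.restrict U), DifferentiableAt ℝ u z :=
  (ae_restrict_iff' hU.measurableSet).2 (ae_diff hU hu)

theorem En_of_ae {u : ℂ → ℝ} {f : Lp ℂ 2 (volume.restrict U)}
    (h : gz u =ᵐ[volume.restrict U] f) : En U u = ENNReal.ofReal (‖f‖ ^ 2) ∧ gL U u = f := by
  have h1 : En U u = ENNReal.ofReal (‖f‖ ^ 2) := by
    rw [En_eq_gz, ← lint_sq_Lp]
    refine lintegral_congr_ae ?_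
    filter_upwards [h] with z hz
    rw [hz]
  exact ⟨h1, Lp.ext ((gL_ae (h1 ▸ ENNReal.ofReal_lt_top)).trans h)⟩

theorem gL_add (hU : IsOpen U) {u v : ℂ → ℝ} (hu : LocallyLipschitzOn U u)
    (hv : LocallyLipschitzOn U v) (hu' : En U u < ⊤) (hv' : En U v < ⊤) :
    En U (fun z => u z + v z) = ENNReal.ofReal (‖gL U u + gL U v‖ ^ 2) ∧
      gL U (fun z => u z + v z) = gL U u + gL U v := by
  refine En_of_ae ?_
  filter_upwards [ae_diff' hU hu, ae_diff' hU hv, gL_ae hu', gL_ae hv',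
    Lp.coeFn_add (gL U u) (gL U v)] with z h1 h2 h3 h4 h5
  rw [h5, Pi.add_apply, h3, h4, gz_add h1 h2]

theorem gL_sub (hU : IsOpen U) {u v : ℂ → ℝ} (hu : LocallyLipschitzOn U u)
    (hv : LocallyLipschitzOn U v) (hu' : En U u < ⊤) (hv' : En U v < ⊤) :
    En U (fun z => u z - v z) = ENNReal.ofReal (‖gL U u - gL U v‖ ^ 2) ∧
      gL U (fun z => u z - v z) = gL U u - gL U v := by
  refine En_of_ae ?_
  filter_upwards [ae_diff' hU hu, ae_diff' hU hv, gL_ae hu', gL_ae hv',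
    Lp.coeFn_sub (gL U u) (gL U v)] with z h1 h2 h3 h4 h5
  rw [h5, Pi.sub_apply, h3, h4, gz_sub h1 h2]

theorem gL_smul (a : ℝ) {u : ℂ → ℝ} (hu : En U u < ⊤) :
    gL U (fun z => a * u z) = a • gL U u := by
  refine (En_of_ae ?_).2
  filter_upwards [gL_ae hu, Lp.coeFn_smul a (gL U u)] with z h1 h2
  rw [h2, Pi.smul_apply, h1, gz_smul]

theorem En_eq_gL {u : ℂ → ℝ} (hu : En U u < ⊤) : En U u = ENNReal.ofReal (‖gL U u‖ ^ 2) :=
  (En_of_ae (gL_ae hu).symm).1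

theorem gz_re {F : ℂ → ℂ} {z f : ℂ} (h : HasDerivAt F f z) : gz (fun z => (F z).re) z = f := by
  have h1 := (reCLM.hasFDerivAt.comp z (h.hasFDerivAt.restrictScalars ℝ)).fderiv
  have h2 : (fun z => (F z).re) = reCLM ∘ F := rfl
  rw [gz, h2, h1]
  apply Complex.ext <;> simp

theorem gz_im {F : ℂ → ℂ} {z f : ℂ} (h : HasDerivAt F f z) :
    gz (fun z => (F z).im) z = -I * f := by
  have h1 := (imCLM.hasFDerivAt.comp z (h.hasFDerivAt.restrictScalars ℝ)).fderiv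
  have h2 : (fun z => (F z).im) = imCLM ∘ F := rfl
  rw [gz, h2, h1]
  apply Complex.ext <;> simp

theorem locLip_of_C1 (hU : IsOpen U) {u : ℂ → ℝ} (hu : ContDiffOn ℝ 1 u U) :
    LocallyLipschitzOn U u := by
  intro z hz
  obtain ⟨K, t, ht, h⟩ := (hu.contDiffAt (hU.mem_nhds hz)).exists_lipschitzOnWith
  exact ⟨K, t, mem_nhdsWithin_of_mem_nhds ht, h⟩

theorem locLip_re (hU : IsOpen U) {F : ℂ → ℂ} (hF : DifferentiableOn ℂ F U) :
    LocallyLipschitzOn U fun z => (F z).re :=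
  locLip_of_C1 hU
    (reCLM.contDiff.comp_contDiffOn ((hF.contDiffOn (n := 1) hU).restrict_scalars ℝ))

theorem locLip_im (hU : IsOpen U) {F : ℂ → ℂ} (hF : DifferentiableOn ℂ F U) :
    LocallyLipschitzOn U fun z => (F z).im :=
  locLip_of_C1 hU
    (imCLM.contDiff.comp_contDiffOn ((hF.contDiffOn (n := 1) hU).restrict_scalars ℝ))

theorem inner_I_skew (f g : Lp ℂ 2 (volume.restrict U)) :
    inner ℝ (I • f) g = -inner ℝ f (I • g) := by
  rw [L2.inner_def, L2.inner_def, ← integral_neg]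
  refine integral_congr_ae ?_
  filter_upwards [Lp.coeFn_smul I f, Lp.coeFn_smul I g] with z h1 h2
  rw [h1, h2]
  simp [Complex.inner]
  ring

theorem I_smul_I_smul (f : Lp ℂ 2 (volume.restrict U)) : I • I • f = -f := by
  rw [smul_smul, I_mul_I, neg_smul, one_smul]

end

end Crest.Agent.R105
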