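import Crest.Agent.R105.E1a

/-! Row 105, block END (E1): projection on a cone and the algebra of the gap inequality. -/

set_option autoImplicit false

open MeasureTheory Set Filter Topology Complex
open scoped ENNReal

namespace Crest.Agent.R105.End

/-- projection of `-G` on the closure of a convex cone -/
theorem cone1 {H : Type*} [NormedAddCommGroup H] [InnerProductSpace ℝ H] [CompleteSpace H]
    (S : Set H) (h0 : (0 : H) ∈ S) (hadd : ∀ s ∈ S, ∀ t ∈ S, s + t ∈ S)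
    (hsm : ∀ s ∈ S, ∀ a : ℝ, 0 ≤ a → a • s ∈ S) (G : H) :
    ∃ V ∈ closure S, (∀ t ∈ S, 0 ≤ inner ℝ t (V + G)) ∧ inner ℝ V (V + G) = 0 := by
  have hconv : Convex ℝ S := fun x hx y hy a b ha hb _ => hadd _ (hsm x hx a ha) _ (hsm y hy b hb)
  obtain ⟨V, hV, h⟩ := exists_norm_eq_iInf_of_complete_convex ⟨0, subset_closure h0⟩
    isClosed_closure.isComplete hconv.closure (-G)
  rw [norm_eq_iInf_iff_real_inner_le_zero hconv.closure hV] at h
  have h1 : ∀ t ∈ closure S, 0 ≤ inner ℝ t (V + G) := by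
    intro t ht
    have h2 : V + t ∈ closure S := map_mem_closure₂ (f := fun x y : H => x + y) continuous_add hV ht hadd
    have h3 := h _ h2
    rw [add_sub_cancel_left, show -G - V = -(V + G) by abel, inner_neg_left, real_inner_comm] at h3
    linarith
  refine ⟨V, hV, fun t ht => h1 t (subset_closure ht), le_antisymm ?_ (h1 V hV)⟩
  have h3 := h 0 (subset_closure h0)
  rwa [zero_sub, show -G - V = -(V + G) by abel, inner_neg_neg, real_inner_comm] at h3

theorem cone3 {A B : Type*} [NormedAddCommGroup A] [InnerProductSpace ℝ A] [CompleteSpace A]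
    [NormedAddCommGroup B] [InnerProductSpace ℝ B] [CompleteSpace B] (S : Set (A × A × B))
    (h0 : (0 : A × A × B) ∈ S) (hadd : ∀ s ∈ S, ∀ t ∈ S, s + t ∈ S)
    (hsm : ∀ s ∈ S, ∀ a : ℝ, 0 ≤ a → a • s ∈ S) (G₁ G₂ : A) :
    ∃ (V₁ V₂ : A) (W : B) (s : ℕ → A × A × B), (∀ n, s n ∈ S) ∧
      Tendsto s atTop (𝓝 (V₁, V₂, W)) ∧
      (∀ t ∈ S, 0 ≤ inner ℝ t.1 (V₁ + G₁) + inner ℝ t.2.1 (V₂ + G₂) + inner ℝ t.2.2 W) ∧
      inner ℝ V₁ (V₁ + G₁) + inner ℝ V₂ (V₂ + G₂) + inner ℝ W W = 0 := by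
  let e : WithLp 2 (A × WithLp 2 (A × B)) →L[ℝ] A × A × B :=
    ((ContinuousLinearMap.id ℝ A).prodMap
      (WithLp.prodContinuousLinearEquiv 2 ℝ A B).toContinuousLinearMap).comp
      (WithLp.prodContinuousLinearEquiv 2 ℝ A (WithLp 2 (A × B))).toContinuousLinearMap
  have he : ∀ x, e x = (x.fst, x.snd.fst, x.snd.snd) := fun x => rfl
  obtain ⟨V, hV, h1, h2⟩ := cone1 (e ⁻¹' S) (by simpa using h0)
    (fun s hs t ht => by simpa using hadd _ hs _ ht)
    (fun s hs a ha => by simpa using hsm _ hs a ha)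
    (WithLp.toLp 2 (G₁, WithLp.toLp 2 (G₂, 0)))
  obtain ⟨x, hx, hl⟩ := mem_closure_iff_seq_limit.1 hV
  refine ⟨V.fst, V.snd.fst, V.snd.snd, fun n => e (x n), hx, (e.continuous.tendsto V).comp hl,
    fun t ht => ?_, ?_⟩
  · have := h1 (WithLp.toLp 2 (t.1, WithLp.toLp 2 (t.2.1, t.2.2))) ht
    simpa [WithLp.prod_inner_apply, add_assoc] using this
  · simpa [WithLp.prod_inner_apply, add_assoc] using h2

/-- the gap inequality in Hilbert space form -/
theorem gap_alg {U : Set ℂ} (V₁ V₂ G : Lp ℂ 2 (volume.restrict U)) (t : ℝ)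
    (h1 : inner ℝ V₁ (V₁ + G) + inner ℝ V₂ (V₂ + I • G) + t = 0)
    (h2 : 0 ≤ ‖V₁ - I • V₂ + G‖ ^ 2 + 2 * inner ℝ V₁ (I • V₂) + t) :
    ‖V₁ - I • V₂ + G‖ ^ 2 ≤ -2 * inner ℝ (I • (V₂ + I • G)) (V₁ + G) - t := by
  have e1 : inner ℝ (I • V₂) (I • V₂) = inner ℝ V₂ V₂ := by
    rw [inner_I_skew, I_smul_I_smul, inner_neg_right, neg_neg]
  have e2 : inner ℝ V₂ (I • G) = -inner ℝ (I • V₂) G := by rw [inner_I_skew, neg_neg]
  rw [← real_inner_self_eq_norm_sq] at h2 ⊢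
  rw [smul_add, I_smul_I_smul]
  simp only [inner_add_left, inner_add_right, inner_sub_left, inner_sub_right, inner_neg_left,
    e1, e2] at h1 h2 ⊢
  rw [real_inner_comm V₁ G, real_inner_comm V₁ (I • V₂), real_inner_comm (I • V₂) G] at *
  linarith

end Crest.Agent.R105.End
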