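import Crest.Agent.R105.ET

/-! Row 105, block END: toolkit (limits, the functional `ell`, approximation). -/

set_option autoImplicit false

open MeasureTheory Set Filter Topology
open scoped ENNReal

namespace Crest.Agent.R105.End

variable {U : Set ℂ} {Λ : Lumps U} {M : Set (ℂ → ℝ)}

theorem h39_jensen {f : ℝ → ℝ≥0∞} (hf : Measurable f) :
    (∫⁻ t in Ioc (0 : ℝ) 1, f t) ^ 2 ≤ ∫⁻ t in Ioc (0 : ℝ) 1, f t ^ 2 := by
  have h := ENNReal.lintegral_mul_le_Lp_mul_Lq (volume.restrict (Ioc (0 : ℝ) 1))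
    Real.HolderConjugate.two_two hf.aemeasurable (g := fun _ => 1) aemeasurable_const
  simp only [Pi.mul_apply, mul_one, ENNReal.one_rpow, setLIntegral_const, Real.volume_Ioc, sub_zero,
    ENNReal.ofReal_one, ENNReal.rpow_two, one_pow] at h
  refine (pow_le_pow_left' h 2).trans_eq ?_
  rw [← ENNReal.rpow_natCast, ← ENNReal.rpow_mul]
  norm_num

/-- `L²` Poincaré on a disc: square `h79_segment` (Cauchy-Schwarz / Jensen in `t`), then as in
`hb_poinc_ball` (`h79_scale`). -/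
theorem poinc2_ball {g : ℂ → ℝ} {C : NNReal} (hg : LipschitzWith C g) (p : ℂ) (r : ℝ) :
    ∫⁻ x in Metric.ball p r, ∫⁻ y in Metric.ball p r, ‖g x - g y‖ₑ ^ 2 ≤
      ENNReal.ofReal (32 * r ^ 2) * volume (Metric.ball p r) *
        ∫⁻ z in Metric.ball p r, ‖fderiv ℝ g z‖ₑ ^ 2 := by
  classical
  set F : ℂ → ℝ≥0∞ := (Metric.ball p r).indicator fun z =>
    if DifferentiableAt ℝ g z then ‖fderiv ℝ g z‖ₑ else ⊤ with hFdef
  have hF : Measurable F :=
    (Measurable.ite (measurableSet_of_differentiableAt ℝ g) (measurable_fderiv ℝ g).enorm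
      measurable_const).indicator measurableSet_ball
  have hF2 : Measurable fun z => F z ^ 2 := hF.pow_const 2
  have hI : ∫⁻ z, F z ^ 2 = ∫⁻ z in Metric.ball p r, ‖fderiv ℝ g z‖ₑ ^ 2 := by
    rw [← lintegral_indicator measurableSet_ball]
    refine lintegral_congr_ae ?_
    filter_upwards [hg.ae_differentiableAt (μ := volume)] with z hz
    by_cases h : z ∈ Metric.ball p r
    · rw [hFdef, indicator_of_mem h, indicator_of_mem h, if_pos hz]
    · rw [hFdef, indicator_of_notMem h, indicator_of_notMem h, zero_pow two_ne_zero]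
  have hG : Measurable fun q : (ℂ × ℂ) × ℝ => F ((1 - q.2) • q.1.1 + q.2 • q.1.2) ^ 2 :=
    hF2.comp (by fun_prop)
  have h1 : ∀ t : ℝ, ∫⁻ q : ℂ × ℂ, F ((1 - t) • q.1 + t • q.2) ^ 2
      ∂((volume.restrict (Metric.ball p r)).prod (volume.restrict (Metric.ball p r))) ≤
        4 * (∫⁻ y, F y ^ 2) * volume (Metric.ball p r) := by
    intro t
    have hGt : Measurable fun q : ℂ × ℂ => F ((1 - t) • q.1 + t • q.2) ^ 2 :=
      hF2.comp (by fun_prop)
    rcases le_total (1 / 2) t with ht | ht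
    · rw [lintegral_prod _ hGt.aemeasurable]
      refine (lintegral_mono fun x => (setLIntegral_le_lintegral _ _).trans
        (h79_scale hF2 ((1 - t) • x) ht)).trans ?_
      rw [setLIntegral_const]
    · rw [lintegral_prod_symm _ hGt.aemeasurable]
      simp only [add_comm ((1 - t) • _)]
      refine (lintegral_mono fun y => (setLIntegral_le_lintegral _ _).trans
        (h79_scale hF2 (t • y) (t := 1 - t) (by linarith))).trans ?_
      rw [setLIntegral_const]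
  have hm : Measurable fun q : ℂ × ℂ => ‖g q.1 - g q.2‖ₑ ^ 2 :=
    ((hg.continuous.comp continuous_fst).sub
      (hg.continuous.comp continuous_snd)).measurable.enorm.pow_const 2
  have e2 : ENNReal.ofReal (2 * r) ^ 2 * 4 ≤ ENNReal.ofReal (32 * r ^ 2) := by
    rcases le_total r 0 with hr | hr
    · rw [ENNReal.ofReal_of_nonpos (by linarith), zero_pow two_ne_zero, zero_mul]
      exact zero_le
    · rw [← ENNReal.ofReal_pow (by linarith), ← ENNReal.ofReal_ofNat 4,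
        ← ENNReal.ofReal_mul (by positivity)]
      exact ENNReal.ofReal_le_ofReal (by nlinarith)
  have hne : ENNReal.ofReal (2 * r) ^ 2 ≠ ⊤ := ENNReal.pow_ne_top ENNReal.ofReal_ne_top
  calc ∫⁻ x in Metric.ball p r, ∫⁻ y in Metric.ball p r, ‖g x - g y‖ₑ ^ 2
      = ∫⁻ q : ℂ × ℂ, ‖g q.1 - g q.2‖ₑ ^ 2
          ∂((volume.restrict (Metric.ball p r)).prod (volume.restrict (Metric.ball p r))) :=
        (lintegral_prod _ hm.aemeasurable).symm
    _ ≤ ∫⁻ q : ℂ × ℂ, ENNReal.ofReal (2 * r) ^ 2 * ∫⁻ t in Ioc (0 : ℝ) 1,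
          F ((1 - t) • q.1 + t • q.2) ^ 2 ∂volume
          ∂((volume.restrict (Metric.ball p r)).prod (volume.restrict (Metric.ball p r))) := by
        rw [Measure.prod_restrict]
        refine setLIntegral_mono' (measurableSet_ball.prod measurableSet_ball) fun q hq => ?_
        refine (pow_le_pow_left' (h79_segment hg (F := F) (fun z hz h => ?_) (fun z hz h => ?_)
          hq.1 hq.2) 2).trans ?_
        · rw [hFdef, indicator_of_mem hz, if_pos h]
        · rw [hFdef, indicator_of_mem hz, if_neg h]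
        · rw [mul_pow]
          exact mul_le_mul_right (h39_jensen (hF.comp (by fun_prop))) _
    _ = ENNReal.ofReal (2 * r) ^ 2 * ∫⁻ t in Ioc (0 : ℝ) 1, ∫⁻ q : ℂ × ℂ,
          F ((1 - t) • q.1 + t • q.2) ^ 2
          ∂((volume.restrict (Metric.ball p r)).prod (volume.restrict (Metric.ball p r))) := by
        rw [lintegral_const_mul' _ _ hne, lintegral_lintegral_swap hG.aemeasurable]
    _ ≤ ENNReal.ofReal (2 * r) ^ 2 * (4 * (∫⁻ y, F y ^ 2) * volume (Metric.ball p r)) := by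
        gcongr
        refine (lintegral_mono h1).trans ?_
        rw [setLIntegral_const, Real.volume_Ioc, sub_zero, ENNReal.ofReal_one, mul_one]
    _ = ENNReal.ofReal (2 * r) ^ 2 * 4 * volume (Metric.ball p r) * ∫⁻ y, F y ^ 2 := by ring
    _ ≤ _ := by
        rw [hI]
        gcongr

theorem h28_ptw (a b : ℝ) :
    ‖a‖ₑ ^ 2 ≤ 2 * ‖a - b‖ₑ ^ 2 + 2 * min (‖b‖ₑ ^ 2) 1 + ‖a‖ₑ ^ 2 * min (‖b‖ₑ ^ 2) 1 := by
  rcases le_total (‖b‖ₑ ^ 2) 1 with h | h
  · rw [min_eq_left h]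
    refine le_trans ?_ le_self_add
    have e : ∀ x : ℝ, ‖x‖ₑ ^ 2 = ENNReal.ofReal (x ^ 2) := fun x => by
      rw [Real.enorm_eq_ofReal_abs, ← ENNReal.ofReal_pow (abs_nonneg _), sq_abs]
    rw [e, e, e, ← ENNReal.ofReal_ofNat, ← ENNReal.ofReal_mul zero_le_two,
      ← ENNReal.ofReal_mul zero_le_two, ← ENNReal.ofReal_add (by positivity) (by positivity)]
    exact ENNReal.ofReal_le_ofReal (by nlinarith [sq_nonneg (a - 2 * b)])
  · rw [min_eq_right h, mul_one, mul_one]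
    exact le_add_self

theorem h28_ball {g : ℂ → ℝ} {C : NNReal} (hg : LipschitzWith C g) (p : ℂ) {r : ℝ} (hr : 0 < r)
    (hM : 2 * ∫⁻ y in Metric.ball p r, min (‖g y‖ₑ ^ 2) 1 ≤ volume (Metric.ball p r)) :
    ∫⁻ x in Metric.ball p r, ‖g x‖ₑ ^ 2 ≤
      4 * (ENNReal.ofReal (32 * r ^ 2) * ∫⁻ z in Metric.ball p r, ‖fderiv ℝ g z‖ₑ ^ 2) +
        4 * ∫⁻ y in Metric.ball p r, min (‖g y‖ₑ ^ 2) 1 := by
  have hP := poinc2_ball hg p r
  have hc := hg.continuous
  have hfin : volume (Metric.ball p r) ≠ ⊤ := measure_ball_lt_top.ne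
  have hpos : volume (Metric.ball p r) ≠ 0 := (Metric.measure_ball_pos volume p hr).ne'
  have hI : ∫⁻ x in Metric.ball p r, ‖g x‖ₑ ^ 2 ≠ ⊤ := by
    obtain ⟨B, hB⟩ := (isCompact_closedBall p r).exists_bound_of_continuousOn hc.continuousOn
    refine ne_top_of_le_ne_top ?_ (setLIntegral_mono' measurableSet_ball
      (g := fun _ => ENNReal.ofReal B ^ 2) fun x hx => ?_)
    · rw [setLIntegral_const]
      exact ENNReal.mul_ne_top (ENNReal.pow_ne_top ENNReal.ofReal_ne_top) hfin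
    · rw [← ofReal_norm]
      exact pow_le_pow_left' (ENNReal.ofReal_le_ofReal (hB x (Metric.ball_subset_closedBall hx))) 2
  have m1 : Measurable fun x => ‖g x‖ₑ ^ 2 := hc.measurable.enorm.pow_const 2
  have m2 : Measurable fun y => min (‖g y‖ₑ ^ 2) 1 := m1.min measurable_const
  have m3 : Measurable fun q : ℂ × ℂ => ‖g q.1 - g q.2‖ₑ ^ 2 :=
    ((hc.comp continuous_fst).sub (hc.comp continuous_snd)).measurable.enorm.pow_const 2
  set V := volume (Metric.ball p r)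
  set M := ∫⁻ y in Metric.ball p r, min (‖g y‖ₑ ^ 2) 1
  have h1 : ∀ x, ‖g x‖ₑ ^ 2 * V ≤
      2 * (∫⁻ y in Metric.ball p r, ‖g x - g y‖ₑ ^ 2) + 2 * M + ‖g x‖ₑ ^ 2 * M := fun x => by
    rw [← setLIntegral_const]
    refine (lintegral_mono fun y => h28_ptw (g x) (g y)).trans (le_of_eq ?_)
    rw [lintegral_add_right _ (m2.const_mul _), lintegral_add_right _ (m2.const_mul _),
      lintegral_const_mul _ m2, lintegral_const_mul _ m2, lintegral_const_mul' _ _ (by simp)]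
  have h2 := lintegral_mono (μ := volume.restrict (Metric.ball p r)) h1
  rw [lintegral_mul_const _ m1, lintegral_add_right _ (m1.mul_const _),
    lintegral_add_right _ measurable_const, lintegral_mul_const _ m1,
    lintegral_const_mul' _ _ (by simp), setLIntegral_const] at h2
  set I := ∫⁻ x in Metric.ball p r, ‖g x‖ₑ ^ 2
  set E := ∫⁻ z in Metric.ball p r, ‖fderiv ℝ g z‖ₑ ^ 2
  rw [← ENNReal.mul_le_mul_iff_left hpos hfin,
    ← ENNReal.add_le_add_iff_right (ENNReal.mul_ne_top hI hfin)]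
  calc I * V + I * V = 2 * (I * V) := by ring
    _ ≤ 2 * (2 * (ENNReal.ofReal (32 * r ^ 2) * V * E) + 2 * M * V + I * M) := by
        gcongr
        refine h2.trans ?_
        gcongr
    _ = (4 * (ENNReal.ofReal (32 * r ^ 2) * E) + 4 * M) * V + I * (2 * M) := by ring
    _ ≤ _ := by gcongr

/-- Energy convergence and a.e. convergence give `L²` convergence on compact sets.  Cover `K` by
finitely many discs `B ⊆ U` on which every `u k` is Lipschitz (closed disc compact in `U`;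
extend by `LipschitzOnWith.extend_real`).  On `B`, `A_k = {|u k| ≤ 1}` has measure `≥ |B|/2` for
large `k`, and `u(x)² ≤ 2 (u x - u y)² + 2 min (u y ^ 2) 1` for `y ∈ A_k`; integrate over
`x ∈ B`, `y ∈ A_k`, use `poinc2_ball` and dominated convergence. -/
theorem l2loc (hU : IsOpen U) {u : ℕ → ℂ → ℝ} (hu : ∀ k, LocallyLipschitzOn U (u k))
    (he : Tendsto (fun k => En U (u k)) atTop (𝓝 0))
    (ha : ∀ᵐ z, z ∈ U → Tendsto (fun k => u k z) atTop (𝓝 0)) {K : Set ℂ} (hK : IsCompact K)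
    (hKU : K ⊆ U) : Tendsto (fun k => ∫⁻ z in K, ‖u k z‖ₑ ^ 2) atTop (𝓝 0) := by
  refine hK.induction_on (p := fun s => Tendsto (fun k => ∫⁻ z in s, ‖u k z‖ₑ ^ 2) atTop (𝓝 0))
    (by simp) (fun s t hst h => tendsto_of_tendsto_of_tendsto_of_le_of_le tendsto_const_nhds h
      (fun _ => zero_le) fun k => lintegral_mono_set hst)
    (fun s t h h' => tendsto_of_tendsto_of_tendsto_of_le_of_le tendsto_const_nhds
      (by simpa using h.add h') (fun _ => zero_le) fun k => lintegral_union_le _ _ _) fun p hp => ?_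
  obtain ⟨r, hr, hB⟩ := Metric.nhds_basis_closedBall.mem_iff.1 (hU.mem_nhds (hKU hp))
  refine ⟨_, mem_nhdsWithin_of_mem_nhds (Metric.ball_mem_nhds p hr), ?_⟩
  have h1 : ∀ n, ∃ (g : ℂ → ℝ) (K : NNReal), LipschitzWith K g ∧
      EqOn (u n) g (Metric.closedBall p r) := by
    intro n
    obtain ⟨K, hK⟩ := ((hu n).mono hB).exists_lipschitzOnWith_of_compact (isCompact_closedBall p r)
    obtain ⟨g, hg, he⟩ := hK.extend_real
    exact ⟨g, K, hg, he⟩
  choose g C hg hge using h1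
  have hBU : Metric.ball p r ⊆ U := Metric.ball_subset_closedBall.trans hB
  have hfin : volume (Metric.ball p r) ≠ ⊤ := measure_ball_lt_top.ne
  have hpos : volume (Metric.ball p r) ≠ 0 := (Metric.measure_ball_pos volume p hr).ne'
  have hM : Tendsto (fun k => ∫⁻ y in Metric.ball p r, min (‖g k y‖ₑ ^ 2) 1) atTop (𝓝 0) := by
    have := tendsto_lintegral_of_dominated_convergence (μ := volume.restrict (Metric.ball p r))
      (F := fun k y => min (‖g k y‖ₑ ^ 2) 1) (f := fun _ => 0) (fun _ => 1)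
      (fun k => ((hg k).continuous.measurable.enorm.pow_const 2).min measurable_const)
      (fun k => Eventually.of_forall fun y => min_le_right _ _) (by simpa using hfin) ?_
    · simpa using this
    rw [ae_restrict_iff' measurableSet_ball]
    filter_upwards [ha] with y hy hyB
    have h2 : Tendsto (fun k => ‖g k y‖ₑ ^ 2) atTop (𝓝 0) := by
      have := ENNReal.Tendsto.pow (n := 2) (hy (hBU hyB)).enorm
      simp only [enorm_zero, ne_eq, OfNat.ofNat_ne_zero, not_false_eq_true, zero_pow] at this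
      exact this.congr fun k => by rw [hge k (Metric.ball_subset_closedBall hyB)]
    exact tendsto_of_tendsto_of_tendsto_of_le_of_le tendsto_const_nhds h2 (fun _ => zero_le)
      fun _ => min_le_left _ _
  have h3 : Tendsto (fun k => 4 * (ENNReal.ofReal (32 * r ^ 2) * En U (u k)) +
      4 * ∫⁻ y in Metric.ball p r, min (‖g k y‖ₑ ^ 2) 1) atTop (𝓝 0) := by
    simpa only [mul_zero, add_zero] using (ENNReal.Tendsto.const_mul (a := 4)
      (ENNReal.Tendsto.const_mul (a := ENNReal.ofReal (32 * r ^ 2)) he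
      (Or.inr ENNReal.ofReal_ne_top)) (Or.inr (by simp))).add
      (ENNReal.Tendsto.const_mul (a := 4) hM (Or.inr (by simp)))
  have h4 : Tendsto (fun k => 2 * ∫⁻ y in Metric.ball p r, min (‖g k y‖ₑ ^ 2) 1) atTop (𝓝 0) := by
    simpa using ENNReal.Tendsto.const_mul (a := 2) hM (Or.inr (by simp))
  refine tendsto_of_tendsto_of_tendsto_of_le_of_le' tendsto_const_nhds h3
    (Eventually.of_forall fun _ => zero_le) ?_
  filter_upwards [h4.eventually (ge_mem_nhds (pos_iff_ne_zero.2 hpos))] with k hk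
  rw [setLIntegral_congr_fun measurableSet_ball (g := fun z => ‖g k z‖ₑ ^ 2) fun z hz => by
    simp only [hge k (Metric.ball_subset_closedBall hz)]]
  refine (h28_ball (hg k) p hr hk).trans ?_
  gcongr
  refine le_trans (le_of_eq (setLIntegral_congr_fun measurableSet_ball fun z hz => ?_))
    (lintegral_mono_set hBU)
  have : u k =ᶠ[𝓝 z] g k := by
    filter_upwards [Metric.isOpen_ball.mem_nhds hz] with w hw
    exact hge k (Metric.ball_subset_closedBall hw)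
  simp only [this.fderiv_eq]

theorem h73_fd_bd (hU : IsOpen U) {χ : ℂ → ℝ} (hχ : LocallyLipschitzOn U χ) {C : Set ℂ}
    (hC : IsCompact C) (hCU : C ⊆ U) : ∃ L : ℝ, ∀ z ∈ C, ‖fderiv ℝ χ z‖ ≤ L := by
  refine hC.induction_on (p := fun s => ∃ L : ℝ, ∀ z ∈ s, ‖fderiv ℝ χ z‖ ≤ L)
    ⟨0, fun _ h => h.elim⟩ (fun s t hst ⟨L, hL⟩ => ⟨L, fun z hz => hL z (hst hz)⟩)
    (fun s t ⟨L, hL⟩ ⟨L', hL'⟩ => ⟨max L L', fun z hz => hz.elim
      (fun h => (hL z h).trans (le_max_left _ _)) fun h => (hL' z h).trans (le_max_right _ _)⟩)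
    fun x hx => ?_
  obtain ⟨K, t, ht, hK⟩ := hχ (hCU hx)
  rw [hU.nhdsWithin_eq (hCU hx)] at ht
  refine ⟨interior t, mem_nhdsWithin_of_mem_nhds (interior_mem_nhds.2 ht), K, fun z hz => ?_⟩
  exact norm_fderiv_le_of_lipschitzOn ℝ (mem_interior_iff_mem_nhds.1 hz) hK

theorem h73_sq_enorm {E : Type*} [NormedAddCommGroup E] (x : E) :
    ‖x‖ₑ ^ 2 = ENNReal.ofReal (‖x‖ ^ 2) := by
  rw [ENNReal.ofReal_pow (norm_nonneg _), ofReal_norm]

/-- product rule a.e.; `χ` is bounded, its derivative vanishes off a compact `C ⊆ U` and is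
bounded on `C` (locally Lipschitz); `l2loc` -/
theorem en_mul_A0 (hU : IsOpen U) (Λ : Lumps U) {u : ℕ → ℂ → ℝ}
    (hu : ∀ k, LocallyLipschitzOn U (u k)) (he : Tendsto (fun k => En U (u k)) atTop (𝓝 0))
    (ha : ∀ᵐ z, z ∈ U → Tendsto (fun k => u k z) atTop (𝓝 0)) {χ : ℂ → ℝ} (hχ : A0 U χ) :
    Tendsto (fun k => En U (fun z => u k z * χ z)) atTop (𝓝 0) := by
  obtain ⟨B, hB⟩ := hχ.bdd Λ
  obtain ⟨C, hC, hCU, hloc⟩ := hχ.loc
  obtain ⟨L, hL⟩ := h73_fd_bd hU hχ.xx.lip hC hCU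
  have hCm : MeasurableSet C := hC.isClosed.measurableSet
  have h2 := l2loc hU hu he ha hC hCU
  have hle : ∀ k, En U (fun z => u k z * χ z) ≤ ENNReal.ofReal (2 * B ^ 2) * En U (u k) +
      ENNReal.ofReal (2 * L ^ 2) * ∫⁻ z in C, ‖u k z‖ₑ ^ 2 := by
    intro k
    have e1 : ∫⁻ z in C, ‖u k z‖ₑ ^ 2 = ∫⁻ z in U, C.indicator (fun z => ‖u k z‖ₑ ^ 2) z := by
      rw [lintegral_indicator hCm, Measure.restrict_restrict hCm, inter_eq_left.2 hCU]
    rw [e1]
    unfold En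
    rw [← lintegral_const_mul' _ _ ENNReal.ofReal_ne_top,
      ← lintegral_const_mul' _ _ ENNReal.ofReal_ne_top, ← lintegral_add_left
        (((measurable_fderiv ℝ (u k)).enorm.pow_const 2).const_mul _)]
    refine lintegral_mono_ae ((ae_restrict_iff' hU.measurableSet).2 ?_)
    filter_upwards [ae_diff hU (hu k), ae_diff hU hχ.xx.lip] with z h1 h2 hz
    have hd : fderiv ℝ (fun z => u k z * χ z) z = u k z • fderiv ℝ χ z + χ z • fderiv ℝ (u k) z :=
      fderiv_fun_mul (h1 hz) (h2 hz)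
    have hb : ‖χ z • fderiv ℝ (u k) z‖ ≤ B * ‖fderiv ℝ (u k) z‖ := by
      rw [norm_smul]
      exact mul_le_mul_of_nonneg_right (hB z hz) (norm_nonneg _)
    rw [hd]
    by_cases hzC : z ∈ C
    · have hc : ‖u k z • fderiv ℝ χ z‖ ≤ ‖u k z‖ * L := by
        rw [norm_smul]
        exact mul_le_mul_of_nonneg_left (hL z hzC) (norm_nonneg _)
      rw [indicator_of_mem hzC, h73_sq_enorm, h73_sq_enorm, h73_sq_enorm,
        ← ENNReal.ofReal_mul (by positivity), ← ENNReal.ofReal_mul (by positivity),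
        ← ENNReal.ofReal_add (by positivity) (by positivity)]
      refine ENNReal.ofReal_le_ofReal ?_
      have h3 := (norm_add_le _ _).trans (add_le_add hc hb)
      have h4 := pow_le_pow_left₀ (norm_nonneg _) h3 2
      nlinarith [sq_nonneg (‖u k z‖ * L - B * ‖fderiv ℝ (u k) z‖)]
    · have h0 : fderiv ℝ χ z = 0 := by
        have : χ =ᶠ[𝓝 z] fun _ => χ z := hloc z hz hzC
        rw [this.fderiv_eq, fderiv_fun_const, Pi.zero_apply]
      rw [h0, smul_zero, zero_add, indicator_of_notMem hzC, mul_zero, add_zero, h73_sq_enorm,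
        h73_sq_enorm, ← ENNReal.ofReal_mul (by positivity)]
      refine ENNReal.ofReal_le_ofReal ?_
      have h4 := pow_le_pow_left₀ (norm_nonneg _) hb 2
      nlinarith [sq_nonneg (B * ‖fderiv ℝ (u k) z‖)]
  have h3 := (ENNReal.Tendsto.const_mul (a := ENNReal.ofReal (2 * B ^ 2)) he
    (Or.inr ENNReal.ofReal_ne_top)).add
    (ENNReal.Tendsto.const_mul (a := ENNReal.ofReal (2 * L ^ 2)) h2 (Or.inr ENNReal.ofReal_ne_top))
  rw [mul_zero, mul_zero, add_zero] at h3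
  exact tendsto_of_tendsto_of_tendsto_of_le_of_le tendsto_const_nhds h3 (fun _ => zero_le) hle

/-- `‖D(clamp_k u - u)‖ ≤ 2 ‖Du‖`, and it vanishes where `|u| < k`; dominated convergence -/
theorem en_clamp (hU : IsOpen U) {u : ℂ → ℝ} (hu : XX U u) :
    Tendsto (fun k : ℕ => En U (fun z => max (-(k : ℝ)) (min (u z) k) - u z)) atTop (𝓝 0) := by
  have hT : ∀ (k s s' : ℝ), |(max (-k) (min s k) - s) - (max (-k) (min s' k) - s')| ≤
      2 * |s - s'| := by
    intro k s s'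
    have h1 : |max (-k) (min s k) - max (-k) (min s' k)| ≤ |s - s'| :=
      (abs_max_sub_max_le_max _ _ _ _).trans (max_le (by simp)
        ((abs_min_sub_min_le_max _ _ _ _).trans (max_le le_rfl (by simp))))
    rw [show (max (-k) (min s k) - s) - (max (-k) (min s' k) - s') =
      (max (-k) (min s k) - max (-k) (min s' k)) - (s - s') by ring]
    refine (abs_sub _ _).trans ?_
    linarith
  have h := tendsto_lintegral_of_dominated_convergence' (μ := volume.restrict U)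
    (F := fun (k : ℕ) z => ‖fderiv ℝ (fun z => max (-(k : ℝ)) (min (u z) k) - u z) z‖ₑ ^ 2)
    (f := fun _ => 0) (fun z => ENNReal.ofReal 4 * ‖fderiv ℝ u z‖ₑ ^ 2)
    (fun k => ((measurable_fderiv ℝ _).enorm.pow_const 2).aemeasurable) (fun k => ?_) ?_ ?_
  · rw [lintegral_zero] at h
    exact h
  · refine (ae_restrict_iff' hU.measurableSet).2 ?_
    filter_upwards [ae_diff hU hu.lip] with z h1 hz
    have h2 : ‖fderiv ℝ (fun z => max (-(k : ℝ)) (min (u z) k) - u z) z‖ ≤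
        2 * ‖fderiv ℝ u z‖ := by
      refine ContinuousLinearMap.opNorm_le_bound _ (by positivity) fun w => ?_
      have h3 := norm_fderiv_comp2_le (u := u) (v := u)
        (G := fun s _ => max (-(k : ℝ)) (min s k) - s) (L₁ := 2) (L₂ := 0)
        (fun s t s' t' => by simpa using hT k s s') (h1 hz) (h1 hz) w
      have h4 : |fderiv ℝ u z w| ≤ ‖fderiv ℝ u z‖ * ‖w‖ := (fderiv ℝ u z).le_opNorm w
      rw [Real.norm_eq_abs]
      linarith
    show _ ≤ ENNReal.ofReal 4 * ‖fderiv ℝ u z‖ₑ ^ 2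
    rw [h73_sq_enorm, h73_sq_enorm, ← ENNReal.ofReal_mul (by positivity)]
    refine ENNReal.ofReal_le_ofReal ?_
    have h4 := pow_le_pow_left₀ (norm_nonneg _) h2 2
    linarith
  · rw [lintegral_const_mul' _ _ ENNReal.ofReal_ne_top]
    exact ENNReal.mul_ne_top ENNReal.ofReal_ne_top hu.en.ne
  · refine (ae_restrict_iff' hU.measurableSet).2 (Eventually.of_forall fun z hz => ?_)
    refine tendsto_const_nhds.congr' ?_
    obtain ⟨N, hN⟩ := exists_nat_gt |u z|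
    filter_upwards [eventually_ge_atTop N] with k hk
    have hk' : |u z| < k := hN.trans_le (Nat.cast_le.2 hk)
    have hc : ContinuousAt u z := hu.lip.continuousOn.continuousAt (hU.mem_nhds hz)
    have h0 : (fun z => max (-(k : ℝ)) (min (u z) k) - u z) =ᶠ[𝓝 z] fun _ => 0 := by
      filter_upwards [hc.abs.eventually (gt_mem_nhds hk')] with w hw
      obtain ⟨h1, h2⟩ := abs_lt.1 hw
      rw [min_eq_left h2.le, max_eq_right h1.le, sub_self]
    rw [h0.fderiv_eq, fderiv_fun_const, Pi.zero_apply, h73_sq_enorm, norm_zero]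
    simp

/-- Regular approximants of an element of `T`.  Apply `MAIN` (level `N = 0`, `ε = 1/(k+1)`) to
`clamp_k u` (`CH.lip`, `XX.comp_lip`); `En_add_le`, `en_clamp`; `hb_poinc` gives a subsequence and
constants `c k` with `r - u - c k → 0` a.e.; for large `k` and `‖z‖` large `r k z = u z`
(`u` is constant near infinity, no lump meets `‖z‖ ≥ Λ.R`), a set of positive measure, so
`c k → 0`. -/
theorem tt_seq (hc : Ctx Λ M) {u : ℂ → ℝ} {n : Λ.E → ℝ} (hu : XX U u) (hn : Adm Λ M ∅ u n) :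
    ∃ (r : ℕ → ℂ → ℝ) (e : ℕ → Λ.E → ℝ), (∀ k, RT Λ M (r k)) ∧ (∀ k, L2w (e k)) ∧
      (∀ k q, Λ.osc (r k) q ≤ n q + e k q) ∧ Tendsto (fun k => nrm (e k)) atTop (𝓝 0) ∧
      Tendsto (fun k => En U (fun z => r k z - u z)) atTop (𝓝 0) ∧
      ∀ᵐ z, z ∈ U → Tendsto (fun k => r k z) atTop (𝓝 (u z)) := by
  have hU := hc.op
  have hT : ∀ (k : ℕ) (s s' : ℝ),
      |max (-(k : ℝ)) (min s k) - max (-(k : ℝ)) (min s' k)| ≤ 1 * |s - s'| := fun k s s' => by
    rw [one_mul]; exact h18_clamp _ _ _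
  have hv : ∀ k : ℕ, XX U (fun z => max (-(k : ℝ)) (min (u z) k)) := fun k =>
    XX.comp_lip hU (T := fun s => max (-(k : ℝ)) (min s k)) (hT k) hu
  have hva : ∀ k : ℕ, Adm Λ M ∅ (fun z => max (-(k : ℝ)) (min (u z) k)) n := fun k => by
    have := CH.lip hc.ch hu hn (T := fun s => max (-(k : ℝ)) (min s k)) zero_le_one (hT k)
    simpa only [one_mul] using this
  have hex := fun k : ℕ => hc.main _ n (-(k : ℝ)) k 0 (1 / ((k : ℝ) + 1)) ⟨hv k, n, hva k⟩
    (fun z _ => h18_clamp_mem (Nat.cast_nonneg k) _) (hva k) (by positivity)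
  choose r e h1 h2 h3 h4 h5 h6 h7 h8 using hex
  have hk : Tendsto (fun k : ℕ => 1 / ((k : ℝ) + 1)) atTop (𝓝 0) :=
    tendsto_one_div_add_atTop_nhds_zero_nat
  have hE : Tendsto (fun k => En U (fun z => r k z - u z)) atTop (𝓝 0) := by
    have a1 : Tendsto (fun k : ℕ => En U (fun z => r k z - max (-(k : ℝ)) (min (u z) k))) atTop
        (𝓝 0) := by
      have := ENNReal.tendsto_ofReal hk
      rw [ENNReal.ofReal_zero] at this
      exact tendsto_of_tendsto_of_tendsto_of_le_of_le tendsto_const_nhds this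
        (fun _ => zero_le) h7
    have a2 := en_clamp hU hu
    have hp : ∀ p : ℝ, 0 < p → Tendsto (fun x : ℝ≥0∞ => x ^ p) (𝓝 0) (𝓝 0) := fun p hp => by
      have := (ENNReal.continuous_rpow_const (y := p)).tendsto 0
      rwa [ENNReal.zero_rpow_of_pos hp] at this
    have a3 := ((hp (1 / 2) (by norm_num)).comp a1).add ((hp (1 / 2) (by norm_num)).comp a2)
    rw [add_zero] at a3
    have a4 := (hp 2 (by norm_num)).comp a3
    refine tendsto_of_tendsto_of_tendsto_of_le_of_le tendsto_const_nhds a4 (fun _ => zero_le)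
      fun k => ?_
    have b := En_add_le hU (XX.sub hU (h1 k).xx (hv k)).lip (XX.sub hU (hv k) hu).lip
    simp only [sub_add_sub_cancel] at b
    have b2 := ENNReal.rpow_le_rpow b (z := 2) (by norm_num)
    rw [← ENNReal.rpow_mul] at b2
    norm_num at b2
    simpa [Function.comp_def] using b2
  obtain ⟨φ, c, hφ, hae⟩ := hb_poinc hU hc.conn (u := fun k z => r k z - u z)
    (fun k => (XX.sub hU (h1 k).xx hu).lip) hE
  have hc0 : Tendsto c atTop (𝓝 0) := by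
    have hop : IsOpen {z : ℂ | Λ.R < ‖z‖} := isOpen_lt continuous_const continuous_norm
    have hne : {z : ℂ | Λ.R < ‖z‖}.Nonempty := by
      refine ⟨((|Λ.R| + 1 : ℝ) : ℂ), ?_⟩
      show Λ.R < ‖((|Λ.R| + 1 : ℝ) : ℂ)‖
      rw [Complex.norm_real, Real.norm_eq_abs, abs_of_pos (by positivity)]
      linarith [le_abs_self Λ.R]
    obtain ⟨z, hz1, hz2⟩ := (Measure.dense_of_ae hae).exists_mem_open hop hne
    have hz : Λ.R < ‖z‖ := hz2
    have hzU : z ∈ U := Λ.far z hz.le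
    have t1 := hz1 hzU
    have t2 : ∀ᶠ k : ℕ in atTop, r (φ k) z - u z - c k = - c k := by
      have : ∀ᶠ k : ℕ in atTop, |u z| ≤ ((φ k : ℕ) : ℝ) :=
        (tendsto_natCast_atTop_atTop.comp hφ.tendsto_atTop).eventually_ge_atTop _
      filter_upwards [this] with k hk
      rw [h8 (φ k) z hzU fun q hq => ?_, h18_clamp_eq hk]
      · ring
      · have := (Λ.sub 0 q hq).2
        rw [mem_ball_zero_iff] at this
        linarith
    have t3 := (t1.congr' t2).neg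
    simpa using t3
  refine ⟨fun k => r (φ k), fun k => e (φ k), fun k => ⟨h1 _, h2 _⟩, fun k => h4 _,
    fun k => h6 _, ?_, hE.comp hφ.tendsto_atTop, ?_⟩
  · exact tendsto_of_tendsto_of_tendsto_of_le_of_le tendsto_const_nhds
      (hk.comp hφ.tendsto_atTop) (fun _ => L2w.nrm_nonneg _) fun k => h5 _
  · filter_upwards [hae] with z hz hzU
    have := ((hz hzU).add hc0).add_const (u z)
    simpa using this

/-- `tt_seq` twice, `inBall_osc`, `inBall_mono`, radii `n₁ + n₂ + e₁ k + e₂ k` -/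
theorem exists_appr (hc : Ctx Λ M) {a b : ℂ → ℝ} {n₁ n₂ : Λ.E → ℝ} (ha : XX U a) (hb : XX U b)
    (h₁ : Adm Λ M ∅ a n₁) (h₂ : Adm Λ M ∅ b n₂) :
    ∃ u₁ u₂ c r, Appr Λ M a b u₁ u₂ c r (fun q => n₁ q + n₂ q) := by
  obtain ⟨u₁, e₁, a1, a2, a3, a4, a5, a6⟩ := tt_seq hc ha h₁
  obtain ⟨u₂, e₂, b1, b2, b3, b4, b5, b6⟩ := tt_seq hc hb h₂
  refine ⟨u₁, u₂, fun k q => ⟨Λ.lo (u₁ k) q, Λ.lo (u₂ k) q⟩,
    fun k q => (n₁ q + n₂ q) + (e₁ k q + e₂ k q), a1, b1,
    fun k => ((h₁.l2.add h₂.l2).1.add ((a2 k).add (b2 k)).1).1,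
    fun k q => inBall_mono (inBall_osc (a1 k).reg.bdd (b1 k).reg.bdd q)
      (by linarith [a3 k q, b3 k q]), a5, b5, a6, b6, ?_⟩
  simp only [add_sub_cancel_left]
  refine squeeze_zero (fun k => Real.sqrt_nonneg _) (fun k => ((a2 k).add (b2 k)).2) ?_
  simpa using a4.add b4

/-- `|Σ ρ (r k - ρ')| ≤ nrm ρ * nrm (r k - ρ')` for a bounded multiplier -/
theorem tsum_tendsto {E : Type} {ρ ρ' g : E → ℝ} {r : ℕ → E → ℝ} (hρ : L2w ρ) (hρ' : L2w ρ')
    (hr : ∀ k, L2w (r k)) {C : ℝ} (hg : ∀ q, |g q| ≤ C)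
    (h : Tendsto (fun k => nrm (fun q => r k q - ρ' q)) atTop (𝓝 0)) :
    Tendsto (fun k => ∑' q, ρ q * (g q * r k q)) atTop (𝓝 (∑' q, ρ q * (g q * ρ' q))) ∧
      ∀ q, Tendsto (fun k => r k q) atTop (𝓝 (ρ' q)) := by
  have hd : ∀ k, L2w fun q => |r k q - ρ' q| := fun k =>
    (((hr k).add hρ').1.of_le (fun q => abs_nonneg _) fun q => by
      rw [abs_le]
      constructor <;> linarith [(hr k).1 q, hρ'.1 q]).1
  have hn : ∀ k, nrm (fun q => |r k q - ρ' q|) = nrm fun q => r k q - ρ' q := fun k => by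
    simp only [nrm, sq_abs]
  have hb : ∀ (s : E → ℝ) (q : E), ‖ρ q * (g q * s q)‖ ≤ |C| * (ρ q * |s q|) := fun s q => by
    rw [Real.norm_eq_abs, abs_mul, abs_mul, abs_of_nonneg (hρ.1 q), mul_left_comm]
    exact mul_le_mul_of_nonneg_right ((hg q).trans (le_abs_self C))
      (mul_nonneg (hρ.1 q) (abs_nonneg _))
  have hs : ∀ s : E → ℝ, L2w s → Summable fun q => ρ q * (g q * s q) := fun s hs =>
    Summable.of_norm_bounded ((hρ.summable_mul hs).1.mul_left |C|) fun q => by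
      simpa only [abs_of_nonneg (hs.1 q)] using hb s q
  constructor
  · rw [tendsto_iff_norm_sub_tendsto_zero]
    refine squeeze_zero (g := fun k => |C| * (nrm ρ * nrm fun q => r k q - ρ' q))
      (fun k => norm_nonneg _) (fun k => ?_) (by simpa using (h.const_mul (nrm ρ)).const_mul |C|)
    rw [← (hs _ (hr k)).tsum_sub (hs _ hρ')]
    have h1 := hρ.summable_mul (hd k)
    refine (tsum_of_norm_bounded (h1.1.hasSum.mul_left |C|) fun q => ?_).trans ?_
    · rw [← mul_sub, ← mul_sub]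
      exact hb (fun q => r k q - ρ' q) q
    · rw [← hn]
      exact mul_le_mul_of_nonneg_left h1.2 (abs_nonneg _)
  · intro q
    rw [tendsto_iff_norm_sub_tendsto_zero]
    exact squeeze_zero (fun k => norm_nonneg _) (fun k => ((hd k).le_nrm q).trans_eq (hn k)) h

/-! ### the functional `ell` -/

theorem ell_add (hU : IsOpen U) {α β φ₁ φ₂ ψ₁ ψ₂ : ℂ → ℝ} (hα : XX U α) (hβ : XX U β)
    (h₁ : XX U φ₁) (h₂ : XX U φ₂) (k₁ : XX U ψ₁) (k₂ : XX U ψ₂) :
    ell U α β (fun z => φ₁ z + ψ₁ z) (fun z => φ₂ z + ψ₂ z) =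
      ell U α β φ₁ φ₂ + ell U α β ψ₁ ψ₂ := by
  unfold ell
  rw [om_add_left hU h₁ k₁ hβ, om_add_left hU h₂ k₂ hα]
  ring

theorem ell_sub (hU : IsOpen U) {α β φ₁ φ₂ ψ₁ ψ₂ : ℂ → ℝ} (hα : XX U α) (hβ : XX U β)
    (h₁ : XX U φ₁) (h₂ : XX U φ₂) (k₁ : XX U ψ₁) (k₂ : XX U ψ₂) :
    ell U α β (fun z => φ₁ z - ψ₁ z) (fun z => φ₂ z - ψ₂ z) =
      ell U α β φ₁ φ₂ - ell U α β ψ₁ ψ₂ := by
  unfold ell
  rw [om_sub_left hU h₁ k₁ hβ, om_sub_left hU h₂ k₂ hα]
  ring

theorem ell_smul (α β φ₁ φ₂ : ℂ → ℝ) (t : ℝ) :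
    ell U α β (fun z => t * φ₁ z) (fun z => t * φ₂ z) = t * ell U α β φ₁ φ₂ := by
  unfold ell
  rw [om_smul_left, om_smul_left]
  ring

theorem ell_sum (hU : IsOpen U) {ι : Type*} (s : Finset ι) {α β : ℂ → ℝ} {φ₁ φ₂ : ι → ℂ → ℝ}
    (hα : XX U α) (hβ : XX U β) (h₁ : ∀ i ∈ s, XX U (φ₁ i)) (h₂ : ∀ i ∈ s, XX U (φ₂ i)) :
    ell U α β (fun z => ∑ i ∈ s, φ₁ i z) (fun z => ∑ i ∈ s, φ₂ i z) =
      ∑ i ∈ s, ell U α β (φ₁ i) (φ₂ i) := by
  unfold ell
  rw [om_sum_left hU s h₁ hβ, om_sum_left hU s h₂ hα, Finset.sum_sub_distrib]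

/-- `om_germ_congr` -/
theorem ell_germ (hU : IsOpen U) (Λ : Lumps U) {α β φ₁ φ₂ ψ₁ ψ₂ : ℂ → ℝ} (hα : XX U α)
    (hβ : XX U β) (h₁ : XX U φ₁) (h₂ : XX U φ₂) (k₁ : XX U ψ₁) (k₂ : XX U ψ₂)
    (h : ∀ q, ∃ n a b, ∀ z ∈ Λ.W n q, φ₁ z = ψ₁ z + a ∧ φ₂ z = ψ₂ z + b) :
    ell U α β φ₁ φ₂ = ell U α β ψ₁ ψ₂ := by
  unfold ell
  rw [om_germ_congr hU Λ h₁ k₁ hβ hβ fun q => ?_, om_germ_congr hU Λ h₂ k₂ hα hα fun q => ?_]
  · obtain ⟨n, a, b, h⟩ := h q
    exact ⟨n, b, 0, fun z hz => (h z hz).2, fun z _ => (add_zero _).symm⟩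
  · obtain ⟨n, a, b, h⟩ := h q
    exact ⟨n, a, 0, fun z hz => (h z hz).1, fun z _ => (add_zero _).symm⟩

/-- the value of `l(φ χ)` only depends on the values of `χ` at the ends -/
theorem ell_val (hU : IsOpen U) (Λ : Lumps U) {α β φ₁ φ₂ χ χ' : ℂ → ℝ} (hα : XX U α)
    (hβ : XX U β) (h₁ : XX U φ₁) (h₂ : XX U φ₂) (hχ : A0 U χ) (hχ' : A0 U χ')
    (h : ∀ q, Λ.val χ q = Λ.val χ' q) :
    ell U α β (fun z => φ₁ z * χ z) (fun z => φ₂ z * χ z) =
      ell U α β (fun z => φ₁ z * χ' z) (fun z => φ₂ z * χ' z) := by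
  obtain ⟨N, hN⟩ := hχ.eq_val Λ
  obtain ⟨N', hN'⟩ := hχ'.eq_val Λ
  refine ell_germ hU Λ hα hβ (h₁.mul_A0 hU Λ hχ) (h₂.mul_A0 hU Λ hχ) (h₁.mul_A0 hU Λ hχ')
    (h₂.mul_A0 hU Λ hχ') fun q => ⟨max N N', 0, 0, fun z hz => ?_⟩
  rw [hN _ (le_max_left _ _) q z hz, hN' _ (le_max_right _ _) q z hz, h q]
  simp

theorem h18_om_tendsto (hU : IsOpen U) {c φ : ℂ → ℝ} {u : ℕ → ℂ → ℝ} (hc : XX U c) (h : XX U φ)
    (k : ∀ k, XX U (u k)) (e : Tendsto (fun k => En U (fun z => u k z - φ z)) atTop (𝓝 0)) :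
    Tendsto (fun k => om U (u k) c) atTop (𝓝 (om U φ c)) := by
  have h1 := (((ENNReal.tendsto_toReal ENNReal.zero_ne_top).comp e).sqrt).mul_const
    (Real.sqrt (En U c).toReal)
  rw [ENNReal.toReal_zero, Real.sqrt_zero, zero_mul] at h1
  refine tendsto_sub_nhds_zero_iff.1 (squeeze_zero_norm (fun n => ?_) h1)
  rw [← om_sub_left hU (k n) h hc]
  exact abs_om_le ((k n).sub hU h).en hc.en

/-- `om_sub_left`, `abs_om_le` -/
theorem ell_tendsto (hU : IsOpen U) {α β φ₁ φ₂ : ℂ → ℝ} {u₁ u₂ : ℕ → ℂ → ℝ} (hα : XX U α)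
    (hβ : XX U β) (h₁ : XX U φ₁) (h₂ : XX U φ₂) (k₁ : ∀ k, XX U (u₁ k)) (k₂ : ∀ k, XX U (u₂ k))
    (e₁ : Tendsto (fun k => En U (fun z => u₁ k z - φ₁ z)) atTop (𝓝 0))
    (e₂ : Tendsto (fun k => En U (fun z => u₂ k z - φ₂ z)) atTop (𝓝 0)) :
    Tendsto (fun k => ell U α β (u₁ k) (u₂ k)) atTop (𝓝 (ell U α β φ₁ φ₂)) := by
  exact (h18_om_tendsto hU hβ h₁ k₁ e₁).sub (h18_om_tendsto hU hα h₂ k₂ e₂)

/-- `En_comp_tendsto` with `G p = Ψ ⟨p.1, p.2⟩` (derivative bound `2 L` for the sup norm) -/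
theorem en_cp_tendsto (hU : IsOpen U) {Ψ a b : ℂ → ℝ} {u₁ u₂ : ℕ → ℂ → ℝ} (hΨ : LC1 Ψ)
    (ha : XX U a) (hb : XX U b) (k₁ : ∀ k, XX U (u₁ k)) (k₂ : ∀ k, XX U (u₂ k))
    (a₁ : ∀ᵐ z, z ∈ U → Tendsto (fun k => u₁ k z) atTop (𝓝 (a z)))
    (a₂ : ∀ᵐ z, z ∈ U → Tendsto (fun k => u₂ k z) atTop (𝓝 (b z)))
    (e₁ : Tendsto (fun k => En U (fun z => u₁ k z - a z)) atTop (𝓝 0))
    (e₂ : Tendsto (fun k => En U (fun z => u₂ k z - b z)) atTop (𝓝 0)) :
    Tendsto (fun k => En U (fun z => cp Ψ (u₁ k) (u₂ k) z - cp Ψ a b z)) atTop (𝓝 0) := by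
  obtain ⟨L, hL⟩ := hΨ.lip
  let e : ℝ × ℝ →L[ℝ] ℂ := Complex.equivRealProdCLM.symm
  have hG : ContDiff ℝ 1 (Ψ ∘ e) := hΨ.sm.comp e.contDiff
  have hb' : ∀ p, ‖fderiv ℝ (Ψ ∘ e) p‖ ≤ L * ‖e‖ := by
    intro p
    rw [fderiv_comp p (hΨ.sm.differentiable one_ne_zero _) e.differentiableAt, e.fderiv]
    exact (ContinuousLinearMap.opNorm_comp_le _ _).trans
      (mul_le_mul_of_nonneg_right (hL _) (norm_nonneg _))
  have he : ∀ s t : ℝ, (Ψ ∘ e) (s, t) = Ψ ⟨s, t⟩ := by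
    intro s t
    have : e (s, t) = ⟨s, t⟩ := by
      apply Complex.ext <;> simp [e, Complex.equivRealProdCLM_symm_apply]
    rw [Function.comp_apply, this]
  have := En_comp_tendsto hU ha hb k₁ k₂ hG hb' a₁ a₂ e₁ e₂
  simp only [he] at this
  simp only [cp]
  exact this

/-- `om_mul_swap` moves `χ` to `α, β`; then `en_cp_tendsto`, `ell_tendsto` -/
theorem ell_cp_tendsto (hU : IsOpen U) (Λ : Lumps U) {α β Ψ₁ Ψ₂ a b χ : ℂ → ℝ}
    {u₁ u₂ : ℕ → ℂ → ℝ} (hα : XX U α) (hβ : XX U β) (h₁ : LC1 Ψ₁) (h₂ : LC1 Ψ₂) (hχ : A0 U χ)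
    (ha : XX U a) (hb : XX U b) (k₁ : ∀ k, XX U (u₁ k)) (k₂ : ∀ k, XX U (u₂ k))
    (a₁ : ∀ᵐ z, z ∈ U → Tendsto (fun k => u₁ k z) atTop (𝓝 (a z)))
    (a₂ : ∀ᵐ z, z ∈ U → Tendsto (fun k => u₂ k z) atTop (𝓝 (b z)))
    (e₁ : Tendsto (fun k => En U (fun z => u₁ k z - a z)) atTop (𝓝 0))
    (e₂ : Tendsto (fun k => En U (fun z => u₂ k z - b z)) atTop (𝓝 0)) :
    Tendsto (fun k => ell U α β (fun z => cp Ψ₁ (u₁ k) (u₂ k) z * χ z)
      (fun z => cp Ψ₂ (u₁ k) (u₂ k) z * χ z)) atTop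
      (𝓝 (ell U α β (fun z => cp Ψ₁ a b z * χ z) (fun z => cp Ψ₂ a b z * χ z))) := by
  have key : ∀ {φ₁ φ₂ : ℂ → ℝ}, XX U φ₁ → XX U φ₂ →
      ell U α β (fun z => φ₁ z * χ z) (fun z => φ₂ z * χ z) =
        ell U (fun z => α z * χ z) (fun z => β z * χ z) φ₁ φ₂ := by
    intro φ₁ φ₂ p₁ p₂
    rw [ell, ell, om_mul_swap hU Λ p₁ hβ hχ, om_mul_swap hU Λ p₂ hα hχ]
  rw [key (xx_cp hU h₁ ha hb) (xx_cp hU h₂ ha hb)]
  simp only [fun k => key (xx_cp hU h₁ (k₁ k) (k₂ k)) (xx_cp hU h₂ (k₁ k) (k₂ k))]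
  exact ell_tendsto hU (hα.mul_A0 hU Λ hχ) (hβ.mul_A0 hU Λ hχ) (xx_cp hU h₁ ha hb)
    (xx_cp hU h₂ ha hb) (fun k => xx_cp hU h₁ (k₁ k) (k₂ k)) (fun k => xx_cp hU h₂ (k₁ k) (k₂ k))
    (en_cp_tendsto hU h₁ ha hb k₁ k₂ a₁ a₂ e₁ e₂) (en_cp_tendsto hU h₂ ha hb k₁ k₂ a₁ a₂ e₁ e₂)

/-- A function of `β` alone pairs to zero with `β` (no boundedness of `β`).  With `Ft` the
primitive of `F`, a.e. `wd (F(β) χ) β = F(β) wd χ β = wd χ (Ft β)`; `om_skew`, `om_A0` for the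
locally Lipschitz function `Ft ∘ β`. -/
theorem om_self' (hU : IsOpen U) {β χ : ℂ → ℝ} (hβ : XX U β) (hχ : A0 U χ) {F : ℝ → ℝ}
    (hF : ContDiff ℝ 1 F) : om U (fun z => F (β z) * χ z) β = 0 := by
  have hFc : Continuous F := hF.continuous
  let Ft : ℝ → ℝ := fun t => ∫ s in (0 : ℝ)..t, F s
  have hd : ∀ t, HasDerivAt Ft (F t) t := fun t => (hFc.integral_hasStrictDerivAt 0 t).hasDerivAt
  have hd' : deriv Ft = F := funext fun t => (hd t).deriv
  have hFt : ContDiff ℝ 1 Ft :=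
    contDiff_one_iff_deriv.2 ⟨fun t => (hd t).differentiableAt, by rw [hd']; exact hFc⟩
  have h1 := om_comp_right (u := χ) hU hFt hβ.lip
  rw [om_skew, om_A0 hU (h90_lip_comp hFt hβ.lip) hχ, neg_zero, hd'] at h1
  rw [om, h1]
  refine setIntegral_congr_ae hU.measurableSet ?_
  filter_upwards [ae_diff hU hβ.lip, ae_diff hU hχ.xx.lip] with z h2 h3 hz
  have h4 := (hF.differentiable one_ne_zero (β z)).hasDerivAt
  have h5 : DifferentiableAt ℝ (fun z => F (β z)) z := h4.differentiableAt.comp z (h2 hz)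
  simp only [wd]
  rw [h90_fderiv_mul h5 (h3 hz), h90_fderiv_mul h5 (h3 hz), h90_fderiv_comp h4 (h2 hz),
    h90_fderiv_comp h4 (h2 hz)]
  ring

end Crest.Agent.R105.End
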