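import Mathlib

/-! Row 105, block HB: a holomorphic function without periods against `A₀` has a primitive. -/

set_option autoImplicit false

namespace Crest.Agent.R105

open MeasureTheory Filter Topology Set Metric Complex
open scoped ContDiff

/-- a smooth step: `0` left of `a`, `1` right of `b`. -/
structure PStep (α : ℝ → ℝ) (a b : ℝ) : Prop where
  sm : ContDiff ℝ ∞ α
  zero : ∀ x ≤ a, α x = 0
  one : ∀ x, b ≤ x → α x = 1

/-- the product bump `α'(x) β'(y)`. -/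
noncomputable def pBump (α β : ℝ → ℝ) (z : ℂ) : ℝ := deriv α z.re * deriv β z.im

/-- `X = (P, Q)` is a smooth field with compact support in `S` and divergence `ρ`. -/
structure PDiv (S : Set ℂ) (P Q ρ : ℂ → ℝ) : Prop where
  smP : ContDiff ℝ ∞ P
  smQ : ContDiff ℝ ∞ Q
  cP : HasCompactSupport P
  cQ : HasCompactSupport Q
  sP : tsupport P ⊆ S
  sQ : tsupport Q ⊆ S
  div : ∀ z, fderiv ℝ P z 1 + fderiv ℝ Q z I = ρ z

/-- `Real.smoothTransition ((x - a) / (b - a))`. -/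
theorem exists_pStep {a b : ℝ} (h : a < b) : ∃ α, PStep α a b := by
  refine ⟨fun x => Real.smoothTransition ((x - a) / (b - a)), ?_, fun x hx => ?_, fun x hx => ?_⟩
  · exact Real.smoothTransition.contDiff.comp ((contDiff_id.sub contDiff_const).div_const _)
  · exact Real.smoothTransition.zero_of_nonpos
      (div_nonpos_of_nonpos_of_nonneg (sub_nonpos.2 hx) (sub_pos.2 h).le)
  · exact Real.smoothTransition.one_of_one_le ((one_le_div (sub_pos.2 h)).2 (by linarith))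

theorem PStep.h92_deriv {α : ℝ → ℝ} {a b : ℝ} (h : PStep α a b) {x : ℝ} (hx : deriv α x ≠ 0) :
    x ∈ Icc a b := by
  by_contra hc
  apply hx
  rcases not_and_or.1 hc with h1 | h1
  · have : α =ᶠ[𝓝 x] fun _ => 0 :=
      Filter.eventually_of_mem (Iio_mem_nhds (not_le.1 h1)) fun y hy => h.zero y (le_of_lt hy)
    rw [this.deriv_eq, deriv_const]
  · have : α =ᶠ[𝓝 x] fun _ => 1 :=
      Filter.eventually_of_mem (Ioi_mem_nhds (not_le.1 h1)) fun y hy => h.one y (le_of_lt hy)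
    rw [this.deriv_eq, deriv_const]

theorem PStep.h92_sub {α α₁ : ℝ → ℝ} {a b : ℝ} (h : PStep α a b) (h₁ : PStep α₁ a b) {x : ℝ}
    (hx : α x - α₁ x ≠ 0) : x ∈ Icc a b := by
  by_contra hc
  apply hx
  rcases not_and_or.1 hc with h1 | h1
  · rw [h.zero x (not_le.1 h1).le, h₁.zero x (not_le.1 h1).le, sub_self]
  · rw [h.one x (not_le.1 h1).le, h₁.one x (not_le.1 h1).le, sub_self]

theorem PStep.h92_sm {α : ℝ → ℝ} {a b : ℝ} (h : PStep α a b) : ContDiff ℝ ∞ (deriv α) :=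
  (contDiff_infty_iff_deriv.1 h.sm).2

theorem PStep.h92_int {α : ℝ → ℝ} {a b : ℝ} (h : PStep α a b) : ∫ x, deriv α x = 1 := by
  rw [← intervalIntegral.integral_eq_integral_of_support_subset (a := a - 1) (b := b)
      (fun x hx => ⟨by linarith [(h.h92_deriv hx).1], (h.h92_deriv hx).2⟩),
    intervalIntegral.integral_deriv_eq_sub
      (fun x _ => (contDiff_infty_iff_deriv.1 h.sm).1 x)
      (h.h92_sm.continuous.intervalIntegrable _ _), h.one b le_rfl, h.zero _ (by linarith), sub_zero]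

theorem h92_tsupp {u v : ℝ → ℝ} {a b c d : ℝ} (hu : ∀ x, u x ≠ 0 → x ∈ Icc a b)
    (hv : ∀ x, v x ≠ 0 → x ∈ Icc c d) :
    tsupport (fun z : ℂ => u z.re * v z.im) ⊆ Icc a b ×ℂ Icc c d :=
  closure_minimal (fun _ hz => ⟨hu _ (left_ne_zero_of_mul hz), hv _ (right_ne_zero_of_mul hz)⟩)
    (isClosed_Icc.reProdIm isClosed_Icc)

theorem h92_csupp {u v : ℝ → ℝ} {a b c d : ℝ} (hu : ∀ x, u x ≠ 0 → x ∈ Icc a b)
    (hv : ∀ x, v x ≠ 0 → x ∈ Icc c d) : HasCompactSupport fun z : ℂ => u z.re * v z.im :=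
  Metric.isCompact_of_isClosed_isBounded (isClosed_tsupport _)
    (((isBounded_Icc a b).reProdIm (isBounded_Icc c d)).subset (h92_tsupp hu hv))

theorem h92_smooth {u v : ℝ → ℝ} (hu : ContDiff ℝ ∞ u) (hv : ContDiff ℝ ∞ v) :
    ContDiff ℝ ∞ fun z : ℂ => u z.re * v z.im :=
  (hu.comp reCLM.contDiff).mul (hv.comp imCLM.contDiff)

theorem h92_fderiv {u v : ℝ → ℝ} (hu : Differentiable ℝ u) (hv : Differentiable ℝ v) (z : ℂ) :
    fderiv ℝ (fun z : ℂ => u z.re * v z.im) z 1 = deriv u z.re * v z.im ∧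
      fderiv ℝ (fun z : ℂ => u z.re * v z.im) z I = u z.re * deriv v z.im := by
  have h1 : HasFDerivAt (fun z : ℂ => u z.re) (deriv u z.re • reCLM) z :=
    (hu z.re).hasDerivAt.comp_hasFDerivAt z reCLM.hasFDerivAt
  have h2 : HasFDerivAt (fun z : ℂ => v z.im) (deriv v z.im • imCLM) z :=
    (hv z.im).hasDerivAt.comp_hasFDerivAt z imCLM.hasFDerivAt
  rw [(h1.fun_mul h2).fderiv]
  constructor <;> simp [mul_comm]


/-- `∫ α'(x) β'(y) = 1` (`Complex.volume_preserving_equiv_real_prod`, `integral_prod_mul`, FTC),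
and the bump is continuous with compact support in the closed rectangle. -/
theorem pBump_int {α β : ℝ → ℝ} {a b c d : ℝ} (hα : PStep α a b) (hβ : PStep β c d) :
    Continuous (pBump α β) ∧ tsupport (pBump α β) ⊆ Icc a b ×ℂ Icc c d ∧
      ∫ z, pBump α β z = 1 := by
  refine ⟨(h92_smooth hα.h92_sm hβ.h92_sm).continuous,
    h92_tsupp (fun _ => hα.h92_deriv) fun _ => hβ.h92_deriv, ?_⟩
  have h := Complex.volume_preserving_equiv_real_prod.integral_comp'
    (fun p : ℝ × ℝ => deriv α p.1 * deriv β p.2)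
  rw [Measure.volume_eq_prod, integral_prod_mul, hα.h92_int, hβ.h92_int, mul_one] at h
  exact h

/-- `α'β' - α₁'β₁' = ∂ₓ[(α - α₁)(x) β'(y)] + ∂_y[α₁'(x) (β - β₁)(y)]`. -/
theorem pDiv_sub {α β α₁ β₁ : ℝ → ℝ} {a b c d : ℝ} (hα : PStep α a b) (hβ : PStep β c d)
    (hα₁ : PStep α₁ a b) (hβ₁ : PStep β₁ c d) :
    ∃ P Q, PDiv (Icc a b ×ℂ Icc c d) P Q fun z => pBump α β z - pBump α₁ β₁ z := by
  have d1 := (contDiff_infty_iff_deriv.1 hα.sm).1
  have d2 := (contDiff_infty_iff_deriv.1 hβ.sm).1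
  have d3 := (contDiff_infty_iff_deriv.1 hα₁.sm).1
  have d4 := (contDiff_infty_iff_deriv.1 hβ₁.sm).1
  have s1 : ∀ x, α x - α₁ x ≠ 0 → x ∈ Icc a b := fun _ => hα.h92_sub hα₁
  have s2 : ∀ x, deriv β x ≠ 0 → x ∈ Icc c d := fun _ => hβ.h92_deriv
  have s3 : ∀ x, deriv α₁ x ≠ 0 → x ∈ Icc a b := fun _ => hα₁.h92_deriv
  have s4 : ∀ x, β x - β₁ x ≠ 0 → x ∈ Icc c d := fun _ => hβ.h92_sub hβ₁
  refine ⟨_, _, h92_smooth (hα.sm.sub hα₁.sm) hβ.h92_sm, h92_smooth hα₁.h92_sm (hβ.sm.sub hβ₁.sm),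
    h92_csupp (u := fun x => α x - α₁ x) s1 s2, h92_csupp (v := fun x => β x - β₁ x) s3 s4,
    h92_tsupp (u := fun x => α x - α₁ x) s1 s2, h92_tsupp (v := fun x => β x - β₁ x) s3 s4,
    fun z => ?_⟩
  rw [(h92_fderiv (d1.fun_sub d3) (contDiff_infty_iff_deriv.1 hβ.h92_sm).1 z).1,
    (h92_fderiv (contDiff_infty_iff_deriv.1 hα₁.h92_sm).1 (d2.fun_sub d4) z).2,
    deriv_fun_sub (d1 _) (d3 _), deriv_fun_sub (d2 _) (d4 _), pBump, pBump]
  ring

theorem h93_int {S K : Set ℂ} (hK : IsCompact K) (hKS : K ⊆ S) {φ : ℂ → ℝ} (hφ : Continuous φ)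
    (h0 : Function.support φ ⊆ K) {g : ℂ → ℂ} (hg : ContinuousOn g S) :
    Integrable fun z => φ z • g z :=
  (integrableOn_iff_integrable_of_support_subset
    ((Function.support_smul_subset_left φ g).trans h0)).1
    ((hφ.continuousOn.smul (hg.mono hKS)).integrableOn_compact hK)

theorem h93_ibp {S : Set ℂ} (hS : IsOpen S) {G f : ℂ → ℂ} (hG : ∀ z ∈ S, HasDerivAt G (f z) z)
    {P : ℂ → ℝ} (hP : ContDiff ℝ ∞ P) (hc : HasCompactSupport P) (hs : tsupport P ⊆ S) (v : ℂ) :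
    (Integrable fun z => P z • (f z * v)) ∧ (Integrable fun z => fderiv ℝ P z v • G z) ∧
      ∫ z, P z • (f z * v) = -∫ z, fderiv ℝ P z v • G z := by
  have hGd : DifferentiableOn ℂ G S := fun z hz => (hG z hz).differentiableAt.differentiableWithinAt
  have hf : ContinuousOn f S :=
    (hGd.deriv hS).continuousOn.congr fun z hz => (hG z hz).deriv.symm
  have h1 := h93_int hc hs hP.continuous (subset_tsupport _) (hf.mul (continuousOn_const (c := v)))
  have h2 := h93_int hc hs (φ := fun z => fderiv ℝ P z v)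
    ((hP.continuous_fderiv (by simp)).clm_apply continuous_const)
    (fun z hz => support_fderiv_subset ℝ fun h' => hz (by simp [h'])) hGd.continuousOn
  refine ⟨h1, h2, integral_bilinear_hasLineDerivAt_right_eq_neg_left_of_integrable
    (B := ContinuousLinearMap.lsmul ℝ ℝ) (v := v) h2 h1
    (h93_int hc hs hP.continuous (subset_tsupport _) hGd.continuousOn)
    (fun z _ => (hP.differentiable (by simp) z).hasFDerivAt.hasLineDerivAt v) fun z hz => ?_⟩
  have h3 := ((hG z (hs hz)).hasFDerivAt.restrictScalars ℝ).hasLineDerivAt v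
  simpa [mul_comm] using h3

/-- Integration by parts against a local primitive: `f (-Q + i P) = i f (P + i Q)` and
`G_x P + G_y Q = f (P + i Q)`; `∫ div (G X) = 0` (`G P`, `G Q` extended by zero are `C¹` with compact
support; `integral_mul_fderiv_eq_neg_fderiv_mul_of_integrable` or `integral_fderiv_eq_zero`-type
lemma). -/
theorem pDiv_ibp {S : Set ℂ} (hS : IsOpen S) {G f : ℂ → ℂ} (hG : ∀ z ∈ S, HasDerivAt G (f z) z)
    {P Q ρ : ℂ → ℝ} (h : PDiv S P Q ρ) :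
    ∫ z, f z * ((P z : ℂ) + I * (Q z : ℂ)) = -∫ z, G z * (ρ z : ℂ) := by
  obtain ⟨a1, a2, a3⟩ := h93_ibp hS hG h.smP h.cP h.sP 1
  obtain ⟨b1, b2, b3⟩ := h93_ibp hS hG h.smQ h.cQ h.sQ I
  have e1 : (fun z => f z * ((P z : ℂ) + I * (Q z : ℂ))) =
      fun z => P z • (f z * 1) + Q z • (f z * I) := by
    funext z
    simp only [real_smul]
    ring
  have e2 : (fun z => G z * (ρ z : ℂ)) =
      fun z => fderiv ℝ P z 1 • G z + fderiv ℝ Q z I • G z := by
    funext z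
    rw [← h.div z, ← add_smul, real_smul, mul_comm]
  rw [e1, e2, integral_add a1 b1, integral_add a2 b2, a3, b3, neg_add]

/-- A divergence free field with compact support in `U` is the rotated gradient of some `a ∈ A₀`:
the form `v ↦ -Q v.re + P v.im` is closed (`Convex.exists_forall_hasFDerivAt_of_fderiv_symmetric` on
`univ`), its primitive is smooth (`contDiff_infty_iff_fderiv`), constant outside a large ball (the
complement of a ball is preconnected, `IsOpen.is_const_of_fderiv_eq_zero`); subtract the constant. -/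
theorem pDiv_pot {U : Set ℂ} {P Q : ℂ → ℝ} (h : PDiv U P Q fun _ => 0) :
    ∃ a : ℂ → ℝ, ContDiff ℝ ∞ a ∧ HasCompactSupport a ∧ tsupport (fderiv ℝ a) ⊆ U ∧
      ∀ z, fderiv ℝ a z 1 = -Q z ∧ fderiv ℝ a z I = P z := by
  set Ω : ℂ → ℂ →L[ℝ] ℝ := fun z => (-Q z) • reCLM + P z • imCLM with hΩ
  have hΩs : ContDiff ℝ ∞ Ω :=
    (h.smQ.neg.smul contDiff_const).add (h.smP.smul contDiff_const)
  have hd : ∀ z x y, fderiv ℝ Ω z x y = -fderiv ℝ Q z x * y.re + fderiv ℝ P z x * y.im := by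
    intro z x y
    have h1 := (((h.smQ.differentiable (by simp) z).hasFDerivAt.neg).smul_const reCLM).add
      ((h.smP.differentiable (by simp) z).hasFDerivAt.smul_const imCLM)
    rw [show fderiv ℝ Ω z = _ from h1.fderiv]
    simp
  have hl : ∀ (L : ℂ →L[ℝ] ℝ) (x : ℂ), L x = x.re * L 1 + x.im * L I := fun L x => by
    conv_lhs => rw [show x = x.re • (1 : ℂ) + x.im • I by simp]
    rw [map_add, map_smul, map_smul, smul_eq_mul, smul_eq_mul]
  obtain ⟨a, ha⟩ := convex_univ.exists_forall_hasFDerivAt_of_fderiv_symmetric isOpen_univ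
    (hΩs.differentiable (by simp)).differentiableOn fun z _ x y => by
      rw [hd, hd, hl _ x, hl (fderiv ℝ P z) x, hl _ y, hl (fderiv ℝ P z) y]
      linear_combination (x.re * y.im - y.re * x.im) * h.div z
  have hK : IsCompact (tsupport P ∪ tsupport Q) := h.cP.union h.cQ
  have h0 : ∀ z ∉ tsupport P ∪ tsupport Q, Ω z = 0 := fun z hz => by
    rw [mem_union, not_or] at hz
    simp [hΩ, image_eq_zero_of_notMem_tsupport hz.1, image_eq_zero_of_notMem_tsupport hz.2]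
  obtain ⟨R, hR, hKR⟩ := hK.isBounded.subset_closedBall_lt 0 0
  have hpre : IsPreconnected (closedBall (0 : ℂ) R)ᶜ := by
    have e : (closedBall (0 : ℂ) R)ᶜ = Complex.exp '' {w | Real.log R < w.re} := by
      ext z
      simp only [mem_compl_iff, mem_closedBall_zero_iff, not_le, mem_image, mem_setOf_eq]
      constructor
      · intro hz
        exact ⟨log z, by rw [log_re]; exact Real.log_lt_log hR hz,
          exp_log (norm_pos_iff.1 (hR.trans hz))⟩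
      · rintro ⟨w, hw, rfl⟩
        rwa [norm_exp, ← Real.log_lt_iff_lt_exp hR]
    rw [e]
    exact (convex_halfSpace_re_gt _).isPreconnected.image _ continuous_exp.continuousOn
  have hda : Differentiable ℝ a := fun z => (ha z trivial).differentiableAt
  have hfa : fderiv ℝ a = Ω := funext fun z => (ha z trivial).fderiv
  obtain ⟨c, hc⟩ := isClosed_closedBall.isOpen_compl.exists_is_const_of_fderiv_eq_zero (𝕜 := ℝ) hpre
    hda.differentiableOn fun z hz => by rw [hfa]; exact h0 z fun h' => hz (hKR h')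
  have hfa' : fderiv ℝ (fun z => a z - c) = Ω := by
    funext z
    rw [fderiv_sub_const, hfa]
  refine ⟨fun z => a z - c, (contDiff_infty_iff_fderiv.2 ⟨hda, hfa ▸ hΩs⟩).sub contDiff_const,
    HasCompactSupport.intro (isCompact_closedBall 0 R) fun z hz => sub_eq_zero.2 (hc z hz), ?_,
    fun z => ?_⟩
  · rw [hfa']
    exact (closure_minimal (Function.support_subset_iff'.2 h0) hK.isClosed).trans
      (union_subset h.sP h.sQ)
  · rw [hfa']
    simp [hΩ]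

/-- a product bump whose closed rectangle lies in `S`. -/
def hbpBump (S : Set ℂ) (ρ : ℂ → ℝ) : Prop :=
  ∃ (α β : ℝ → ℝ) (a b c d : ℝ), PStep α a b ∧ PStep β c d ∧ Icc a b ×ℂ Icc c d ⊆ S ∧
    ρ = pBump α β

/-- an open rectangle. -/
def hbpRect (S : Set ℂ) : Prop := ∃ a b c d : ℝ, S = Ioo a b ×ℂ Ioo c d

theorem hbp_step_lt {α : ℝ → ℝ} {a b : ℝ} (h : PStep α a b) : a < b := by
  by_contra hab
  have h1 := h.zero a le_rfl
  have h2 := h.one a (not_lt.1 hab)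
  rw [h1] at h2
  exact zero_ne_one h2

theorem hbp_step_mono {α : ℝ → ℝ} {a b a' b' : ℝ} (h : PStep α a b) (ha : a' ≤ a) (hb : b ≤ b') :
    PStep α a' b' :=
  ⟨h.sm, fun x hx => h.zero x (hx.trans ha), fun x hx => h.one x (hb.trans hx)⟩

theorem hbp_rect_open {S : Set ℂ} (h : hbpRect S) : IsOpen S := by
  obtain ⟨a, b, c, d, rfl⟩ := h
  exact isOpen_Ioo.reProdIm isOpen_Ioo

theorem hbp_rect_convex {S : Set ℂ} (h : hbpRect S) : Convex ℝ S := by
  obtain ⟨a, b, c, d, rfl⟩ := h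
  exact ((convex_Ioo a b).linear_preimage Complex.reLm).inter
    ((convex_Ioo c d).linear_preimage Complex.imLm)

theorem hbp_square {S : Set ℂ} (hS : IsOpen S) {z : ℂ} (hz : z ∈ S) :
    ∃ r : ℝ, 0 < r ∧ Icc (z.re - r) (z.re + r) ×ℂ Icc (z.im - r) (z.im + r) ⊆ S := by
  obtain ⟨ε, hε, hb⟩ := Metric.isOpen_iff.1 hS z hz
  refine ⟨ε / 3, by positivity, fun w hw => hb ?_⟩
  rw [mem_reProdIm] at hw
  rw [mem_ball, dist_eq_norm]
  have h1 : |(w - z).re| ≤ ε / 3 := by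
    rw [sub_re, abs_le]; constructor <;> linarith [hw.1.1, hw.1.2]
  have h2 : |(w - z).im| ≤ ε / 3 := by
    rw [sub_im, abs_le]; constructor <;> linarith [hw.2.1, hw.2.2]
  have := Complex.norm_le_abs_re_add_abs_im (w - z)
  linarith

theorem hbp_exists_rect {S : Set ℂ} (hS : IsOpen S) {z : ℂ} (hz : z ∈ S) :
    ∃ R, hbpRect R ∧ z ∈ R ∧ R ⊆ S := by
  obtain ⟨r, hr, h⟩ := hbp_square hS hz
  refine ⟨_, ⟨z.re - r, z.re + r, z.im - r, z.im + r, rfl⟩, ?_, fun w hw => h ?_⟩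
  · rw [mem_reProdIm]
    exact ⟨⟨by linarith, by linarith⟩, ⟨by linarith, by linarith⟩⟩
  · rw [mem_reProdIm] at hw ⊢
    exact ⟨Ioo_subset_Icc_self hw.1, Ioo_subset_Icc_self hw.2⟩

theorem hbp_exists_bump {S : Set ℂ} (hS : IsOpen S) {z : ℂ} (hz : z ∈ S) : ∃ ρ, hbpBump S ρ := by
  obtain ⟨r, hr, h⟩ := hbp_square hS hz
  obtain ⟨α, hα⟩ := exists_pStep (show z.re - r < z.re + r by linarith)
  obtain ⟨β, hβ⟩ := exists_pStep (show z.im - r < z.im + r by linarith)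
  exact ⟨_, α, β, _, _, _, _, hα, hβ, h, rfl⟩

theorem hbp_bump_mono {S S' : Set ℂ} {ρ : ℂ → ℝ} (h : hbpBump S ρ) (hS : S ⊆ S') :
    hbpBump S' ρ := by
  obtain ⟨α, β, a, b, c, d, hα, hβ, hs, rfl⟩ := h
  exact ⟨α, β, a, b, c, d, hα, hβ, hs.trans hS, rfl⟩

theorem hbp_bump_props {S : Set ℂ} {ρ : ℂ → ℝ} (h : hbpBump S ρ) :
    Continuous ρ ∧ HasCompactSupport ρ ∧ tsupport ρ ⊆ S ∧ ∫ z, ρ z = 1 := by
  obtain ⟨α, β, a, b, c, d, hα, hβ, hs, rfl⟩ := h
  obtain ⟨h1, h2, h3⟩ := pBump_int hα hβ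
  exact ⟨h1, (isCompact_Icc.reProdIm isCompact_Icc).of_isClosed_subset (isClosed_tsupport _) h2,
    h2.trans hs, h3⟩

theorem hbp_div_mono {S S' : Set ℂ} {P Q ρ : ℂ → ℝ} (h : PDiv S P Q ρ) (hS : S ⊆ S') :
    PDiv S' P Q ρ :=
  ⟨h.smP, h.smQ, h.cP, h.cQ, h.sP.trans hS, h.sQ.trans hS, h.div⟩

theorem hbp_div_congr {S : Set ℂ} {P Q ρ ρ' : ℂ → ℝ} (h : PDiv S P Q ρ) (he : ∀ z, ρ z = ρ' z) :
    PDiv S P Q ρ' :=
  ⟨h.smP, h.smQ, h.cP, h.cQ, h.sP, h.sQ, fun z => (h.div z).trans (he z)⟩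

theorem hbp_div_zero (S : Set ℂ) : PDiv S (fun _ => 0) (fun _ => 0) (fun _ => 0) := by
  have h0 : tsupport (fun _ : ℂ => (0 : ℝ)) ⊆ S := by
    have : tsupport (fun _ : ℂ => (0 : ℝ)) = ∅ := tsupport_eq_empty_iff.2 rfl
    rw [this]; exact empty_subset _
  exact ⟨contDiff_const, contDiff_const, HasCompactSupport.zero, HasCompactSupport.zero, h0, h0,
    fun z => by simp⟩

theorem hbp_div_add {S : Set ℂ} {P Q ρ P' Q' ρ' : ℂ → ℝ} (h : PDiv S P Q ρ) (h' : PDiv S P' Q' ρ') :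
    PDiv S (fun z => P z + P' z) (fun z => Q z + Q' z) (fun z => ρ z + ρ' z) := by
  refine ⟨h.smP.add h'.smP, h.smQ.add h'.smQ, h.cP.add h'.cP, h.cQ.add h'.cQ,
    (tsupport_add P P').trans (union_subset h.sP h'.sP),
    (tsupport_add Q Q').trans (union_subset h.sQ h'.sQ), fun z => ?_⟩
  have d1 : DifferentiableAt ℝ P z := (h.smP.differentiable (by simp)) z
  have d2 : DifferentiableAt ℝ P' z := (h'.smP.differentiable (by simp)) z
  have d3 : DifferentiableAt ℝ Q z := (h.smQ.differentiable (by simp)) z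
  have d4 : DifferentiableAt ℝ Q' z := (h'.smQ.differentiable (by simp)) z
  rw [fderiv_fun_add d1 d2, fderiv_fun_add d3 d4, ← h.div z, ← h'.div z]
  simp only [add_apply]
  ring

theorem hbp_div_neg {S : Set ℂ} {P Q ρ : ℂ → ℝ} (h : PDiv S P Q ρ) :
    PDiv S (fun z => -P z) (fun z => -Q z) (fun z => -ρ z) := by
  refine ⟨h.smP.neg, h.smQ.neg, h.cP.neg, h.cQ.neg, ?_, ?_, fun z => ?_⟩
  · exact (tsupport_neg P).subset.trans h.sP
  · exact (tsupport_neg Q).subset.trans h.sQ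
  · rw [fderiv_fun_neg, fderiv_fun_neg, ← h.div z]
    simp only [neg_apply]
    ring

theorem hbp_bump_div {S : Set ℂ} (hS : hbpRect S) {ρ ρ' : ℂ → ℝ} (h : hbpBump S ρ)
    (h' : hbpBump S ρ') : ∃ P Q, PDiv S P Q fun z => ρ z - ρ' z := by
  obtain ⟨p, q, r, s, rfl⟩ := hS
  obtain ⟨α, β, a, b, c, d, hα, hβ, hs, rfl⟩ := h
  obtain ⟨α', β', a', b', c', d', hα', hβ', hs', rfl⟩ := h'
  have key : ∀ {α β : ℝ → ℝ} {a b c d : ℝ}, PStep α a b → PStep β c d →
      Icc a b ×ℂ Icc c d ⊆ Ioo p q ×ℂ Ioo r s → p < a ∧ b < q ∧ r < c ∧ d < s := by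
    intro α β a b c d hα hβ hs
    have hab := (hbp_step_lt hα).le
    have hcd := (hbp_step_lt hβ).le
    have m1 : (⟨a, c⟩ : ℂ) ∈ Icc a b ×ℂ Icc c d := ⟨⟨le_rfl, hab⟩, ⟨le_rfl, hcd⟩⟩
    have m2 : (⟨b, d⟩ : ℂ) ∈ Icc a b ×ℂ Icc c d := ⟨⟨hab, le_rfl⟩, ⟨hcd, le_rfl⟩⟩
    have n1 := mem_reProdIm.1 (hs m1)
    have n2 := mem_reProdIm.1 (hs m2)
    exact ⟨n1.1.1, n2.1.2, n1.2.1, n2.2.2⟩
  obtain ⟨k1, k2, k3, k4⟩ := key hα hβ hs
  obtain ⟨l1, l2, l3, l4⟩ := key hα' hβ' hs'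
  obtain ⟨P, Q, hPQ⟩ := pDiv_sub
    (hbp_step_mono hα (min_le_left a a') (le_max_left b b'))
    (hbp_step_mono hβ (min_le_left c c') (le_max_left d d'))
    (hbp_step_mono hα' (min_le_right a a') (le_max_right b b'))
    (hbp_step_mono hβ' (min_le_right c c') (le_max_right d d'))
  refine ⟨P, Q, hbp_div_mono hPQ fun w hw => ?_⟩
  rw [mem_reProdIm] at hw ⊢
  exact ⟨⟨(lt_min k1 l1).trans_le hw.1.1, hw.1.2.trans_lt (max_lt k2 l2)⟩,
    ⟨(lt_min k3 l3).trans_le hw.2.1, hw.2.2.trans_lt (max_lt k4 l4)⟩⟩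

theorem hbp_integrable {S : Set ℂ} (hS : IsOpen S) {g : ℂ → ℂ} (hg : ContinuousOn g S)
    {φ : ℂ → ℝ} (hφ : Continuous φ) (hc : HasCompactSupport φ) (hs : tsupport φ ⊆ S) :
    Integrable fun z => g z * (φ z : ℂ) := by
  have hsub : tsupport (fun z => g z * (φ z : ℂ)) ⊆ tsupport φ := by
    apply closure_mono
    intro z hz
    rw [Function.mem_support] at hz ⊢
    intro h0
    exact hz (by simp [h0])
  have hcont : Continuous fun z => g z * (φ z : ℂ) :=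
    (hg.mul (Complex.continuous_ofReal.comp hφ).continuousOn).continuous_of_tsupport_subset hS
      (hsub.trans hs)
  exact hcont.integrable_of_hasCompactSupport
    (IsCompact.of_isClosed_subset hc (isClosed_tsupport _) hsub)

theorem hbp_integrable_div {S : Set ℂ} (hS : IsOpen S) {g : ℂ → ℂ} (hg : ContinuousOn g S)
    {P Q ρ : ℂ → ℝ} (h : PDiv S P Q ρ) :
    Integrable fun z => g z * ((P z : ℂ) + I * (Q z : ℂ)) := by
  have h1 := hbp_integrable hS hg h.smP.continuous h.cP h.sP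
  have h2 := (hbp_integrable hS hg h.smQ.continuous h.cQ h.sQ).const_mul I
  refine (h1.add h2).congr (Eventually.of_forall fun z => ?_)
  simp only [Pi.add_apply]
  ring

theorem hbp_int_add {S : Set ℂ} (hS : IsOpen S) {g : ℂ → ℂ} (hg : ContinuousOn g S)
    {P Q ρ P' Q' ρ' : ℂ → ℝ} (h : PDiv S P Q ρ) (h' : PDiv S P' Q' ρ') :
    ∫ z, g z * (((P z + P' z : ℝ) : ℂ) + I * ((Q z + Q' z : ℝ) : ℂ)) =
      (∫ z, g z * ((P z : ℂ) + I * (Q z : ℂ))) + ∫ z, g z * ((P' z : ℂ) + I * (Q' z : ℂ)) := by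
  rw [← integral_add (hbp_integrable_div hS hg h) (hbp_integrable_div hS hg h')]
  congr 1
  funext z
  push_cast
  ring

/-- divergence free fields have no period. -/
theorem hbp_free {U : Set ℂ} {f : ℂ → ℂ}
    (hw : ∀ a : ℂ → ℝ, ContDiff ℝ ∞ a → HasCompactSupport a → tsupport (fderiv ℝ a) ⊆ U →
      ∫ z in U, f z * (((fderiv ℝ a z 1 : ℝ) : ℂ) + I * ((fderiv ℝ a z I : ℝ) : ℂ)) = 0)
    {P Q : ℂ → ℝ} (h : PDiv U P Q fun _ => 0) :
    ∫ z, f z * ((P z : ℂ) + I * (Q z : ℂ)) = 0 := by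
  obtain ⟨a, h1, h2, h3, h4⟩ := pDiv_pot h
  have h5 := hw a h1 h2 h3
  have h6 : (fun z => f z * (((fderiv ℝ a z 1 : ℝ) : ℂ) + I * ((fderiv ℝ a z I : ℝ) : ℂ))) =
      fun z => I * (f z * ((P z : ℂ) + I * (Q z : ℂ))) := by
    funext z
    rw [(h4 z).1, (h4 z).2]
    push_cast
    linear_combination (-(f z * Q z)) * I_mul_I
  rw [h6, integral_const_mul, setIntegral_eq_integral_of_forall_compl_eq_zero] at h5
  · exact (mul_eq_zero.1 h5).resolve_left I_ne_zero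
  · intro z hz
    have e1 : P z = 0 := image_eq_zero_of_notMem_tsupport fun hz' => hz (h.sP hz')
    have e2 : Q z = 0 := image_eq_zero_of_notMem_tsupport fun hz' => hz (h.sQ hz')
    simp [e1, e2]

/-- a normalised local primitive. -/
structure hbpGood (U : Set ℂ) (f : ℂ → ℂ) (ρ₀ : ℂ → ℝ) (S : Set ℂ) (G : ℂ → ℂ) : Prop where
  rect : hbpRect S
  sub : S ⊆ U
  der : ∀ z ∈ S, HasDerivAt G (f z) z
  nrm : ∀ ρ, hbpBump S ρ → ∃ P Q, PDiv U P Q (fun z => ρ z - ρ₀ z) ∧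
    ∫ z, f z * ((P z : ℂ) + I * (Q z : ℂ)) = -∫ z, G z * (ρ z : ℂ)

theorem hbp_extend {U : Set ℂ} (hU : IsOpen U) {f : ℂ → ℂ} (hf : DifferentiableOn ℂ f U)
    {ρ₀ : ℂ → ℝ} {S : Set ℂ} (hS : hbpRect S) (hSU : S ⊆ U) {ρ₁ P₁ Q₁ : ℂ → ℝ}
    (h₁ : hbpBump S ρ₁) (hd : PDiv U P₁ Q₁ fun z => ρ₁ z - ρ₀ z) : ∃ G, hbpGood U f ρ₀ S G := by
  have hSo := hbp_rect_open hS
  obtain ⟨G₀, hG₀⟩ := (hbp_rect_convex hS).exists_forall_hasDerivWithinAt (hf.mono hSU)
  have hG₀' : ∀ z ∈ S, HasDerivAt G₀ (f z) z := fun z hz => (hG₀ z hz).hasDerivAt (hSo.mem_nhds hz)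
  set c : ℂ := -(∫ z, f z * ((P₁ z : ℂ) + I * (Q₁ z : ℂ))) - ∫ z, G₀ z * (ρ₁ z : ℂ) with hc
  have hG : ∀ z ∈ S, HasDerivAt (fun w => G₀ w + c) (f z) z := fun z hz => (hG₀' z hz).add_const c
  have hGc : ContinuousOn (fun w => G₀ w + c) S := fun z hz =>
    (hG z hz).continuousAt.continuousWithinAt
  have hG₀c : ContinuousOn G₀ S := fun z hz => (hG₀' z hz).continuousAt.continuousWithinAt
  obtain ⟨b1, b2, b3, b4⟩ := hbp_bump_props h₁
  have e1 : ∫ z, (G₀ z + c) * (ρ₁ z : ℂ) = -∫ z, f z * ((P₁ z : ℂ) + I * (Q₁ z : ℂ)) := by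
    have i1 := hbp_integrable hSo hG₀c b1 b2 b3
    have i2 := hbp_integrable hSo (continuousOn_const (c := c)) b1 b2 b3
    simp_rw [add_mul]
    rw [integral_add i1 i2, integral_const_mul, integral_complex_ofReal, b4, hc]
    simp
  refine ⟨fun w => G₀ w + c, hS, hSU, hG, fun ρ hρ => ?_⟩
  obtain ⟨P, Q, hPQ⟩ := hbp_bump_div hS hρ h₁
  obtain ⟨c1, c2, c3, -⟩ := hbp_bump_props hρ
  refine ⟨fun z => P z + P₁ z, fun z => Q z + Q₁ z,
    hbp_div_congr (hbp_div_add (hbp_div_mono hPQ hSU) hd) fun z => by ring, ?_⟩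
  rw [hbp_int_add hU hf.continuousOn (hbp_div_mono hPQ hSU) hd, pDiv_ibp hSo hG hPQ]
  have e2 : ∫ z, (G₀ z + c) * ((ρ z - ρ₁ z : ℝ) : ℂ) =
      (∫ z, (G₀ z + c) * (ρ z : ℂ)) - ∫ z, (G₀ z + c) * (ρ₁ z : ℂ) := by
    rw [← integral_sub (hbp_integrable hSo hGc c1 c2 c3) (hbp_integrable hSo hGc b1 b2 b3)]
    congr 1
    funext z
    push_cast
    ring
  rw [e2, e1]
  ring

theorem hbp_agree {U : Set ℂ} (hU : IsOpen U) {f : ℂ → ℂ} (hf : DifferentiableOn ℂ f U)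
    (hw : ∀ a : ℂ → ℝ, ContDiff ℝ ∞ a → HasCompactSupport a → tsupport (fderiv ℝ a) ⊆ U →
      ∫ z in U, f z * (((fderiv ℝ a z 1 : ℝ) : ℂ) + I * ((fderiv ℝ a z I : ℝ) : ℂ)) = 0)
    {ρ₀ : ℂ → ℝ} {S S' : Set ℂ} {G G' : ℂ → ℂ} (h : hbpGood U f ρ₀ S G)
    (h' : hbpGood U f ρ₀ S' G') {z : ℂ} (hz : z ∈ S) (hz' : z ∈ S') : G z = G' z := by
  have hSo := hbp_rect_open h.rect
  have hSo' := hbp_rect_open h'.rect
  have ho : IsOpen (S ∩ S') := hSo.inter hSo'
  obtain ⟨ρ, hρ⟩ := hbp_exists_bump ho ⟨hz, hz'⟩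
  obtain ⟨P, Q, hPQ, e⟩ := h.nrm ρ (hbp_bump_mono hρ inter_subset_left)
  obtain ⟨P', Q', hPQ', e'⟩ := h'.nrm ρ (hbp_bump_mono hρ inter_subset_right)
  have hn := hbp_div_neg hPQ'
  have h0 := hbp_free hw (hbp_div_congr (hbp_div_add hPQ hn) fun z => by ring)
  rw [hbp_int_add hU hf.continuousOn hPQ hn] at h0
  have e3 : ∫ z, f z * (((-P' z : ℝ) : ℂ) + I * ((-Q' z : ℝ) : ℂ)) =
      -∫ z, f z * ((P' z : ℂ) + I * (Q' z : ℂ)) := by
    rw [← integral_neg]
    congr 1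
    funext z
    push_cast
    ring
  rw [e3, e, e'] at h0
  obtain ⟨b1, b2, b3, b4⟩ := hbp_bump_props hρ
  have hGc : ContinuousOn G (S ∩ S') := fun w hw =>
    (h.der w hw.1).continuousAt.continuousWithinAt
  have hGc' : ContinuousOn G' (S ∩ S') := fun w hw =>
    (h'.der w hw.2).continuousAt.continuousWithinAt
  have hder : ∀ w ∈ S ∩ S', HasDerivAt (fun w => G w - G' w) 0 w := fun w hw => by
    simpa using (h.der w hw.1).fun_sub (h'.der w hw.2)
  have hconst : ∀ w ∈ S ∩ S', G w - G' w = G z - G' z := fun w hw =>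
    ho.is_const_of_deriv_eq_zero (f := fun w => G w - G' w)
      ((hbp_rect_convex h.rect).inter (hbp_rect_convex h'.rect)).isPreconnected
      (fun w hw => (hder w hw).differentiableAt.differentiableWithinAt)
      (fun w hw => (hder w hw).deriv) hw ⟨hz, hz'⟩
  have e4 : (∫ w, G w * (ρ w : ℂ)) - ∫ w, G' w * (ρ w : ℂ) = G z - G' z := by
    rw [← integral_sub (hbp_integrable ho hGc b1 b2 b3) (hbp_integrable ho hGc' b1 b2 b3)]
    have : (fun w => G w * (ρ w : ℂ) - G' w * (ρ w : ℂ)) = fun w => (G z - G' z) * (ρ w : ℂ) := by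
      funext w
      by_cases hw : w ∈ S ∩ S'
      · rw [← hconst w hw]; ring
      · have : ρ w = 0 := image_eq_zero_of_notMem_tsupport fun hw' => hw (b3 hw')
        simp [this]
    rw [this, integral_const_mul, integral_complex_ofReal, b4]
    simp
  linear_combination -e4 - h0
/-- Fix a bump `ρ₀` in an open rectangle `S₀ ⊆ U`.  Call `(S, G)` good if `S ⊆ U` is an open
rectangle `Ioo a b ×ℂ Ioo c d`, `G' = f` on `S` and for some bump `ρ` with closed rectangle inside `S`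
and some `PDiv U P Q (ρ - ρ₀)`: `∫ f (P + i Q) = -∫ G ρ`.  (i) Then the same holds for every bump in
`S` (`pDiv_sub`, `pDiv_ibp`; enlarge the closed rectangles).  (ii) Two good pairs agree on `S ∩ S'`:
take a bump `ρ''` in `S ∩ S'`; the difference of the two fields is divergence free, `pDiv_pot` and `hw`
give `∫ (G - G') ρ'' = 0`, and `G - G'` is constant on the convex set `S ∩ S'`.  (iii) The union of the
good rectangles is open, nonempty (subtract a constant from a primitive on `S₀`;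
`Convex.exists_forall_hasDerivWithinAt`), and closed in `U` (normalise a primitive on a rectangle
around the limit point).  `F z = G z` for any good pair with `z ∈ S`. -/
theorem hb_prim {U : Set ℂ} (hU : IsOpen U) (hc : IsPreconnected U) {f : ℂ → ℂ}
    (hf : DifferentiableOn ℂ f U)
    (hw : ∀ a : ℂ → ℝ, ContDiff ℝ ∞ a → HasCompactSupport a → tsupport (fderiv ℝ a) ⊆ U →
      ∫ z in U, f z * (((fderiv ℝ a z 1 : ℝ) : ℂ) + I * ((fderiv ℝ a z I : ℝ) : ℂ)) = 0) :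
    ∃ F : ℂ → ℂ, ∀ z ∈ U, HasDerivAt F (f z) z := by
  classical
  rcases U.eq_empty_or_nonempty with rfl | ⟨z₀, hz₀⟩
  · exact ⟨f, fun z hz => absurd hz (notMem_empty z)⟩
  obtain ⟨S₀, hS₀, hzS₀, hS₀U⟩ := hbp_exists_rect hU hz₀
  obtain ⟨ρ₀, hρ₀⟩ := hbp_exists_bump (hbp_rect_open hS₀) hzS₀
  obtain ⟨G₀, hG₀⟩ := hbp_extend hU hf (ρ₀ := ρ₀) hS₀ hS₀U hρ₀
    (hbp_div_congr (hbp_div_zero U) fun z => by ring)
  set T : Set ℂ := {z | ∃ p : Set ℂ × (ℂ → ℂ), hbpGood U f ρ₀ p.1 p.2 ∧ z ∈ p.1} with hT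
  have hTo : IsOpen T := by
    rw [isOpen_iff_mem_nhds]
    rintro z ⟨p, hp, hz⟩
    exact mem_of_superset ((hbp_rect_open hp.rect).mem_nhds hz) fun w hw => ⟨p, hp, hw⟩
  have hUT : U ⊆ T := by
    refine hc.subset_of_closure_inter_subset hTo ⟨z₀, hz₀, (S₀, G₀), hG₀, hzS₀⟩ ?_
    rintro w ⟨hwT, hwU⟩
    obtain ⟨S', hS', hwS', hS'U⟩ := hbp_exists_rect hU hwU
    obtain ⟨z, hzS', p, hp, hz⟩ := mem_closure_iff.1 hwT S' (hbp_rect_open hS') hwS'
    obtain ⟨ρ₁, hρ₁⟩ := hbp_exists_bump ((hbp_rect_open hp.rect).inter (hbp_rect_open hS'))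
      ⟨hz, hzS'⟩
    obtain ⟨P₁, Q₁, hd, -⟩ := hp.nrm ρ₁ (hbp_bump_mono hρ₁ inter_subset_left)
    obtain ⟨G', hG'⟩ := hbp_extend hU hf hS' hS'U (hbp_bump_mono hρ₁ inter_subset_right) hd
    exact ⟨(S', G'), hG', hwS'⟩
  refine ⟨fun z => if h : z ∈ T then (Classical.choose h).2 z else 0, fun z hz => ?_⟩
  obtain ⟨p, hp, hzp⟩ := hUT hz
  refine (hp.der z hzp).congr_of_eventuallyEq ?_
  filter_upwards [(hbp_rect_open hp.rect).mem_nhds hzp] with w hwp
  have hwT : w ∈ T := ⟨p, hp, hwp⟩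
  rw [dif_pos hwT]
  exact hbp_agree hU hf hw (Classical.choose_spec hwT).1 hp (Classical.choose_spec hwT).2 hwp

end Crest.Agent.R105
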