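import Crest.Agent.R271.HWeyl

/-! Row 105, block HB: Weyl's lemma for the Cauchy-Riemann operator, `L²` data. -/

set_option autoImplicit false

namespace Crest.Agent.R105

open MeasureTheory Filter Topology Set Metric Complex
open scoped ContDiff

theorem h90_weyl_loc {U : Set ℂ} (hU : IsOpen U) {f : ℂ → ℂ} (hf : MemLp f 2 (volume.restrict U))
    (hw : ∀ φ : ℂ → ℝ, ContDiff ℝ ∞ φ → HasCompactSupport φ → tsupport φ ⊆ U →
      ∫ z in U, f z * (((fderiv ℝ φ z 1 : ℝ) : ℂ) + I * ((fderiv ℝ φ z I : ℝ) : ℂ)) = 0)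
    {z : ℂ} (hz : z ∈ U) : ∃ A : Set ℂ, IsOpen A ∧ z ∈ A ∧ A ⊆ U ∧ ∃ h : ℂ → ℂ,
      DifferentiableOn ℂ h A ∧ f =ᵐ[volume.restrict A] h := by
  obtain ⟨ε, hε, hεU⟩ := Metric.isOpen_iff.1 hU z hz
  have hf0 : MemLp (U.indicator f) 2 volume :=
    (memLp_indicator_iff_restrict hU.measurableSet).2 hf
  have hr : 0 < ε / 4 := by positivity
  have hsub : ball z (ε / 4) ⊆ U := (ball_subset_ball (by linarith)).trans hεU
  have hF : ∀ᶠ n in atTop,
      DifferentiableOn ℂ (R271.Hmol volume n (U.indicator f)) (ball z (3 * (ε / 4))) := by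
    filter_upwards [(tendsto_one_div_add_atTop_nhds_zero_nat (𝕜 := ℝ)).eventually (gt_mem_nhds hr)]
      with n hn t ht
    refine (R271.Hdiff_of_dbar (Module.Basis.singleton Unit ℂ)
      ((R271.Hmol_smooth n hf0).differentiable two_ne_zero t) fun j => ?_).differentiableWithinAt
    have h1 := R271.Hker_test (μ := volume) n t
    obtain ⟨φ, hφ⟩ : ∃ φ : ℂ → ℝ, φ = fun s => (R271.Hbump ℂ n).normed volume (t - s) := ⟨_, rfl⟩
    have hk : R271.Hker volume n t = fun s => ((φ s : ℝ) : ℂ) := by rw [hφ]; rfl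
    have hφ1 : ContDiff ℝ ∞ φ := by
      rw [hφ]
      exact (R271.Hbump ℂ n).contDiff_normed.comp (contDiff_const.sub contDiff_id)
    have hts : tsupport φ = tsupport (R271.Hker volume n t) := by
      rw [hk]
      exact congrArg closure (Set.ext fun s => by simp)
    have h2 := hw φ hφ1 (by rw [HasCompactSupport, hts]; exact h1.cpt) (hts ▸ h1.sub.trans
      ((closedBall_subset_ball' (by linarith [mem_ball.1 ht])).trans hεU))
    have hd : ∀ s v, fderiv ℝ (fun s => ((φ s : ℝ) : ℂ)) s v = ((fderiv ℝ φ s v : ℝ) : ℂ) := by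
      intro s v
      have := (Complex.ofRealCLM.hasFDerivAt.comp s
        ((hφ1.differentiable (by simp)) s).hasFDerivAt).fderiv
      exact congrArg (fun L : ℂ →L[ℝ] ℂ => L v) this
    rw [(R271.Hmol_dbar n hf0 t _).2, neg_eq_zero]
    simp only [hk, R271.dbar, hd, Module.Basis.singleton_apply, smul_eq_mul, mul_one,
      ← mul_div_assoc, integral_div]
    rw [← integral_indicator hU.measurableSet] at h2
    simp only [Set.indicator_mul_left] at h2
    rw [h2, zero_div]
  obtain ⟨h, hh, hh'⟩ := R271.Hlim_hol hr hF hf0 (R271.Hmol_L2 hf0).1 (R271.Hmol_L2 hf0).2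
  refine ⟨_, isOpen_ball, mem_ball_self hr, hsub, h, hh, ?_⟩
  filter_upwards [hh', ae_restrict_mem measurableSet_ball] with t ht ht'
  rwa [indicator_of_mem (hsub ht')] at ht

/-- An `L²` function on `U` that is weakly holomorphic is a.e. equal to a holomorphic function.
Proof: copy the proof of `R271.Hweyl` (E = ℂ, basis `Module.Basis.singleton Unit ℂ`; the kernel
`R271.Hker volume n t` is `ofReal` of a real smooth compactly supported function, so the real test
functions suffice), then glue the local representatives as in `R271.RD.Hglue` (R271/HG.lean):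
`h y := (h_y) y`, `Measure.eqOn_open_of_ae_eq`, `measure_null_of_locally_null`. -/
theorem hb_weyl {U : Set ℂ} (hU : IsOpen U) {f : ℂ → ℂ} (hf : MemLp f 2 (volume.restrict U))
    (hw : ∀ φ : ℂ → ℝ, ContDiff ℝ ∞ φ → HasCompactSupport φ → tsupport φ ⊆ U →
      ∫ z in U, f z * (((fderiv ℝ φ z 1 : ℝ) : ℂ) + I * ((fderiv ℝ φ z I : ℝ) : ℂ)) = 0) :
    ∃ h : ℂ → ℂ, DifferentiableOn ℂ h U ∧ f =ᵐ[volume.restrict U] h := by
  choose! A a1 a2 a3 h h1 h2 using fun y (hy : y ∈ U) => h90_weyl_loc hU hf hw hy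
  have k : ∀ y ∈ U, ∀ w ∈ A y, h w w = h y w := fun y hy w hw => by
    have hw' := a3 y hy hw
    refine Measure.eqOn_open_of_ae_eq (μ := volume) ?_ ((a1 w hw').inter (a1 y hy))
      ((h1 w hw').continuousOn.mono inter_subset_left)
      ((h1 y hy).continuousOn.mono inter_subset_right) ⟨a2 w hw', hw⟩
    filter_upwards [ae_restrict_of_ae_restrict_of_subset inter_subset_left (h2 w hw'),
      ae_restrict_of_ae_restrict_of_subset inter_subset_right (h2 y hy)] with x x1 x2
    exact x1.symm.trans x2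
  refine ⟨fun w => h w w, fun y hy => ?_, ?_⟩
  · refine (((h1 y hy).differentiableAt ((a1 y hy).mem_nhds (a2 y hy))).congr_of_eventuallyEq
      ?_).differentiableWithinAt
    filter_upwards [(a1 y hy).mem_nhds (a2 y hy)] with w hw
    exact k y hy w hw
  · rw [EventuallyEq, ae_iff, Measure.restrict_apply' hU.measurableSet]
    refine measure_null_of_locally_null _ fun y hy => ⟨_, inter_mem_nhdsWithin _
      ((a1 y hy.2).mem_nhds (a2 y hy.2)), ?_⟩
    have := h2 y hy.2
    rw [EventuallyEq, ae_iff, Measure.restrict_apply' (a1 y hy.2).measurableSet] at this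
    refine measure_mono_null (fun w hw => mem_inter (fun e => hw.1.1 ?_) hw.2) this
    exact e.trans (k y hy.2 w hw.2).symm

end Crest.Agent.R105
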