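import Crest.Agent.R105.E1b
import Crest.Agent.R105.ET2
import Crest.Agent.R105.HLog
import Crest.Agent.R105.HPrim
import Crest.Agent.R105.HWeyl
import Crest.Agent.R271.HMean

/-! Row 105, block END (E1): analytic lemmas. -/

set_option autoImplicit false

open MeasureTheory Set Filter Topology Complex
open scoped ENNReal

namespace Crest.Agent.R105.End

variable {U : Set ℂ} {Λ : Lumps U}

theorem h51_perp_int (k : Lp ℂ 2 (volume.restrict U)) {a : ℂ → ℝ} (ha : En U a < ⊤)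
    (h1 : inner ℝ (gL U a) k = 0) (h2 : inner ℝ (I • gL U a) k = 0) :
    ∫ z in U, k z * (((fderiv ℝ a z 1 : ℝ) : ℂ) + I * ((fderiv ℝ a z I : ℝ) : ℂ)) = 0 := by
  have hint : Integrable (fun z => inner ℂ (gL U a z) (k z)) (volume.restrict U) :=
    L2.integrable_inner (𝕜 := ℂ) (gL U a) k
  have e : ∫ z in U, k z * (((fderiv ℝ a z 1 : ℝ) : ℂ) + I * ((fderiv ℝ a z I : ℝ) : ℂ)) =
      ∫ z in U, inner ℂ (gL U a z) (k z) := by
    refine integral_congr_ae ?_
    filter_upwards [gL_ae ha] with z hz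
    rw [hz]
    simp [gz]
  rw [e]
  apply Complex.ext
  · rw [zero_re, ← h1, L2.inner_def]
    have := integral_re (𝕜 := ℂ) hint
    simp only [RCLike.re_to_complex] at this
    rw [← this]
    refine integral_congr_ae (Eventually.of_forall fun z => ?_)
    simp [Complex.inner]
  · rw [zero_im, ← h2, L2.inner_def]
    have := integral_im (𝕜 := ℂ) hint
    simp only [RCLike.im_to_complex] at this
    rw [← this]
    refine integral_congr_ae ?_
    filter_upwards [Lp.coeFn_smul I (gL U a)] with z hz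
    rw [hz]
    simp [Complex.inner]
    ring

/-- An `L²` field orthogonal to all `∇ a` and `i ∇ a`, `a ∈ A₀`, is the derivative of a holomorphic
function.  For smooth compactly supported `a` with `tsupport (fderiv a) ⊆ U` (`A0.of_smooth`),
`a_x + i a_y = conj (gz a)`, and the real and imaginary parts of `∫ k conj (gz a)` are the two inner
products (`L2.inner_def`, `gL_ae`, `integral_re`/`integral_im`).  `hb_weyl`
(`tsupport_fderiv_subset`), then `hb_prim`. -/
theorem prim_of_perp (hU : IsOpen U) (hc : IsPreconnected U) (k : Lp ℂ 2 (volume.restrict U))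
    (h : ∀ a, A0 U a → inner ℝ (gL U a) k = 0 ∧ inner ℝ (I • gL U a) k = 0) :
    ∃ F : ℂ → ℂ, DifferentiableOn ℂ F U ∧ deriv F =ᵐ[volume.restrict U] k := by
  have key : ∀ a : ℂ → ℝ, ContDiff ℝ ((⊤ : ℕ∞) : WithTop ℕ∞) a → HasCompactSupport a →
      tsupport (fderiv ℝ a) ⊆ U →
      ∫ z in U, k z * (((fderiv ℝ a z 1 : ℝ) : ℂ) + I * ((fderiv ℝ a z I : ℝ) : ℂ)) = 0 := by
    intro a ha hc hs
    have hA : A0 U a := A0.of_smooth hU (ha.of_le (by exact_mod_cast le_top)) hc hs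
    exact h51_perp_int k hA.xx.en (h a hA).1 (h a hA).2
  obtain ⟨f, hf, hkf⟩ := hb_weyl hU (Lp.memLp k)
    (fun φ h1 h2 h3 => key φ h1 h2 ((tsupport_fderiv_subset ℝ).trans h3))
  obtain ⟨F, hF⟩ := hb_prim hU hc hf (fun a h1 h2 h3 => by
    rw [← key a h1 h2 h3]
    refine integral_congr_ae ?_
    filter_upwards [hkf] with z hz
    rw [hz])
  refine ⟨F, fun z hz => (hF z hz).differentiableAt.differentiableWithinAt, ?_⟩
  filter_upwards [hkf, ae_restrict_mem hU.measurableSet] with z h1 h2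
  rw [h1, (hF z h2).deriv]

theorem h25_deriv_bound (hU : IsOpen U) {R : ℝ} (hR : ∀ z : ℂ, R ≤ ‖z‖ → z ∈ U) {F : ℂ → ℂ}
    (hF : DifferentiableOn ℂ F U) (hE : ∫⁻ z in U, ‖deriv F z‖ₑ ^ 2 < ⊤) :
    ∃ C : ℝ, 0 < C ∧ ∀ z : ℂ, 2 * R ≤ ‖z‖ → ‖z‖ * ‖deriv F z‖ ≤ C := by
  set E := (∫⁻ z in U, ‖deriv F z‖ₑ ^ 2).toReal with hEd
  have hE0 : 0 ≤ E := ENNReal.toReal_nonneg
  refine ⟨2 * E + 1, by positivity, fun z hz => ?_⟩
  have hb : Metric.closedBall z (‖z‖ / 2) ⊆ U := fun w hw => hR w (by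
    have h1 := norm_sub_norm_le z w
    rw [Metric.mem_closedBall', dist_eq_norm] at hw
    linarith)
  have h1 := (R271.Hmean_sq (μ := volume) hU (hF.deriv hU) hb).trans
    (lintegral_mono_set (Metric.ball_subset_closedBall.trans hb))
  have h2 := ENNReal.toReal_mono hE.ne h1
  rw [Complex.volume_ball, ENNReal.toReal_mul, ENNReal.toReal_mul, ENNReal.toReal_pow,
    ENNReal.toReal_pow, ENNReal.toReal_ofReal (by positivity), toReal_enorm, ENNReal.coe_toReal,
    NNReal.coe_real_pi, ← hEd] at h2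
  have h3 := Real.pi_gt_three
  have h4 : (‖z‖ * ‖deriv F z‖) ^ 2 ≤ 2 * E := by
    nlinarith [mul_nonneg (sub_nonneg.2 h3.le) (sq_nonneg (‖z‖ * ‖deriv F z‖)),
      sq_nonneg (‖z‖ * ‖deriv F z‖)]
  nlinarith [sq_nonneg (‖z‖ * ‖deriv F z‖ - 1)]

theorem h25_littleO (hU : IsOpen U) {R : ℝ} (hR : ∀ z : ℂ, R ≤ ‖z‖ → z ∈ U) {F : ℂ → ℂ}
    (hF : DifferentiableOn ℂ F U) (hE : ∫⁻ z in U, ‖deriv F z‖ₑ ^ 2 < ⊤) :
    F =o[Bornology.cobounded ℂ] fun z => z := by
  obtain ⟨C, hC, hb⟩ := h25_deriv_bound hU hR hF hE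
  refine Asymptotics.isLittleO_iff.2 fun ε hε => ?_
  obtain ⟨S, hS0, hS1, hS2, hS3⟩ : ∃ S : ℝ, 0 < S ∧ R ≤ S ∧ 2 * R ≤ S ∧ C ≤ ε / 2 * S := by
    refine ⟨max (2 * |R|) (2 * C / ε), lt_max_of_lt_right (by positivity), le_max_of_le_left ?_,
      le_max_of_le_left ?_, ?_⟩
    · linarith [le_abs_self R, abs_nonneg R]
    · linarith [le_abs_self R]
    · have : ε / 2 * (2 * C / ε) = C := by field_simp
      exact this.ge.trans (mul_le_mul_of_nonneg_left (le_max_right _ _) (by positivity))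
  obtain ⟨M, hM⟩ := (isCompact_sphere (0 : ℂ) S).exists_bound_of_continuousOn
    (hF.continuousOn.mono fun w hw => hR w (hS1.trans (mem_sphere_zero_iff_norm.1 hw).ge))
  filter_upwards [eventually_cobounded_le_norm (E := ℂ) (max S (2 * M / ε))] with z hz
  have hz1 : S ≤ ‖z‖ := (le_max_left _ _).trans hz
  have hz2 : 2 * M / ε ≤ ‖z‖ := (le_max_right _ _).trans hz
  have hz0 : 0 < ‖z‖ := hS0.trans_le hz1
  have hseg : ∀ w ∈ segment ℝ ((S / ‖z‖) • z) z, S ≤ ‖w‖ := by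
    rintro _ ⟨a, b, ha, hb', hab, rfl⟩
    rw [smul_smul, ← add_smul, norm_smul, Real.norm_of_nonneg (by positivity), add_mul, mul_assoc,
      div_mul_cancel₀ _ hz0.ne']
    nlinarith
  have h1 := (convex_segment ((S / ‖z‖) • z) z).norm_image_sub_le_of_norm_deriv_le (𝕜 := ℂ)
    (f := F) (C := ε / 2) (fun w hw => hF.differentiableAt (hU.mem_nhds (hR w (hS1.trans (hseg w hw)))))
    (fun w hw => by
      have h2 := hseg w hw
      have h3 := hb w (hS2.trans h2)
      refine le_of_mul_le_mul_left (h3.trans (hS3.trans ?_)) (hS0.trans_le h2)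
      rw [mul_comm]
      exact mul_le_mul_of_nonneg_right h2 (by positivity))
    (left_mem_segment ℝ _ _) (right_mem_segment ℝ _ _)
  have h2 : ‖z - (S / ‖z‖) • z‖ ≤ ‖z‖ := by
    have h3 : S / ‖z‖ ≤ 1 := (div_le_one hz0).2 hz1
    rw [show z - (S / ‖z‖) • z = (1 - S / ‖z‖) • z by rw [sub_smul, one_smul], norm_smul,
      Real.norm_of_nonneg (sub_nonneg.2 h3)]
    exact mul_le_of_le_one_left hz0.le (sub_le_self _ (by positivity))
  have h3 := hM ((S / ‖z‖) • z) (mem_sphere_zero_iff_norm.2 (by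
    rw [norm_smul, Real.norm_of_nonneg (by positivity), div_mul_cancel₀ _ hz0.ne']))
  have h4 := norm_sub_norm_le (F z) (F ((S / ‖z‖) • z))
  rw [div_le_iff₀ hε] at hz2
  nlinarith

/-- A holomorphic function of finite Dirichlet integral near infinity has a limit there.
`R271.Hmean_sq` on the disc of centre `z` and radius `‖z‖ / 2` gives `‖z‖ ‖F' z‖ → 0`.  For
`g w = F' (w⁻¹) / w²` this is `g = o(w⁻¹)`, so the singularity at `0` is removable
(`Complex.differentiableOn_update_limUnder_of_isLittleO`); the extension has a primitive `P` on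
a disc (`DifferentiableOn.isExactOn_ball`), `F (w⁻¹) + P w` has zero derivative on the punctured disc,
which is connected. -/
theorem lim_inf (hU : IsOpen U) {R : ℝ} (hR : ∀ z : ℂ, R ≤ ‖z‖ → z ∈ U) {F : ℂ → ℂ}
    (hF : DifferentiableOn ℂ F U) (hE : ∫⁻ z in U, ‖deriv F z‖ₑ ^ 2 < ⊤) :
    ∃ b : ℂ, Tendsto F (cocompact ℂ) (𝓝 b) := by
  have ho := (h25_littleO hU hR hF hE).comp_tendsto Filter.tendsto_inv₀_nhdsNE_zero
  have hc : (fun _ : ℂ => F (0 : ℂ)⁻¹) =o[𝓝[≠] (0 : ℂ)] fun w => w⁻¹ :=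
    Asymptotics.isLittleO_const_left.2
      (Or.inr (tendsto_norm_cobounded_atTop.comp Filter.tendsto_inv₀_nhdsNE_zero))
  have h := Complex.tendsto_limUnder_of_differentiable_on_punctured_nhds_of_isLittleO
    (f := fun w => F w⁻¹) (c := 0) ?_ (by simpa [Function.comp_def] using ho.sub hc)
  · have := h.comp (Filter.tendsto_inv₀_cobounded' (α := ℂ))
    simp only [Function.comp_def, inv_inv, Metric.cobounded_eq_cocompact] at this
    exact ⟨_, this⟩
  · filter_upwards [Filter.tendsto_inv₀_nhdsNE_zero.eventually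
      (eventually_cobounded_le_norm (E := ℂ) R), self_mem_nhdsWithin] with w hw hw0
    exact (hF.differentiableAt (hU.mem_nhds (hR _ hw))).comp w (differentiableAt_inv hw0)

/-- a cut-off times a function of finite energy: product rule a.e., `ξ` is bounded, `u` is bounded
on the compact set `tsupport (fderiv ξ) ⊆ U`; `ξ u = 0` near infinity -/
theorem xx_cut (hU : IsOpen U) {ξ u : ℂ → ℝ} (hξ : Cut Λ ξ) (hu : LocallyLipschitzOn U u)
    (hE : En U u < ⊤) : XX U (fun z => ξ z * u z) := by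
  have hχ := (hξ.a0 hU).1
  obtain ⟨B, hB⟩ := hχ.bdd Λ
  obtain ⟨C, hC, hCU, hloc⟩ := hχ.loc
  obtain ⟨A, hA⟩ := hC.exists_bound_of_continuousOn (hu.continuousOn.mono hCU)
  refine ⟨h67_lip_mul hχ.xx.lip hu, h67_inf_smooth (a := fun z => ξ z * u z) hξ.cs.mul_right, ?_⟩
  have key : ∀ᵐ z ∂(volume.restrict U), ‖fderiv ℝ (fun z => ξ z * u z) z‖ₑ ^ 2 ≤
      ENNReal.ofReal (2 * B ^ 2) * ‖fderiv ℝ u z‖ₑ ^ 2 +
        ENNReal.ofReal (2 * A ^ 2) * ‖fderiv ℝ ξ z‖ₑ ^ 2 := by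
    rw [ae_restrict_iff' hU.measurableSet]
    filter_upwards [ae_diff hU hu, ae_diff hU hχ.xx.lip] with z h1 h2 hz
    refine h67_enorm_sq_le ?_
    rw [fderiv_fun_mul (h2 hz) (h1 hz)]
    refine (norm_add_le _ _).trans (add_le_add ?_ ?_)
    · rw [norm_smul]
      exact mul_le_mul_of_nonneg_right (hB z hz) (norm_nonneg _)
    · by_cases hzC : z ∈ C
      · rw [norm_smul]
        exact mul_le_mul_of_nonneg_right (hA z hzC) (norm_nonneg _)
      · have h3 : fderiv ℝ ξ z = 0 := by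
          rw [Filter.EventuallyEq.fderiv_eq (f := fun _ => ξ z) (hloc z hz hzC)]
          simp
        rw [h3]; simp
  refine (lintegral_mono_ae key).trans_lt ?_
  rw [lintegral_add_left (((measurable_fderiv ℝ u).enorm.pow_const 2).const_mul _),
    lintegral_const_mul' _ _ ENNReal.ofReal_ne_top, lintegral_const_mul' _ _ ENNReal.ofReal_ne_top]
  exact ENNReal.add_lt_top.2 ⟨ENNReal.mul_lt_top ENNReal.ofReal_lt_top hE,
    ENNReal.mul_lt_top ENNReal.ofReal_lt_top hχ.xx.en⟩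

/-- the two model functions `ξ x`, `ξ y` (smooth with compact support) -/
theorem xx_model {ξ : ℂ → ℝ} (hξ : Cut Λ ξ) :
    XX U (fun z => ξ z * z.re) ∧ XX U (fun z => ξ z * z.im) := by
  have key : ∀ x : ℂ → ℝ, ContDiff ℝ 1 x → XX U (fun z => ξ z * x z) := fun x hx => by
    have h1 : ContDiff ℝ 1 (fun z => ξ z * x z) := (hξ.sm.of_le (by simp)).mul hx
    have h2 : HasCompactSupport (fun z => ξ z * x z) := hξ.cs.mul_right
    exact ⟨h1.locallyLipschitz.locallyLipschitzOn, h67_inf_smooth h2,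
      (setLIntegral_le_lintegral _ _).trans_lt (h67_en_smooth h1 h2)⟩
  exact ⟨key _ reCLM.contDiff, key _ imCLM.contDiff⟩

theorem h26_int_abs_wd {u c : ℂ → ℝ} (hu : En U u < ⊤) (hc : En U c < ⊤) :
    ∫ z in U, |wd u c z| ≤ Real.sqrt (En U u).toReal * Real.sqrt (En U c).toReal := by
  have h1 : En U u ^ (1 / 2 : ℝ) ≠ ⊤ := ENNReal.rpow_ne_top_of_nonneg (by norm_num) hu.ne
  have h2 : En U c ^ (1 / 2 : ℝ) ≠ ⊤ := ENNReal.rpow_ne_top_of_nonneg (by norm_num) hc.ne
  rw [h99_sqrt_toReal, h99_sqrt_toReal, ← ENNReal.toReal_mul]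
  have h3 := integral_norm_eq_lintegral_enorm (μ := volume.restrict U)
    (h99_meas_wd u c).aestronglyMeasurable
  simp only [Real.norm_eq_abs] at h3
  rw [h3]
  exact ENNReal.toReal_mono (ENNReal.mul_ne_top h1 h2) (h99_lint_wd U u c)

theorem h26_step (hU : IsOpen U) {R : ℝ} (hR : ∀ z : ℂ, R ≤ ‖z‖ → z ∈ U) {u g ψ : ℂ → ℝ}
    (hu : LocallyLipschitzOn U u) (hu' : En U u < ⊤) (hg : LocallyLipschitzOn U g)
    (hg' : En U g < ⊤) (h0 : ∀ z ∈ U, ‖z‖ < R → g z = 0) {B : ℝ} (hB0 : 0 ≤ B)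
    (hB : ∀ z ∈ U, |g z| ≤ B) (hψ : ContDiff ℝ 1 ψ) (hc : HasCompactSupport ψ)
    (h1 : ∀ z, |ψ z| ≤ 1) :
    |∫ z in U, ψ z * wd g u z| ≤
      B * (Real.sqrt (En U ψ).toReal * Real.sqrt (En U u).toReal) := by
  have hE : En U ψ < ⊤ := (setLIntegral_le_lintegral _ _).trans_lt (h67_en_smooth hψ hc)
  have hψl : LocallyLipschitzOn U ψ := hψ.locallyLipschitz.locallyLipschitzOn
  have hK : IsCompact (tsupport ψ ∩ {z : ℂ | R ≤ ‖z‖}) :=
    hc.isCompact.inter_right (isClosed_le continuous_const continuous_norm)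
  have key := om_cpt hU (h90_lip_mul hg hψl) hu hK (fun z hz => hR z hz.2) fun z hz hzK => by
    by_cases h : z ∈ tsupport ψ
    · rw [h0 z hz (not_le.1 fun h' => hzK ⟨h, h'⟩), zero_mul]
    · rw [image_eq_zero_of_notMem_tsupport h, mul_zero]
  have hgm : AEStronglyMeasurable g (volume.restrict U) :=
    hg.continuousOn.aestronglyMeasurable hU.measurableSet
  have i1 : IntegrableOn (fun z => ψ z * wd g u z) U :=
    (wd_integrableOn hg' hu').bdd_mul (c := 1) hψ.continuous.aestronglyMeasurable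
      (Eventually.of_forall fun z => by simpa using h1 z)
  have hBae : ∀ᵐ z ∂(volume.restrict U), ‖g z‖ ≤ B :=
    (ae_restrict_iff' hU.measurableSet).2 (Eventually.of_forall fun z hz => by simpa using hB z hz)
  have i2 : IntegrableOn (fun z => g z * wd ψ u z) U :=
    (wd_integrableOn hE hu').bdd_mul (c := B) hgm hBae
  have e : om U (fun z => g z * ψ z) u =
      (∫ z in U, ψ z * wd g u z) + ∫ z in U, g z * wd ψ u z := by
    rw [om, ← integral_add i1 i2]
    refine integral_congr_ae ?_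
    filter_upwards [ae_diff' hU hg] with z hz
    have hz' : DifferentiableAt ℝ ψ z := hψ.differentiable one_ne_zero z
    simp only [wd, h90_fderiv_mul hz hz']
    ring
  have e2 : ∫ z in U, ψ z * wd g u z = -∫ z in U, g z * wd ψ u z := by linarith
  rw [e2, abs_neg]
  refine le_trans ?_ (mul_le_mul_of_nonneg_left (h26_int_abs_wd hE hu') hB0)
  rw [← integral_const_mul]
  refine (abs_integral_le_integral_abs).trans ?_
  refine integral_mono_ae i2.abs ((wd_integrableOn hE hu').abs.const_mul B) ?_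
  filter_upwards [hBae] with z hz
  rw [abs_mul]
  exact mul_le_mul_of_nonneg_right (by simpa using hz) (abs_nonneg _)

/-- A bounded function of finite energy that vanishes on the disc containing the ends pairs to zero.
With the logarithmic cut-offs `ψ` of `hb_log_inf`: `om (g ψ) u = 0` by `om_cpt`
(`K = tsupport ψ ∩ {R ≤ ‖z‖}`), and
`En (g (1 - ψ)) ≤ 2 ∫_{‖z‖ > n} ‖Dg‖² + 2 B² En ψ → 0`; `abs_om_le`, `gL_sub`, `om_eq_inner`. -/
theorem om_outer (hU : IsOpen U) {R : ℝ} (hR : ∀ z : ℂ, R ≤ ‖z‖ → z ∈ U) {u g : ℂ → ℝ}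
    (hu : LocallyLipschitzOn U u) (hu' : En U u < ⊤) (hg : LocallyLipschitzOn U g)
    (hg' : En U g < ⊤) (h0 : ∀ z ∈ U, ‖z‖ < R → g z = 0) (hb : Bdd U g) : om U u g = 0 := by
  obtain ⟨B, hB⟩ := hb
  have hψ := fun n : ℕ => hb_log_inf (ε := 1 / ((n : ℝ) + 1)) Nat.one_div_pos_of_nat (n : ℝ)
  choose ψ h1 h2 h3 h4 h5 h6 using hψ
  have habs : ∀ n z, |ψ n z| ≤ 1 := fun n z => abs_le.2 ⟨by linarith [h3 n z], h4 n z⟩
  have t1 : Tendsto (fun n => ∫ z in U, ψ n z * wd g u z) atTop (𝓝 (∫ z in U, wd g u z)) := by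
    refine tendsto_integral_of_dominated_convergence (fun z => ‖wd g u z‖)
      (fun n => ((h1 n).continuous.measurable.mul (h99_meas_wd g u)).aestronglyMeasurable)
      (wd_integrableOn hg' hu').norm (fun n => Eventually.of_forall fun z => ?_)
      (Eventually.of_forall fun z => ?_)
    · rw [norm_mul]
      exact mul_le_of_le_one_left (norm_nonneg _) (by simpa using habs n z)
    · refine tendsto_const_nhds.congr' ?_
      filter_upwards [tendsto_natCast_atTop_atTop.eventually_ge_atTop ‖z‖] with n hn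
      rw [h5 n z (mem_closedBall_zero_iff.2 hn), one_mul]
  have t2 : Tendsto (fun n : ℕ => max B 0 * (Real.sqrt (1 / ((n : ℝ) + 1)) *
      Real.sqrt (En U u).toReal)) atTop (𝓝 (max B 0 * (Real.sqrt 0 * Real.sqrt (En U u).toReal))) :=
    ((tendsto_one_div_add_atTop_nhds_zero_nat.sqrt).mul_const _).const_mul _
  rw [Real.sqrt_zero, zero_mul, mul_zero] at t2
  have t3 : Tendsto (fun n => ∫ z in U, ψ n z * wd g u z) atTop (𝓝 0) := by
    refine squeeze_zero_norm (fun n => ?_) t2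
    refine (h26_step hU hR hu hu' hg hg' h0 (le_max_right B 0)
      (fun z hz => (hB z hz).trans (le_max_left _ _)) ((h1 n).of_le (by simp)) (h2 n)
      (habs n)).trans ?_
    have : (En U (ψ n)).toReal ≤ 1 / ((n : ℝ) + 1) :=
      ENNReal.toReal_le_of_le_ofReal Nat.one_div_pos_of_nat.le
        ((setLIntegral_le_lintegral _ _).trans (h6 n))
    gcongr
  rw [om_skew, om, tendsto_nhds_unique t1 t3, neg_zero]

/-- the integrand of `Pos` is `‖gz (v₁ - ξ x) - i gz (v₂ - ξ y)‖²` a.e.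
(`a = x + (v₁ - ξ x)`, `b = y + (v₂ - ξ y)`) -/
theorem pos_form (hU : IsOpen U) {ξ v₁ v₂ a b : ℂ → ℝ} (hξ : Cut Λ ξ) (h₁ : XX U v₁)
    (h₂ : XX U v₂) (ha : ∀ z, a z = v₁ z + (1 - ξ z) * z.re)
    (hb : ∀ z, b z = v₂ z + (1 - ξ z) * z.im) :
    ∫ z in U, ((fderiv ℝ a z 1 - fderiv ℝ b z I) ^ 2 + (fderiv ℝ a z I + fderiv ℝ b z 1) ^ 2) =
      ‖gL U v₁ - I • gL U v₂ +
        (-gL U (fun z => ξ z * z.re) + I • gL U (fun z => ξ z * z.im))‖ ^ 2 := by
  obtain ⟨hp, hq⟩ := xx_model (U := U) hξ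
  set p : ℂ → ℝ := fun z => ξ z * z.re
  set q : ℂ → ℝ := fun z => ξ z * z.im
  rw [← real_inner_self_eq_norm_sq, L2.inner_def]
  refine integral_congr_ae ?_
  filter_upwards [ae_diff' hU h₁.lip, ae_diff' hU h₂.lip, ae_diff' hU hp.lip, ae_diff' hU hq.lip,
    gL_ae h₁.en, gL_ae h₂.en, gL_ae hp.en, gL_ae hq.en,
    Lp.coeFn_add (gL U v₁ - I • gL U v₂) (-gL U p + I • gL U q),
    Lp.coeFn_sub (gL U v₁) (I • gL U v₂), Lp.coeFn_add (-gL U p) (I • gL U q),
    Lp.coeFn_neg (gL U p), Lp.coeFn_smul I (gL U v₂), Lp.coeFn_smul I (gL U q)]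
    with z d1 d2 dp dq e1 e2 ep eq c1 c2 c3 c4 c5 c6
  have ea : a = fun z => v₁ z - p z + reCLM z := funext fun z => by
    rw [ha, reCLM_apply]; ring
  have eb : b = fun z => v₂ z - q z + imCLM z := funext fun z => by
    rw [hb, imCLM_apply]; ring
  have fa : fderiv ℝ a z = fderiv ℝ v₁ z - fderiv ℝ p z + reCLM :=
    ea ▸ ((d1.hasFDerivAt.sub dp.hasFDerivAt).add reCLM.hasFDerivAt).fderiv
  have fb : fderiv ℝ b z = fderiv ℝ v₂ z - fderiv ℝ q z + imCLM :=
    eb ▸ ((d2.hasFDerivAt.sub dq.hasFDerivAt).add imCLM.hasFDerivAt).fderiv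
  rw [real_inner_self_eq_norm_sq, c1, Pi.add_apply, c2, Pi.sub_apply, c3, Pi.add_apply, c4,
    Pi.neg_apply, c5, c6, Pi.smul_apply, Pi.smul_apply, e1, e2, ep, eq, fa, fb, Complex.sq_norm,
    Complex.normSq_apply]
  simp [gz]
  ring

/-- a holomorphic function with a limit at infinity is bounded outside the disc -/
theorem bdd_outer (hU : IsOpen U) {ξ : ℂ → ℝ} (hξ : Cut Λ ξ) {F : ℂ → ℂ}
    (hF : DifferentiableOn ℂ F U) {b : ℂ} (hb : Tendsto F (cocompact ℂ) (𝓝 b)) :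
    Bdd U (fun z => (1 - ξ z) * (F z).re) ∧ Bdd U (fun z => (1 - ξ z) * (F z).im) := by
  have _ := hU
  obtain ⟨A, hA⟩ := hξ.sm.continuous.bounded_above_of_compact_support hξ.cs
  obtain ⟨K, hK, hKb⟩ := mem_cocompact.1 (hb (Metric.ball_mem_nhds b one_pos))
  have hc : IsClosed {z : ℂ | Λ.R ≤ ‖z‖} := isClosed_le continuous_const continuous_norm
  obtain ⟨B, hB⟩ := (hK.inter_right hc).exists_bound_of_continuousOn
    (hF.continuousOn.mono fun z hz => Λ.far z hz.2)
  have key : ∀ z, |1 - ξ z| * ‖F z‖ ≤ (1 + A) * max B (‖b‖ + 1) := by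
    intro z
    have hA0 : 0 ≤ A := (norm_nonneg _).trans (hA z)
    have hm : 0 ≤ max B (‖b‖ + 1) := le_max_of_le_right (by positivity)
    rcases le_total ‖z‖ Λ.R with h | h
    · rw [hξ.one z h, sub_self, abs_zero, zero_mul]
      positivity
    · refine mul_le_mul ((abs_sub _ _).trans ?_) ?_ (norm_nonneg _) (by positivity)
      · rw [abs_one]
        exact add_le_add le_rfl (hA z)
      · by_cases hz : z ∈ K
        · exact (hB z ⟨hz, h⟩).trans (le_max_left _ _)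
        · refine le_max_of_le_right ?_
          have h1 : ‖F z - b‖ < 1 := mem_ball_iff_norm.1 (hKb hz)
          linarith [norm_sub_norm_le (F z) b]
  refine ⟨⟨_, fun z _ => le_trans ?_ (key z)⟩, ⟨_, fun z _ => le_trans ?_ (key z)⟩⟩
  · rw [abs_mul]
    exact mul_le_mul_of_nonneg_left (abs_re_le_norm _) (abs_nonneg _)
  · rw [abs_mul]
    exact mul_le_mul_of_nonneg_left (abs_im_le_norm _) (abs_nonneg _)

/-- Localisation of approximants.  `v k → p + f` in energy, where `p = ξ x`; then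
`ξ (v k - c k + (1 - ξ) x)` is regular and agrees with `v k - c k` on the lumps. -/
theorem rt_loc {M : Set (ℂ → ℝ)} (hc : Ctx Λ M) {ξ v x : ℂ → ℝ} (hξ : Cut Λ ξ) (hv : RT Λ M v)
    (hx : ContDiff ℝ 1 x) (c : ℝ) :
    RT Λ M (fun z => ξ z * (v z - c + (1 - ξ z) * x z)) := by
  have hA : A0 U (fun z => ξ z * (-c + (1 - ξ z) * x z)) := by
    have h1 : ContDiff ℝ 1 ξ := hξ.sm.of_le (by simp)
    refine A0.of_smooth hc.op (by fun_prop) hξ.cs.mul_right ?_
    have hcl : IsClosed {z : ℂ | Λ.R ≤ ‖z‖} := isClosed_le continuous_const continuous_norm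
    refine (closure_minimal (fun z hz => ?_) hcl).trans fun z hz => Λ.far z hz
    by_contra hlt
    have hz' : z ∈ Metric.ball (0 : ℂ) Λ.R := mem_ball_zero_iff.2 (not_le.1 hlt)
    have e : (fun z => ξ z * (-c + (1 - ξ z) * x z)) =ᶠ[𝓝 z] fun _ => -c := by
      filter_upwards [Metric.isOpen_ball.mem_nhds hz'] with w hw
      rw [hξ.one w (mem_ball_zero_iff.1 hw).le]
      ring
    exact hz (by rw [e.fderiv_eq, fderiv_const_apply])
  have h := rt_add hc (rt_mul_A0 hc hv (hξ.a0 hc.op).1).1 (rt_A0 hc hA).1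
  convert h using 2 with z
  ring

end Crest.Agent.R105.End
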