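import Crest.Agent.R105.E1c

/-! Row 105, block END (E1): existence of the minimiser in Hilbert space. -/

set_option autoImplicit false

open MeasureTheory Set Filter Topology Complex
open scoped ENNReal

namespace Crest.Agent.R105.End

variable {U : Set ℂ} {Λ : Lumps U} {M : Set (ℂ → ℝ)}

theorem lp_inner {E : Type} (x y : lp (fun _ : E => ℝ) 2) :
    inner ℝ x y = ∑' q, x q * y q := by
  rw [lp.inner_eq_tsum]
  refine tsum_congr fun q => ?_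
  simp [mul_comm]

theorem lp_sq {E : Type} (x : lp (fun _ : E => ℝ) 2) :
    Summable (fun q => x q ^ 2) ∧ ‖x‖ ^ 2 = ∑' q, x q ^ 2 := by
  refine ⟨?_, ?_⟩
  · have := lp.summable_inner (𝕜 := ℝ) x x
    simpa [sq] using this
  · rw [← real_inner_self_eq_norm_sq, lp_inner]
    simp only [sq]

theorem lp_mk {E : Type} {r : E → ℝ} (h : Summable fun q => r q ^ 2) (κ : ℝ) :
    ∃ x : lp (fun _ : E => ℝ) 2, ∀ q, x q = κ * r q := by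
  refine ⟨⟨fun q => κ * r q, memℓp_gen ?_⟩, fun q => rfl⟩
  simpa [mul_pow] using h.mul_left (κ ^ 2)

theorem gL_zero (U : Set ℂ) : gL U (fun _ => (0 : ℝ)) = 0 := by
  have h := gL_smul (U := U) 0 (XX.const (U := U) 0).en
  simpa using h

/-- the minimiser and a minimising sequence -/
structure Mini (Λ : Lumps U) (M : Set (ℂ → ℝ)) (G₁ G₂ V₁ V₂ : Lp ℂ 2 (volume.restrict U))
    (ρ : Λ.E → ℝ) (v₁ v₂ : ℕ → ℂ → ℝ) (c : ℕ → Λ.E → ℂ) (r : ℕ → Λ.E → ℝ) : Prop where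
  rt₁ : ∀ k, RT Λ M (v₁ k)
  rt₂ : ∀ k, RT Λ M (v₂ k)
  l2 : ∀ k, L2w (r k)
  ball : ∀ k q, InBall Λ (v₁ k) (v₂ k) q (c k q) (r k q)
  t₁ : Tendsto (fun k => gL U (v₁ k)) atTop (𝓝 V₁)
  t₂ : Tendsto (fun k => gL U (v₂ k)) atTop (𝓝 V₂)
  l2ρ : L2w ρ
  lim : Tendsto (fun k => nrm (fun q => r k q - ρ q)) atTop (𝓝 0)
  sq : Tendsto (fun k => 2 * Real.pi * ∑' q, r k q ^ 2) atTop (𝓝 (2 * Real.pi * ∑' q, ρ q ^ 2))
  var : ∀ (φ₁ φ₂ : ℂ → ℝ) (c : Λ.E → ℂ) (r : Λ.E → ℝ), RT Λ M φ₁ → RT Λ M φ₂ → L2w r →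
    (∀ q, InBall Λ φ₁ φ₂ q (c q) (r q)) →
    |inner ℝ (gL U φ₁) (V₁ + G₁) + inner ℝ (gL U φ₂) (V₂ + G₂)| ≤ 2 * Real.pi * ∑' q, ρ q * r q
  eq : inner ℝ V₁ (V₁ + G₁) + inner ℝ V₂ (V₂ + G₂) + 2 * Real.pi * ∑' q, ρ q ^ 2 = 0

theorem exists_mini (hc : Ctx Λ M) (G₁ G₂ : Lp ℂ 2 (volume.restrict U)) :
    ∃ V₁ V₂ ρ v₁ v₂ c r, Mini Λ M G₁ G₂ V₁ V₂ ρ v₁ v₂ c r := by
  have hU := hc.op
  set κ := Real.sqrt (2 * Real.pi) with hκ
  have hκ0 : 0 < κ := Real.sqrt_pos.2 (by positivity)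
  have hκ2 : κ ^ 2 = 2 * Real.pi := Real.sq_sqrt (by positivity)
  let S : Set (Lp ℂ 2 (volume.restrict U) × Lp ℂ 2 (volume.restrict U) ×
      lp (fun _ : Λ.E => ℝ) 2) :=
    {s | ∃ (φ₁ φ₂ : ℂ → ℝ) (c : Λ.E → ℂ) (r : Λ.E → ℝ), RT Λ M φ₁ ∧ RT Λ M φ₂ ∧ L2w r ∧
      (∀ q, InBall Λ φ₁ φ₂ q (c q) (r q)) ∧ s.1 = gL U φ₁ ∧ s.2.1 = gL U φ₂ ∧
      ∀ q, s.2.2 q = κ * r q}
  have hz : RT Λ M (fun _ => (0 : ℝ)) := (rt_A0 hc (A0.const 0)).1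
  obtain ⟨V₁, V₂, W, s, hs, hl, hvar, h0⟩ := cone3 S
    ⟨fun _ => 0, fun _ => 0, fun _ => 0, fun _ => 0, hz, hz, ⟨fun _ => le_rfl, by simp⟩,
      fun q η hη => ⟨0, fun z _ => by simpa [show (⟨0, 0⟩ : ℂ) = 0 from rfl] using hη.le⟩,
      (gL_zero U).symm, (gL_zero U).symm, fun q => by simp⟩
    (by
      rintro s ⟨φ₁, φ₂, c, r, h₁, h₂, hr, hb, e₁, e₂, e₃⟩ t ⟨ψ₁, ψ₂, c', r', k₁, k₂, hr', hb', f₁,
        f₂, f₃⟩
      refine ⟨_, _, _, _, rt_add hc h₁ k₁, rt_add hc h₂ k₂, (hr.add hr').1,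
        fun q => inBall_add (hb q) (hb' q), ?_, ?_, fun q => ?_⟩
      · rw [(gL_add hU h₁.reg.xx.lip k₁.reg.xx.lip h₁.reg.xx.en k₁.reg.xx.en).2, ← e₁, ← f₁]
        rfl
      · rw [(gL_add hU h₂.reg.xx.lip k₂.reg.xx.lip h₂.reg.xx.en k₂.reg.xx.en).2, ← e₂, ← f₂]
        rfl
      · rw [mul_add, ← e₃, ← f₃]
        rfl)
    (by
      rintro s ⟨φ₁, φ₂, c, r, h₁, h₂, hr, hb, e₁, e₂, e₃⟩ a ha
      refine ⟨_, _, _, _, rt_smul hc a h₁, rt_smul hc a h₂, (hr.smul (abs_nonneg a)).1,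
        fun q => inBall_smul a (hb q), ?_, ?_, fun q => ?_⟩
      · rw [gL_smul a h₁.reg.xx.en, ← e₁]
        rfl
      · rw [gL_smul a h₂.reg.xx.en, ← e₂]
        rfl
      · rw [abs_of_nonneg ha, mul_left_comm, ← e₃]
        rfl) G₁ G₂
  choose v₁ v₂ c r h₁ h₂ hr hb e₁ e₂ e₃ using hs
  have l₁ : Tendsto (fun k => (s k).1) atTop (𝓝 V₁) := (continuous_fst.tendsto _).comp hl
  have l₂ : Tendsto (fun k => (s k).2.1) atTop (𝓝 V₂) := (continuous_snd.fst.tendsto _).comp hl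
  have l₃ : Tendsto (fun k => (s k).2.2) atTop (𝓝 W) := (continuous_snd.snd.tendsto _).comp hl
  have l₄ : Tendsto (fun k => ‖(s k).2.2 - W‖) atTop (𝓝 0) := tendsto_iff_norm_sub_tendsto_zero.1 l₃
  have hW : ∀ q, W q = κ * (W q / κ) := fun q => by field_simp
  have hsq : ∀ (x : lp (fun _ : Λ.E => ℝ) 2) (e : Λ.E → ℝ), (∀ q, x q = κ * e q) →
      ‖x‖ ^ 2 = 2 * Real.pi * ∑' q, e q ^ 2 := by
    intro x e h
    rw [(lp_sq x).2, ← hκ2, ← tsum_mul_left]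
    exact tsum_congr fun q => by rw [h, mul_pow]
  have hρ : L2w fun q => W q / κ := by
    refine ⟨fun q => div_nonneg ?_ hκ0.le, ?_⟩
    · have h3 : Tendsto (fun k => (s k).2.2 q) atTop (𝓝 (W q)) := by
        rw [tendsto_iff_norm_sub_tendsto_zero]
        exact squeeze_zero (fun _ => norm_nonneg _)
          (fun k => lp.norm_apply_le_norm two_ne_zero ((s k).2.2 - W) q) l₄
      exact ge_of_tendsto' h3 fun k => by rw [e₃]; exact mul_nonneg hκ0.le ((hr k).1 q)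
    · simpa only [div_pow] using (lp_sq W).1.div_const (κ ^ 2)
  have key : ∀ (φ₁ φ₂ : ℂ → ℝ) (c : Λ.E → ℂ) (r : Λ.E → ℝ), RT Λ M φ₁ → RT Λ M φ₂ → L2w r →
      (∀ q, InBall Λ φ₁ φ₂ q (c q) (r q)) →
      0 ≤ inner ℝ (gL U φ₁) (V₁ + G₁) + inner ℝ (gL U φ₂) (V₂ + G₂) +
        2 * Real.pi * ∑' q, W q / κ * r q := by
    intro φ₁ φ₂ c r k₁ k₂ kr kb
    obtain ⟨x, hx⟩ := lp_mk kr.2 κ
    have h3 := hvar (gL U φ₁, gL U φ₂, x) ⟨φ₁, φ₂, c, r, k₁, k₂, kr, kb, rfl, rfl, hx⟩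
    have h4 : inner ℝ x W = 2 * Real.pi * ∑' q, W q / κ * r q := by
      rw [lp_inner, ← hκ2, ← tsum_mul_left]
      refine tsum_congr fun q => ?_
      rw [hx]
      field_simp
    rwa [h4] at h3
  refine ⟨V₁, V₂, fun q => W q / κ, v₁, v₂, c, r, h₁, h₂, hr, hb, by simpa only [e₁] using l₁,
    by simpa only [e₂] using l₂, hρ, ?_, ?_, fun φ₁ φ₂ c r k₁ k₂ kr kb => abs_le.2 ⟨?_, ?_⟩, ?_⟩
  · have h3 : ∀ k, nrm (fun q => r k q - W q / κ) = ‖(s k).2.2 - W‖ / κ := by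
      intro k
      have h4 := hsq ((s k).2.2 - W) (fun q => r k q - W q / κ) fun q => by
        rw [mul_sub, ← e₃, ← hW]
        rfl
      rw [← hκ2] at h4
      rw [nrm, Real.sqrt_eq_iff_mul_self_eq (tsum_nonneg fun _ => sq_nonneg _) (by positivity),
        ← sq, div_pow, h4, mul_div_cancel_left₀ _ (pow_pos hκ0 2).ne']
    simp only [h3]
    simpa using l₄.div_const κ
  · rw [← hsq W _ hW]
    simpa only [← hsq _ _ (e₃ _)] using l₃.norm.pow 2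
  · linarith [key φ₁ φ₂ c r k₁ k₂ kr kb]
  · have h3 := key _ _ _ _ (rt_smul hc (-1) k₁) (rt_smul hc (-1) k₂) (kr.smul (abs_nonneg (-1))).1
      fun q => inBall_smul (-1) (kb q)
    rw [gL_smul _ k₁.reg.xx.en, gL_smul _ k₂.reg.xx.en] at h3
    simp only [neg_smul, one_smul, inner_neg_left, abs_neg, abs_one, one_mul] at h3
    linarith
  · rw [← hsq W _ hW, ← real_inner_self_eq_norm_sq]
    exact h0

end Crest.Agent.R105.End
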