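import Crest.Agent.R105.IsoAB1

/-! Row 105: sharp planar isoperimetric inequality for functions of bounded variation. -/

set_option autoImplicit false

open MeasureTheory Set Filter Topology
open scoped Convolution

namespace Crest.Agent.R105.Iso

noncomputable section

/-- mollification -/
def mol (φ f : ℂ → ℝ) (x : ℂ) : ℝ := ∫ y, f y * φ (x - y)

theorem mol_eq (φ f : ℂ → ℝ) : mol φ f = f ⋆[ContinuousLinearMap.mul ℝ ℝ, volume] φ := rfl

variable {φ f : ℂ → ℝ}

theorem contDiff_mol (hφ : ContDiff ℝ 1 φ) (hs : HasCompactSupport φ)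
    (hf : LocallyIntegrable f) : ContDiff ℝ 1 (mol φ f) := by
  rw [mol_eq]
  exact hs.contDiff_convolution_right (n := 1) _ hf hφ

theorem fderiv_mol (hφ : ContDiff ℝ 1 φ) (hs : HasCompactSupport φ) (hf : LocallyIntegrable f)
    (x v : ℂ) : fderiv ℝ (mol φ f) x v = ∫ y, f y * fderiv ℝ φ (x - y) v := by
  rw [mol_eq, (hs.hasFDerivAt_convolution_right _ hf hφ x).fderiv,
    convolution_precompR_apply _ hf (hs.fderiv ℝ) (hφ.continuous_fderiv one_ne_zero)]
  rfl

theorem cpt_mol (hs : HasCompactSupport φ) (hf : HasCompactSupport f) :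
    HasCompactSupport (mol φ f) := by
  rw [mol_eq]
  exact hf.convolution _ hs

theorem fderiv_even (hφ : ContDiff ℝ 1 φ) (he : ∀ z, φ (-z) = φ z) (z v : ℂ) :
    fderiv ℝ φ (-z) v = -fderiv ℝ φ z v := by
  have h1 := ((hφ.differentiable one_ne_zero) (-z)).hasFDerivAt.comp z (hasFDerivAt_id z).neg
  have h2 : (φ ∘ Neg.neg) = φ := funext he
  rw [h2] at h1
  rw [h1.fderiv]
  simp

theorem mol_adj (hφ : ContDiff ℝ 1 φ) (hs : HasCompactSupport φ) (he : ∀ z, φ (-z) = φ z)
    {M ψ : ℂ → ℝ} (hM : Integrable M) (hψ : Integrable ψ) (v : ℂ) :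
    ∫ x, fderiv ℝ (mol φ M) x v * ψ x = -∫ y, M y * fderiv ℝ (mol φ ψ) y v := by
  have hd := hφ.continuous_fderiv one_ne_zero
  obtain ⟨B, hB⟩ := hd.bounded_above_of_compact_support (hs.fderiv ℝ)
  have hi : Integrable (fun p : ℂ × ℂ => fderiv ℝ φ (p.1 - p.2) v * (ψ p.1 * M p.2))
      (volume.prod volume) := by
    refine (hψ.mul_prod hM).bdd_mul (c := B * ‖v‖) (Continuous.aestronglyMeasurable (by fun_prop))
      (Eventually.of_forall fun p => ?_)
    exact ((fderiv ℝ φ _).le_opNorm v).trans (mul_le_mul_of_nonneg_right (hB _) (norm_nonneg _))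
  simp only [fderiv_mol hφ hs hM.locallyIntegrable, fderiv_mol hφ hs hψ.locallyIntegrable]
  simp only [← integral_mul_const, ← integral_const_mul, ← integral_neg]
  have := integral_integral_swap
    (f := fun x y : ℂ => fderiv ℝ φ (x - y) v * (ψ x * M y)) hi
  refine Eq.trans ?_ (this.trans ?_)
  · refine integral_congr_ae (Eventually.of_forall fun x => ?_)
    refine integral_congr_ae (Eventually.of_forall fun y => ?_)
    ring
  · refine integral_congr_ae (Eventually.of_forall fun y => ?_)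
    refine integral_congr_ae (Eventually.of_forall fun x => ?_)
    simp only
    rw [← neg_sub x y, fderiv_even hφ he]
    ring

theorem mol_sq_le (hφ : ContDiff ℝ 1 φ) (hs : HasCompactSupport φ) (h0 : ∀ z, 0 ≤ φ z)
    (h1 : ∫ z, φ z = 1) {p q : ℂ → ℝ} (hp : Integrable p) (hq : Integrable q)
    (h : ∀ z, p z ^ 2 + q z ^ 2 ≤ 1) (x : ℂ) : mol φ p x ^ 2 + mol φ q x ^ 2 ≤ 1 := by
  have ip : Integrable fun y => p y * φ (x - y) :=
    hs.convolutionExists_right (ContinuousLinearMap.mul ℝ ℝ) hp.locallyIntegrable hφ.continuous x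
  have iq : Integrable fun y => q y * φ (x - y) :=
    hs.convolutionExists_right (ContinuousLinearMap.mul ℝ ℝ) hq.locallyIntegrable hφ.continuous x
  have iφ : Integrable fun y => φ (x - y) :=
    (hφ.continuous.integrable_of_hasCompactSupport hs).comp_sub_left x
  set a := mol φ p x with ha
  set b := mol φ q x with hb
  have e1 : a ^ 2 + b ^ 2 = ∫ y, (a * (p y * φ (x - y)) + b * (q y * φ (x - y))) := by
    rw [integral_add (ip.const_mul a) (iq.const_mul b), integral_const_mul, integral_const_mul]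
    show _ = a * a + b * b
    ring
  have e2 : ∫ y, (a * (p y * φ (x - y)) + b * (q y * φ (x - y))) ≤
      ∫ y, (a ^ 2 + b ^ 2 + 1) / 2 * φ (x - y) := by
    refine integral_mono ((ip.const_mul a).add (iq.const_mul b)) (iφ.const_mul _) fun y => ?_
    have h2 : a * p y + b * q y ≤ (a ^ 2 + b ^ 2 + 1) / 2 := by
      nlinarith [h y, sq_nonneg (a - p y), sq_nonneg (b - q y)]
    have := mul_le_mul_of_nonneg_right h2 (h0 (x - y))
    simp only
    linarith
  rw [integral_const_mul, integral_sub_left_eq_self φ volume x, h1] at e2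
  linarith

/-- total variation at most `P`, in the sense of distributions -/
def TVle (M : ℂ → ℝ) (P : ℝ) : Prop :=
  ∀ p q : ℂ → ℝ, ContDiff ℝ 1 p → ContDiff ℝ 1 q → HasCompactSupport p → HasCompactSupport q →
    (∀ z, p z ^ 2 + q z ^ 2 ≤ 1) →
    |∫ z, M z * (fderiv ℝ p z 1 + fderiv ℝ q z Complex.I)| ≤ P

theorem tv_mol (hφ : ContDiff ℝ 1 φ) (hs : HasCompactSupport φ) (he : ∀ z, φ (-z) = φ z)
    (h0 : ∀ z, 0 ≤ φ z) (h1 : ∫ z, φ z = 1) {M : ℂ → ℝ} (hM : Integrable M)
    (hc : HasCompactSupport M) {P : ℝ} (h : TVle M P) : ∫ z, gN (mol φ M) z ≤ P := by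
  set u := mol φ M with hu
  have hu1 : ContDiff ℝ 1 u := contDiff_mol hφ hs hM.locallyIntegrable
  have hd := hu1.continuous_fderiv one_ne_zero
  have hs' : HasCompactSupport (fderiv ℝ u) := (cpt_mol hs hc).fderiv ℝ
  have cN := continuous_gN hu1
  have key : ∀ v : ℂ, (∀ z, |fderiv ℝ u z v| ≤ gN u z) →
      HasCompactSupport (fun z => fderiv ℝ u z v / gN u z) ∧
      Integrable (fun z => fderiv ℝ u z v / gN u z) ∧
      Integrable (fun z => fderiv ℝ u z v * (fderiv ℝ u z v / gN u z)) := fun v hv => by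
    have c1 : Continuous fun z => fderiv ℝ u z v := by fun_prop
    have s1 : HasCompactSupport (fun z => fderiv ℝ u z v / gN u z) :=
      hs'.mono fun z hz h => hz (by simp [h])
    have m1 : Measurable fun z => fderiv ℝ u z v / gN u z := c1.measurable.div cN.measurable
    have b1 : ∀ z, ‖fderiv ℝ u z v / gN u z‖ ≤ 1 := fun z => by
      rw [Real.norm_eq_abs, abs_div, abs_of_nonneg (show 0 ≤ gN u z from Real.sqrt_nonneg _)]
      exact div_le_one_of_le₀ (hv z) (Real.sqrt_nonneg _)
    refine ⟨s1, ?_, ?_⟩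
    · rw [← integrableOn_iff_integrable_of_support_subset (subset_tsupport _)]
      exact Measure.integrableOn_of_bounded (M := 1) s1.isCompact.measure_lt_top.ne
        m1.aestronglyMeasurable (Eventually.of_forall b1)
    · refine Integrable.mul_bdd (c := 1) (c1.integrable_of_hasCompactSupport
        (hs'.mono fun z hz h => hz (by simp [h]))) m1.aestronglyMeasurable
        (Eventually.of_forall b1)
  obtain ⟨s1, i1, j1⟩ := key 1 fun z => Real.abs_le_sqrt (by nlinarith)
  obtain ⟨s2, i2, j2⟩ := key Complex.I fun z => Real.abs_le_sqrt (by nlinarith)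
  have hN : ∀ z, gN u z ^ 2 = fderiv ℝ u z 1 ^ 2 + fderiv ℝ u z Complex.I ^ 2 := fun z =>
    Real.sq_sqrt (by positivity)
  have e1 : ∀ z, gN u z = fderiv ℝ u z 1 * (fderiv ℝ u z 1 / gN u z) +
      fderiv ℝ u z Complex.I * (fderiv ℝ u z Complex.I / gN u z) := fun z => by
    by_cases hz : gN u z = 0
    · simp [hz]
    · field_simp
      exact hN z
  have hp := contDiff_mol hφ hs i1.locallyIntegrable
  have hq := contDiff_mol hφ hs i2.locallyIntegrable
  have h2 := h _ _ hp hq (cpt_mol hs s1) (cpt_mol hs s2) (mol_sq_le hφ hs h0 h1 i1 i2 fun z => by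
    rw [div_pow, div_pow, ← add_div, ← hN]
    exact div_self_le_one _)
  have int : ∀ {p : ℂ → ℝ}, ContDiff ℝ 1 p → HasCompactSupport p → ∀ v : ℂ,
      Integrable fun z => M z * fderiv ℝ p z v := fun {p} hp hc v => by
    have hd := hp.continuous_fderiv one_ne_zero
    obtain ⟨B, hB⟩ := hd.bounded_above_of_compact_support (hc.fderiv ℝ)
    exact hM.mul_bdd (c := B * ‖v‖) (Continuous.aestronglyMeasurable (by fun_prop))
      (Eventually.of_forall fun z => ((fderiv ℝ p _).le_opNorm v).trans
        (mul_le_mul_of_nonneg_right (hB _) (norm_nonneg _)))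
  simp only [mul_add] at h2
  rw [integral_add (int hp (cpt_mol hs s1) _) (int hq (cpt_mol hs s2) _)] at h2
  rw [integral_congr_ae (Eventually.of_forall e1), integral_add j1 j2,
    mol_adj hφ hs he hM i1, mol_adj hφ hs he hM i2]
  linarith [neg_abs_le ((∫ z, M z * fderiv ℝ (mol φ fun z => fderiv ℝ u z 1 / gN u z) z 1) +
    ∫ z, M z * fderiv ℝ (mol φ fun z => fderiv ℝ u z Complex.I / gN u z) z Complex.I)]

/-- **sharp isoperimetric inequality** -/
theorem sq_le_of_tv {M : ℂ → ℝ} (hM : Integrable M) (hs : ∃ R : ℝ, ∀ z, R ≤ ‖z‖ → M z = 0)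
    {P : ℝ} (h : TVle M P) :
    Integrable (fun z => M z ^ 2) ∧ ∫ z, M z ^ 2 ≤ P ^ 2 / (4 * Real.pi) := by
  obtain ⟨R, hR⟩ := hs
  have hc : HasCompactSupport M := HasCompactSupport.intro (isCompact_closedBall 0 R)
    fun z hz => hR z (by simpa using (not_le.1 fun h => hz (mem_closedBall_zero_iff.2 h)).le)
  let b : ℕ → ContDiffBump (0 : ℂ) := fun n =>
    ⟨1 / ((n : ℝ) + 1) / 2, 1 / ((n : ℝ) + 1), by positivity, half_lt_self (by positivity)⟩
  have hae := ContDiffBump.ae_convolution_tendsto_right_of_locallyIntegrable (μ := volume)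
    (φ := b) (l := atTop) (K := 2) tendsto_one_div_add_atTop_nhds_zero_nat
    (Eventually.of_forall fun n => by simp only [b]; linarith) hM.locallyIntegrable
  have heq : ∀ n x, ((b n).normed volume ⋆[ContinuousLinearMap.lsmul ℝ ℝ, volume] M) x =
      mol ((b n).normed volume) M x := fun n x => by
    rw [convolution_lsmul_swap]
    simp only [mol, smul_eq_mul, mul_comm]
  simp only [heq] at hae
  have hb : ∀ n, Integrable (fun z => mol ((b n).normed volume) M z ^ 2) ∧
      ∫ z, mol ((b n).normed volume) M z ^ 2 ≤ P ^ 2 / (4 * Real.pi) := fun n => by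
    have h1 : ContDiff ℝ 1 ((b n).normed volume) := (b n).contDiff_normed
    have h2 := (b n).hasCompactSupport_normed (μ := volume)
    have h3 := contDiff_mol h1 h2 hM.locallyIntegrable
    have h4 := cpt_mol h2 hc
    have h5 := tv_mol h1 h2 (b n).normed_neg (b n).nonneg_normed (b n).integral_normed hM hc h
    have h6 := sobolev_C1 h3 h4
    refine ⟨(h3.continuous.pow 2).integrable_of_hasCompactSupport
      (h4.mono fun z hz h => hz (by simp [h])), ?_⟩
    rw [le_div_iff₀ (by positivity)]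
    have h7 : 0 ≤ ∫ z, gN (mol ((b n).normed volume) M) z :=
      integral_nonneg fun z => Real.sqrt_nonneg _
    nlinarith
  have hl : ∫⁻ z, ENNReal.ofReal (M z ^ 2) ≤ ENNReal.ofReal (P ^ 2 / (4 * Real.pi)) := by
    have h1 := lintegral_liminf_le' (μ := (volume : Measure ℂ)) (u := atTop)
      (f := fun n z => ENNReal.ofReal (mol ((b n).normed volume) M z ^ 2))
      fun n => (hb n).1.aestronglyMeasurable.aemeasurable.ennreal_ofReal
    rw [lintegral_congr_ae (g := fun z => ENNReal.ofReal (M z ^ 2))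
      (hae.mono fun z hz => (ENNReal.tendsto_ofReal (hz.pow 2)).liminf_eq)] at h1
    refine h1.trans (liminf_le_of_frequently_le' (Frequently.of_forall fun n => ?_))
    rw [← ofReal_integral_eq_lintegral_ofReal (hb n).1 (Eventually.of_forall fun z => sq_nonneg _)]
    exact ENNReal.ofReal_le_ofReal (hb n).2
  have hi : Integrable fun z => M z ^ 2 := by
    refine ⟨hM.aestronglyMeasurable.pow 2, ?_⟩
    rw [hasFiniteIntegral_iff_ofReal (Eventually.of_forall fun z => sq_nonneg _)]
    exact hl.trans_lt ENNReal.ofReal_lt_top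
  refine ⟨hi, ?_⟩
  rw [← ofReal_integral_eq_lintegral_ofReal hi (Eventually.of_forall fun z => sq_nonneg _)] at hl
  exact (ENNReal.ofReal_le_ofReal_iff (by positivity)).1 hl

end

end Crest.Agent.R105.Iso
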