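import Mathlib

/-!
Row 105: the signed area formula for differentiable (not necessarily injective) maps.
-/

open MeasureTheory Set Function
open scoped ENNReal NNReal

namespace Crest.Agent.R105.Iso

variable {E : Type*} [NormedAddCommGroup E] [NormedSpace ℝ E] [FiniteDimensional ℝ E]
  [MeasurableSpace E] [BorelSpace E] [Nontrivial E]

omit [MeasurableSpace E] [BorelSpace E] in
theorem exists_injOn_radius (A : E →L[ℝ] E) :
    ∃ r : ℝ≥0, r ≠ 0 ∧ (A.det ≠ 0 → ∀ (f : E → E) (t : Set E),
      ApproximatesLinearOn f A t r → InjOn f t) := by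
  by_cases h : A.det = 0
  · exact ⟨1, one_ne_zero, fun h' => absurd h h'⟩
  · let B := A.toContinuousLinearEquivOfDetNeZero h
    have hB : ‖(B.symm : E →L[ℝ] E)‖₊ ≠ 0 := B.symm.nnnorm_symm_pos.ne' |> fun _ =>
      (B.nnnorm_symm_pos).ne'
    refine ⟨‖(B.symm : E →L[ℝ] E)‖₊⁻¹ / 2, by simpa using hB, fun _ f t hf => ?_⟩
    have hA : (B : E →L[ℝ] E) = A := A.coe_toContinuousLinearEquivOfDetNeZero h
    rw [← hA] at hf
    exact hf.injOn (Or.inr (NNReal.half_lt_self (inv_ne_zero hB)))

theorem exists_injOn_partition {s : Set E} {f : E → E} {f' : E → E →L[ℝ] E}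
    (hf' : ∀ x ∈ s, HasFDerivWithinAt f (f' x) s x) (hd : ∀ x ∈ s, (f' x).det ≠ 0) :
    ∃ t : ℕ → Set E, Pairwise (Disjoint on t) ∧ (∀ n, MeasurableSet (t n)) ∧ (s ⊆ ⋃ n, t n) ∧
      ∀ n, InjOn f (s ∩ t n) := by
  choose r hr0 hr using exists_injOn_radius (E := E)
  obtain ⟨t, A, h1, h2, h3, h4, h5⟩ :=
    exists_partition_approximatesLinearOn_of_hasFDerivWithinAt f s f' hf' r hr0
  refine ⟨t, h1, h2, h3, fun n => ?_⟩
  rcases s.eq_empty_or_nonempty with rfl | hne
  · simp
  · obtain ⟨y, hy, hA⟩ := h5 hne n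
    exact hr (A n) (hA ▸ hd y hy) f _ (h4 n)

variable (μ : Measure E) [μ.IsAddHaarMeasure]

/-- Unsigned area formula: a measurable multiplicity function with values in `ℕ ∪ {∞}`. -/
theorem exists_mult {s : Set E} (hs : MeasurableSet s) {f : E → E} {f' : E → E →L[ℝ] E}
    (hf' : ∀ x ∈ s, HasFDerivWithinAt f (f' x) s x) (hd : ∀ x ∈ s, (f' x).det ≠ 0) :
    ∃ M : E → ℝ≥0∞, Measurable M ∧ (∀ y, M y = ∞ ∨ ∃ k : ℕ, M y = k) ∧
      (∀ y, y ∉ f '' s → M y = 0) ∧ (∀ y ∈ f '' s, 1 ≤ M y) ∧
      ∀ g : E → ℝ≥0∞, Measurable g →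
        ∫⁻ x in s, ENNReal.ofReal |(f' x).det| * g (f x) ∂μ = ∫⁻ y, M y * g y ∂μ := by
  classical
  obtain ⟨t, h1, h2, h3, h4⟩ := exists_injOn_partition hf' hd
  have hd' : ∀ n, ∀ x ∈ s ∩ t n, HasFDerivWithinAt f (f' x) (s ∩ t n) x :=
    fun n x hx => (hf' x hx.1).mono inter_subset_left
  have hm : ∀ n, MeasurableSet (f '' (s ∩ t n)) := fun n =>
    measurable_image_of_fderivWithin (hs.inter (h2 n)) (hd' n) (h4 n)
  refine ⟨fun y => ∑' n, (f '' (s ∩ t n)).indicator 1 y,
    Measurable.tsum fun n => measurable_one.indicator (hm n), fun y => ?_, fun y hy => ?_,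
    fun y hy => ?_, fun g hg => ?_⟩
  · have : ∑' n, (f '' (s ∩ t n)).indicator (1 : E → ℝ≥0∞) y
        = ({n | y ∈ f '' (s ∩ t n)} : Set ℕ).encard := by
      rw [← ENNReal.tsum_set_one, tsum_subtype {n | y ∈ f '' (s ∩ t n)} (fun _ => (1 : ℝ≥0∞))]
      congr 1
    simp only [this]
    induction ({n | y ∈ f '' (s ∩ t n)} : Set ℕ).encard using ENat.recTopCoe with
    | top => left; simp
    | coe k => right; exact ⟨k, by simp⟩
  · simp only [ENNReal.tsum_eq_zero]
    intro n
    exact indicator_of_notMem (fun h => hy (image_mono inter_subset_left h)) _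
  · obtain ⟨x, hx, rfl⟩ := hy
    obtain ⟨n, hn⟩ := mem_iUnion.1 (h3 hx)
    refine le_trans ?_ (ENNReal.le_tsum n)
    rw [indicator_of_mem (mem_image_of_mem f (show x ∈ s ∩ t n from ⟨hx, hn⟩))]
    simp
  · have hs' : s = ⋃ n, s ∩ t n := by rw [← inter_iUnion, inter_eq_left.2 h3]
    conv_lhs => rw [hs']
    rw [lintegral_iUnion (fun n => hs.inter (h2 n))
      (fun i j hij => (h1 hij).mono inter_subset_right inter_subset_right)]
    simp only [← ENNReal.tsum_mul_right]
    rw [lintegral_tsum (f := fun n y => (f '' (s ∩ t n)).indicator 1 y * g y)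
      fun n => ((measurable_one.indicator (hm n)).mul hg).aemeasurable]
    congr 1
    funext n
    rw [← lintegral_image_eq_lintegral_abs_det_fderiv_mul μ (hs.inter (h2 n)) (hd' n) (h4 n),
      ← lintegral_indicator (hm n)]
    congr 1
    funext y
    by_cases hy : y ∈ f '' (s ∩ t n) <;> simp [hy]

/-- Real-valued unsigned area formula with a natural-number valued multiplicity. -/
theorem exists_mult_nat {s : Set E} (hs : MeasurableSet s) {f : E → E} {f' : E → E →L[ℝ] E}
    (hf' : ∀ x ∈ s, HasFDerivWithinAt f (f' x) s x) (hd : ∀ x ∈ s, (f' x).det ≠ 0)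
    (hint : IntegrableOn (fun x => (f' x).det) s μ) :
    ∃ N : E → ℕ, Measurable N ∧ Integrable (fun y => (N y : ℝ)) μ ∧
      (∀ y, y ∉ f '' s → N y = 0) ∧ (∀ᵐ y ∂μ, y ∈ f '' s → 1 ≤ N y) ∧
      ∀ g : E → ℝ, Measurable g →
        ∫ x in s, |(f' x).det| * g (f x) ∂μ = ∫ y, (N y : ℝ) * g y ∂μ := by
  obtain ⟨M, hM, hMk, hM0, hM1, hMg⟩ := exists_mult μ hs hf' hd
  have hfin : ∫⁻ y, M y ∂μ < ∞ := by
    have := hMg (fun _ => 1) measurable_const
    simp only [mul_one] at this
    rw [← this]
    have h2 := hint.abs.lintegral_lt_top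
    exact h2
  have hae : ∀ᵐ y ∂μ, M y < ∞ := ae_lt_top hM hfin.ne
  have hN : ∀ y, ((⌊(M y).toReal⌋₊ : ℕ) : ℝ) = (M y).toReal := by
    intro y
    rcases hMk y with h | ⟨k, h⟩ <;> simp [h]
  refine ⟨fun y => ⌊(M y).toReal⌋₊, Nat.measurable_floor.comp hM.ennreal_toReal, ?_,
    fun y hy => by simp [hM0 y hy], ?_, fun g hg => ?_⟩
  · simp only [hN]
    exact integrable_toReal_of_lintegral_ne_top hM.aemeasurable hfin.ne
  · filter_upwards [hae] with y hy hys
    rcases hMk y with h | ⟨k, h⟩
    · simp [h] at hy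
    · have := hM1 y hys
      rw [h] at this
      simpa [h] using this
  · simp only [hN]
    have hfm : AEMeasurable f (μ.restrict s) :=
      ContinuousOn.aemeasurable (fun x hx =>
        (hf' x hx).differentiableWithinAt.continuousWithinAt) hs
    have hdm : AEMeasurable (fun x => ENNReal.ofReal |(f' x).det|) (μ.restrict s) :=
      aemeasurable_ofReal_abs_det_fderivWithin μ hs hf'
    have hfm' : AEMeasurable f
        ((μ.restrict s).withDensity fun x => ENNReal.ofReal |(f' x).det|) :=
      hfm.mono_ac (withDensity_absolutelyContinuous _ _)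
    have hmap : Measure.map f ((μ.restrict s).withDensity fun x => ENNReal.ofReal |(f' x).det|)
        = μ.withDensity M := by
      ext B hB
      rw [← lintegral_indicator_one hB, ← lintegral_indicator_one hB,
        lintegral_map' (measurable_one.indicator hB).aemeasurable hfm',
        lintegral_withDensity_eq_lintegral_mul₀ (g := fun a => B.indicator 1 (f a)) hdm
          ((measurable_one.indicator hB).comp_aemeasurable hfm),
        lintegral_withDensity_eq_lintegral_mul _ hM (measurable_one.indicator hB)]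
      exact hMg _ (measurable_one.indicator hB)
    have h1 := integral_withDensity_eq_integral_toReal_smul hM hae g
    rw [← hmap, integral_map hfm' hg.aestronglyMeasurable,
      integral_withDensity_eq_integral_toReal_smul₀ hdm (by simp)] at h1
    simpa using h1

/-- Signed area formula: an integer valued integrable degree function. -/
theorem exists_degree {s : Set E} (hs : MeasurableSet s) {f : E → E} {f' : E → E →L[ℝ] E}
    (hf' : ∀ x ∈ s, HasFDerivWithinAt f (f' x) s x)
    (hdm : Measurable fun x => (f' x).det)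
    (hint : IntegrableOn (fun x => (f' x).det) s μ) :
    ∃ N : E → ℤ, Measurable N ∧ Integrable (fun y => (N y : ℝ)) μ ∧
      (∀ y, y ∉ f '' s → N y = 0) ∧
      (∫ y, |(N y : ℝ)| ∂μ ≤ ∫ x in s, |(f' x).det| ∂μ) ∧
      ∀ g : E → ℝ, Measurable g → (∃ C, ∀ y, |g y| ≤ C) →
        ∫ x in s, (f' x).det * g (f x) ∂μ = ∫ y, (N y : ℝ) * g y ∂μ := by
  set sp := s ∩ {x | 0 < (f' x).det} with hsp
  set sn := s ∩ {x | (f' x).det < 0} with hsn
  have hspm : MeasurableSet sp := hs.inter (measurableSet_lt measurable_const hdm)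
  have hsnm : MeasurableSet sn := hs.inter (measurableSet_lt hdm measurable_const)
  obtain ⟨P, hPm, hPi, hP0, -, hP⟩ := exists_mult_nat μ hspm
    (fun x hx => (hf' x hx.1).mono inter_subset_left) (fun x hx => ne_of_gt hx.2)
    (hint.mono_set inter_subset_left)
  obtain ⟨Q, hQm, hQi, hQ0, -, hQ⟩ := exists_mult_nat μ hsnm
    (fun x hx => (hf' x hx.1).mono inter_subset_left) (fun x hx => ne_of_lt hx.2)
    (hint.mono_set inter_subset_left)
  have hfm : AEMeasurable f (μ.restrict s) :=
    ContinuousOn.aemeasurable (fun x hx =>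
      (hf' x hx).differentiableWithinAt.continuousWithinAt) hs
  have hdisj : Disjoint sp sn := by
    rw [Set.disjoint_left]
    rintro x ⟨-, h1⟩ ⟨-, h2⟩
    exact lt_asymm (show 0 < (f' x).det from h1) h2
  have hsplit : ∀ G : E → ℝ, IntegrableOn G s μ → (∀ x, (f' x).det = 0 → G x = 0) →
      ∫ x in s, G x ∂μ = ∫ x in sp, G x ∂μ + ∫ x in sn, G x ∂μ := by
    intro G hG hG0
    rw [← setIntegral_union hdisj hsnm (hG.mono_set inter_subset_left)
      (hG.mono_set inter_subset_left)]
    refine setIntegral_eq_of_subset_of_forall_sdiff_eq_zero hs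
      (union_subset inter_subset_left inter_subset_left) fun x hx => hG0 x ?_
    by_contra h
    rcases lt_or_gt_of_ne h with h | h
    · exact hx.2 (Or.inr ⟨hx.1, h⟩)
    · exact hx.2 (Or.inl ⟨hx.1, h⟩)
  have hPQ : Integrable (fun y => (P y : ℝ) - Q y) μ := hPi.sub hQi
  refine ⟨fun y => (P y : ℤ) - Q y, ?_, ?_, fun y hy => ?_, ?_, fun g hg hgb => ?_⟩
  · exact (measurable_from_top.comp hPm).sub (measurable_from_top.comp hQm)
  · simpa using hPQ
  · show (P y : ℤ) - Q y = 0
    rw [hP0 y fun h => hy (image_mono inter_subset_left h),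
      hQ0 y fun h => hy (image_mono inter_subset_left h)]
    simp
  · have h1 := hP (fun _ => 1) measurable_const
    have h2 := hQ (fun _ => 1) measurable_const
    simp only [mul_one] at h1 h2
    rw [hsplit _ hint.abs (fun x hx => by simp [hx]), h1, h2, ← integral_add hPi hQi]
    refine integral_mono (by simpa using hPQ.abs) (hPi.add hQi) fun y => ?_
    simp only [Int.cast_sub, Int.cast_natCast]
    exact (abs_sub _ _).trans (by simp)
  · obtain ⟨C, hC⟩ := hgb
    have hGi : IntegrableOn (fun x => (f' x).det * g (f x)) s μ :=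
      hint.mul_bdd (c := C) (hg.comp_aemeasurable hfm).aestronglyMeasurable
        (Filter.Eventually.of_forall fun x => by simpa using hC _)
    rw [hsplit _ hGi (fun x hx => by simp [hx])]
    have e1 : ∫ x in sp, (f' x).det * g (f x) ∂μ = ∫ x in sp, |(f' x).det| * g (f x) ∂μ :=
      setIntegral_congr_fun hspm fun x hx => by simp only [abs_of_pos (show 0 < (f' x).det from hx.2)]
    have e2 : ∫ x in sn, (f' x).det * g (f x) ∂μ = -∫ x in sn, |(f' x).det| * g (f x) ∂μ := by
      rw [← integral_neg]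
      exact setIntegral_congr_fun hsnm fun x hx => by
        simp only [abs_of_neg (show (f' x).det < 0 from hx.2)]; ring
    have hPg : Integrable (fun y => (P y : ℝ) * g y) μ :=
      hPi.mul_bdd (c := C) hg.aestronglyMeasurable
        (Filter.Eventually.of_forall fun x => by simpa using hC _)
    have hQg : Integrable (fun y => (Q y : ℝ) * g y) μ :=
      hQi.mul_bdd (c := C) hg.aestronglyMeasurable
        (Filter.Eventually.of_forall fun x => by simpa using hC _)
    rw [e1, e2, hP g hg, hQ g hg, ← sub_eq_add_neg, ← integral_sub hPg hQg]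
    congr 1
    funext y
    push_cast
    ring

end Crest.Agent.R105.Iso
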