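import Crest.Agent.R105.ET2
import Crest.Agent.R105.IsoAF
import Crest.Agent.R105.IsoAB

/-! Row 105, block END: degrees and real-variable lemmas in the target plane. -/

set_option autoImplicit false

open MeasureTheory Set Filter Topology
open scoped ENNReal

namespace Crest.Agent.R105.End

variable {U : Set ℂ} {Λ : Lumps U} {M : Set (ℂ → ℝ)}

/-- the real-linear map with coordinates `A`, `B` -/
noncomputable def h74_pr (A B : ℂ →L[ℝ] ℝ) : ℂ →L[ℝ] ℂ :=
  Complex.ofRealCLM.comp A + Complex.I • Complex.ofRealCLM.comp B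

theorem h74_pr_apply (A B : ℂ →L[ℝ] ℝ) (v : ℂ) : h74_pr A B v = ⟨A v, B v⟩ := by
  apply Complex.ext <;> simp [h74_pr]

theorem h74_pr_det (A B : ℂ →L[ℝ] ℝ) :
    (h74_pr A B).det = A 1 * B Complex.I - A Complex.I * B 1 := by
  rw [ContinuousLinearMap.det, ← LinearMap.det_toMatrix Complex.basisOneI, Matrix.det_fin_two]
  simp [LinearMap.toMatrix_apply, h74_pr_apply]

theorem h74_pr_deriv {a b : ℂ → ℝ} {z : ℂ} (ha : DifferentiableAt ℝ a z)
    (hb : DifferentiableAt ℝ b z) :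
    HasFDerivAt (fun z => (⟨a z, b z⟩ : ℂ)) (h74_pr (fderiv ℝ a z) (fderiv ℝ b z)) z := by
  have h1 := (Complex.ofRealCLM.hasFDerivAt.comp z ha.hasFDerivAt).add
    ((Complex.ofRealCLM.hasFDerivAt.comp z hb.hasFDerivAt).const_smul Complex.I)
  refine h1.congr_of_eventuallyEq (Eventually.of_forall fun w => ?_)
  apply Complex.ext <;> simp

theorem h74_lin (A : ℂ →L[ℝ] ℝ) (s t : ℝ) : A ⟨s, t⟩ = s * A 1 + t * A Complex.I := by
  rw [show (⟨s, t⟩ : ℂ) = s • (1 : ℂ) + t • Complex.I by apply Complex.ext <;> simp,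
    map_add, map_smul, map_smul, smul_eq_mul, smul_eq_mul]

/-- `Iso.exists_degree` for `z ↦ ⟨a z, b z⟩` on the measurable set of points of `U` where `a`, `b`
are differentiable (full measure, `ae_diff`, `measurableSet_of_differentiableAt`); the determinant
of the derivative is `wd a b` (matrix in `Complex.basisOneI`, `Matrix.det_fin_two`);
`wd_integrableOn`. -/
theorem exists_deg (hU : IsOpen U) {a b : ℂ → ℝ} (ha : XX U a) (hb : XX U b) :
    ∃ n : ℂ → ℤ, Measurable n ∧ Integrable (fun y => (n y : ℝ)) ∧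
      ∀ g : ℂ → ℝ, Measurable g → (∃ C, ∀ y, |g y| ≤ C) →
        ∫ z in U, wd a b z * g ⟨a z, b z⟩ = ∫ y, (n y : ℝ) * g y := by
  set s : Set ℂ := U ∩ ({z | DifferentiableAt ℝ a z} ∩ {z | DifferentiableAt ℝ b z}) with hs
  have hsm : MeasurableSet s := hU.measurableSet.inter
    ((measurableSet_of_differentiableAt ℝ a).inter (measurableSet_of_differentiableAt ℝ b))
  have hae : s =ᵐ[volume] U := by
    filter_upwards [ae_diff hU ha.lip, ae_diff hU hb.lip] with z h1 h2
    exact propext ⟨fun h => h.1, fun h => ⟨h, h1 h, h2 h⟩⟩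
  have e : ∀ z, (h74_pr (fderiv ℝ a z) (fderiv ℝ b z)).det = wd a b z := fun z => h74_pr_det _ _
  obtain ⟨n, h1, h2, -, -, h3⟩ := Iso.exists_degree volume hsm
    (f := fun z => (⟨a z, b z⟩ : ℂ)) (f' := fun z => h74_pr (fderiv ℝ a z) (fderiv ℝ b z))
    (fun z hz => (h74_pr_deriv hz.2.1 hz.2.2).hasFDerivWithinAt)
    (by simp only [e]; exact h99_meas_wd a b)
    (by simp only [e]; exact (wd_integrableOn ha.en hb.en).mono_set inter_subset_left)
  refine ⟨n, h1, h2, fun g hg hC => ?_⟩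
  rw [← h3 g hg hC, ← setIntegral_congr_set hae]
  simp only [e]

/-- chain rule a.e.: `wd (Ψ(a,b)) b = Ψ_x wd a b`, `wd (Ψ(a,b)) a = -Ψ_y wd a b` -/
theorem wd_cp (hU : IsOpen U) {Ψ a b : ℂ → ℝ} (hΨ : ContDiff ℝ 1 Ψ)
    (ha : LocallyLipschitzOn U a) (hb : LocallyLipschitzOn U b) :
    ∀ᵐ z, z ∈ U → wd (cp Ψ a b) b z = wd a b z * fderiv ℝ Ψ ⟨a z, b z⟩ 1 ∧
      wd (cp Ψ a b) a z = -(wd a b z * fderiv ℝ Ψ ⟨a z, b z⟩ Complex.I) := by
  filter_upwards [ae_diff hU ha, ae_diff hU hb] with z h1 h2 hz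
  have h := ((hΨ.differentiable one_ne_zero ⟨a z, b z⟩).hasFDerivAt.comp z
    (h74_pr_deriv (h1 hz) (h2 hz))).fderiv
  have e : ∀ v, fderiv ℝ (cp Ψ a b) z v = fderiv ℝ a z v * fderiv ℝ Ψ ⟨a z, b z⟩ 1 +
      fderiv ℝ b z v * fderiv ℝ Ψ ⟨a z, b z⟩ Complex.I := fun v => by
    change fderiv ℝ (Ψ ∘ fun z => (⟨a z, b z⟩ : ℂ)) z v = _
    rw [h, ContinuousLinearMap.comp_apply, h74_pr_apply, h74_lin]
  simp only [wd, e]
  constructor <;> ring

/-- `wd_cp`, `integral_sub` -/
theorem ell_cp_self (hU : IsOpen U) {Ψ₁ Ψ₂ a b : ℂ → ℝ} (h₁ : LC1 Ψ₁) (h₂ : LC1 Ψ₂)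
    (ha : XX U a) (hb : XX U b) : ell U a b (cp Ψ₁ a b) (cp Ψ₂ a b) =
      ∫ z in U, wd a b z * dv Ψ₁ Ψ₂ ⟨a z, b z⟩ := by
  unfold ell om
  rw [← integral_sub (wd_integrableOn (xx_cp hU h₁ ha hb).en hb.en)
    (wd_integrableOn (xx_cp hU h₂ ha hb).en ha.en)]
  refine setIntegral_congr_ae hU.measurableSet ?_
  filter_upwards [wd_cp hU h₁.sm ha.lip hb.lip, wd_cp hU h₂.sm ha.lip hb.lip] with z e₁ e₂ hz
  rw [(e₁ hz).1, (e₂ hz).2, dv]
  ring

/-- `n` is the degree of the localised pair -/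
structure Deg (U : Set ℂ) (α β χ : ℂ → ℝ) (n : ℂ → ℝ) : Prop where
  meas : Measurable n
  int : Integrable n
  z : ∀ y, ∃ k : ℤ, n y = k
  rep : ∀ Ψ₁ Ψ₂, LC1 Ψ₁ → LC1 Ψ₂ →
    ell U α β (fun z => cp Ψ₁ α β z * χ z) (fun z => cp Ψ₂ α β z * χ z) = ∫ y, n y * dv Ψ₁ Ψ₂ y
  area : ∫ y, n y = om U (fun z => α z * χ z) β

/-- `exists_deg` for `G = (α χ, β χ)`; `ell_cp_self`; `om_mul_swap` moves `χ` from `β χ` to the
test function; `Ψ(G) χ = Ψ(α,β) χ` on deep lumps since `χ` is `0` or `1` there (`A0.eq_val`,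
`om_germ_congr`); same for the area with `g = 1` and `α χ χ`. -/
theorem exists_Deg (hU : IsOpen U) (Λ : Lumps U) {α β χ : ℂ → ℝ} (hα : XX U α) (hβ : XX U β)
    (hχ : A0 U χ) (hv : ∀ q, Λ.val χ q = 0 ∨ Λ.val χ q = 1) : ∃ n, Deg U α β χ n := by
  have ha := hα.mul_A0 hU Λ hχ
  have hb := hβ.mul_A0 hU Λ hχ
  obtain ⟨n, hm, hi, hn⟩ := exists_deg hU ha hb
  obtain ⟨N, hN⟩ := hχ.eq_val Λ
  have h01 : ∀ q, (∀ z ∈ Λ.W N q, χ z = 0) ∨ ∀ z ∈ Λ.W N q, χ z = 1 := fun q =>
    (hv q).imp (fun h z hz => (hN N le_rfl q z hz).trans h)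
      fun h z hz => (hN N le_rfl q z hz).trans h
  refine ⟨fun y => n y, (measurable_of_countable (fun k : ℤ => (k : ℝ))).comp hm, hi,
    fun y => ⟨n y, rfl⟩, fun Ψ₁ Ψ₂ h₁ h₂ => ?_, ?_⟩
  · obtain ⟨hc, hC⟩ := h₁.dv_meas h₂
    rw [← hn _ hc.measurable hC, ← ell_cp_self hU h₁ h₂ ha hb]
    have k₁ := xx_cp hU h₁ ha hb
    have k₂ := xx_cp hU h₂ ha hb
    rw [ell_germ hU Λ hα hβ ((xx_cp hU h₁ hα hβ).mul_A0 hU Λ hχ)
      ((xx_cp hU h₂ hα hβ).mul_A0 hU Λ hχ) (k₁.mul_A0 hU Λ hχ) (k₂.mul_A0 hU Λ hχ)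
      fun q => ⟨N, 0, 0, fun z hz => ?_⟩]
    · unfold ell
      rw [om_mul_swap hU Λ k₁ hβ hχ, om_mul_swap hU Λ k₂ hα hχ]
    · rcases h01 q with h | h
      · simp only [h z hz, mul_zero, add_zero, and_self]
      · simp only [cp, h z hz, mul_one, add_zero, and_self]
  · have h1 := hn (fun _ => 1) measurable_const ⟨1, fun _ => by simp⟩
    simp only [mul_one] at h1
    rw [← h1]
    change om U (fun z => α z * χ z) (fun z => β z * χ z) = _
    rw [← om_mul_swap hU Λ ha hβ hχ]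
    refine om_germ_congr hU Λ (ha.mul_A0 hU Λ hχ) ha hβ hβ fun q =>
      ⟨N, 0, 0, fun z hz => ?_, fun z _ => (add_zero _).symm⟩
    rcases h01 q with h | h
    · simp only [h z hz, mul_zero, add_zero]
    · simp only [h z hz, mul_one, add_zero]

theorem h33_mol_fderiv {O : Set ℂ} {g : ℂ → ℝ} {p : ℂ} {r : ℝ}
    (hsub : Metric.closedBall p (2 * r) ⊆ O)
    (hM : Integrable ((Metric.closedBall p (2 * r)).indicator g))
    (h : ∀ ψ : ℂ → ℝ, ContDiff ℝ 1 ψ → HasCompactSupport ψ → tsupport ψ ⊆ O →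
      ∫ y, g y * fderiv ℝ ψ y 1 = 0 ∧ ∫ y, g y * fderiv ℝ ψ y Complex.I = 0)
    {φ : ℂ → ℝ} (hφ : ContDiff ℝ 1 φ) (hs : tsupport φ ⊆ Metric.closedBall 0 r) {x : ℂ}
    (hx : x ∈ Metric.ball p r) :
    fderiv ℝ (Iso.mol φ ((Metric.closedBall p (2 * r)).indicator g)) x = 0 := by
  have hcs : HasCompactSupport φ :=
    (isCompact_closedBall 0 r).of_isClosed_subset (isClosed_tsupport φ) hs
  have hψ : ContDiff ℝ 1 fun y => φ (x - y) := hφ.comp (contDiff_const.sub contDiff_id)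
  have hts : tsupport (fun y => φ (x - y)) ⊆ Metric.closedBall p (2 * r) := by
    refine closure_minimal (fun y hy => ?_) Metric.isClosed_closedBall
    have h1 := hs (subset_tsupport φ hy)
    rw [mem_closedBall_zero_iff] at h1
    rw [Metric.mem_ball, dist_eq_norm] at hx
    rw [Metric.mem_closedBall, dist_eq_norm]
    have h3 : y - p = (x - p) - (x - y) := by ring
    rw [h3]
    linarith [norm_sub_le (x - p) (x - y)]
  have hψc : HasCompactSupport fun y => φ (x - y) :=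
    (isCompact_closedBall p (2 * r)).of_isClosed_subset (isClosed_tsupport _) hts
  have hd : ∀ y v : ℂ, fderiv ℝ (fun y => φ (x - y)) y v = -fderiv ℝ φ (x - y) v := by
    intro y v
    have h1 : HasFDerivAt φ (fderiv ℝ φ (x - y)) (x - y) :=
      (hφ.differentiable (by simp) _).hasFDerivAt
    have h2 : HasFDerivAt (fun y : ℂ => x - y) (-ContinuousLinearMap.id ℝ ℂ) y :=
      (hasFDerivAt_id y).const_sub x
    have h3 : HasFDerivAt (fun y => φ (x - y))
        ((fderiv ℝ φ (x - y)).comp (-ContinuousLinearMap.id ℝ ℂ)) y := h1.comp y h2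
    rw [h3.fderiv]
    simp
  have key : ∀ v : ℂ, fderiv ℝ (Iso.mol φ ((Metric.closedBall p (2 * r)).indicator g)) x v =
      -∫ y, g y * fderiv ℝ (fun y => φ (x - y)) y v := by
    intro v
    rw [Iso.fderiv_mol hφ hcs hM.locallyIntegrable, ← integral_neg]
    refine integral_congr_ae (Eventually.of_forall fun y => ?_)
    by_cases hy : y ∈ Metric.closedBall p (2 * r)
    · simp only [indicator_of_mem hy, hd]
      ring
    · have h0 : fderiv ℝ (fun y => φ (x - y)) y = 0 :=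
        fderiv_of_notMem_tsupport ℝ fun hh => hy (hts hh)
      simp only [indicator_of_notMem hy, h0]
      simp
  obtain ⟨e1, e2⟩ := h _ hψ hψc (hts.trans hsub)
  have k1 := key 1
  have k2 := key Complex.I
  rw [e1, neg_zero] at k1
  rw [e2, neg_zero] at k2
  ext v
  have hv : v = v.re • (1 : ℂ) + v.im • Complex.I := by
    apply Complex.ext <;> simp
  rw [hv, map_add, map_smul, map_smul, k1, k2]
  simp

theorem h33_loc_const {O : Set ℂ} (hO : IsOpen O) {g : ℂ → ℝ} (hg : LocallyIntegrableOn g O)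
    (h : ∀ ψ : ℂ → ℝ, ContDiff ℝ 1 ψ → HasCompactSupport ψ → tsupport ψ ⊆ O →
      ∫ y, g y * fderiv ℝ ψ y 1 = 0 ∧ ∫ y, g y * fderiv ℝ ψ y Complex.I = 0) {p : ℂ}
    (hp : p ∈ O) : ∃ (c ρ : ℝ), 0 < ρ ∧ ∀ᵐ y : ℂ, y ∈ Metric.ball p ρ → g y = c := by
  obtain ⟨ε, hε, hεO⟩ := Metric.isOpen_iff.1 hO p hp
  obtain ⟨r, hr, hsub⟩ : ∃ r > 0, Metric.closedBall p (2 * r) ⊆ O :=
    ⟨ε / 4, by positivity, (Metric.closedBall_subset_ball (by linarith)).trans hεO⟩
  have hM : Integrable ((Metric.closedBall p (2 * r)).indicator g) :=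
    (integrable_indicator_iff Metric.isClosed_closedBall.measurableSet).2
      (hg.integrableOn_compact_subset hsub (isCompact_closedBall _ _))
  set M := (Metric.closedBall p (2 * r)).indicator g with hMdef
  let b : ℕ → ContDiffBump (0 : ℂ) := fun n =>
    ⟨r * (1 / ((n : ℝ) + 1)) / 2, r * (1 / ((n : ℝ) + 1)), by positivity,
      half_lt_self (by positivity)⟩
  have hlim : Tendsto (fun n => (b n).rOut) atTop (𝓝 0) := by
    have := tendsto_one_div_add_atTop_nhds_zero_nat (𝕜 := ℝ) |>.const_mul r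
    simpa [b] using this
  have hae := ContDiffBump.ae_convolution_tendsto_right_of_locallyIntegrable (μ := volume)
    (φ := b) (l := atTop) (K := 2) hlim
    (Eventually.of_forall fun n => by simp only [b]; linarith) hM.locallyIntegrable
  have heq : ∀ n x, convolution ((b n).normed volume) M (ContinuousLinearMap.lsmul ℝ ℝ) volume x =
      Iso.mol ((b n).normed volume) M x := fun n x => by
    rw [convolution_lsmul_swap]
    simp only [Iso.mol, smul_eq_mul, mul_comm]
  simp only [heq] at hae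
  have hconst : ∀ n, ∀ x ∈ Metric.ball p r, ∀ y ∈ Metric.ball p r,
      Iso.mol ((b n).normed volume) M x = Iso.mol ((b n).normed volume) M y := by
    intro n x hx y hy
    have h1 : ContDiff ℝ 1 ((b n).normed volume) := (b n).contDiff_normed
    have h2 := (b n).hasCompactSupport_normed (μ := volume)
    have h3 := Iso.contDiff_mol h1 h2 hM.locallyIntegrable
    have h4 : tsupport ((b n).normed volume) ⊆ Metric.closedBall 0 r := by
      rw [(b n).tsupport_normed_eq]
      refine Metric.closedBall_subset_closedBall ?_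
      have : 1 / ((n : ℝ) + 1) ≤ 1 := by
        rw [div_le_one (by positivity)]
        linarith [(Nat.cast_nonneg n : (0 : ℝ) ≤ n)]
      simp only [b]
      nlinarith
    refine Metric.isOpen_ball.is_const_of_fderiv_eq_zero (𝕜 := ℝ)
      (convex_ball p r).isPreconnected (h3.differentiable (by simp)).differentiableOn
      (fun z hz => ?_) hx hy
    exact h33_mol_fderiv hsub hM h h1 h4 hz
  obtain ⟨x₀, hx₀, h3⟩ := Measure.exists_mem_of_measure_ne_zero_of_ae
    (Metric.measure_ball_pos volume p hr).ne' (ae_restrict_of_ae hae)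
  refine ⟨M x₀, r, hr, ?_⟩
  filter_upwards [hae] with y hy hyb
  have h4 : M y = M x₀ :=
    tendsto_nhds_unique hy (h3.congr fun n => hconst n x₀ hx₀ y hyb)
  rw [← h4, hMdef, indicator_of_mem]
  exact Metric.ball_subset_closedBall (Metric.ball_subset_ball (by linarith) hyb)

/-- A function with vanishing weak gradient on a connected open set is a.e. constant.  Locally:
for a disc `B(p,3r) ⊆ O` mollify `g 1_{B(p,2r)}` (`Iso.mol`, `fderiv_mol`): the mollification has
zero derivative on `B(p,r)`, hence is constant there, and converges a.e.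
(`ContDiffBump.ae_convolution_tendsto_right_of_locallyIntegrable`); the local constants form a
locally constant function on the preconnected set `O`; Lindelöf (`ae_restrict` from a countable
cover). -/
theorem ae_const_of_grad {O : Set ℂ} (hO : IsOpen O) (hc : IsPreconnected O) {g : ℂ → ℝ}
    (hg : LocallyIntegrableOn g O)
    (h : ∀ ψ : ℂ → ℝ, ContDiff ℝ 1 ψ → HasCompactSupport ψ → tsupport ψ ⊆ O →
      ∫ y, g y * fderiv ℝ ψ y 1 = 0 ∧ ∫ y, g y * fderiv ℝ ψ y Complex.I = 0) :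
    ∃ κ : ℝ, ∀ᵐ y, y ∈ O → g y = κ := by
  have key : ∀ z ∈ O, ∃ (c ρ : ℝ), 0 < ρ ∧ ∀ᵐ y : ℂ, y ∈ Metric.ball z ρ → g y = c :=
    fun z hz => h33_loc_const hO hg h hz
  choose! c ρ hρ hcρ using key
  have hloc : ∀ z ∈ O, ∀ z' ∈ O, z' ∈ Metric.ball z (ρ z) → c z = c z' := by
    intro z hz z' hz' hb
    obtain ⟨x, hx, h1, h2⟩ := Measure.exists_mem_of_measure_ne_zero_of_ae
      ((Metric.isOpen_ball.inter Metric.isOpen_ball).measure_pos volume
        ⟨z', hb, Metric.mem_ball_self (hρ z' hz')⟩).ne'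
      (ae_restrict_of_ae ((hcρ z hz).and (hcρ z' hz')))
    rw [← h1 hx.1, h2 hx.2]
  rcases O.eq_empty_or_nonempty with rfl | ⟨z₀, hz₀⟩
  · simp
  refine ⟨c z₀, ?_⟩
  refine measure_null_of_locally_null _ fun z hz => ?_
  have hz : z ∈ O ∧ g z ≠ c z₀ := by simpa using hz
  have h1 : c z₀ = c z := hc.induction₂' (fun x y => c x = c y) (fun x hx => by
    filter_upwards [self_mem_nhdsWithin,
      mem_nhdsWithin_of_mem_nhds (Metric.ball_mem_nhds x (hρ x hx))] with y hy hy'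
    exact ⟨hloc x hx y hy hy', (hloc x hx y hy hy').symm⟩) (fun _ _ _ _ _ _ => Eq.trans) hz₀ hz.1
  refine ⟨_, inter_mem_nhdsWithin _ (Metric.ball_mem_nhds z (hρ z hz.1)),
    measure_mono_null (fun y hy => ?_) (hcρ z hz.1)⟩
  have h2 : y ∈ O ∧ g y ≠ c z₀ := by simpa using hy.1
  exact fun h3 => h2.2 (h1 ▸ h3 hy.2)

/-- an integrable constant on a set of infinite measure vanishes -/
theorem ae_zero_of_grad {O : Set ℂ} (hO : IsOpen O) (hc : IsPreconnected O)
    (hinf : volume O = ⊤) {g : ℂ → ℝ} (hg : Integrable g)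
    (h : ∀ ψ : ℂ → ℝ, ContDiff ℝ 1 ψ → HasCompactSupport ψ → tsupport ψ ⊆ O →
      ∫ y, g y * fderiv ℝ ψ y 1 = 0 ∧ ∫ y, g y * fderiv ℝ ψ y Complex.I = 0) :
    ∀ᵐ y, y ∈ O → g y = 0 := by
  obtain ⟨κ, hκ⟩ := ae_const_of_grad hO hc (hg.locallyIntegrable.locallyIntegrableOn O) h
  have h1 : IntegrableOn (fun _ => κ) O :=
    (hg.integrableOn (s := O)).congr ((ae_restrict_iff' hO.measurableSet).2 hκ)
  have h2 : κ = 0 := by simpa [hinf] using (integrableOn_const_iff enorm_ne_top).1 h1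
  exact h2 ▸ hκ

/-- the complement of a closed disc is open, preconnected, of infinite measure -/
theorem compl_ball_props (c : ℂ) (r : ℝ) : IsOpen (Metric.closedBall c r)ᶜ ∧
    IsPreconnected (Metric.closedBall c r)ᶜ ∧ volume (Metric.closedBall c r)ᶜ = ⊤ := by
  refine ⟨Metric.isClosed_closedBall.isOpen_compl, ?_, ?_⟩
  · have h1 : (Metric.closedBall c r)ᶜ =
        (fun p : ℝ × ℝ => c + p.1 * Complex.exp (p.2 * Complex.I)) '' ((Ioi r ∩ Ici 0) ×ˢ univ) := by
      ext z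
      simp only [mem_compl_iff, mem_closedBall_iff_norm, not_le]
      refine ⟨fun hz => ⟨(‖z - c‖, (z - c).arg), ⟨⟨hz, norm_nonneg _⟩, trivial⟩, ?_⟩, ?_⟩
      · simp only [Complex.norm_mul_exp_arg_mul_I, add_sub_cancel]
      · rintro ⟨p, ⟨⟨h2, h3⟩, -⟩, rfl⟩
        simpa [abs_of_nonneg (mem_Ici.1 h3)] using h2
    rw [h1]
    exact ((((convex_Ioi r).inter (convex_Ici 0)).isPreconnected).prod isPreconnected_univ).image _
      (Continuous.continuousOn (by fun_prop))
  · rw [measure_compl measurableSet_closedBall measure_closedBall_lt_top.ne,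
      measure_univ_of_isAddLeftInvariant, ENNReal.top_sub measure_closedBall_lt_top.ne]

theorem h97_sgn {δ : ℝ} (hδ : 0 < δ) (t : ℝ) :
    |t / √(t ^ 2 + δ ^ 2)| ≤ 1 ∧ |t| - δ ≤ t * (t / √(t ^ 2 + δ ^ 2)) := by
  have h0 : 0 < √(t ^ 2 + δ ^ 2) := Real.sqrt_pos.2 (by positivity)
  have h1 : |t| ≤ √(t ^ 2 + δ ^ 2) := Real.abs_le_sqrt (by nlinarith)
  have h2 : δ ≤ √(t ^ 2 + δ ^ 2) := Real.le_sqrt_of_sq_le (by nlinarith [sq_nonneg t])
  have h3 : √(t ^ 2 + δ ^ 2) ^ 2 = t ^ 2 + δ ^ 2 := Real.sq_sqrt (by positivity)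
  refine ⟨by rwa [abs_div, abs_of_pos h0, div_le_one h0], ?_⟩
  rw [← mul_div_assoc, le_div_iff₀ h0]
  nlinarith [mul_le_mul_of_nonneg_right h1 h0.le, mul_le_mul_of_nonneg_left h2 hδ.le]

/-- Duality.  Approximate `n` in `L¹` by a continuous compactly supported `g`
(`Integrable.exists_hasCompactSupport_integral_sub_le`), then `sign g` by a smooth compactly
supported `s` (e.g. `s = g₁ / sqrt (g₁² + ε²)` with `g₁` smooth: `exists_contDiff_tsupport..` or
mollification). -/
theorem l1_dual {n : ℂ → ℝ} (hn : Integrable n) {C : ℝ}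
    (h : ∀ s : ℂ → ℝ, ContDiff ℝ 1 s → HasCompactSupport s → (∀ y, |s y| ≤ 1) →
      ∫ y, n y * s y ≤ C) : ∫ y, |n y| ≤ C := by
  refine le_of_forall_pos_le_add fun ε hε => ?_
  obtain ⟨g, hgc, hg, hε'⟩ := (memLp_one_iff_integrable.2 hn).exist_eLpNorm_sub_le
    ENNReal.one_ne_top le_rfl (ε := ε / 3) (by positivity)
  have hgi : Integrable (n - g) := hn.sub (hg.continuous.integrable_of_hasCompactSupport hgc)
  have h1 : ∫ y, ‖(n - g) y‖ ≤ ε / 3 := by
    rwa [eLpNorm_one_eq_lintegral_enorm, ← ofReal_integral_norm_eq_lintegral_enorm hgi,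
      ENNReal.ofReal_le_ofReal_iff (by positivity)] at hε'
  have hm : 0 ≤ volume.real (tsupport g) := measureReal_nonneg
  set δ := ε / 3 / (volume.real (tsupport g) + 1) with hδe
  have hδ : 0 < δ := by positivity
  have hs : ContDiff ℝ 1 fun y => g y / √(g y ^ 2 + δ ^ 2) := by
    have hg1 : ContDiff ℝ 1 g := hg.of_le (by exact_mod_cast le_top)
    exact hg1.div (((hg1.pow 2).add contDiff_const).sqrt fun y => by positivity) fun y => by
      positivity
  have h2 := h _ hs (hgc.comp_left (g := fun t => t / √(t ^ 2 + δ ^ 2)) (zero_div _))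
    fun y => (h97_sgn hδ _).1
  have i1 : Integrable fun y => n y * (g y / √(g y ^ 2 + δ ^ 2)) :=
    hn.mul_bdd hs.continuous.aestronglyMeasurable (Eventually.of_forall fun y => (h97_sgn hδ _).1)
  have i2 : Integrable ((tsupport g).indicator fun _ => δ) :=
    (integrable_indicator_iff (isClosed_tsupport g).measurableSet).2
      (integrableOn_const hgc.isCompact.measure_lt_top.ne)
  have h3 : ∫ y, |n y| ≤ ∫ y, (n y * (g y / √(g y ^ 2 + δ ^ 2)) + 2 * ‖(n - g) y‖ +
      (tsupport g).indicator (fun _ => δ) y) := by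
    refine integral_mono hn.abs ((i1.add (hgi.norm.const_mul 2)).add i2) fun y => ?_
    obtain ⟨h4, h5⟩ := h97_sgn hδ (g y)
    have h6 : |(n y - g y) * (g y / √(g y ^ 2 + δ ^ 2))| ≤ |n y - g y| := by
      rw [abs_mul]
      exact mul_le_of_le_one_right (abs_nonneg _) h4
    have h7 := abs_sub_abs_le_abs_sub (n y) (g y)
    have h8 := neg_abs_le ((n y - g y) * (g y / √(g y ^ 2 + δ ^ 2)))
    simp only [Pi.sub_apply, Real.norm_eq_abs]
    by_cases hy : y ∈ tsupport g
    · rw [indicator_of_mem hy]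
      linarith
    · rw [indicator_of_notMem hy, image_eq_zero_of_notMem_tsupport hy]
      simp only [zero_div, mul_zero, sub_zero]
      linarith [abs_nonneg (n y)]
  have i3 : Integrable fun y => n y * (g y / √(g y ^ 2 + δ ^ 2)) + 2 * ‖(n - g) y‖ :=
    i1.add (hgi.norm.const_mul 2)
  rw [integral_add i3 i2, integral_add i1 (hgi.norm.const_mul 2),
    integral_const_mul, integral_indicator_const _ (isClosed_tsupport g).measurableSet,
    smul_eq_mul] at h3
  have h9 : volume.real (tsupport g) * δ ≤ ε / 3 := by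
    rw [hδe, ← mul_div_assoc, div_le_iff₀ (by positivity)]
    nlinarith
  linarith

theorem h95_dom {E : Type} [NormedAddCommGroup E] {u : ℂ → E} (hu : Continuous u)
    (hc : HasCompactSupport u) : ∃ R C : ℝ, 0 ≤ R ∧ 0 ≤ C ∧ ∀ (y₀ y : ℂ) (t : ℝ),
      ‖y - y₀‖ < 1 →
      ‖u (y - t)‖ ≤ (Icc (y₀.re - R) (y₀.re + R)).indicator (fun _ => C) t := by
  obtain ⟨C, hC⟩ := hu.bounded_above_of_compact_support hc
  obtain ⟨R, hR⟩ := hc.isCompact.isBounded.subset_closedBall (0 : ℂ)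
  refine ⟨|R| + 1, C, by positivity, (norm_nonneg _).trans (hC 0), fun y₀ y t hy => ?_⟩
  by_cases ht : t ∈ Icc (y₀.re - (|R| + 1)) (y₀.re + (|R| + 1))
  · rw [indicator_of_mem ht]; exact hC _
  · rw [indicator_of_notMem ht, image_eq_zero_of_notMem_tsupport (f := u), norm_zero]
    intro hm
    have h1 := abs_le.1 ((Complex.abs_re_le_norm _).trans (mem_closedBall_zero_iff.1 (hR hm)))
    have h2 := abs_lt.1 ((Complex.abs_re_le_norm _).trans_lt hy)
    simp only [Complex.sub_re, Complex.ofReal_re] at h1 h2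
    exact ht ⟨by linarith [le_abs_self R, h1.2, h2.1], by linarith [le_abs_self R, h1.1, h2.2]⟩

theorem h95_int (a b C : ℝ) : Integrable ((Icc a b).indicator fun _ => C) :=
  (integrable_indicator_iff measurableSet_Icc).2 (continuous_const.integrableOn_Icc)

theorem h95_prim {E : Type} [NormedAddCommGroup E] [NormedSpace ℝ E] {u : ℂ → E}
    (hu : Continuous u) (hc : HasCompactSupport u) :
    Continuous (fun y : ℂ => ∫ t in Ioi (0 : ℝ), u (y - t)) ∧
      (∀ y : ℂ, IntegrableOn (fun t : ℝ => u (y - t)) (Ioi 0)) ∧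
      ∃ B : ℝ, ∀ y : ℂ, ‖∫ t in Ioi (0 : ℝ), u (y - t)‖ ≤ B := by
  obtain ⟨R, C, hR, hC, h⟩ := h95_dom hu hc
  have hm : ∀ y : ℂ, AEStronglyMeasurable (fun t : ℝ => u (y - t)) (volume.restrict (Ioi 0)) :=
    fun y => (hu.comp (by fun_prop)).aestronglyMeasurable
  refine ⟨continuous_iff_continuousAt.2 fun y₀ => ?_, fun y => ?_, C * (2 * R), fun y => ?_⟩
  · refine continuousAt_of_dominated (Eventually.of_forall hm) ?_
      (h95_int (y₀.re - R) (y₀.re + R) C).integrableOn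
      (Eventually.of_forall fun t => (hu.comp (by fun_prop)).continuousAt)
    filter_upwards [Metric.ball_mem_nhds y₀ one_pos] with y hy
    exact Eventually.of_forall fun t => h y₀ y t (mem_ball_iff_norm.1 hy)
  · exact (h95_int (y.re - R) (y.re + R) C).integrableOn.mono' (hm y)
      (Eventually.of_forall fun t => h y y t (by simp))
  · refine (norm_integral_le_of_norm_le (h95_int (y.re - R) (y.re + R) C).integrableOn
      (Eventually.of_forall fun t => h y y t (by simp))).trans ?_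
    refine (setIntegral_le_integral (h95_int _ _ _) (Eventually.of_forall fun t =>
      indicator_nonneg (fun _ _ => hC) t)).trans (le_of_eq ?_)
    rw [integral_indicator_const _ measurableSet_Icc, Real.volume_real_Icc_of_le (by linarith),
      smul_eq_mul]
    ring

/-- horizontal primitive `Φ y = ∫ t in Ioi 0, s (y - t)` (`hasFDerivAt_integral_of_dominated..`
or `contDiff` of a convolution-type integral on a bounded interval after localising; the
derivative in direction `1` by FTC) -/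
theorem exists_prim_x {s : ℂ → ℝ} (hs : ContDiff ℝ 1 s) (hc : HasCompactSupport s) :
    ∃ Φ : ℂ → ℝ, LC1 Φ ∧ ∀ y, fderiv ℝ Φ y 1 = s y := by
  have hd := hs.continuous_fderiv one_ne_zero
  have hdf := hs.differentiable one_ne_zero
  obtain ⟨-, i₀, B₀, hB₀⟩ := h95_prim hs.continuous hc
  obtain ⟨c₁, i₁, B₁, hB₁⟩ := h95_prim hd (hc.fderiv ℝ)
  obtain ⟨R, C, -, -, h⟩ := h95_dom hd (hc.fderiv ℝ)
  have hD : ∀ y₀ : ℂ, HasFDerivAt (fun y : ℂ => ∫ t in Ioi (0 : ℝ), s (y - t))
      (∫ t in Ioi (0 : ℝ), fderiv ℝ s (y₀ - t)) y₀ := fun y₀ => by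
    refine hasFDerivAt_integral_of_dominated_of_fderiv_le (F := fun (y : ℂ) (t : ℝ) => s (y - t))
      (F' := fun (y : ℂ) (t : ℝ) => fderiv ℝ s (y - t)) (Metric.ball_mem_nhds y₀ one_pos)
      (Eventually.of_forall fun y => (i₀ y).aestronglyMeasurable) (i₀ y₀)
      (i₁ y₀).aestronglyMeasurable
      (Eventually.of_forall fun t y hy => h y₀ y t (mem_ball_iff_norm.1 hy))
      (h95_int (y₀.re - R) (y₀.re + R) C).integrableOn
      (Eventually.of_forall fun t y _ => ?_)
    have := (hdf (y - t)).hasFDerivAt.comp y ((hasFDerivAt_id y).sub_const (t : ℂ))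
    rw [ContinuousLinearMap.comp_id] at this
    exact this
  have hF : fderiv ℝ (fun y : ℂ => ∫ t in Ioi (0 : ℝ), s (y - t)) =
      fun y₀ => ∫ t in Ioi (0 : ℝ), fderiv ℝ s (y₀ - t) := funext fun y => (hD y).fderiv
  refine ⟨fun y : ℂ => ∫ t in Ioi (0 : ℝ), s (y - t), ⟨?_, ⟨B₀, fun y => hB₀ y⟩,
    ⟨B₁, fun y => by rw [hF]; exact hB₁ y⟩⟩, fun y => ?_⟩
  · exact contDiff_one_iff_fderiv.2 ⟨fun y => (hD y).differentiableAt, by rw [hF]; exact c₁⟩
  · rw [hF]
    simp only
    rw [ContinuousLinearMap.integral_apply (i₁ y)]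
    have hder : ∀ t : ℝ, HasDerivAt (fun t : ℝ => -s (y - t)) (fderiv ℝ s (y - t) 1) t := by
      intro t
      have h1 : HasDerivAt (fun t : ℝ => y - (t : ℂ)) (-1) t :=
        (Complex.ofRealCLM.hasDerivAt (x := t)).const_sub y
      have h2 := ((hdf (y - t)).hasFDerivAt.comp_hasDerivAt t h1).neg
      rw [map_neg, neg_neg] at h2
      exact h2
    have hlim : Tendsto (fun t : ℝ => -s (y - t)) atTop (𝓝 0) := by
      obtain ⟨R', hR'⟩ := hc.isCompact.isBounded.subset_closedBall (0 : ℂ)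
      refine tendsto_const_nhds.congr' ?_
      filter_upwards [eventually_gt_atTop (y.re + R')] with t ht
      rw [image_eq_zero_of_notMem_tsupport (f := s), neg_zero]
      intro hm
      have h1 := abs_le.1 ((Complex.abs_re_le_norm _).trans (mem_closedBall_zero_iff.1 (hR' hm)))
      simp only [Complex.sub_re, Complex.ofReal_re] at h1
      linarith [h1.1]
    rw [integral_Ioi_of_hasDerivAt_of_tendsto' (fun t _ => hder t)
      ((i₁ y).apply_continuousLinearMap 1) hlim]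
    simp

/-- mean value theorem on a horizontal segment -/
theorem lip_x {Φ : ℂ → ℝ} (hΦ : ContDiff ℝ 1 Φ) (h : ∀ y, |fderiv ℝ Φ y 1| ≤ 1) (s s' t : ℝ) :
    |Φ ⟨s, t⟩ - Φ ⟨s', t⟩| ≤ |s - s'| := by
  have h1 : ∀ x : ℝ, HasDerivAt (fun x : ℝ => Φ (x + t * Complex.I))
      (fderiv ℝ Φ (x + t * Complex.I) 1) x := fun x =>
    (hΦ.differentiable one_ne_zero _).hasFDerivAt.comp_hasDerivAt x
      (Complex.ofRealCLM.hasDerivAt.add_const (t * Complex.I))
  simpa only [Complex.mk_eq_add_mul_I, Real.norm_eq_abs, one_mul] using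
    convex_univ.norm_image_sub_le_of_norm_hasDerivWithin_le (C := 1)
      (fun x _ => (h1 x).hasDerivWithinAt) (fun x _ => h _) (mem_univ s') (mem_univ s)

/-- `L¹` limits of integer valued functions (completeness of `Lp ℝ 1`, a.e. convergent
subsequence, `ℤ` is closed in `ℝ`; modify on a null set) -/
theorem l1_lim {n : ℕ → ℂ → ℝ} (hi : ∀ k, Integrable (n k)) (hz : ∀ k y, ∃ j : ℤ, n k y = j)
    (hc : ∀ η > 0, ∃ N, ∀ k ≥ N, ∀ l ≥ N, ∫ y, |n k y - n l y| ≤ η) :
    ∃ m : ℂ → ℝ, Integrable m ∧ (∀ y, ∃ j : ℤ, m y = j) ∧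
      Tendsto (fun k => ∫ y, |n k y - m y|) atTop (𝓝 0) := by
  classical
  have hF : ∀ k, ((hi k).toL1 (n k) : ℂ → ℝ) =ᵐ[volume] n k := fun k => (hi k).coeFn_toL1
  have hcau : CauchySeq fun k => (hi k).toL1 (n k) := by
    rw [Metric.cauchySeq_iff]
    intro ε hε
    obtain ⟨N, hN⟩ := hc (ε / 2) (half_pos hε)
    refine ⟨N, fun k hk l hl => lt_of_le_of_lt (le_trans (le_of_eq ?_) (hN k hk l hl))
      (half_lt_self hε)⟩
    rw [L1.dist_eq_integral_dist]
    refine integral_congr_ae ?_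
    filter_upwards [hF k, hF l] with y h1 h2
    rw [h1, h2, Real.dist_eq]
  obtain ⟨G, hG⟩ := cauchySeq_tendsto_of_complete hcau
  obtain ⟨ns, -, hns⟩ := (tendstoInMeasure_of_tendsto_Lp hG).exists_seq_tendsto_ae
  have hm : (fun y => if ∃ j : ℤ, G y = j then G y else 0) =ᵐ[volume] G := by
    filter_upwards [hns, ae_all_iff.2 hF] with y h1 h2
    have h3 : G y ∈ range ((↑) : ℤ → ℝ) :=
      Int.isClosedEmbedding_coe_real.isClosed_range.mem_of_tendsto h1
        (Eventually.of_forall fun k => by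
          obtain ⟨j, hj⟩ := hz (ns k) y
          exact ⟨j, by rw [h2, hj]⟩)
    obtain ⟨j, hj⟩ := h3
    exact if_pos ⟨j, hj.symm⟩
  refine ⟨_, (L1.integrable_coeFn G).congr hm.symm, fun y => ?_, ?_⟩
  · by_cases h : ∃ j : ℤ, G y = j
    · rwa [if_pos h]
    · exact ⟨0, by rw [if_neg h, Int.cast_zero]⟩
  · refine (tendsto_iff_dist_tendsto_zero.1 hG).congr fun k => ?_
    rw [L1.dist_eq_integral_dist]
    refine integral_congr_ae ?_
    filter_upwards [hF k, hm] with y h1 h2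
    rw [h1, h2, Real.dist_eq]

/-- `m ≤ m²` for integers; equality of the integrals forces `m ∈ {0,1}` a.e.; then
`1_B - m ≥ 0` a.e. has integral `0` (`Complex.volume_closedBall`) -/
theorem ae_eq_indicator {m : ℂ → ℝ} (hi : Integrable m) (hz : ∀ y, ∃ j : ℤ, m y = j)
    (h2 : Integrable fun y => m y ^ 2) {c : ℂ} {ρ : ℝ} (hρ : 0 ≤ ρ)
    (hle : ∫ y, m y ^ 2 ≤ Real.pi * ρ ^ 2) (heq : ∫ y, m y = Real.pi * ρ ^ 2)
    (hs : ∀ᵐ y, y ∉ Metric.closedBall c ρ → m y = 0) :
    m =ᵐ[volume] (Metric.closedBall c ρ).indicator 1 := by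
  have h0 : ∀ y, 0 ≤ m y ^ 2 - m y := fun y => by
    obtain ⟨j, hj⟩ := hz y
    have : j ≤ j ^ 2 := Int.le_self_sq j
    rw [hj, sub_nonneg]
    exact_mod_cast this
  have h1 : (fun y => m y ^ 2 - m y) =ᵐ[volume] 0 := by
    rw [← integral_eq_zero_iff_of_nonneg h0 (h2.sub hi)]
    refine le_antisymm ?_ (integral_nonneg h0)
    rw [integral_sub h2 hi]
    linarith
  have hB : MeasurableSet (Metric.closedBall c ρ) := measurableSet_closedBall
  have hI : Integrable ((Metric.closedBall c ρ).indicator (1 : ℂ → ℝ)) :=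
    (integrable_indicator_iff hB).2 (integrableOn_const measure_closedBall_lt_top.ne)
  have h3 : 0 ≤ᵐ[volume] fun y => (Metric.closedBall c ρ).indicator (1 : ℂ → ℝ) y - m y := by
    filter_upwards [h1, hs] with y e1 e2
    by_cases hy : y ∈ Metric.closedBall c ρ
    · have e3 : m y ^ 2 - m y = 0 := e1
      rw [indicator_of_mem hy, Pi.zero_apply, Pi.one_apply]
      nlinarith [sq_nonneg (m y - 1)]
    · rw [indicator_of_notMem hy, e2 hy, sub_self, Pi.zero_apply]
  have h4 : (fun y => (Metric.closedBall c ρ).indicator (1 : ℂ → ℝ) y - m y) =ᵐ[volume] 0 := by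
    rw [← integral_eq_zero_iff_of_nonneg_ae h3 (hI.sub hi), integral_sub hI hi,
      integral_indicator_one hB, heq, Measure.real, Complex.volume_closedBall, ENNReal.toReal_mul,
      ENNReal.toReal_pow, ENNReal.toReal_ofReal hρ, ENNReal.coe_toReal, NNReal.coe_real_pi]
    ring
  filter_upwards [h4] with y hy
  exact (sub_eq_zero.1 hy).symm

/-- two discs of the same positive radius that agree a.e. have the same centre (otherwise the
open set `ball c ρ \ closedBall c' ρ` is nonempty) -/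
theorem centre_unique {c c' : ℂ} {ρ : ℝ} (hρ : 0 < ρ)
    (h : (Metric.closedBall c ρ).indicator (1 : ℂ → ℝ) =ᵐ[volume]
      (Metric.closedBall c' ρ).indicator 1) : c = c' := by
  have h1 : volume (Metric.ball c ρ \ Metric.closedBall c' ρ) = 0 :=
    measure_eq_zero_iff_ae_notMem.2 <| h.mono fun z e hz => by
      rw [indicator_of_mem (Metric.ball_subset_closedBall hz.1), indicator_of_notMem hz.2] at e
      exact one_ne_zero e
  rw [(Metric.isOpen_ball.sdiff Metric.isClosed_closedBall).measure_eq_zero_iff volume,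
    sdiff_eq_empty] at h1
  have h2 := Metric.isClosed_closedBall.closure_subset_iff.2 h1
  rw [closure_ball c hρ.ne'] at h2
  by_contra hne
  have h3 : 0 < ‖c - c'‖ := norm_pos_iff.2 (sub_ne_zero.2 hne)
  have h4 := @h2 (c + (ρ / ‖c - c'‖) • (c - c')) (by
    rw [mem_closedBall_iff_norm, add_sub_cancel_left, norm_smul, Real.norm_of_nonneg (by positivity),
      div_mul_cancel₀ _ h3.ne'])
  rw [mem_closedBall_iff_norm, show c + (ρ / ‖c - c'‖) • (c - c') - c' =
    (1 + ρ / ‖c - c'‖) • (c - c') by rw [add_smul, one_smul]; ring, norm_smul,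
    Real.norm_of_nonneg (by positivity), add_mul, div_mul_cancel₀ _ h3.ne'] at h4
  linarith

/-- a `C¹` cut-off: `1` on the disc of radius `r`, `0` off the disc of radius `r + η` -/
theorem exists_disc_cut (c : ℂ) {r η : ℝ} (hr : 0 ≤ r) (hη : 0 < η) :
    ∃ θ : ℂ → ℝ, ContDiff ℝ 1 θ ∧ HasCompactSupport θ ∧ (∀ y, 0 ≤ θ y ∧ θ y ≤ 1) ∧
      (∀ y, ‖y - c‖ ≤ r → θ y = 1) ∧ ∀ y, r + η ≤ ‖y - c‖ → θ y = 0 := by
  let f : ContDiffBump c := ⟨r + η / 2, r + η, by positivity, by linarith⟩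
  refine ⟨f, f.contDiff, f.hasCompactSupport, fun y => ⟨f.nonneg, f.le_one⟩,
    fun y hy => f.one_of_mem_closedBall (mem_closedBall_iff_norm.2 ?_),
    fun y hy => f.zero_of_le_dist (by rwa [dist_eq_norm])⟩
  show _ ≤ r + η / 2
  linarith

end Crest.Agent.R105.End
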