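import Crest.Agent.R105.E2An

/-! Row 105, block END: consequences of the Euler-Lagrange bound on `T`. -/

set_option autoImplicit false

open MeasureTheory Set Filter Topology
open scoped ENNReal

namespace Crest.Agent.R105.End

variable {U : Set ℂ} {Λ : Lumps U} {M : Set (ℂ → ℝ)} {α β : ℂ → ℝ} {ρ : Λ.E → ℝ}

/-- Test the bound with `(H(r) χ, 0)` and `(0, H(r) χ)` (`rt_gen`, `rt_A0` for `0`,
`inBall_osc`); `om (β χ) (H r) = om β (H(r) χ) = - om (H(r) χ) β`. -/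
theorem elb_adm (hc : Ctx Λ M) (h : ELB Λ M α β ρ) :
    Adm Λ M ∅ α (fun q => 2 * Real.pi * ρ q) ∧ Adm Λ M ∅ β (fun q => 2 * Real.pi * ρ q) := by
  have hU := hc.op
  have hl : L2w (fun q => 2 * Real.pi * ρ q) := (h.l2.smul (by positivity)).1
  have h0 := rt_A0 hc (A0.const (U := U) 0)
  have hz : ∀ c : ℂ → ℝ, om U (fun _ => 0) c = 0 := fun c => by simp [om, wd]
  have key : ∀ γ : ℂ → ℝ, XX U γ → (∀ (φ : ℂ → ℝ) (w : Λ.E → ℝ), RT Λ M φ → L2w w →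
      (∀ q, Λ.osc φ q ≤ w q) → |om U φ γ| ≤ 2 * Real.pi * ∑' q, ρ q * w q) →
      Adm Λ M ∅ γ (fun q => 2 * Real.pi * ρ q) := by
    intro γ hγ hb
    refine ⟨hl, fun r hr H hH χ hχ _ => ?_⟩
    have hreg := hc.fam.reg r hr
    obtain ⟨g1, g2⟩ := rt_gen hc hr hH hχ
    rw [om_mul_swap hU Λ hγ (XX.comp_C1 hU hH hreg.xx hreg.bdd) hχ, om_skew, abs_neg]
    refine (hb _ _ g1 (wt_l2 Λ hreg hH hχ) g2).trans (le_of_eq ?_)
    rw [← tsum_mul_left]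
    exact tsum_congr fun q => by ring
  refine ⟨key α h.xa fun φ w hφ hw ho => ?_, key β h.xb fun φ w hφ hw ho => ?_⟩
  · have := h.le (fun _ => 0) φ _ w h0.1 hφ hw fun q =>
      inBall_mono (inBall_osc h0.1.reg.bdd hφ.reg.bdd q) (by rw [h0.2 q, zero_add]; exact ho q)
    rwa [ell, hz, zero_sub, abs_neg] at this
  · have := h.le φ (fun _ => 0) _ w hφ h0.1 hw fun q =>
      inBall_mono (inBall_osc hφ.reg.bdd h0.1.reg.bdd q) (by rw [h0.2 q, add_zero]; exact ho q)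
    rwa [ell, hz, sub_zero] at this

/-- `exists_appr`, the bound for the approximants, `ell_tendsto`, `tsum_tendsto` with `g = 1` -/
theorem elb_tail (hc : Ctx Λ M) (h : ELB Λ M α β ρ) {φ₁ φ₂ : ℂ → ℝ} {n₁ n₂ : Λ.E → ℝ}
    (h₁ : XX U φ₁) (h₂ : XX U φ₂) (a₁ : Adm Λ M ∅ φ₁ n₁) (a₂ : Adm Λ M ∅ φ₂ n₂) :
    |ell U α β φ₁ φ₂| ≤ 2 * Real.pi * ∑' q, ρ q * (n₁ q + n₂ q) := by
  obtain ⟨u₁, u₂, c, r, ha⟩ := exists_appr hc h₁ h₂ a₁ a₂
  have t1 := (ell_tendsto hc.op h.xa h.xb h₁ h₂ (fun k => (ha.rt₁ k).reg.xx)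
    (fun k => (ha.rt₂ k).reg.xx) ha.en₁ ha.en₂).abs
  have t2 := (tsum_tendsto (g := fun _ => 1) (C := 1) h.l2 (a₁.l2.add a₂.l2).1 ha.l2
    (fun _ => by simp) ha.lim).1.const_mul (2 * Real.pi)
  simp only [one_mul] at t2
  exact le_of_tendsto_of_tendsto' t1 t2 fun k =>
    h.le _ _ _ _ (ha.rt₁ k) (ha.rt₂ k) (ha.l2 k) (ha.ball k)

open Classical in
/-- Bound for a pair with values in a disc: let `θ` be `exists_disc_cut 0` for `R`, `η`, and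
`P = (θ re, θ im)` (`LC1.of_cpt`, derivative bound `L`).  `exists_appr` gives `u k`; `P(u k)` is
regular (`rt_cp`), lies in the disc of centre `0` and radius `R + η` at `q`, and in a disc of
radius `2 L r k q'` at the other ends (`inBall_cp`); `ell_cp_tendsto` with `χ = 1` and
`P(φ) = φ` on `U` (`om_congr`); `tsum_tendsto` with `g q' = if q' = q then 0 else 2 L`.
The constant `L` depends only on `R` and `η`. -/
theorem elb_disc (hc : Ctx Λ M) (h : ELB Λ M α β ρ) {R η : ℝ} (hR : 0 ≤ R) (hη : 0 < η) :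
    ∃ L : ℝ, 0 ≤ L ∧ ∀ (q : Λ.E) (φ₁ φ₂ : ℂ → ℝ) (n₁ n₂ : Λ.E → ℝ), XX U φ₁ → XX U φ₂ →
      Adm Λ M ∅ φ₁ n₁ → Adm Λ M ∅ φ₂ n₂ → (∀ z ∈ U, ‖(⟨φ₁ z, φ₂ z⟩ : ℂ)‖ ≤ R) →
      |ell U α β φ₁ φ₂| ≤ 2 * Real.pi * (ρ q * (R + η) +
        L * ∑' q', if q' = q then 0 else ρ q' * (n₁ q' + n₂ q')) := by
  obtain ⟨θ, hθ, hθc, hθ01, hθ1, hθ0⟩ := exists_disc_cut 0 hR hη
  simp only [sub_zero] at hθ1 hθ0
  have P₁ : LC1 fun y : ℂ => θ y * y.re :=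
    LC1.of_cpt (hθ.mul Complex.reCLM.contDiff) hθc.mul_right
  have P₂ : LC1 fun y : ℂ => θ y * y.im :=
    LC1.of_cpt (hθ.mul Complex.imCLM.contDiff) hθc.mul_right
  obtain ⟨L₁, hL₁⟩ := P₁.lip
  obtain ⟨L₂, hL₂⟩ := P₂.lip
  have hL : 0 ≤ 2 * max L₁ L₂ :=
    mul_nonneg zero_le_two (le_max_of_le_left ((norm_nonneg _).trans (hL₁ 0)))
  have hn : ∀ y : ℂ, ‖(⟨θ y * y.re, θ y * y.im⟩ : ℂ)‖ ≤ R + η := fun y => by
    have e : (⟨θ y * y.re, θ y * y.im⟩ : ℂ) = (θ y : ℂ) * y := by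
      apply Complex.ext <;> simp
    rw [e, norm_mul, Complex.norm_real, Real.norm_of_nonneg (hθ01 y).1]
    rcases le_total (R + η) ‖y‖ with hy | hy
    · rw [hθ0 y hy, zero_mul]
      positivity
    · exact (mul_le_of_le_one_left (norm_nonneg _) (hθ01 y).2).trans hy
  refine ⟨2 * max L₁ L₂, hL, fun q φ₁ φ₂ n₁ n₂ x₁ x₂ a₁ a₂ hφ => ?_⟩
  obtain ⟨u₁, u₂, c, r, A⟩ := exists_appr hc x₁ x₂ a₁ a₂
  have hg : ∀ q', |if q' = q then 0 else 2 * max L₁ L₂| ≤ 2 * max L₁ L₂ := fun q' => by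
    split_ifs
    · rwa [abs_zero]
    · exact (abs_of_nonneg hL).le
  have t1 := (tsum_tendsto h.l2 (a₁.l2.add a₂.l2).1 A.l2 hg A.lim).1
  have t2 := ell_cp_tendsto hc.op Λ h.xa h.xb P₁ P₂ (A0.const 1) x₁ x₂ (fun k => (A.rt₁ k).reg.xx)
    (fun k => (A.rt₂ k).reg.xx) A.ae₁ A.ae₂ A.en₁ A.en₂
  simp only [mul_one] at t2
  have e1 : ell U α β (fun z => cp (fun y : ℂ => θ y * y.re) φ₁ φ₂ z)
      (fun z => cp (fun y : ℂ => θ y * y.im) φ₁ φ₂ z) = ell U α β φ₁ φ₂ := by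
    unfold ell
    rw [om_congr hc.op (u' := φ₁) (c' := β) (fun z hz => by simp [cp, hθ1 _ (hφ z hz)])
        (fun _ _ => rfl),
      om_congr hc.op (u := fun z => cp (fun y : ℂ => θ y * y.im) φ₁ φ₂ z) (u' := φ₂) (c' := α)
        (fun z hz => by simp [cp, hθ1 _ (hφ z hz)]) (fun _ _ => rfl)]
  have e2 : ∑' q', ρ q' * ((if q' = q then 0 else 2 * max L₁ L₂) * (n₁ q' + n₂ q')) =
      2 * max L₁ L₂ * ∑' q', if q' = q then 0 else ρ q' * (n₁ q' + n₂ q') := by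
    rw [← tsum_mul_left]
    refine tsum_congr fun q' => ?_
    split_ifs <;> ring
  rw [e1] at t2
  rw [← e2]
  refine le_of_tendsto_of_tendsto' t2.abs ((t1.const_add (ρ q * (R + η))).const_mul (2 * Real.pi))
    fun k => ?_
  have w1 : L2w fun q' => if q' = q then R + η else 0 :=
    ⟨fun q' => by beta_reduce; split_ifs <;> positivity,
      (hasSum_single q fun q' hq' => by simp [hq']).summable⟩
  have w2 : L2w fun q' => (if q' = q then 0 else 2 * max L₁ L₂) * r k q' :=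
    (((A.l2 k).smul hL).1.of_le
      (fun q' => mul_nonneg (by split_ifs; exacts [le_rfl, hL]) ((A.l2 k).1 q')) fun q' =>
      mul_le_mul_of_nonneg_right ((le_abs_self _).trans (hg q')) ((A.l2 k).1 q')).1
  refine (h.le _ _ (fun q' => if q' = q then 0 else
      ⟨θ (c k q') * (c k q').re, θ (c k q') * (c k q').im⟩) _ (rt_cp hc P₁ (A.rt₁ k) (A.rt₂ k))
    (rt_cp hc P₂ (A.rt₁ k) (A.rt₂ k)) (w1.add w2).1 fun q' => ?_).trans_eq ?_
  · by_cases hq : q' = q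
    · simp only [if_pos hq, zero_mul, add_zero]
      exact fun ε hε => ⟨0, fun z _ => by
        rw [sub_zero]
        exact (hn _).trans (le_add_of_nonneg_right hε.le)⟩
    · simp only [if_neg hq, zero_add]
      exact inBall_cp (A.ball k q') P₁.sm P₂.sm (fun y => (hL₁ y).trans (le_max_left _ _))
        fun y => (hL₂ y).trans (le_max_right _ _)
  · simp only [mul_add (ρ _)]
    rw [(h.l2.summable_mul w1).1.tsum_add (h.l2.summable_mul w2).1,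
      tsum_eq_single q fun q' hq' => by simp [hq'], if_pos rfl, mul_add (ρ q)]

theorem elb_node (hc : Ctx Λ M) (h : ELB Λ M α β ρ) {φ₁ φ₂ : ℂ → ℝ} {n₁ n₂ : Λ.E → ℝ}
    (h₁ : XX U φ₁) (h₂ : XX U φ₂) (a₁ : Adm Λ M ∅ φ₁ n₁) (a₂ : Adm Λ M ∅ φ₂ n₂) {q : Λ.E}
    {m : ℂ} {R : ℝ} (hb : InBall Λ φ₁ φ₂ q m R) {η : ℝ} (hη : 0 < η) :
    ∃ N, ∀ n ≥ N, ∀ χ, Ind Λ n q χ →
      |ell U α β (fun z => φ₁ z * χ z) (fun z => φ₂ z * χ z)| ≤ 2 * Real.pi * ρ q * R + η := by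
  classical
  have hU := hc.op
  have hπ := Real.pi_pos
  have hρ := h.l2.1 q
  have hR := inBall_nonneg hb
  obtain ⟨η', hη', e1⟩ : ∃ η' : ℝ, 0 < η' ∧ 8 * Real.pi * (ρ q + 1) * η' = η :=
    ⟨η / (8 * Real.pi * (ρ q + 1)), by positivity, by field_simp⟩
  obtain ⟨L, hL, hdisc⟩ := elb_disc hc h (R := R + η') (η := η') (by positivity) hη'
  obtain ⟨τ, hτ, e2⟩ : ∃ τ : ℝ, 0 < τ ∧ 4 * Real.pi * (L + 1) * τ = η :=
    ⟨η / (4 * Real.pi * (L + 1)), by positivity, by field_simp⟩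
  have hn := (a₁.l2.add a₂.l2).1
  obtain ⟨N₁, hN₁⟩ := tail_lump (f := fun q => ρ q * (n₁ q + n₂ q))
    (fun q => mul_nonneg (h.l2.1 q) (hn.1 q)) (h.l2.summable_mul hn).1 q hτ
  obtain ⟨N₂, hN₂⟩ := hb η' hη'
  refine ⟨max N₁ N₂, fun n hn' χ hχ => ?_⟩
  obtain ⟨χ', hI, -, h01, hoff, -⟩ := exists_Ind hU Λ n q
  have hA := hI.1
  rw [ell_val hU Λ h.xa h.xb h₁ h₂ hχ.1 hA (fun q' => by rw [hχ.2, hI.2])]
  have hA1 : A0 U (fun z => -m.re * χ' z) := (A0.mul hU Λ (A0.const _) hA).1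
  have hA2 : A0 U (fun z => -m.im * χ' z) := (A0.mul hU Λ (A0.const _) hA).1
  have x1 := h₁.mul_A0 hU Λ hA
  have x2 := h₂.mul_A0 hU Λ hA
  have y1 := x1.add hU hA1.xx
  have y2 := x2.add hU hA2.xx
  obtain ⟨N₃, hN₃⟩ := hA.eq_val Λ
  rw [ell_germ hU Λ h.xa h.xb x1 x2 y1 y2 (fun q' => ⟨N₃, m.re * Λ.val χ' q', m.im * Λ.val χ' q',
    fun z hz => by rw [← hN₃ N₃ le_rfl q' z hz]; constructor <;> ring⟩)]
  have b1 := adm_add hc x1 hA1.xx (adm_mul_A0 hc hA a₁) (adm_A0 hc hA1)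
  have b2 := adm_add hc x2 hA2.xx (adm_mul_A0 hc hA a₂) (adm_A0 hc hA2)
  have key := hdisc q _ _ _ _ y1 y2 b1 b2 (fun z _ => by
    by_cases hz : z ∈ Λ.W n q
    · have c1 := hN₂ z (Λ.W_mono ((le_max_right _ _).trans hn') q hz)
      have c2 : (⟨φ₁ z * χ' z + -m.re * χ' z, φ₂ z * χ' z + -m.im * χ' z⟩ : ℂ) =
          (χ' z : ℂ) * ((⟨φ₁ z, φ₂ z⟩ : ℂ) - m) := by
        apply Complex.ext <;> simp <;> ring
      rw [c2, norm_mul, Complex.norm_real, Real.norm_eq_abs, abs_of_nonneg (h01 z).1]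
      exact (mul_le_of_le_one_left (norm_nonneg _) (h01 z).2).trans c1
    · have c2 : (⟨φ₁ z * χ' z + -m.re * χ' z, φ₂ z * χ' z + -m.im * χ' z⟩ : ℂ) = 0 := by
        apply Complex.ext <;> simp [hoff z hz]
      rw [c2, norm_zero]
      positivity)
  have e3 : (∑' q', if q' = q then 0 else
      ρ q' * ((|Λ.val χ' q'| * n₁ q' + 0) + (|Λ.val χ' q'| * n₂ q' + 0))) =
      ∑' q', (if Λ.W n q' = Λ.W n q ∧ q' ≠ q then ρ q' * (n₁ q' + n₂ q') else 0) := by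
    refine tsum_congr fun q' => ?_
    rw [hI.2]
    by_cases c1 : q' = q
    · simp [c1]
    · by_cases c2 : Λ.W n q' = Λ.W n q <;> simp [c1, c2]
  have e4 := hN₁ n ((le_max_left _ _).trans hn')
  have e5 : (∑' q', if q' = q then 0 else
      ρ q' * ((|Λ.val χ' q'| * n₁ q' + 0) + (|Λ.val χ' q'| * n₂ q' + 0))) ≤ τ := by
    rw [e3]; convert e4
  refine key.trans ?_
  have e6 : L * (∑' q', if q' = q then 0 else
      ρ q' * ((|Λ.val χ' q'| * n₁ q' + 0) + (|Λ.val χ' q'| * n₂ q' + 0))) ≤ L * τ :=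
    mul_le_mul_of_nonneg_left e5 hL
  have e7 : 2 * Real.pi * (ρ q * (R + η' + η') + L * τ) ≤ 2 * Real.pi * ρ q * R + η := by
    have p1 : 0 < Real.pi * η' := by positivity
    have p2 : 0 < Real.pi * τ := by positivity
    nlinarith
  refine le_trans (mul_le_mul_of_nonneg_left (add_le_add le_rfl ?_) (by positivity)) e7
  convert e6

open Classical in
/-- `elb_tail` for `φ (1 - Σ χ_q)`; for `n ≥ N` (`sep_lumps`) the value of `1 - Σ χ_q` is `0` at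
the points of `Q` and lies in `{0,1}` everywhere; `ell_sub`, `ell_sum` -/
theorem elb_loc (hc : Ctx Λ M) (h : ELB Λ M α β ρ) {φ₁ φ₂ : ℂ → ℝ} {n₁ n₂ : Λ.E → ℝ}
    (h₁ : XX U φ₁) (h₂ : XX U φ₂) (a₁ : Adm Λ M ∅ φ₁ n₁) (a₂ : Adm Λ M ∅ φ₂ n₂)
    (Q : Finset Λ.E) : ∃ N, ∀ n ≥ N, ∀ χ : Λ.E → ℂ → ℝ, (∀ q ∈ Q, Ind Λ n q (χ q)) →
      |ell U α β φ₁ φ₂ -
        ∑ q ∈ Q, ell U α β (fun z => φ₁ z * χ q z) (fun z => φ₂ z * χ q z)| ≤
      2 * Real.pi * ∑' q, if q ∈ Q then 0 else ρ q * (n₁ q + n₂ q) := by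
  obtain ⟨N, hN⟩ := sep_lumps Λ Q
  refine ⟨N, fun n hn χ hχ => ?_⟩
  obtain ⟨s1, s2⟩ := A0.sum hc.op Λ Q (fun _ => (1 : ℝ)) (χ := χ) fun q hq => (hχ q hq).1
  obtain ⟨t1, t2⟩ := A0.sub hc.op Λ (A0.const (U := U) 1) s1
  have v1 : ∀ q, Λ.val (fun _ => (1 : ℝ)) q = 1 := fun q =>
    (val_eq Λ (A0.bdd Λ (A0.const 1)) (n := 0) fun _ _ => rfl).1
  set ψ : ℂ → ℝ := fun z => 1 - ∑ i ∈ Q, 1 * χ i z with hψ
  have hv : ∀ p, Λ.val ψ p = 1 - ∑ i ∈ Q, if Λ.W n p = Λ.W n i then (1 : ℝ) else 0 := fun p => by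
    rw [t2, v1, s2]
    congr 1
    exact Finset.sum_congr rfl fun i hi => by rw [(hχ i hi).2, one_mul]
  have hv0 : ∀ p, ∀ q ∈ Q, Λ.W n p = Λ.W n q → Λ.val ψ p = 0 := fun p q hq hpq => by
    rw [hv, Finset.sum_eq_single_of_mem q hq, if_pos hpq, sub_self]
    intro i hi hiq
    exact if_neg fun h' => hN n hn i hi q hq hiq (h'.symm.trans hpq)
  have hv1 : ∀ p, |Λ.val ψ p| ≤ if p ∈ Q then 0 else 1 := fun p => by
    split_ifs with hp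
    · rw [hv0 p p hp rfl, abs_zero]
    · by_cases hex : ∃ q ∈ Q, Λ.W n p = Λ.W n q
      · obtain ⟨q, hq, hpq⟩ := hex
        rw [hv0 p q hq hpq, abs_zero]
        exact zero_le_one
      · rw [hv, Finset.sum_eq_zero fun i hi => if_neg fun h' => hex ⟨i, hi, h'⟩]
        simp
  have b₁ := adm_mul_A0 hc t1 a₁
  have b₂ := adm_mul_A0 hc t1 a₂
  have key := elb_tail hc h (h₁.mul_A0 hc.op Λ t1) (h₂.mul_A0 hc.op Λ t1) b₁ b₂
  have x₁ : ∀ q ∈ Q, XX U fun z => φ₁ z * χ q z := fun q hq => h₁.mul_A0 hc.op Λ (hχ q hq).1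
  have x₂ : ∀ q ∈ Q, XX U fun z => φ₂ z * χ q z := fun q hq => h₂.mul_A0 hc.op Λ (hχ q hq).1
  have e : ∀ φ : ℂ → ℝ, (fun z => φ z * ψ z) = fun z => φ z - ∑ q ∈ Q, φ z * χ q z := fun φ => by
    funext z
    simp only [hψ, one_mul, mul_sub, mul_one, Finset.mul_sum]
  rw [e φ₁, e φ₂, ell_sub hc.op h.xa h.xb h₁ h₂ (XX.sum hc.op Q x₁) (XX.sum hc.op Q x₂),
    ell_sum hc.op Q h.xa h.xb x₁ x₂] at key
  refine key.trans (mul_le_mul_of_nonneg_left ?_ (by positivity))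
  have hf : Summable fun q => ρ q * (n₁ q + n₂ q) := (h.l2.summable_mul (a₁.l2.add a₂.l2).1).1
  have hp : ∀ q, 0 ≤ ρ q * (n₁ q + n₂ q) := fun q =>
    mul_nonneg (h.l2.1 q) (add_nonneg (a₁.l2.1 q) (a₂.l2.1 q))
  refine Summable.tsum_le_tsum (fun q => ?_) (h.l2.summable_mul (b₁.l2.add b₂.l2).1).1
    (Summable.of_nonneg_of_le (fun q => by split_ifs; exacts [le_rfl, hp q])
      (fun q => by split_ifs; exacts [hp q, le_rfl]) hf)
  have h1 := mul_le_mul_of_nonneg_right (hv1 q) (hp q)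
  calc ρ q * (|Λ.val ψ q| * n₁ q + |Λ.val ψ q| * n₂ q)
      = |Λ.val ψ q| * (ρ q * (n₁ q + n₂ q)) := by ring
    _ ≤ _ := h1
    _ = _ := by split_ifs <;> simp


/-- Summation over the ends: `elb_loc` for a finite set `Q` carrying all but `η` of the three
series `ρ (n₁ + n₂)`, `|σ|`, `ε`; cut-offs from `exists_Ind` at a level beyond the finitely many
`N`; errors `η / (card Q + 1)`. -/
theorem elb_sum (hc : Ctx Λ M) (h : ELB Λ M α β ρ) {φ₁ φ₂ : ℂ → ℝ} {n₁ n₂ : Λ.E → ℝ}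
    (h₁ : XX U φ₁) (h₂ : XX U φ₂) (a₁ : Adm Λ M ∅ φ₁ n₁) (a₂ : Adm Λ M ∅ φ₂ n₂)
    {σ ε : Λ.E → ℝ} (hσ : Summable σ) (hε : Summable ε) (hε0 : ∀ q, 0 ≤ ε q)
    (hq : ∀ q, ∀ η > 0, ∃ N, ∀ n ≥ N, ∀ χ, Ind Λ n q χ →
      |ell U α β (fun z => φ₁ z * χ z) (fun z => φ₂ z * χ z) - σ q| ≤ ε q + η) :
    |ell U α β φ₁ φ₂ - ∑' q, σ q| ≤ ∑' q, ε q := by
  classical
  have hf : Summable fun q => ρ q * (n₁ q + n₂ q) := (h.l2.summable_mul (a₁.l2.add a₂.l2).1).1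
  have hT : ∀ Q : Finset Λ.E, (∑' q, if q ∈ Q then 0 else ρ q * (n₁ q + n₂ q)) =
      ∑' q, ρ q * (n₁ q + n₂ q) - ∑ q ∈ Q, ρ q * (n₁ q + n₂ q) := fun Q => by
    have h1 : HasSum (fun q => if q ∈ Q then ρ q * (n₁ q + n₂ q) else 0)
        (∑ q ∈ Q, ρ q * (n₁ q + n₂ q)) := by
      have := hasSum_sum_of_ne_finset_zero (L := SummationFilter.unconditional Λ.E) (s := Q)
        (f := fun q => if q ∈ Q then ρ q * (n₁ q + n₂ q) else 0) fun q hq => if_neg hq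
      rwa [Finset.sum_congr rfl fun q hq => if_pos hq] at this
    rw [← (hf.hasSum.sub h1).tsum_eq]
    exact tsum_congr fun q => by split_ifs <;> simp
  have key : ∀ Q : Finset Λ.E, |ell U α β φ₁ φ₂ - ∑ q ∈ Q, σ q| ≤ 2 * Real.pi *
      (∑' q, ρ q * (n₁ q + n₂ q) - ∑ q ∈ Q, ρ q * (n₁ q + n₂ q)) + ∑' q, ε q := fun Q => by
    refine le_of_forall_pos_le_add fun η hη => ?_
    obtain ⟨N, hN⟩ := elb_loc hc h h₁ h₂ a₁ a₂ Q
    choose N' hN' using fun q => hq q (η / (Q.card + 1)) (by positivity)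
    choose χ hχ _ using fun q => exists_Ind hc.op Λ (max N (Q.sup N')) q
    have h1 := hN _ (le_max_left _ _) χ fun q _ => hχ q
    have h2 := (Finset.abs_sum_le_sum_abs _ _).trans (Finset.sum_le_sum fun q (hq : q ∈ Q) =>
      hN' q _ ((Finset.le_sup hq).trans (le_max_right N _)) _ (hχ q))
    rw [Finset.sum_sub_distrib, Finset.sum_add_distrib, Finset.sum_const, nsmul_eq_mul] at h2
    have h3 := hε.sum_le_tsum Q fun q _ => hε0 q
    have h4 : Q.card * (η / (Q.card + 1)) ≤ η := by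
      rw [← mul_div_assoc, div_le_iff₀ (by positivity)]
      linarith
    rw [← hT]
    refine (abs_sub_le _ _ _).trans ((add_le_add h1 h2).trans ?_)
    linarith
  have h5 := ((tendsto_const_nhds (x := ∑' q, ρ q * (n₁ q + n₂ q))).sub hf.hasSum).const_mul
    (2 * Real.pi) |>.add_const (∑' q, ε q)
  rw [sub_self, mul_zero, zero_add] at h5
  exact le_of_tendsto_of_tendsto' (tendsto_const_nhds.sub hσ.hasSum).abs h5 key

end Crest.Agent.R105.End
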