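import Crest.Agent.R105.E2Nd

/-! Row 105, block END, stage 2. -/

set_option autoImplicit false

open MeasureTheory Set Filter Topology
open scoped ENNReal

namespace Crest.Agent.R105.End

variable {U : Set ℂ} {Λ : Lumps U} {M : Set (ℂ → ℝ)}

theorem h92_node_sum {α β : ℂ → ℝ} {ρ : Λ.E → ℝ} (h : ELB Λ M α β ρ) {m : Λ.E → ℂ → ℝ}
    (hm : Node Λ α β ρ m) : Summable fun q => ∫ y, m q y :=
  Summable.of_norm_bounded (h.l2.2.mul_left (4 * Real.pi ^ 2)) fun q =>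
    (norm_integral_le_integral_norm _).trans (hm.l1 q)

/-- `exists_node`, `node_iso` and `gap` give `∫ ‖h₁' - h₂'‖² ≤ 0`, so the continuous function
`h₁' - h₂'` vanishes on `U` and `h₁ - h₂` is constant on the preconnected open set `U`
(`IsOpen.is_const_of_deriv_eq_zero` / `DifferentiableOn`); the same inequality gives the area. -/
theorem eld_gap (hc : Ctx Λ M) {h₁ h₂ : ℂ → ℂ} {ξ : ℂ → ℝ} {ρ : Λ.E → ℝ}
    (hd : ELD Λ M h₁ h₂ ξ ρ) : (∃ κ : ℂ, ∀ z ∈ U, h₁ z = h₂ z + κ) ∧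
      om U (reC ξ h₂) (imC ξ h₁) = -(Real.pi * ∑' q, ρ q ^ 2) := by
  obtain ⟨m, hm⟩ := exists_node hc hd.elb
  have h1 : ∑' q, ∫ y, m q y ≤ Real.pi * ∑' q, ρ q ^ 2 := by
    rw [← tsum_mul_left]
    exact (h92_node_sum hd.elb hm).tsum_le_tsum
      (fun q => (node_iso hc hd.elb (hm.int q) (hm.z q) (hm.rep q)).2.2) (hd.elb.l2.2.mul_left _)
  have h2 := hd.gap
  have h3 : 0 ≤ ∫ z in U, ‖deriv h₁ z - deriv h₂ z‖ ^ 2 := integral_nonneg fun z => sq_nonneg _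
  have h4 := hm.area
  refine ⟨?_, by linarith⟩
  have h5 : ∫ z in U, ‖deriv h₁ z - deriv h₂ z‖ ^ 2 = 0 := by linarith
  rw [integral_eq_zero_iff_of_nonneg (fun z => sq_nonneg _) hd.int] at h5
  have h6 : deriv h₁ =ᵐ[volume.restrict U] deriv h₂ := h5.mono fun z hz =>
    sub_eq_zero.1 (norm_eq_zero.1 (pow_eq_zero_iff two_ne_zero |>.1 hz))
  exact hc.op.exists_eq_add_of_deriv_eq hc.conn hd.hol₁ hd.hol₂
    (Measure.eqOn_open_of_ae_eq h6 hc.op (hd.hol₁.deriv hc.op).continuousOn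
      (hd.hol₂.deriv hc.op).continuousOn)

/-- adding multiples of the `A0` function `ξ` to `α`, `β` changes nothing (`om_add_right`,
`om_A0`, `om_congr`) -/
theorem elb_shift (hc : Ctx Λ M) {α β α' β' ξ : ℂ → ℝ} {ρ : Λ.E → ℝ} (h : ELB Λ M α β ρ)
    (hξ : A0 U ξ) (hα' : XX U α') (hβ' : XX U β') {s t : ℝ}
    (ea : ∀ z ∈ U, α' z = α z + s * ξ z) (eb : ∀ z ∈ U, β' z = β z + t * ξ z) :
    ELB Λ M α' β' ρ ∧ om U α' β' = om U α β := by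
  have hU := hc.op
  have key : ∀ {φ c c' : ℂ → ℝ} {s : ℝ}, XX U φ → XX U c → (∀ z ∈ U, c' z = c z + s * ξ z) →
      om U φ c' = om U φ c := fun {φ c c' s} hφ hc e => by
    rw [om_congr hU (u' := φ) (c' := fun z => c z + s * ξ z) (fun _ _ => rfl) e,
      om_add_right hU hφ hc (hξ.xx.smul s), om_smul_right, om_A0 hU hφ.lip hξ, mul_zero, add_zero]
  refine ⟨⟨hα', hβ', h.l2, fun φ₁ φ₂ c r h₁ h₂ hr hb => ?_⟩, ?_⟩
  · have := h.le φ₁ φ₂ c r h₁ h₂ hr hb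
    unfold ell at this ⊢
    rwa [key h₁.reg.xx h.xb eb, key h₂.reg.xx h.xa ea]
  · rw [key hα' h.xb eb, om_skew α', key h.xb h.xa ea, ← om_skew]

/-- `f z = ⟨(h₁ z).re, (h₂ z).im⟩ = h₁ z - κ.im * I` on `U`; `reC ξ f = reC ξ h₁` and
`imC ξ f = imC ξ h₂` definitionally; `elb_shift` -/
theorem eld_norm (hc : Ctx Λ M) {h₁ h₂ : ℂ → ℂ} {ξ : ℂ → ℝ} {ρ : Λ.E → ℝ}
    (hd : ELD Λ M h₁ h₂ ξ ρ) : ∃ f : ℂ → ℂ, DifferentiableOn ℂ f U ∧
      (∃ b : ℂ, Tendsto (fun z => f z - z) (cocompact ℂ) (𝓝 b)) ∧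
      ELB Λ M (reC ξ f) (imC ξ f) ρ ∧
      (∃ u₁ u₂ c r, Appr Λ M (reC ξ f) (imC ξ f) u₁ u₂ c r ρ) ∧
      om U (reC ξ f) (imC ξ f) = -(Real.pi * ∑' q, ρ q ^ 2) := by
  obtain ⟨⟨κ, hκ⟩, harea⟩ := eld_gap hc hd
  have e : ∀ z ∈ U, (⟨(h₁ z).re, (h₂ z).im⟩ : ℂ) = h₁ z - κ.im * Complex.I := fun z hz => by
    apply Complex.ext <;> simp [hκ z hz]
  obtain ⟨h1, h2⟩ := elb_shift hc hd.elb (hd.cut.a0 hc.op).1 hd.xx₁ hd.xx₂ (s := κ.re)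
    (t := -κ.im) (fun z hz => by simp only [reC, hκ z hz, Complex.add_re]; ring)
    (fun z hz => by simp only [imC, hκ z hz, Complex.add_im]; ring)
  refine ⟨fun z => ⟨(h₁ z).re, (h₂ z).im⟩, (hd.hol₁.sub_const _).congr e, ?_, h1, hd.appr,
    h2.trans harea⟩
  obtain ⟨b, hb⟩ := hd.inf₁
  refine ⟨b - κ.im * Complex.I, (hb.sub_const _).congr' ?_⟩
  filter_upwards [(isCompact_closedBall (0 : ℂ) Λ.R).compl_mem_cocompact] with z hz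
  rw [e z (Λ.far z (not_le.1 fun h => hz (mem_closedBall_zero_iff.2 h)).le)]
  ring

/-- termwise equality in `Σ ∫ m q = π Σ ρ q²` (`node_iso`; summable by `Node.l1`) -/
theorem node_eq (hc : Ctx Λ M) {α β : ℂ → ℝ} {ρ : Λ.E → ℝ} (h : ELB Λ M α β ρ)
    {m : Λ.E → ℂ → ℝ} (hm : Node Λ α β ρ m)
    (ha : om U α β = -(Real.pi * ∑' q, ρ q ^ 2)) (q : Λ.E) :
    ∫ y, m q y = Real.pi * ρ q ^ 2 := by
  have h1 := fun q => (node_iso hc h (hm.int q) (hm.z q) (hm.rep q)).2.2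
  refine (h1 q).eq_of_not_lt fun hlt => ?_
  have h2 := Summable.tsum_lt_tsum h1 hlt (h92_node_sum h hm) (h.l2.2.mul_left _)
  rw [tsum_mul_left] at h2
  linarith [hm.area]

theorem st2 : St2 := by
  intro U Λ M h₁ h₂ ξ ρ hc hd
  obtain ⟨f, hf, hinf, he, ⟨u₁, u₂, ck, rk, ha⟩, harea⟩ := eld_norm hc hd
  obtain ⟨m, hm⟩ := exists_node hc he
  choose c hc1 hc2 using fun q =>
    node_disc hc he (hm.int q) (hm.z q) (hm.rep q) (node_eq hc he hm harea q) ha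
  exact ⟨f, c, hd.cut, hf, hinf, he, ⟨u₁, u₂, ck, rk, ha, hc2⟩, harea, hc1⟩

end Crest.Agent.R105.End
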