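import Crest.Agent.R105.E2El

/-! Row 105, block END: the node functions. -/

set_option autoImplicit false

open MeasureTheory Set Filter Topology
open scoped ENNReal

namespace Crest.Agent.R105.End

variable {U : Set ℂ} {Λ : Lumps U} {M : Set (ℂ → ℝ)} {α β : ℂ → ℝ} {ρ : Λ.E → ℝ}

/-- For a regular `a` and `|Φ_x| ≤ 1`: `elb_sum` with `φ₁ = Φ(a,β) χ`, `φ₂ = 0`, `σ = 0`,
`ε q = 2π ρ q |val χ q| osc a q`.  At `q` subtract `Φ(lo a q, β) χ χ'`, which pairs to zero with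
`β` (`om_self'` with the cut-off `χ χ'`); the difference `(Φ(a,β) - Φ(lo a q,β)) χ` lies in the
disc of centre `0` and radius `|val χ q| osc a q` (`lip_x`, `Lumps.near`, `inBall_mul_A0`),
`elb_node`.  Weights: `bt_cp` (with `RT.bt`, `elb_adm`, and the constant `lo a q` as an `A0`
function), `bt_sub`, `bt_mul_A0`. -/
theorem ell_prim_reg (hc : Ctx Λ M) (h : ELB Λ M α β ρ) {a χ Φ : ℂ → ℝ} (ha : RT Λ M a)
    (hχ : A0 U χ) (hΦ : LC1 Φ) (h1 : ∀ y, |fderiv ℝ Φ y 1| ≤ 1) :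
    |om U (fun z => cp Φ a β z * χ z) β| ≤
      2 * Real.pi * ∑' q, ρ q * (|Λ.val χ q| * Λ.osc a q) := by
  have hU := hc.op
  obtain ⟨L, hL⟩ := hΦ.lip
  have ab := RT.bt hc ha
  have eb := (elb_adm hc h).2
  have B1 := bt_cp hc hΦ hL ab.xx h.xb ab.adm eb
  have B1χ := bt_mul_A0 hc B1 hχ
  have B0 := bt_A0 hc (A0.const (U := U) 0)
  have B0χ := bt_mul_A0 hc B0 hχ
  have hz : ∀ (u c : ℂ → ℝ), (∀ z, u z = 0) → om U u c = 0 := by
    intro u c hu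
    have h2 : u = fun z => 0 * u z := funext fun z => by rw [zero_mul, hu]
    rw [h2, om_smul_left, zero_mul]
  have hl2 : L2w (fun q => |Λ.val χ q| * Λ.osc a q) := (adm_mul_A0 hc hχ ab.adm).l2
  have hs := elb_sum hc h B1χ.xx B0.xx B1χ.adm B0.adm (σ := fun _ => 0)
    (ε := fun q => 2 * Real.pi * (ρ q * (|Λ.val χ q| * Λ.osc a q))) summable_zero
    ((L2w.summable_mul h.l2 hl2).1.mul_left _)
    (fun q => mul_nonneg (by positivity) (mul_nonneg (h.l2.1 q) (hl2.1 q))) ?_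
  · rw [tsum_zero, sub_zero, tsum_mul_left, ell, hz (fun _ => 0) α fun _ => rfl, sub_zero] at hs
    exact hs
  intro q η hη
  have B2 := bt_cp hc hΦ hL (XX.const (Λ.lo a q)) h.xb (adm_A0 hc (A0.const (Λ.lo a q))) eb
  have Bd := bt_mul_A0 hc (bt_sub hc B1 B2) hχ
  have hin : InBall Λ (fun z => cp Φ a β z - cp Φ (fun _ => Λ.lo a q) β z) (fun _ => 0) q 0
      (Λ.osc a q) := by
    intro δ hδ
    obtain ⟨n, hn⟩ := Λ.near ab.bdd q hδ
    refine ⟨n, fun z hz' => ?_⟩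
    have h2 := lip_x hΦ.sm h1 (a z) (Λ.lo a q) (β z)
    have h3 : (⟨cp Φ a β z - cp Φ (fun _ => Λ.lo a q) β z, 0⟩ : ℂ) =
        ((cp Φ a β z - cp Φ (fun _ => Λ.lo a q) β z : ℝ) : ℂ) := rfl
    rw [sub_zero, h3, Complex.norm_real, Real.norm_eq_abs]
    refine h2.trans ?_
    have h4 := hn z hz'
    have h5 := Λ.osc_nonneg ab.bdd q
    unfold Lumps.osc at h5 ⊢
    rw [abs_le]
    constructor <;> linarith [h4.1, h4.2]
  obtain ⟨N, hN⟩ := elb_node hc h Bd.xx B0χ.xx Bd.adm B0χ.adm (inBall_mul_A0 hin hχ) hη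
  refine ⟨N, fun n hn χ' hχ' => ?_⟩
  have h2 := hN n hn χ' hχ'
  have hA := (A0.mul hU Λ hχ hχ'.1).1
  have hF : ContDiff ℝ 1 (fun t : ℝ => Φ ⟨Λ.lo a q, t⟩) := by
    have h3 : Complex.mk (Λ.lo a q) =
        fun t : ℝ => ((Λ.lo a q : ℝ) : ℂ) + Complex.ofRealCLM t * Complex.I := by
      funext t
      apply Complex.ext <;> simp
    have h7 : ContDiff ℝ 1 (Complex.mk (Λ.lo a q)) := by
      rw [h3]
      exact contDiff_const.add (Complex.ofRealCLM.contDiff.mul contDiff_const)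
    exact hΦ.sm.comp h7
  have h4 : om U (fun z => cp Φ (fun _ => Λ.lo a q) β z * (χ z * χ' z)) β = 0 :=
    om_self' hU h.xb hA hF
  have h5 : om U (fun z => (cp Φ a β z - cp Φ (fun _ => Λ.lo a q) β z) * χ z * χ' z) β =
      om U (fun z => cp Φ a β z * χ z * χ' z) β := by
    have h6 := om_sub_left hU (XX.mul_A0 hU Λ B1χ.xx hχ'.1) (XX.mul_A0 hU Λ B2.xx hA) h.xb
    rw [h4, sub_zero] at h6
    rw [← h6]
    congr 1
    funext z
    ring
  rw [ell, h5, hz _ α fun z => by simp] at h2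
  rw [ell, hz _ α fun z => by simp, sub_zero]
  refine h2.trans (le_of_eq ?_)
  ring

theorem h32_lc1_zero : LC1 (fun _ => 0) :=
  ⟨contDiff_const, ⟨0, fun _ => by simp⟩, ⟨0, fun _ => by simp⟩⟩

theorem h32_ell_zero (α β φ a b χ : ℂ → ℝ) :
    ell U α β φ (fun z => cp (fun _ => 0) a b z * χ z) = om U φ β := by
  have h : om U (fun z => cp (fun _ => 0) a b z * χ z) α = 0 :=
    (om_smul_left 0 χ α).trans (zero_mul _)
  rw [ell, h, sub_zero]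

/-- `tt_seq` for `α` (weight `2π ρ`, `elb_adm`), `ell_prim_reg`, `ell_cp_tendsto` with the
constant sequence `β` and `Ψ₂ = 0`, `tsum_tendsto` (`val χ` is bounded) -/
theorem ell_prim (hc : Ctx Λ M) (h : ELB Λ M α β ρ) {χ Φ : ℂ → ℝ} (hχ : A0 U χ) (hΦ : LC1 Φ)
    (h1 : ∀ y, |fderiv ℝ Φ y 1| ≤ 1) :
    |om U (fun z => cp Φ α β z * χ z) β| ≤ 4 * Real.pi ^ 2 * ∑' q, |Λ.val χ q| * ρ q ^ 2 := by
  obtain ⟨r, e, hr, he, hosc, hn, hen, hae⟩ := tt_seq hc h.xa (elb_adm hc h).1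
  obtain ⟨B, hB⟩ := h2_val_bdd Λ hχ
  have hπ : 0 ≤ 2 * Real.pi := by positivity
  have hρ' := (h.l2.smul hπ).1
  have hk : ∀ k, L2w fun q => 2 * Real.pi * ρ q + e k q := fun k => (hρ'.add (he k)).1
  have t1 := (ell_cp_tendsto hc.op Λ (u₂ := fun _ => β) h.xa h.xb hΦ h32_lc1_zero hχ h.xa h.xb
    (fun k => (hr k).reg.xx) (fun _ => h.xb) hae (Eventually.of_forall fun _ _ => tendsto_const_nhds)
    hen (by simp [En, ← ofReal_norm])).abs
  simp only [h32_ell_zero] at t1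
  have t2 := ((tsum_tendsto (g := fun q => |Λ.val χ q|) (C := B) h.l2 hρ' hk
    (fun q => by rw [abs_abs]; exact hB q) (by simpa using hn)).1).const_mul (2 * Real.pi)
  have t3 : 2 * Real.pi * ∑' q, ρ q * (|Λ.val χ q| * (2 * Real.pi * ρ q)) =
      4 * Real.pi ^ 2 * ∑' q, |Λ.val χ q| * ρ q ^ 2 := by
    rw [← tsum_mul_left, ← tsum_mul_left]
    exact tsum_congr fun q => by ring
  rw [t3] at t2
  refine le_of_tendsto_of_tendsto' t1 t2 fun k =>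
    (ell_prim_reg hc h (hr k) hχ hΦ h1).trans (mul_le_mul_of_nonneg_left ?_ hπ)
  have hle : ∀ q, ρ q * (|Λ.val χ q| * Λ.osc (r k) q) ≤
      ρ q * (|Λ.val χ q| * (2 * Real.pi * ρ q + e k q)) := fun q =>
    mul_le_mul_of_nonneg_left (mul_le_mul_of_nonneg_left (hosc k q) (abs_nonneg _)) (h.l2.1 q)
  have hs : Summable fun q => ρ q * (|Λ.val χ q| * (2 * Real.pi * ρ q + e k q)) := by
    refine (h.l2.summable_mul (L2w.of_le ((hk k).smul (le_max_right B 0)).1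
      (fun q => mul_nonneg (abs_nonneg _) ((hk k).1 q)) fun q => ?_).1).1
    exact mul_le_mul_of_nonneg_right ((hB q).trans (le_max_left _ _)) ((hk k).1 q)
  exact (Summable.of_nonneg_of_le (fun q => mul_nonneg (h.l2.1 q) (mul_nonneg (abs_nonneg _)
    (Λ.osc_nonneg (hr k).reg.bdd q))) hle hs).tsum_le_tsum hle hs

/-- `l1_dual`, `exists_prim_x`, the representation with `Ψ₂ = 0`, `ell_prim` -/
theorem deg_l1 (hc : Ctx Λ M) (h : ELB Λ M α β ρ) {χ n : ℂ → ℝ} (hχ : A0 U χ)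
    (hn : Integrable n) (hr : ∀ Ψ₁ Ψ₂, LC1 Ψ₁ → LC1 Ψ₂ →
      ell U α β (fun z => cp Ψ₁ α β z * χ z) (fun z => cp Ψ₂ α β z * χ z) =
        ∫ y, n y * dv Ψ₁ Ψ₂ y) :
    ∫ y, |n y| ≤ 4 * Real.pi ^ 2 * ∑' q, |Λ.val χ q| * ρ q ^ 2 := by
  refine l1_dual hn fun s hs hsc hs1 => ?_
  obtain ⟨Φ, hΦ, hΦs⟩ := exists_prim_x hs hsc
  have h1 := hr Φ _ hΦ h32_lc1_zero
  have h2 : ∀ y, dv Φ (fun _ => 0) y = s y := fun y => by simp [dv, hΦs]
  simp only [h32_ell_zero, h2] at h1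
  rw [← h1]
  exact (le_abs_self _).trans (ell_prim hc h hχ hΦ fun y => by rw [hΦs]; exact hs1 y)

open Classical in
/-- The node function of one end.  `χ n` from `exists_Ind`, `d n` from `exists_Deg`;
`d k - d l` represents the cut-off `χ k - χ l` (`ell_sub`), so `deg_l1` and `tail_lump` give the
Cauchy property; `m = - lim` (`l1_lim`); `∫|d n| ≤ 4π² (ρ q² + tail)`; `ell_val` for other
cut-offs.  The last clause: `∫ d n = om (α χ) β = ell (α χ) (0 χ)`. -/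
theorem exists_node_one (hc : Ctx Λ M) (h : ELB Λ M α β ρ) (q : Λ.E) :
    ∃ m : ℂ → ℝ, Integrable m ∧ (∀ y, ∃ k : ℤ, m y = k) ∧
      ∫ y, |m y| ≤ 4 * Real.pi ^ 2 * ρ q ^ 2 ∧ Rep Λ α β q m ∧
      ∀ η > 0, ∃ N, ∀ n ≥ N, ∀ χ, Ind Λ n q χ →
        |om U (fun z => α z * χ z) β + ∫ y, m y| ≤ η := by
  have hU := hc.op
  choose χ hχ _ using fun n => exists_Ind hU Λ n q
  choose d hd using fun n => exists_Deg hU Λ h.xa h.xb (hχ n).1 (ind_val (hχ n)).2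
  obtain ⟨g, hg⟩ : ∃ g : ℕ → Λ.E → ℝ, ∀ n q',
      g n q' = if Λ.W n q' = Λ.W n q ∧ q' ≠ q then ρ q' ^ 2 else 0 := ⟨_, fun _ _ => rfl⟩
  have hg0 : ∀ n q', 0 ≤ g n q' := fun n q' => by rw [hg]; split_ifs <;> positivity
  have hgs : ∀ n, Summable (g n) := fun n => Summable.of_nonneg_of_le (hg0 n) (fun q' => by
    rw [hg]; split_ifs
    exacts [le_rfl, sq_nonneg _]) h.l2.2
  have htail : ∀ η > 0, ∃ N, ∀ n ≥ N, ∑' q', g n q' ≤ η := fun η hη => by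
    obtain ⟨N, hN⟩ := tail_lump (Λ := Λ) (fun q' => sq_nonneg (ρ q')) h.l2.2 q hη
    exact ⟨N, fun n hn => by simpa only [hg] using hN n hn⟩
  have hπ : 0 < 4 * Real.pi ^ 2 := by positivity
  have hval : ∀ n q', q' ≠ q → Λ.val (χ n) q' * ρ q' ^ 2 = g n q' := fun n q' hq => by
    rw [(hχ n).2, hg]
    by_cases hw : Λ.W n q' = Λ.W n q <;> simp [hw, hq]
  have hval0 : ∀ n q', 0 ≤ Λ.val (χ n) q' := fun n q' => by
    rcases (ind_val (hχ n)).2 q' with e | e <;> rw [e] <;> norm_num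
  have hxx : ∀ {Ψ : ℂ → ℝ} {ψ : ℂ → ℝ}, LC1 Ψ → A0 U ψ → XX U fun z => cp Ψ α β z * ψ z :=
    fun hΨ hψ => XX.mul_A0 hU Λ (xx_cp hU hΨ h.xa h.xb) hψ
  have hdv : ∀ {n Ψ₁ Ψ₂ : ℂ → ℝ}, Integrable n → LC1 Ψ₁ → LC1 Ψ₂ →
      Integrable fun y => n y * dv Ψ₁ Ψ₂ y := fun hn h₁ h₂ => by
    obtain ⟨hc, C, hC⟩ := LC1.dv_meas h₁ h₂
    exact hn.mul_bdd (c := C) hc.aestronglyMeasurable (Eventually.of_forall hC)
  have hcau : ∀ k l, ∫ y, |d k y - d l y| ≤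
      4 * Real.pi ^ 2 * (∑' q', g k q' + ∑' q', g l q') := fun k l => by
    obtain ⟨hA, hv⟩ := A0.sub hU Λ (hχ k).1 (hχ l).1
    refine (deg_l1 hc h hA ((hd k).int.sub (hd l).int) fun Ψ₁ Ψ₂ h₁ h₂ => ?_).trans ?_
    · simp only [mul_sub, Pi.sub_apply, sub_mul]
      rw [ell_sub hU h.xa h.xb (hxx h₁ (hχ k).1) (hxx h₂ (hχ k).1) (hxx h₁ (hχ l).1)
        (hxx h₂ (hχ l).1), (hd k).rep _ _ h₁ h₂, (hd l).rep _ _ h₁ h₂,
        integral_sub (hdv (hd k).int h₁ h₂) (hdv (hd l).int h₁ h₂)]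
    · refine mul_le_mul_of_nonneg_left ?_ hπ.le
      rw [← (hgs k).tsum_add (hgs l)]
      have hle : ∀ q', |Λ.val (fun z => χ k z - χ l z) q'| * ρ q' ^ 2 ≤ g k q' + g l q' := by
        intro q'
        rw [hv]
        by_cases hq : q' = q
        · subst hq
          rw [(ind_val (hχ k)).1, (ind_val (hχ l)).1, sub_self, abs_zero, zero_mul]
          exact add_nonneg (hg0 _ _) (hg0 _ _)
        · rw [← hval k q' hq, ← hval l q' hq, ← add_mul]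
          refine mul_le_mul_of_nonneg_right (abs_le.mpr ⟨?_, ?_⟩) (sq_nonneg _) <;>
            linarith [hval0 k q', hval0 l q']
      exact Summable.tsum_le_tsum hle
        (Summable.of_nonneg_of_le (fun q' => by positivity) hle ((hgs k).add (hgs l)))
        ((hgs k).add (hgs l))
  obtain ⟨m, hmi, hmz, hm⟩ := l1_lim (fun k => (hd k).int) (fun k => (hd k).z) fun η hη => by
    obtain ⟨N, hN⟩ := htail (η / (2 * (4 * Real.pi ^ 2))) (by positivity)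
    refine ⟨N, fun k hk l hl => (hcau k l).trans ?_⟩
    calc _ ≤ 4 * Real.pi ^ 2 * (η / (2 * (4 * Real.pi ^ 2)) + η / (2 * (4 * Real.pi ^ 2))) :=
          mul_le_mul_of_nonneg_left (add_le_add (hN k hk) (hN l hl)) hπ.le
      _ = η := by field_simp; ring
  have hm' : ∀ η > 0, ∃ N, ∀ n ≥ N, ∫ y, |d n y - m y| ≤ η := fun η hη =>
    eventually_atTop.mp (hm.eventually (ge_mem_nhds hη))
  have hl1 : ∀ n, ∫ y, |d n y| ≤ 4 * Real.pi ^ 2 * (ρ q ^ 2 + ∑' q', g n q') := fun n => by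
    refine (deg_l1 hc h (hχ n).1 (hd n).int (hd n).rep).trans
      (mul_le_mul_of_nonneg_left (le_of_eq ?_) hπ.le)
    have e : ∀ q', |Λ.val (χ n) q'| * ρ q' ^ 2 = (if q' = q then ρ q ^ 2 else 0) + g n q' := by
      intro q'
      rw [abs_of_nonneg (hval0 n q')]
      by_cases hq : q' = q
      · subst hq
        simp [(ind_val (hχ n)).1, hg]
      · rw [hval n q' hq, if_neg hq, zero_add]
    simp only [e]
    rw [(hasSum_ite_eq q (ρ q ^ 2)).summable.tsum_add (hgs n), tsum_ite_eq]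
  have hmn : Integrable fun y => -m y := hmi.neg
  have hdm : ∀ n, Integrable fun y => |d n y - m y| := fun n => ((hd n).int.sub hmi).abs
  refine ⟨fun y => -m y, hmn, fun y => ?_, ?_, fun Ψ₁ Ψ₂ h₁ h₂ η hη => ?_, fun η hη => ?_⟩
  · obtain ⟨j, hj⟩ := hmz y
    exact ⟨-j, by simp only [hj, Int.cast_neg]⟩
  · simp only [abs_neg]
    refine le_of_forall_pos_le_add fun η hη => ?_
    obtain ⟨N, hN⟩ := htail (η / (2 * (4 * Real.pi ^ 2))) (by positivity)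
    obtain ⟨N', hN'⟩ := hm' (η / 2) (by positivity)
    have a1 := hN (max N N') (le_max_left _ _)
    have a2 := hN' (max N N') (le_max_right _ _)
    have a3 := hl1 (max N N')
    have a4 : ∫ y, |m y| ≤ (∫ y, |d (max N N') y|) + ∫ y, |d (max N N') y - m y| := by
      rw [← integral_add (hd _).int.abs (hdm _)]
      refine integral_mono hmi.abs ((hd _).int.abs.add (hdm _)) fun y => ?_
      have := abs_sub (d (max N N') y) (d (max N N') y - m y)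
      simpa using this
    have a5 : 4 * Real.pi ^ 2 * ∑' q', g (max N N') q' ≤ η / 2 :=
      (mul_le_mul_of_nonneg_left a1 hπ.le).trans (le_of_eq (by field_simp))
    linarith
  · obtain ⟨hcn, C, hC⟩ := LC1.dv_meas h₁ h₂
    have hC0 : 0 ≤ C := (abs_nonneg _).trans (hC 0)
    obtain ⟨N, hN⟩ := hm' (η / (C + 1)) (by positivity)
    refine ⟨N, fun n hn χ' hχ' => ?_⟩
    rw [ell_val hU Λ h.xa h.xb (xx_cp hU h₁ h.xa h.xb) (xx_cp hU h₂ h.xa h.xb) hχ'.1 (hχ n).1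
      (fun q' => by rw [hχ'.2, (hχ n).2]), (hd n).rep _ _ h₁ h₂,
      ← integral_add (hdv (hd n).int h₁ h₂) (hdv hmn h₁ h₂)]
    calc _ ≤ ∫ y, |d n y - m y| * C := by
          refine abs_integral_le_integral_abs.trans (integral_mono
            ((hdv (hd n).int h₁ h₂).add (hdv hmn h₁ h₂)).abs
            ((hdm n).mul_const C) fun y => ?_)
          simp only
          rw [← add_mul, abs_mul, ← sub_eq_add_neg]
          exact mul_le_mul_of_nonneg_left (hC y) (abs_nonneg _)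
      _ ≤ η / (C + 1) * C := by
          rw [integral_mul_const]
          exact mul_le_mul_of_nonneg_right (hN n hn) hC0
      _ ≤ η := by
          rw [div_mul_eq_mul_div, div_le_iff₀ (by positivity)]
          nlinarith
  · obtain ⟨N, hN⟩ := hm' η hη
    refine ⟨N, fun n hn χ' hχ' => ?_⟩
    have e := ell_val hU Λ h.xa h.xb h.xa (XX.const 0) hχ'.1 (hχ n).1
      (fun q' => by rw [hχ'.2, (hχ n).2])
    simp only [ell, zero_mul, sub_left_inj] at e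
    rw [e, ← (hd n).area, ← integral_add (hd n).int hmn]
    refine abs_integral_le_integral_abs.trans (le_trans (le_of_eq ?_) (hN n hn))
    simp only [sub_eq_add_neg]

/-- `choose`; the area by `elb_sum` with `φ = (α, 0)`, `σ q = -∫ m q`, `ε = 0` -/
theorem exists_node (hc : Ctx Λ M) (h : ELB Λ M α β ρ) : ∃ m, Node Λ α β ρ m := by
  choose m hi hz hl hr ha using exists_node_one hc h
  refine ⟨m, hi, hz, hl, hr, ?_⟩
  have h0 : ∀ c : ℂ → ℝ, om U (fun _ => (0 : ℝ)) c = 0 := fun c => by simp [om, wd]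
  have hσ : Summable fun q => -∫ y, m q y := by
    refine Summable.of_norm_bounded (h.l2.2.mul_left (4 * Real.pi ^ 2)) fun q => ?_
    rw [norm_neg, Real.norm_eq_abs]
    exact abs_integral_le_integral_abs.trans (hl q)
  have key := elb_sum hc h h.xa (A0.const 0).xx (elb_adm hc h).1 (adm_A0 hc (A0.const 0)) hσ
    (ε := fun _ => 0) summable_zero (fun _ => le_rfl) fun q η hη => by
      obtain ⟨N, hN⟩ := ha q η hη
      refine ⟨N, fun n hn χ hχ => ?_⟩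
      simpa only [ell, zero_mul, h0, sub_zero, sub_neg_eq_add, zero_add] using hN n hn χ hχ
  rw [ell, h0, sub_zero, tsum_zero, tsum_neg, abs_nonpos_iff, sub_eq_zero] at key
  exact key

/-- `Rep` and `elb_node` with the disc of centre `0` and radius `1` (`bt_cp`, `LC1.of_cpt`) -/
theorem rep_tv (hc : Ctx Λ M) (h : ELB Λ M α β ρ) {q : Λ.E} {m : ℂ → ℝ} (hm : Rep Λ α β q m) :
    Iso.TVle m (2 * Real.pi * ρ q) := by
  intro p₁ p₂ c₁ c₂ s₁ s₂ hp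
  have l₁ := LC1.of_cpt c₁ s₁
  have l₂ := LC1.of_cpt c₂ s₂
  obtain ⟨L₁, hL₁⟩ := l₁.lip
  obtain ⟨L₂, hL₂⟩ := l₂.lip
  have b₁ := bt_cp hc l₁ hL₁ h.xa h.xb (elb_adm hc h).1 (elb_adm hc h).2
  have b₂ := bt_cp hc l₂ hL₂ h.xa h.xb (elb_adm hc h).1 (elb_adm hc h).2
  have hb : InBall Λ (cp p₁ α β) (cp p₂ α β) q 0 1 := fun η hη => ⟨0, fun z _ => by
    rw [sub_zero]
    refine le_trans ?_ (le_add_of_nonneg_right hη.le)
    rw [Complex.norm_eq_sqrt_sq_add_sq, Real.sqrt_le_one]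
    exact hp _⟩
  refine le_of_forall_pos_le_add fun η hη => ?_
  obtain ⟨N, hN⟩ := elb_node hc h b₁.xx b₂.xx b₁.adm b₂.adm hb (half_pos hη)
  obtain ⟨N', hN'⟩ := hm p₁ p₂ l₁ l₂ _ (half_pos hη)
  obtain ⟨χ, hχ, -⟩ := exists_Ind hc.op Λ (max N N') q
  have e1 := abs_le.1 (hN _ (le_max_left _ _) χ hχ)
  have e2 := abs_le.1 (hN' _ (le_max_right _ _) χ hχ)
  simp only [dv] at e2
  rw [abs_le]
  constructor <;> linarith [e1.1, e1.2, e2.1, e2.2]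

/-- Test the bound `h.le` with `Ψ(u k) χ` (`rt_cp`, `rt_mul_A0`): radius `0` at `q` for the good
`k`, radius `|val χ q'| 2 L r k q'` elsewhere (`inBall_cp`, `inBall_mul_A0`); let `k → ∞` along
the good indices (`ell_cp_tendsto`, `tsum_tendsto`), then `n → ∞` (`tail_lump`, `Rep`). -/
theorem rep_grad0 (hc : Ctx Λ M) (h : ELB Λ M α β ρ) {q : Λ.E} {m : ℂ → ℝ} (hm : Rep Λ α β q m)
    {u₁ u₂ : ℕ → ℂ → ℝ} {c : ℕ → Λ.E → ℂ} {r : ℕ → Λ.E → ℝ} {ρ' : Λ.E → ℝ}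
    (ha : Appr Λ M α β u₁ u₂ c r ρ') (hρ' : L2w ρ') {Ψ₁ Ψ₂ : ℂ → ℝ} (h₁ : LC1 Ψ₁) (h₂ : LC1 Ψ₂)
    (hz : ∃ᶠ k in atTop, ∃ δ > 0, ∀ y, ‖y - c k q‖ ≤ r k q + δ → Ψ₁ y = 0 ∧ Ψ₂ y = 0) :
    ∫ y, m y * dv Ψ₁ Ψ₂ y = 0 := by
  classical
  obtain ⟨L₁, hL₁⟩ := h₁.lip
  obtain ⟨L₂, hL₂⟩ := h₂.lip
  have hL0 : 0 ≤ max L₁ L₂ := ((norm_nonneg _).trans (hL₁ 0)).trans (le_max_left _ _)
  have k₁ : ∀ y, ‖fderiv ℝ Ψ₁ y‖ ≤ max L₁ L₂ := fun y => (hL₁ y).trans (le_max_left _ _)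
  have k₂ : ∀ y, ‖fderiv ℝ Ψ₂ y‖ ≤ max L₁ L₂ := fun y => (hL₂ y).trans (le_max_right _ _)
  generalize max L₁ L₂ = L at hL0 k₁ k₂
  have hL2 : 0 ≤ 2 * L := by positivity
  have hπ := Real.pi_pos
  refine abs_nonpos_iff.1 (le_of_forall_pos_le_add fun η hη => ?_)
  obtain ⟨N₁, hN₁⟩ := hm Ψ₁ Ψ₂ h₁ h₂ (η / 2) (half_pos hη)
  obtain ⟨N₂, hN₂⟩ := tail_lump (Λ := Λ) (f := fun q' => ρ q' * (2 * L * ρ' q'))
    (fun q' => mul_nonneg (h.l2.1 q') (mul_nonneg hL2 (hρ'.1 q')))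
    (h.l2.summable_mul (hρ'.smul hL2).1).1 q (η := η / 2 / (2 * Real.pi)) (by positivity)
  obtain ⟨χ, hχ, -⟩ := exists_Ind hc.op Λ (max N₁ N₂) q
  have a1 := hN₁ _ (le_max_left N₁ N₂) χ hχ
  have a2 := hN₂ _ (le_max_right N₁ N₂)
  generalize max N₁ N₂ = n at hχ a2
  let g : Λ.E → ℝ := fun q' => if Λ.W n q' = Λ.W n q ∧ q' ≠ q then 2 * L else 0
  have hg0 : ∀ q', 0 ≤ g q' ∧ g q' ≤ 2 * L := fun q' => by
    simp only [g]
    split_ifs
    exacts [⟨hL2, le_rfl⟩, ⟨le_rfl, hL2⟩]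
  have t1 := (ell_cp_tendsto hc.op Λ h.xa h.xb h₁ h₂ hχ.1 h.xa h.xb (fun k => (ha.rt₁ k).reg.xx)
    (fun k => (ha.rt₂ k).reg.xx) ha.ae₁ ha.ae₂ ha.en₁ ha.en₂).abs
  have t2 := (tsum_tendsto h.l2 hρ' ha.l2 (g := g) (C := 2 * L)
    (fun q' => by rw [abs_of_nonneg (hg0 q').1]; exact (hg0 q').2) ha.lim).1.const_mul
    (2 * Real.pi)
  have a3 := le_of_tendsto_of_tendsto_of_frequently t1 t2 (hz.mono fun k ⟨δ, hδ, hk⟩ => by
    refine h.le _ _ (fun q' => if q' = q then 0 else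
      (Λ.val χ q' : ℂ) * ⟨Ψ₁ (c k q'), Ψ₂ (c k q')⟩) _
      (rt_mul_A0 hc (rt_cp hc h₁ (ha.rt₁ k) (ha.rt₂ k)) hχ.1).1
      (rt_mul_A0 hc (rt_cp hc h₂ (ha.rt₁ k) (ha.rt₂ k)) hχ.1).1
      (((ha.l2 k).smul hL2).1.of_le (fun q' => mul_nonneg (hg0 q').1 ((ha.l2 k).1 q'))
        fun q' => mul_le_mul_of_nonneg_right (hg0 q').2 ((ha.l2 k).1 q')).1 fun q' => ?_
    by_cases hq : q' = q
    · subst hq
      intro ε hε
      obtain ⟨j, hj⟩ := ha.ball k q' δ hδ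
      refine ⟨j, fun z hz => ?_⟩
      obtain ⟨b1, b2⟩ := hk _ (hj z hz)
      have e : (⟨cp Ψ₁ (u₁ k) (u₂ k) z * χ z, cp Ψ₂ (u₁ k) (u₂ k) z * χ z⟩ : ℂ) = 0 := by
        apply Complex.ext <;> simp [cp, b1, b2]
      have e2 := mul_nonneg (hg0 q').1 ((ha.l2 k).1 q')
      beta_reduce
      rw [e, if_pos rfl, sub_zero, norm_zero]
      linarith
    · rw [if_neg hq]
      refine inBall_mono (inBall_mul_A0 (inBall_cp (ha.ball k q') h₁.sm h₂.sm k₁ k₂) hχ.1) ?_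
      rw [hχ.2 q']
      simp only [g]
      by_cases hW : Λ.W n q' = Λ.W n q
      · rw [if_pos hW, if_pos ⟨hW, hq⟩, abs_one, one_mul]
      · rw [if_neg hW, if_neg fun h => hW h.1, abs_zero, zero_mul, zero_mul])
  have e : ∑' q', ρ q' * (g q' * ρ' q') =
      ∑' q', if Λ.W n q' = Λ.W n q ∧ q' ≠ q then ρ q' * (2 * L * ρ' q') else 0 :=
    tsum_congr fun q' => by
      simp only [g]
      split_ifs
      exacts [rfl, by rw [zero_mul, mul_zero]]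
  rw [e] at a3
  have a4 := mul_le_mul_of_nonneg_left a2 (show 0 ≤ 2 * Real.pi by positivity)
  rw [mul_div_cancel₀ _ (by positivity)] at a4
  have a5 := abs_le.1 a1
  have a6 := abs_le.1 (a3.trans a4)
  rw [abs_le]
  constructor <;> linarith [a5.1, a5.2, a6.1, a6.2]

theorem h39_grad (hc : Ctx Λ M) (h : ELB Λ M α β ρ) {q : Λ.E} {m : ℂ → ℝ} (hm : Rep Λ α β q m)
    {u₁ u₂ : ℕ → ℂ → ℝ} {c : ℕ → Λ.E → ℂ} {r : ℕ → Λ.E → ℝ} {ρ' : Λ.E → ℝ}
    (ha : Appr Λ M α β u₁ u₂ c r ρ') (hρ' : L2w ρ') {ψ : ℂ → ℝ} (h₁ : ContDiff ℝ 1 ψ)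
    (h₂ : HasCompactSupport ψ)
    (hz : ∃ᶠ k in atTop, ∃ δ > 0, ∀ y, ‖y - c k q‖ ≤ r k q + δ → ψ y = 0) :
    ∫ y, m y * fderiv ℝ ψ y 1 = 0 ∧ ∫ y, m y * fderiv ℝ ψ y Complex.I = 0 := by
  have l₁ : LC1 ψ := LC1.of_cpt h₁ h₂
  have l₀ : LC1 (fun _ : ℂ => (0 : ℝ)) := LC1.of_cpt contDiff_const HasCompactSupport.zero
  have a := rep_grad0 hc h hm ha hρ' l₁ l₀
    (hz.mono fun k ⟨δ, hδ, hk⟩ => ⟨δ, hδ, fun y hy => ⟨hk y hy, rfl⟩⟩)
  have b := rep_grad0 hc h hm ha hρ' l₀ l₁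
    (hz.mono fun k ⟨δ, hδ, hk⟩ => ⟨δ, hδ, fun y hy => ⟨rfl, hk y hy⟩⟩)
  simp only [dv, fderiv_fun_const, Pi.zero_apply, zero_apply, add_zero,
    zero_add] at a b
  exact ⟨a, b⟩

/-- `ae_zero_of_grad` on the complement of the disc (`compl_ball_props`), `rep_grad0`: a compact
subset of the complement has positive distance from the disc -/
theorem rep_supp (hc : Ctx Λ M) (h : ELB Λ M α β ρ) {q : Λ.E} {m : ℂ → ℝ} (hi : Integrable m)
    (hm : Rep Λ α β q m) {u₁ u₂ : ℕ → ℂ → ℝ} {c : ℕ → Λ.E → ℂ} {r : ℕ → Λ.E → ℝ}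
    {ρ' : Λ.E → ℝ} (ha : Appr Λ M α β u₁ u₂ c r ρ') (hρ' : L2w ρ') {c₀ : ℂ}
    (hc₀ : MapClusterPt c₀ atTop (fun k => c k q)) :
    ∀ᵐ y, y ∉ Metric.closedBall c₀ (ρ' q) → m y = 0 := by
  obtain ⟨o, p, v⟩ := compl_ball_props c₀ (ρ' q)
  refine ae_zero_of_grad o p v hi fun ψ h₁ h₂ hs => h39_grad hc h hm ha hρ' h₁ h₂ ?_
  have hr := (tsum_tendsto (g := fun _ => 1) (C := 1) hρ' hρ' ha.l2 (fun _ => by simp) ha.lim).2 q
  obtain ⟨η, hη, hsub⟩ := (isCompact_closedBall c₀ (ρ' q)).exists_cthickening_subset_open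
    (isClosed_tsupport ψ).isOpen_compl (subset_compl_comm.1 hs)
  rw [cthickening_closedBall hη.le (hρ'.1 q)] at hsub
  have f₁ : ∃ᶠ k in atTop, c k q ∈ Metric.ball c₀ (η / 3) :=
    mapClusterPt_iff_frequently.1 hc₀ _ (Metric.ball_mem_nhds _ (by positivity))
  have f₂ : ∀ᶠ k in atTop, r k q < ρ' q + η / 3 := hr.eventually (gt_mem_nhds (by linarith))
  refine (f₁.and_eventually f₂).mono fun k ⟨a, b⟩ => ⟨η / 3, by positivity, fun y hy => ?_⟩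
  refine image_eq_zero_of_notMem_tsupport (hsub ?_)
  rw [mem_ball_iff_norm] at a
  rw [mem_closedBall_iff_norm]
  have := norm_sub_le_norm_sub_add_norm_sub y (c k q) c₀
  linarith

/-- `ae_zero_of_grad` on `univ`, `rep_grad0` -/
theorem rep_zero (hc : Ctx Λ M) (h : ELB Λ M α β ρ) {q : Λ.E} {m : ℂ → ℝ} (hi : Integrable m)
    (hm : Rep Λ α β q m) {u₁ u₂ : ℕ → ℂ → ℝ} {c : ℕ → Λ.E → ℂ} {r : ℕ → Λ.E → ℝ}
    {ρ' : Λ.E → ℝ} (ha : Appr Λ M α β u₁ u₂ c r ρ') (hρ' : L2w ρ')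
    (hc₀ : ∀ S : ℝ, ∃ᶠ k in atTop, S ≤ ‖c k q‖) : ∀ᵐ y, m y = 0 := by
  have key : ∀ᵐ y, y ∈ (univ : Set ℂ) → m y = 0 := by
    refine ae_zero_of_grad isOpen_univ isPreconnected_univ (by simp) hi
      fun ψ h₁ h₂ _ => h39_grad hc h hm ha hρ' h₁ h₂ ?_
    have hr :=
      (tsum_tendsto (g := fun _ => 1) (C := 1) hρ' hρ' ha.l2 (fun _ => by simp) ha.lim).2 q
    obtain ⟨R, hR⟩ := h₂.isCompact.isBounded.exists_norm_le
    have f₂ : ∀ᶠ k in atTop, r k q < ρ' q + 1 := hr.eventually (gt_mem_nhds (by linarith))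
    refine ((hc₀ (R + ρ' q + 2)).and_eventually f₂).mono
      fun k ⟨a, b⟩ => ⟨1, one_pos, fun y hy => ?_⟩
    refine image_eq_zero_of_notMem_tsupport fun hy' => ?_
    have := hR y hy'
    have := norm_sub_norm_le (c k q) y
    rw [norm_sub_rev] at this
    linarith
  exact key.mono fun y hy => hy (mem_univ y)

theorem h2_ev_ball {c : ℕ → ℂ} (h : ¬ ∀ S : ℝ, ∃ᶠ k in atTop, S ≤ ‖c k‖) :
    ∃ S : ℝ, ∀ᶠ k in atTop, c k ∈ Metric.closedBall (0 : ℂ) S := by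
  obtain ⟨S, hS⟩ := not_forall.1 h
  refine ⟨S, (not_frequently.1 hS).mono fun k hk => ?_⟩
  rw [mem_closedBall_zero_iff]
  exact (not_le.1 hk).le

/-- Isoperimetric bound.  `exists_appr` (`elb_adm`); either the centres are unbounded
(`rep_zero`) or they have a cluster point (`rep_supp`); so `m` agrees a.e. with a function of
bounded support, to which `Iso.sq_le_of_tv` applies (`rep_tv`); `m ≤ m²`. -/
theorem node_iso (hc : Ctx Λ M) (h : ELB Λ M α β ρ) {q : Λ.E} {m : ℂ → ℝ} (hi : Integrable m)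
    (hz : ∀ y, ∃ k : ℤ, m y = k) (hm : Rep Λ α β q m) :
    Integrable (fun y => m y ^ 2) ∧ ∫ y, m y ^ 2 ≤ Real.pi * ρ q ^ 2 ∧
      ∫ y, m y ≤ Real.pi * ρ q ^ 2 := by
  obtain ⟨a₁, a₂⟩ := elb_adm hc h
  obtain ⟨u₁, u₂, c, r, ha⟩ := exists_appr hc h.xa h.xb a₁ a₂
  have hρ' := (a₁.l2.add a₂.l2).1
  obtain ⟨c₀, R, hs⟩ : ∃ (c₀ : ℂ) (R : ℝ), ∀ᵐ y, y ∉ Metric.closedBall c₀ R → m y = 0 := by
    by_cases hS : ∀ S : ℝ, ∃ᶠ k in atTop, S ≤ ‖c k q‖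
    · exact ⟨0, 0, (rep_zero hc h hi hm ha hρ' hS).mono fun y hy _ => hy⟩
    · obtain ⟨S, hS⟩ := h2_ev_ball hS
      obtain ⟨c₀, -, hc₀⟩ :=
        (isCompact_closedBall (0 : ℂ) S).exists_mapClusterPt_of_frequently hS.frequently
      exact ⟨c₀, _, rep_supp hc h hi hm ha hρ' hc₀⟩
  have he : (Metric.closedBall c₀ R).indicator m =ᵐ[volume] m := by
    filter_upwards [hs] with y hy
    by_cases hb : y ∈ Metric.closedBall c₀ R
    · exact indicator_of_mem hb _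
    · rw [indicator_of_notMem hb, hy hb]
  have he2 : (fun y => (Metric.closedBall c₀ R).indicator m y ^ 2) =ᵐ[volume]
      fun y => m y ^ 2 := he.mono fun y hy => by simp only [hy]
  have htv : Iso.TVle ((Metric.closedBall c₀ R).indicator m) (2 * Real.pi * ρ q) :=
    fun p p' b1 b2 b3 b4 b5 => by
      refine le_of_eq_of_le ?_ (rep_tv hc h hm p p' b1 b2 b3 b4 b5)
      congr 1
      exact integral_congr_ae (he.mono fun y hy => by simp only [hy])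
  obtain ⟨i2, l2⟩ := Iso.sq_le_of_tv (hi.indicator Metric.isClosed_closedBall.measurableSet)
    ⟨‖c₀‖ + |R| + 1, fun z hz => indicator_of_notMem (fun hb => by
      rw [Metric.mem_closedBall, dist_eq_norm] at hb
      linarith [norm_sub_norm_le z c₀, le_abs_self R]) _⟩ htv
  have i3 : Integrable fun y => m y ^ 2 := i2.congr he2
  have l3 : ∫ y, m y ^ 2 ≤ Real.pi * ρ q ^ 2 := by
    rw [integral_congr_ae he2] at l2
    refine l2.trans (le_of_eq ?_)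
    have := Real.pi_pos.ne'
    field_simp
    ring
  refine ⟨i3, l3, le_trans (integral_mono hi i3 fun y => ?_) l3⟩
  obtain ⟨k, hk⟩ := hz y
  simp only [hk]
  exact_mod_cast Int.le_self_sq k

theorem h2_rep_congr {q : Λ.E} {m m' : ℂ → ℝ} (hm : Rep Λ α β q m) (he : m =ᵐ[volume] m') :
    Rep Λ α β q m' := fun Ψ₁ Ψ₂ h₁ h₂ η hη => by
  have e : ∫ y, m' y * dv Ψ₁ Ψ₂ y = ∫ y, m y * dv Ψ₁ Ψ₂ y :=
    integral_congr_ae (he.mono fun y hy => by simp only [hy])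
  rw [e]
  exact hm Ψ₁ Ψ₂ h₁ h₂ η hη

/-- If `ρ q = 0` then `m = 0` a.e. (`node_iso`) and any centre works.  Otherwise `m ≠ 0`, the
centres are eventually bounded (`rep_zero`), every cluster point `c₀` has
`m = 1_{B(c₀,ρ q)}` a.e. (`rep_supp`, `ae_eq_indicator`), cluster points are unique
(`centre_unique`), hence convergence (`IsCompact.tendsto_nhds_of_unique_mapClusterPt`). -/
theorem node_disc (hc : Ctx Λ M) (h : ELB Λ M α β ρ) {q : Λ.E} {m : ℂ → ℝ} (hi : Integrable m)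
    (hz : ∀ y, ∃ k : ℤ, m y = k) (hm : Rep Λ α β q m) (heq : ∫ y, m y = Real.pi * ρ q ^ 2)
    {u₁ u₂ : ℕ → ℂ → ℝ} {c : ℕ → Λ.E → ℂ} {r : ℕ → Λ.E → ℝ}
    (ha : Appr Λ M α β u₁ u₂ c r ρ) : ∃ c₀ : ℂ,
      Rep Λ α β q ((Metric.closedBall c₀ (ρ q)).indicator 1) ∧
        (0 < ρ q → Tendsto (fun k => c k q) atTop (𝓝 c₀)) := by
  obtain ⟨i2, l2, -⟩ := node_iso hc h hi hz hm
  have h0 := h.l2.1 q
  rcases h0.eq_or_lt with e | hp
  · refine ⟨0, h2_rep_congr hm (ae_eq_indicator hi hz i2 h0 l2 heq ?_),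
      fun hp => absurd e hp.ne⟩
    rw [← e] at l2
    have z : ∫ y, m y ^ 2 = 0 :=
      le_antisymm (by simpa using l2) (integral_nonneg fun y => sq_nonneg _)
    rw [integral_eq_zero_iff_of_nonneg (fun y => sq_nonneg _) i2] at z
    filter_upwards [z] with y hy _ using pow_eq_zero_iff two_ne_zero |>.1 hy
  · have hS : ¬ ∀ S : ℝ, ∃ᶠ k in atTop, S ≤ ‖c k q‖ := fun hS => by
      rw [integral_congr_ae (g := fun _ => 0) (rep_zero hc h hi hm ha h.l2 hS), integral_zero] at heq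
      exact absurd heq (mul_pos Real.pi_pos (pow_pos hp 2)).ne
    obtain ⟨S, hS⟩ := h2_ev_ball hS
    obtain ⟨c₀, -, hc₀⟩ :=
      (isCompact_closedBall (0 : ℂ) S).exists_mapClusterPt_of_frequently hS.frequently
    have key : ∀ x, MapClusterPt x atTop (fun k => c k q) →
        m =ᵐ[volume] (Metric.closedBall x (ρ q)).indicator 1 := fun x hx =>
      ae_eq_indicator hi hz i2 h0 l2 heq (rep_supp hc h hi hm ha h.l2 hx)
    exact ⟨c₀, h2_rep_congr hm (key c₀ hc₀), fun _ =>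
      (isCompact_closedBall (0 : ℂ) S).tendsto_nhds_of_unique_mapClusterPt hS fun x _ hx =>
        centre_unique hp ((key x hx).symm.trans (key c₀ hc₀))⟩

end Crest.Agent.R105.End
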