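import Crest.Agent.R105.GRIso

/-! Row 105, END: tools for the nonnegativity of the renormalised energy. -/

set_option autoImplicit false

open MeasureTheory Set Filter Topology BoundedContinuousFunction
open scoped ENNReal

namespace Crest.Agent.R105

variable {U : Set ℂ}

/-- Cauchy-Riemann defect `|∇ a - J ∇ b|²` -/
noncomputable def crd (a b : ℂ → ℝ) (z : ℂ) : ℝ :=
  (fderiv ℝ a z 1 - fderiv ℝ b z Complex.I) ^ 2 + (fderiv ℝ a z Complex.I + fderiv ℝ b z 1) ^ 2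

theorem crd_nonneg (a b : ℂ → ℝ) (z : ℂ) : 0 ≤ crd a b z := by unfold crd; positivity

theorem crd_add_wd (a b : ℂ → ℝ) (z : ℂ) : 0 ≤ crd a b z + 2 * wd a b z := by
  unfold crd wd
  nlinarith [sq_nonneg (fderiv ℝ a z 1), sq_nonneg (fderiv ℝ a z Complex.I),
    sq_nonneg (fderiv ℝ b z 1), sq_nonneg (fderiv ℝ b z Complex.I)]

theorem crd_congr {a b a' b' : ℂ → ℝ} {z : ℂ} (ha : a =ᶠ[𝓝 z] a') (hb : b =ᶠ[𝓝 z] b') :
    crd a b z = crd a' b' z := by
  simp only [crd, ha.fderiv_eq, hb.fderiv_eq]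

theorem wd_congr {a b a' b' : ℂ → ℝ} {z : ℂ} (ha : a =ᶠ[𝓝 z] a') (hb : b =ᶠ[𝓝 z] b') :
    wd a b z = wd a' b' z := by
  simp only [wd, ha.fderiv_eq, hb.fderiv_eq]

theorem eq_sq_le (l : ℂ →L[ℝ] ℝ) : l 1 ^ 2 ≤ ‖l‖ ^ 2 ∧ l Complex.I ^ 2 ≤ ‖l‖ ^ 2 := by
  have h1 := l.le_opNorm 1
  have h2 := l.le_opNorm Complex.I
  simp only [norm_one, mul_one, Complex.norm_I, Real.norm_eq_abs] at h1 h2
  exact ⟨sq_le_sq' (abs_le.1 h1).1 (abs_le.1 h1).2, sq_le_sq' (abs_le.1 h2).1 (abs_le.1 h2).2⟩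

theorem measurable_crd (a b : ℂ → ℝ) : Measurable (crd a b) := by
  have h := fun (u : ℂ → ℝ) (v : ℂ) => measurable_fderiv_apply_const ℝ u v
  exact (((h a 1).sub (h b _)).pow_const 2).add (((h a _).add (h b 1)).pow_const 2)

theorem crd_integrableOn {a b : ℂ → ℝ} (ha : En U a < ⊤) (hb : En U b < ⊤) :
    IntegrableOn (crd a b) U := by
  refine Integrable.mono' (((h49_sq_int ha).1.add (h49_sq_int hb).1).const_mul 4)
    (measurable_crd a b).aestronglyMeasurable (Eventually.of_forall fun z => ?_)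
  rw [Real.norm_eq_abs, abs_of_nonneg (crd_nonneg a b z)]
  obtain ⟨h1, h2⟩ := eq_sq_le (fderiv ℝ a z)
  obtain ⟨h3, h4⟩ := eq_sq_le (fderiv ℝ b z)
  simp only [crd, Pi.add_apply]
  nlinarith [sq_nonneg (fderiv ℝ a z 1 + fderiv ℝ b z Complex.I),
    sq_nonneg (fderiv ℝ a z Complex.I - fderiv ℝ b z 1)]

theorem fderiv_re_add (c : ℝ) (z v : ℂ) : fderiv ℝ (fun z : ℂ => z.re + c) z v = v.re := by
  have h : HasFDerivAt (fun z : ℂ => z.re + c) Complex.reCLM z :=
    Complex.reCLM.hasFDerivAt.add_const c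
  rw [h.fderiv]; rfl

theorem fderiv_im_add (c : ℝ) (z v : ℂ) : fderiv ℝ (fun z : ℂ => z.im + c) z v = v.im := by
  have h : HasFDerivAt (fun z : ℂ => z.im + c) Complex.imCLM z :=
    Complex.imCLM.hasFDerivAt.add_const c
  rw [h.fderiv]; rfl

/-- a perturbation that vanishes at the ends keeps `Reg` and `T` -/
theorem eq_pert (hU : IsOpen U) {Λ : Lumps U} {M : Set (ℂ → ℝ)} (hM : Fam Λ M) {r u : ℂ → ℝ}
    (hr : Reg Λ r) (hT : TT Λ M r) (h1 : XX U u) (hb : Bdd U u)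
    (h5 : ∀ q, ∀ η > 0, ∃ n, ∀ z ∈ Λ.W n q, |u z - r z| ≤ η) : Reg Λ u ∧ TT Λ M u := by
  have ho : ∀ q, Λ.osc u q = Λ.osc r q := fun q => by
    obtain ⟨e1, e2⟩ := Λ.lo_congr hb hr.bdd (h5 q)
    simp only [Lumps.osc, e1, e2]
  refine ⟨⟨h1, hb, by simpa only [ho] using hr.sq⟩, h1, ?_⟩
  obtain ⟨_, e, he⟩ := hT
  refine ⟨e, he.l2, fun c hc H hH χ hχ hF => ?_⟩
  have hHc := (hM.reg c hc).xx.comp_C1 hU hH (hM.reg c hc).bdd
  have hd := (h1.sub hU hr.xx).mul_A0 hU Λ hχ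
  have e1 : om U (fun z => (u z - r z) * χ z) (fun z => H (c z)) = 0 := by
    refine om_vanish hU Λ hd hHc fun q η hη => ?_
    obtain ⟨B, hB⟩ := hχ.bdd Λ
    have hB1 : 0 < |B| + 1 := by positivity
    obtain ⟨n, hn⟩ := h5 q (η / (|B| + 1)) (by positivity)
    refine ⟨n, fun z hz => ?_⟩
    rw [abs_mul]
    calc |u z - r z| * |χ z| ≤ η / (|B| + 1) * (|B| + 1) :=
          mul_le_mul (hn z hz) ((hB z (Λ.sub n q hz).1).trans (by linarith [le_abs_self B]))
            (abs_nonneg _) (by positivity)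
      _ = η := by field_simp
  have e2 : (fun z => u z * χ z) = fun z => (u z - r z) * χ z + r z * χ z := by
    funext z; ring
  rw [e2, om_add_left hU hd (hr.xx.mul_A0 hU Λ hχ) hHc, e1, zero_add]
  exact he.le c hc H hH χ hχ hF

theorem InBall.pert {Λ : Lumps U} {a b a' b' : ℂ → ℝ} {q : Λ.E} {c : ℂ} {ρ : ℝ}
    (h : InBall Λ a b q c ρ) (ha : ∀ η > 0, ∃ n, ∀ z ∈ Λ.W n q, |a' z - a z| ≤ η)
    (hb : ∀ η > 0, ∃ n, ∀ z ∈ Λ.W n q, |b' z - b z| ≤ η) : InBall Λ a' b' q c ρ := by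
  intro η hη
  obtain ⟨n₁, h₁⟩ := h (η / 3) (by positivity)
  obtain ⟨n₂, h₂⟩ := ha (η / 3) (by positivity)
  obtain ⟨n₃, h₃⟩ := hb (η / 3) (by positivity)
  refine ⟨max n₁ (max n₂ n₃), fun z hz => ?_⟩
  have e1 := h₁ z (Λ.W_mono (le_max_left _ _) q hz)
  have e2 := h₂ z (Λ.W_mono ((le_max_left _ _).trans (le_max_right _ _)) q hz)
  have e3 := h₃ z (Λ.W_mono ((le_max_right _ _).trans (le_max_right _ _)) q hz)
  have e4 : (⟨a' z, b' z⟩ : ℂ) - c = (⟨a z, b z⟩ - c) + ⟨a' z - a z, b' z - b z⟩ := by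
    apply Complex.ext <;> simp
  have e5 := Complex.norm_le_abs_re_add_abs_im (⟨a' z - a z, b' z - b z⟩ : ℂ)
  rw [e4]
  refine (norm_add_le _ _).trans ?_
  simp only at e5
  linarith

/-- a `C¹` map of the plane that is constant near infinity has degree zero -/
theorem eq_deg0 {a b : ℂ → ℝ} (ha : ContDiff ℝ 1 a) (hb : ContDiff ℝ 1 b) {R c₁ c₂ : ℝ}
    (h : ∀ z : ℂ, R ≤ ‖z‖ → a z = c₁ ∧ b z = c₂) :
    Integrable (wd a b) ∧ ∀ g : ℂ → ℝ, Measurable g → ∀ C : ℝ, (∀ y, |g y| ≤ C) →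
      ∫ z, wd a b z * g ⟨a z, b z⟩ = 0 := by
  have da := ha.continuous_fderiv one_ne_zero
  have db := hb.continuous_fderiv one_ne_zero
  have hi : Integrable (wd a b) := by
    refine Continuous.integrable_of_hasCompactSupport (by unfold wd; fun_prop)
      (HasCompactSupport.intro (isCompact_closedBall 0 R) fun z hz => ?_)
    have h1 : a =ᶠ[𝓝 z] fun _ => c₁ := by
      filter_upwards [Metric.isClosed_closedBall.isOpen_compl.mem_nhds hz] with y hy
      exact (h y (not_le.1 fun h => hy (mem_closedBall_zero_iff.2 h)).le).1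
    simp [wd, h1.fderiv_eq]
  refine ⟨hi, fun g hg C hC => ?_⟩
  refine gi_int_zero (g := fun p : ℝ × ℝ => g ⟨p.1, p.2⟩) hi ha.continuous.aemeasurable
    hb.continuous.aemeasurable (fun f k => ?_)
    (hg.comp Complex.measurableEquivRealProd.symm.measurable) (fun y => hC _)
  obtain ⟨F, hF, hF', -⟩ := gi_prim f
  obtain ⟨K, hK, hK', -⟩ := gi_prim k
  have h1 := om_cpt (U := univ) isOpen_univ (u := fun z => F (a z) - F c₁) (c := fun z => K (b z))
    (((hF.comp ha).sub contDiff_const).locallyLipschitz.locallyLipschitzOn)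
    ((hK.comp hb).locallyLipschitz.locallyLipschitzOn) (isCompact_closedBall 0 R) (subset_univ _)
    (fun z _ hz => by
      rw [(h z (not_le.1 fun h => hz (mem_closedBall_zero_iff.2 h)).le).1, sub_self])
  rw [om, Measure.restrict_univ] at h1
  rw [← h1]
  refine integral_congr_ae (Eventually.of_forall fun z => ?_)
  have e1 := fun w => h90_fderiv_comp (hF.differentiable one_ne_zero (a z)).hasDerivAt
    (ha.differentiable one_ne_zero z) w
  have e2 := fun w => h90_fderiv_comp (hK.differentiable one_ne_zero (b z)).hasDerivAt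
    (hb.differentiable one_ne_zero z) w
  simp only [wd, fderiv_sub_const, e1, e2, hF', hK']
  ring

/-- the union of the discs of positive radius -/
theorem eq_discs {E : Type} {c : E → ℂ} {ρ : E → ℝ} (hρ : L2w ρ) :
    ∃ S : Set ℂ, MeasurableSet S ∧ (∀ q, 0 < ρ q → Metric.closedBall (c q) (ρ q) ⊆ S) ∧
      volume S ≤ ENNReal.ofReal (Real.pi * ∑' q, ρ q ^ 2) := by
  have hc : {q | 0 < ρ q}.Countable := hρ.2.countable_support.mono fun q hq => by
    have : 0 < ρ q := hq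
    simp only [Function.mem_support]
    positivity
  refine ⟨⋃ q ∈ {q | 0 < ρ q}, Metric.closedBall (c q) (ρ q),
    MeasurableSet.biUnion hc fun q _ => measurableSet_closedBall,
    fun q hq => subset_biUnion_of_mem (u := fun q => Metric.closedBall (c q) (ρ q)) hq, ?_⟩
  refine (measure_biUnion_le _ hc _).trans ?_
  refine (ENNReal.tsum_comp_le_tsum_of_injective Subtype.coe_injective
    fun q => volume (Metric.closedBall (c q) (ρ q))).trans (le_of_eq ?_)
  rw [← tsum_mul_left, ENNReal.ofReal_tsum_of_nonneg (fun q => by positivity) (hρ.2.mul_left _)]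
  refine tsum_congr fun q => ?_
  rw [Complex.volume_closedBall, ENNReal.ofReal_mul Real.pi_pos.le, ENNReal.ofReal_pow (hρ.1 q),
    mul_comm]
  congr 1
  exact (ENNReal.ofReal_coe_nnreal (p := NNReal.pi)).symm

end Crest.Agent.R105
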