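import Crest.Agent.R105.EDefs
import Crest.Agent.R105.EQ1

/-! Row 105, END: the renormalised energy of competitors is nonnegative. -/

set_option autoImplicit false

open MeasureTheory Set Filter Topology
open scoped ENNReal

namespace Crest.Agent.R105.End

variable {U : Set ℂ}

theorem pos_XX {s : ℂ → ℝ} (hs : ContDiff ℝ 1 s) (hc : HasCompactSupport s) : XX U s :=
  ⟨hs.locallyLipschitz.locallyLipschitzOn, h67_inf_smooth hc,
    lt_of_le_of_lt (setLIntegral_le_lintegral _ _) (h67_en_smooth hs hc)⟩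

/-- folding at infinity -/
theorem pos_fold {Λ : Lumps U} {ξ v₁ v₂ a b : ℂ → ℝ} (hξ : Cut Λ ξ)
    (h₁ : XX U v₁) (h₂ : XX U v₂) (ha : ∀ z, a z = v₁ z + (1 - ξ z) * z.re)
    (hb : ∀ z, b z = v₂ z + (1 - ξ z) * z.im) :
    ∃ (s₁ s₂ F₁ F₂ : ℂ → ℝ) (R : ℝ) (m : ℂ), ContDiff ℝ 1 s₁ ∧ ContDiff ℝ 1 s₂ ∧
      HasCompactSupport s₁ ∧ HasCompactSupport s₂ ∧ (∀ z, ‖z‖ ≤ Λ.R → s₁ z = 0 ∧ s₂ z = 0) ∧
      ContDiff ℝ 1 F₁ ∧ ContDiff ℝ 1 F₂ ∧
      (∃ R' : ℝ, ∀ z : ℂ, R' ≤ ‖z‖ → F₁ z = m.re ∧ F₂ z = m.im) ∧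
      (∀ z : ℂ, ‖z‖ < R → (a =ᶠ[𝓝 z] fun z => v₁ z + s₁ z) ∧ (b =ᶠ[𝓝 z] fun z => v₂ z + s₂ z) ∧
        (F₁ =ᶠ[𝓝 z] fun z => z.re + m.re) ∧ (F₂ =ᶠ[𝓝 z] fun z => z.im + m.im)) ∧
      (∀ z : ℂ, R ≤ ‖z‖ → z ∈ U ∧ (a =ᶠ[𝓝 z] fun z => z.re + m.re) ∧
        (b =ᶠ[𝓝 z] fun z => z.im + m.im) ∧ (F₁ =ᶠ[𝓝 z] fun z => v₁ z + s₁ z) ∧
        (F₂ =ᶠ[𝓝 z] fun z => v₂ z + s₂ z)) := by
  obtain ⟨R₁, c₁, hR₁⟩ := h₁.inf
  obtain ⟨R₂, c₂, hR₂⟩ := h₂.inf
  obtain ⟨R₃, hR₃⟩ := hξ.cs.isCompact.isBounded.subset_ball (0 : ℂ)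
  set R₀ := |R₁| + |R₂| + |R₃| + |Λ.R| with hR₀
  have hR0 : 0 ≤ R₀ := by positivity
  have hout : ∀ z : ℂ, R₀ < ‖z‖ → v₁ z = c₁ ∧ v₂ z = c₂ ∧ ξ z = 0 ∧ z ∈ U := fun z hz => by
    have e1 := le_abs_self R₁
    have e2 := le_abs_self R₂
    have e3 := le_abs_self R₃
    have e4 := le_abs_self Λ.R
    have f1 := abs_nonneg R₁
    have f2 := abs_nonneg R₂
    have f3 := abs_nonneg R₃
    have f4 := abs_nonneg Λ.R
    refine ⟨hR₁ z (by linarith), hR₂ z (by linarith),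
      image_eq_zero_of_notMem_tsupport fun h => ?_, Λ.far z (by linarith)⟩
    have := mem_ball_zero_iff.1 (hR₃ h)
    linarith
  let η : ContDiffBump (0 : ℂ) := ⟨R₀ + 1, R₀ + 2, by linarith, by linarith⟩
  have hη : ContDiff ℝ 1 η := η.contDiff
  have hξ1 : ContDiff ℝ 1 ξ := hξ.sm.of_le (by simp)
  have hre : ContDiff ℝ 1 fun z : ℂ => z.re := Complex.reCLM.contDiff
  have him : ContDiff ℝ 1 fun z : ℂ => z.im := Complex.imCLM.contDiff
  have hin : ∀ z : ℂ, ‖z‖ < R₀ + 1 → ∀ᶠ y in 𝓝 z, η y = 1 := fun z hz => by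
    filter_upwards [Metric.isOpen_ball.mem_nhds (mem_ball_zero_iff.2 hz)] with y hy
    exact η.one_of_mem_closedBall (Metric.ball_subset_closedBall hy)
  have hfar : ∀ z : ℂ, R₀ + 1 ≤ ‖z‖ → ∀ᶠ y in 𝓝 z, R₀ < ‖y‖ := fun z hz =>
    continuous_norm.continuousAt.eventually (lt_mem_nhds (by linarith))
  refine ⟨fun z => η z * ((1 - ξ z) * z.re), fun z => η z * ((1 - ξ z) * z.im),
    fun z => η z * z.re + c₁, fun z => η z * z.im + c₂, R₀ + 1, ⟨c₁, c₂⟩,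
    hη.mul ((contDiff_const.sub hξ1).mul hre), hη.mul ((contDiff_const.sub hξ1).mul him),
    η.hasCompactSupport.mul_right, η.hasCompactSupport.mul_right,
    fun z hz => by simp [hξ.one z hz], (hη.mul hre).add contDiff_const,
    (hη.mul him).add contDiff_const, ⟨R₀ + 2, fun z hz => ?_⟩, fun z hz => ⟨?_, ?_, ?_, ?_⟩,
    fun z hz => ⟨(hout z (by linarith)).2.2.2, ?_, ?_, ?_, ?_⟩⟩
  · simp [η.zero_of_le_dist (x := z) (by simpa using hz)]
  · filter_upwards [hin z hz] with y hy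
    rw [ha, hy, one_mul]
  · filter_upwards [hin z hz] with y hy
    rw [hb, hy, one_mul]
  · filter_upwards [hin z hz] with y hy
    rw [hy, one_mul]
  · filter_upwards [hin z hz] with y hy
    rw [hy, one_mul]
  · filter_upwards [hfar z hz] with y hy
    rw [ha, (hout y hy).1, (hout y hy).2.2.1]
    ring
  · filter_upwards [hfar z hz] with y hy
    rw [hb, (hout y hy).2.1, (hout y hy).2.2.1]
    ring
  · filter_upwards [hfar z hz] with y hy
    rw [(hout y hy).1, (hout y hy).2.2.1]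
    ring
  · filter_upwards [hfar z hz] with y hy
    rw [(hout y hy).2.1, (hout y hy).2.2.1]
    ring

theorem crd_id (m z : ℂ) : crd (fun z => z.re + m.re) (fun z => z.im + m.im) z = 0 := by
  simp only [crd, fderiv_re_add, fderiv_im_add]
  simp

theorem wd_id (m z : ℂ) : wd (fun z => z.re + m.re) (fun z => z.im + m.im) z = 1 := by
  simp only [wd, fderiv_re_add, fderiv_im_add]
  simp

theorem pos_int (hU : IsOpen U) {Λ : Lumps U} {ξ v₁ v₂ a b : ℂ → ℝ} (hξ : Cut Λ ξ)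
    (h₁ : XX U v₁) (h₂ : XX U v₂) (ha : ∀ z, a z = v₁ z + (1 - ξ z) * z.re)
    (hb : ∀ z, b z = v₂ z + (1 - ξ z) * z.im) : IntegrableOn (crd a b) U := by
  obtain ⟨s₁, s₂, F₁, F₂, R, m, c1, c2, k1, k2, -, -, -, -, hin, hout⟩ :=
    pos_fold hξ h₁ h₂ ha hb
  have i1 := crd_integrableOn (h₁.add hU (pos_XX c1 k1)).en (h₂.add hU (pos_XX c2 k2)).en
  refine Integrable.mono' i1 (measurable_crd a b).aestronglyMeasurable
    (Eventually.of_forall fun z => ?_)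
  rw [Real.norm_eq_abs, abs_of_nonneg (crd_nonneg a b z)]
  by_cases hz : ‖z‖ < R
  · rw [crd_congr (hin z hz).1 (hin z hz).2.1]
  · rw [crd_congr (hout z (not_lt.1 hz)).2.1 (hout z (not_lt.1 hz)).2.2.1, crd_id]
    exact crd_nonneg _ _ _

theorem pos_C1 {Λ : Lumps U} {M : Set (ℂ → ℝ)} {ξ v₁ v₂ a b : ℂ → ℝ} {c : Λ.E → ℂ} {r : Λ.E → ℝ}
    (hc : Ctx Λ M) (hI : ISO Λ M) (hξ : Cut Λ ξ) (h₁ : RT Λ M v₁) (h₂ : RT Λ M v₂)
    (hs : ContDiffOn ℝ 1 v₂ U) (hr : L2w r) (hB : ∀ q, InBall Λ v₁ v₂ q (c q) (r q))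
    (ha : ∀ z, a z = v₁ z + (1 - ξ z) * z.re) (hb : ∀ z, b z = v₂ z + (1 - ξ z) * z.im) :
    0 ≤ (∫ z in U, crd a b z) + 2 * om U v₁ v₂ + 2 * Real.pi * ∑' q, r q ^ 2 := by
  have hU := hc.op
  have hUm := hU.measurableSet
  have hint := pos_int hU hξ h₁.reg.xx h₂.reg.xx ha hb
  obtain ⟨s₁, s₂, F₁, F₂, R, m, c1, c2, k1, k2, h0, d1, d2, ⟨R', hR'⟩, hin, hout⟩ :=
    pos_fold hξ h₁.reg.xx h₂.reg.xx ha hb
  set w₁ : ℂ → ℝ := fun z => v₁ z + s₁ z with hw₁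
  set w₂ : ℂ → ℝ := fun z => v₂ z + s₂ z with hw₂
  have x1 : XX U w₁ := h₁.reg.xx.add hU (pos_XX c1 k1)
  have x2 : XX U w₂ := h₂.reg.xx.add hU (pos_XX c2 k2)
  have hW : ∀ n q, ∀ z ∈ Λ.W n q, w₁ z = v₁ z ∧ w₂ z = v₂ z := fun n q z hz => by
    have := h0 z (mem_ball_zero_iff.1 (Λ.sub n q hz).2).le
    simp only [hw₁, hw₂, this.1, this.2, add_zero, and_self]
  have bd : ∀ {v s : ℂ → ℝ}, Bdd U v → ContDiff ℝ 1 s → HasCompactSupport s →
      Bdd U fun z => v z + s z := fun {v s} ⟨B, hB⟩ hs hk => by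
    obtain ⟨B', hB'⟩ := hs.continuous.bounded_above_of_compact_support hk
    exact ⟨B + B', fun z hz => (abs_add_le _ _).trans (add_le_add (hB z hz) (hB' z))⟩
  have n1 : ∀ q, ∀ η > 0, ∃ n, ∀ z ∈ Λ.W n q, |w₁ z - v₁ z| ≤ η := fun q η hη =>
    ⟨0, fun z hz => by rw [(hW 0 q z hz).1, sub_self, abs_zero]; exact hη.le⟩
  have n2 : ∀ q, ∀ η > 0, ∃ n, ∀ z ∈ Λ.W n q, |w₂ z - v₂ z| ≤ η := fun q η hη =>
    ⟨0, fun z hz => by rw [(hW 0 q z hz).2, sub_self, abs_zero]; exact hη.le⟩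
  obtain ⟨r1, t1⟩ := eq_pert hU hc.fam h₁.reg h₁.tt x1 (bd h₁.reg.bdd c1 k1) n1
  obtain ⟨r2, t2⟩ := eq_pert hU hc.fam h₂.reg h₂.tt x2 (bd h₂.reg.bdd c2 k2) n2
  obtain ⟨S, hS, hSB, hSv⟩ := eq_discs (c := c) hr
  set h : ℂ → ℝ := S.indicator 1 with hh
  have hm : Measurable h := measurable_one.indicator hS
  have h01 : ∀ y, h y = 0 ∨ h y = 1 := fun y => by
    by_cases hy : y ∈ S
    · exact Or.inr (indicator_of_mem hy _)
    · exact Or.inl (indicator_of_notMem hy _)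
  have hb1 : ∀ y, |h y| ≤ 1 := fun y => by rcases h01 y with e | e <;> simp [e]
  have iso := hI w₁ w₂ c r r1 t1 r2 t2 (hs.add c2.contDiffOn) hr
    (fun q => (hB q).pert (n1 q) (n2 q)) (fun y => 1 - h y) (measurable_const.sub hm)
    ⟨1, fun y => by rcases h01 y with e | e <;> simp [e]⟩
    (fun q hq y hy => by rw [hh, indicator_of_mem (hSB q hq hy)]; simp)
  have iw := wd_integrableOn x1.en x2.en
  have mw : AEStronglyMeasurable (fun z => h ⟨w₁ z, w₂ z⟩) (volume.restrict U) :=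
    ((hm.comp Complex.measurableEquivRealProd.symm.measurable).comp_aemeasurable
      ((x1.lip.continuousOn.aemeasurable hUm).prodMk
        (x2.lip.continuousOn.aemeasurable hUm))).aestronglyMeasurable
  have iwh : IntegrableOn (fun z => wd w₁ w₂ z * h ⟨w₁ z, w₂ z⟩) U :=
    iw.mul_bdd (c := 1) mw (Eventually.of_forall fun z => hb1 _)
  have e1 : om U v₁ v₂ = ∫ z in U, wd w₁ w₂ z * h ⟨w₁ z, w₂ z⟩ := by
    rw [← om_germ_congr hU Λ x1 h₁.reg.xx x2 h₂.reg.xx fun q => ⟨0, 0, 0,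
      fun z hz => by rw [(hW 0 q z hz).1, add_zero], fun z hz => by rw [(hW 0 q z hz).2, add_zero]⟩]
    simp only [mul_sub, mul_one] at iso
    rw [integral_sub iw iwh] at iso
    unfold om
    linarith
  obtain ⟨iF, dF⟩ := eq_deg0 d1 d2 hR'
  have dF' := dF h hm 1 hb1
  have iFh : Integrable fun z => wd F₁ F₂ z * h ⟨F₁ z, F₂ z⟩ :=
    iF.mul_bdd (c := 1) ((hm.comp Complex.measurableEquivRealProd.symm.measurable).comp
      (d1.continuous.measurable.prodMk d2.continuous.measurable)).aestronglyMeasurable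
      (Eventually.of_forall fun z => hb1 _)
  have ih : Integrable h := (integrable_indicator_iff hS).2
    (integrableOn_const (hSv.trans_lt ENNReal.ofReal_lt_top).ne)
  have ih' : Integrable fun z => h (z + m) := ih.comp_add_right m
  have e2 : ∫ z, h (z + m) ≤ Real.pi * ∑' q, r q ^ 2 := by
    rw [integral_add_right_eq_self h m, hh, integral_indicator_one hS]
    exact ENNReal.toReal_le_of_le_ofReal
      (mul_nonneg Real.pi_pos.le (tsum_nonneg fun q => sq_nonneg _)) hSv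
  have key : ∀ z, 2 * (wd F₁ F₂ z * h ⟨F₁ z, F₂ z⟩) - 2 * h (z + m) ≤
      U.indicator (fun z => crd a b z + 2 * (wd w₁ w₂ z * h ⟨w₁ z, w₂ z⟩)) z := fun z => by
    by_cases hz : ‖z‖ < R
    · obtain ⟨p1, p2, p3, p4⟩ := hin z hz
      have q1 : (⟨F₁ z, F₂ z⟩ : ℂ) = z + m := by
        rw [p3.eq_of_nhds, p4.eq_of_nhds]; rfl
      rw [wd_congr p3 p4, wd_id, q1, one_mul, sub_self]
      by_cases hzU : z ∈ U
      · rw [indicator_of_mem hzU, crd_congr p1 p2]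
        rcases h01 ⟨w₁ z, w₂ z⟩ with e | e <;> rw [e]
        · linarith [crd_nonneg w₁ w₂ z]
        · linarith [crd_add_wd w₁ w₂ z]
      · rw [indicator_of_notMem hzU]
    · obtain ⟨p0, p1, p2, p3, p4⟩ := hout z (not_lt.1 hz)
      rw [indicator_of_mem p0, crd_congr p1 p2, crd_id, wd_congr p3 p4, p3.eq_of_nhds,
        p4.eq_of_nhds]
      rcases h01 (z + m) with e | e <;> simp [e]
  have e3 : ∫ z, (2 * (wd F₁ F₂ z * h ⟨F₁ z, F₂ z⟩) - 2 * h (z + m)) ≤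
      ∫ z, U.indicator (fun z => crd a b z + 2 * (wd w₁ w₂ z * h ⟨w₁ z, w₂ z⟩)) z :=
    integral_mono ((iFh.const_mul 2).sub (ih'.const_mul 2))
    ((hint.add (iwh.const_mul 2)).integrable_indicator hUm) key
  rw [integral_sub (iFh.const_mul 2) (ih'.const_mul 2), integral_const_mul, integral_const_mul,
    dF', integral_indicator hUm, integral_add hint (iwh.const_mul 2), integral_const_mul,
    ← e1] at e3
  linarith

theorem pos_pt (p q x y t : ℝ) (ht : 0 < t) :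
    (p - y) ^ 2 + (q + x) ^ 2 ≤ (1 + t) * (p ^ 2 + q ^ 2) + (1 + 1 / t) * (x ^ 2 + y ^ 2) := by
  have h1 : -(2 * p * y) ≤ t * p ^ 2 + 1 / t * y ^ 2 := by
    have : t * p ^ 2 + 1 / t * y ^ 2 + 2 * p * y = (t * p + y) ^ 2 / t := by
      field_simp; ring
    have h : 0 ≤ (t * p + y) ^ 2 / t := by positivity
    linarith
  have h2 : 2 * q * x ≤ t * q ^ 2 + 1 / t * x ^ 2 := by
    have : t * q ^ 2 + 1 / t * x ^ 2 - 2 * q * x = (t * q - x) ^ 2 / t := by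
      field_simp; ring
    have h : 0 ≤ (t * q - x) ^ 2 / t := by positivity
    linarith
  nlinarith

theorem pos : Pos := by
  intro U Λ M ξ v₁ v₂ a b c r hc hI hξ h₁ h₂ hr hB ha hb
  have hU := hc.op
  have hUm := hU.measurableSet
  show 0 ≤ (∫ z in U, crd a b z) + 2 * om U v₁ v₂ + 2 * Real.pi * ∑' q, r q ^ 2
  have hint := pos_int hU hξ h₁.reg.xx h₂.reg.xx ha hb
  set A := ∫ z in U, crd a b z with hA
  set D := Real.sqrt (En U v₁).toReal with hD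
  have key : ∀ t > 0, ∀ ε > 0, 0 ≤ (1 + t) * A + (1 + 1 / t) * (2 * ε ^ 2) +
      2 * (om U v₁ v₂ + D * ε) + 2 * Real.pi * ∑' q, r q ^ 2 := fun t ht ε hε => by
    obtain ⟨u, u1, u2, u3, u4, u5⟩ := exists_smooth hU Λ h₂.reg.xx (ε := ε ^ 2) (by positivity)
    have ub : Bdd U u := by
      obtain ⟨B, hB⟩ := h₂.reg.bdd
      refine ⟨B + ε ^ 2, fun z hz => ?_⟩
      have := abs_add_le (u z - v₂ z) (v₂ z)
      rw [sub_add_cancel] at this
      linarith [u3 z hz, hB z hz]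
    obtain ⟨r2, t2⟩ := eq_pert hU hc.fam h₂.reg h₂.tt u1 ub u5
    set b' : ℂ → ℝ := fun z => u z + (1 - ξ z) * z.im with hb'
    have h3 := pos_C1 hc hI hξ h₁ ⟨r2, t2⟩ (u2.of_le (by simp)) hr
      (fun q => (hB q).pert (fun η hη => ⟨0, fun z _ => by simpa using hη.le⟩) (u5 q)) ha
      (b := b') fun z => rfl
    set d : ℂ → ℝ := fun z => u z - v₂ z with hd
    have xd : XX U d := u1.sub hU h₂.reg.xx
    have ed : (En U d).toReal ≤ ε ^ 2 := ENNReal.toReal_le_of_le_ofReal (by positivity) u4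
    have e1 : om U v₁ u ≤ om U v₁ v₂ + D * ε := by
      have f1 := om_sub_right hU h₁.reg.xx u1 h₂.reg.xx
      have f2 := abs_om_le h₁.reg.xx.en xd.en
      have f3 : Real.sqrt (En U d).toReal ≤ ε := Real.sqrt_le_iff.2 ⟨hε.le, ed⟩
      have f4 := mul_le_mul_of_nonneg_left f3 (Real.sqrt_nonneg (En U v₁).toReal)
      linarith [le_abs_self (om U v₁ d)]
    obtain ⟨id1, id2⟩ := h49_sq_int xd.en
    have e2 : ∫ z in U, crd a b' z ≤
        ∫ z in U, ((1 + t) * crd a b z + (1 + 1 / t) * (2 * ‖fderiv ℝ d z‖ ^ 2)) := by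
      refine integral_mono_ae (pos_int hU hξ h₁.reg.xx u1 ha fun z => rfl)
        ((hint.const_mul _).add ((id1.const_mul 2).const_mul _)) ?_
      rw [EventuallyLE, ae_restrict_iff' hUm]
      filter_upwards [ae_diff hU h₂.reg.xx.lip, ae_diff hU xd.lip] with z g1 g2 hz
      have g3 : DifferentiableAt ℝ b z := by
        rw [show b = fun z => v₂ z + (1 - ξ z) * z.im from funext hb]
        exact (g1 hz).add (((differentiableAt_const _).sub
          (hξ.sm.differentiable (by simp) z)).mul Complex.imCLM.differentiableAt)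
      have g4 : fderiv ℝ b' z = fderiv ℝ b z + fderiv ℝ d z := by
        rw [← fderiv_fun_add g3 (g2 hz)]
        congr 1
        funext y
        simp only [hb', hd, hb]
        ring
      obtain ⟨g5, g6⟩ := eq_sq_le (fderiv ℝ d z)
      have g7 := pos_pt (fderiv ℝ a z 1 - fderiv ℝ b z Complex.I)
        (fderiv ℝ a z Complex.I + fderiv ℝ b z 1) (fderiv ℝ d z 1) (fderiv ℝ d z Complex.I) t ht
      have g8 : (1 + 1 / t) * (fderiv ℝ d z 1 ^ 2 + fderiv ℝ d z Complex.I ^ 2) ≤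
          (1 + 1 / t) * (2 * ‖fderiv ℝ d z‖ ^ 2) :=
        mul_le_mul_of_nonneg_left (by linarith) (by positivity)
      simp only [crd, g4, ContinuousLinearMap.add_apply, ← sub_sub, ← add_assoc]
      linarith
    rw [integral_add (hint.const_mul _) ((id1.const_mul 2).const_mul _), integral_const_mul,
      integral_const_mul, integral_const_mul, id2] at e2
    have e3 : (1 + 1 / t) * (2 * (En U d).toReal) ≤ (1 + 1 / t) * (2 * ε ^ 2) :=
      mul_le_mul_of_nonneg_left (by linarith) (by positivity)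
    linarith
  have k2 : ∀ t > 0, 0 ≤ (1 + t) * A + 2 * om U v₁ v₂ + 2 * Real.pi * ∑' q, r q ^ 2 :=
    fun t ht => by
    have hcont : Continuous fun ε : ℝ => (1 + t) * A + (1 + 1 / t) * (2 * ε ^ 2) +
        2 * (om U v₁ v₂ + D * ε) + 2 * Real.pi * ∑' q, r q ^ 2 := by fun_prop
    have := ge_of_tendsto ((hcont.tendsto 0).mono_left (nhdsWithin_le_nhds (s := Ioi 0)))
      (eventually_mem_nhdsWithin.mono fun ε hε => key t ht ε hε)
    simpa using this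
  have hcont : Continuous fun t : ℝ =>
      (1 + t) * A + 2 * om U v₁ v₂ + 2 * Real.pi * ∑' q, r q ^ 2 := by fun_prop
  have := ge_of_tendsto ((hcont.tendsto 0).mono_left (nhdsWithin_le_nhds (s := Ioi 0)))
    (eventually_mem_nhdsWithin.mono fun t ht => k2 t ht)
  simpa using this

end Crest.Agent.R105.End
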