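import Crest.Agent.R105.E2El
import Crest.Agent.R105.EPos

/-! Row 105, block END, stage 3: holomorphic calculus, folding at infinity, transfer. -/

set_option autoImplicit false

open MeasureTheory Set Filter Topology
open scoped ENNReal

namespace Crest.Agent.R105.End

variable {U : Set ℂ} {Λ : Lumps U} {M : Set (ℂ → ℝ)} {f : ℂ → ℂ} {ξ : ℂ → ℝ} {c : Λ.E → ℂ}
  {ρ : Λ.E → ℝ}

theorem h80_comp {z : ℂ} (hf : DifferentiableAt ℂ f z) {ψ : ℂ → ℝ}
    (hψ : DifferentiableAt ℝ ψ (f z)) (v : ℂ) : fderiv ℝ (fun z => ψ (f z)) z v =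
      (v * deriv f z).re * fderiv ℝ ψ (f z) 1 + (v * deriv f z).im * fderiv ℝ ψ (f z) Complex.I := by
  have h1 : HasFDerivAt f
      ((ContinuousLinearMap.toSpanSingleton ℂ (deriv f z)).restrictScalars ℝ) z :=
    hf.hasDerivAt.hasFDerivAt.restrictScalars ℝ
  have h3 : fderiv ℝ (fun w => ψ (f w)) z = _ := (hψ.hasFDerivAt.comp z h1).fderiv
  rw [h3, ← h99_clm_apply, Complex.re_add_im]
  simp

theorem h80_det (a : ℂ) :
    |((ContinuousLinearMap.toSpanSingleton ℂ a).restrictScalars ℝ).det| = ‖a‖ ^ 2 := by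
  simp [ContinuousLinearMap.det, LinearMap.det_restrictScalars, Algebra.norm_complex_eq,
    Complex.normSq_eq_norm_sq]

/-- chain rule with `fderiv ℝ f z v = v * deriv f z` -/
theorem hol_wd {z : ℂ} (hf : DifferentiableAt ℂ f z) {ψ : ℂ → ℝ}
    (hψ : DifferentiableAt ℝ ψ (f z)) :
    wd (fun z => ψ (f z)) (fun z => (f z).im) z = fderiv ℝ ψ (f z) 1 * ‖deriv f z‖ ^ 2 ∧
      wd (fun z => ψ (f z)) (fun z => (f z).re) z =
        -(fderiv ℝ ψ (f z) Complex.I * ‖deriv f z‖ ^ 2) ∧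
      wd (fun z => (f z).re) (fun z => (f z).im) z = ‖deriv f z‖ ^ 2 := by
  have hre : ∀ v, fderiv ℝ (fun z => (f z).re) z v = (v * deriv f z).re := fun v => by
    have := h80_comp hf (ψ := Complex.reCLM) Complex.reCLM.differentiableAt v
    rw [ContinuousLinearMap.fderiv] at this
    simpa using this
  have him : ∀ v, fderiv ℝ (fun z => (f z).im) z v = (v * deriv f z).im := fun v => by
    have := h80_comp hf (ψ := Complex.imCLM) Complex.imCLM.differentiableAt v
    rw [ContinuousLinearMap.fderiv] at this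
    simpa using this
  rw [← Complex.normSq_eq_norm_sq, Complex.normSq_apply]
  simp only [wd, hre, him, h80_comp hf hψ, Complex.mul_re, Complex.mul_im, Complex.one_re,
    Complex.one_im, Complex.I_re, Complex.I_im]
  refine ⟨by ring, by ring, by ring⟩

/-- `f z - z` is bounded near infinity -/
theorem far_bd (h : ∃ b : ℂ, Tendsto (fun z => f z - z) (cocompact ℂ) (𝓝 b)) :
    ∃ R C : ℝ, 0 ≤ C ∧ ∀ z : ℂ, R ≤ ‖z‖ → ‖f z - z‖ ≤ C := by
  obtain ⟨b, hb⟩ := h
  have h1 := hb.eventually (Metric.closedBall_mem_nhds b one_pos)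
  obtain ⟨K, hK, h2⟩ := mem_cocompact.1 h1
  obtain ⟨R, hR⟩ := hK.isBounded.subset_ball (0 : ℂ)
  refine ⟨R, ‖b‖ + 1, by positivity, fun z hz => ?_⟩
  have h3 : f z - z ∈ Metric.closedBall b 1 :=
    h2 fun hzK => absurd (mem_ball_zero_iff.1 (hR hzK)) (not_lt.2 hz)
  exact norm_le_norm_add_const_of_dist_le h3

/-- `addHaar_image_le_lintegral_abs_det_fderiv` (determinant as in `area_formula`, APic.lean) -/
theorem area_le (hU : IsOpen U) (hf : DifferentiableOn ℂ f U) {V : Set ℂ} (hV : MeasurableSet V)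
    (hVU : V ⊆ U) : volume (f '' V) ≤ ∫⁻ z in V, ENNReal.ofReal (‖deriv f z‖ ^ 2) := by
  have := addHaar_image_le_lintegral_abs_det_fderiv (volume : Measure ℂ) hV
    (f := f) (f' := fun z => (ContinuousLinearMap.toSpanSingleton ℂ (deriv f z)).restrictScalars ℝ)
    (fun z hz => ((hf.differentiableAt
      (hU.mem_nhds (hVU hz))).hasDerivAt.hasFDerivAt.restrictScalars ℝ).hasFDerivWithinAt)
  simpa only [h80_det] using this

/-- `integral_image_eq_integral_abs_det_fderiv_smul` -/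
theorem area_int (hU : IsOpen U) (hf : DifferentiableOn ℂ f U) (hi : InjOn f U) (g : ℂ → ℝ) :
    ∫ y in f '' U, g y = ∫ z in U, ‖deriv f z‖ ^ 2 * g (f z) := by
  have := integral_image_eq_integral_abs_det_fderiv_smul (volume : Measure ℂ) hU.measurableSet
    (f := f) (f' := fun z => (ContinuousLinearMap.toSpanSingleton ℂ (deriv f z)).restrictScalars ℝ)
    (fun z hz => ((hf.differentiableAt
      (hU.mem_nhds hz)).hasDerivAt.hasFDerivAt.restrictScalars ℝ).hasFDerivWithinAt) hi g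
  simpa only [h80_det, smul_eq_mul] using this

/-- `AnalyticOnNhd.is_constant_or_isOpen`; `f` is not constant by `far_bd`, `Λ.far` -/
theorem open_map (hc : Ctx Λ M) (hp : EPic Λ M f ξ c ρ) {V : Set ℂ} (hV : IsOpen V)
    (hVU : V ⊆ U) : IsOpen (f '' V) := by
  rcases (hp.hol.analyticOnNhd hc.op).is_constant_or_isOpen hc.conn with ⟨w, hw⟩ | hw
  · exfalso
    obtain ⟨R, C, hC, h⟩ := far_bd hp.inf
    set t : ℝ := |R| + |Λ.R| + C + ‖w‖ + 1 with ht
    have h0 : 0 ≤ t := by positivity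
    have h1 : ‖(t : ℂ)‖ = t := by rw [Complex.norm_real, Real.norm_eq_abs, abs_of_nonneg h0]
    have a1 := le_abs_self R
    have a2 := le_abs_self Λ.R
    have a3 := abs_nonneg R
    have a4 := abs_nonneg Λ.R
    have a5 := norm_nonneg w
    have h2 := h t (by rw [h1]; linarith)
    rw [hw t (Λ.far _ (by rw [h1]; linarith))] at h2
    have h3 := norm_sub_norm_le (t : ℂ) w
    rw [norm_sub_rev, h1] at h3
    linarith
  · exact hw V hVU hV

theorem h51_xx_diff (hU : IsOpen U) {ξ ξ' x : ℂ → ℝ} (h : Cut Λ ξ) (h' : Cut Λ ξ')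
    (hx : ContDiffOn ℝ 1 x U) (hxx : XX U (fun z => ξ z * x z)) :
    XX U (fun z => ξ' z * x z) := by
  have h1 : ContDiff ℝ 1 (fun z => (ξ' z - ξ z) * x z) := by
    refine contDiff_iff_contDiffAt.2 fun z => ?_
    by_cases hz : Λ.R ≤ ‖z‖
    · exact ((h'.sm.of_le (by simp)).sub (h.sm.of_le (by simp))).contDiffAt.mul
        (hx.contDiffAt (hU.mem_nhds (Λ.far z hz)))
    · have hz' : z ∈ Metric.ball (0 : ℂ) Λ.R := mem_ball_zero_iff.2 (not_le.1 hz)
      refine (contDiffAt_const (c := (0 : ℝ))).congr_of_eventuallyEq ?_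
      filter_upwards [Metric.isOpen_ball.mem_nhds hz'] with w hw
      have hw' := (mem_ball_zero_iff.1 hw).le
      rw [h.one w hw', h'.one w hw', sub_self, zero_mul]
  have h2 : HasCompactSupport (fun z => (ξ' z - ξ z) * x z) := (h'.cs.sub h.cs).mul_right
  have h3 := hxx.add hU (pos_XX (U := U) h1 h2)
  convert h3 using 2 with z
  ring

/-- a larger cut-off: `w = ξ' f` with `ξ' = 1` on the disc of radius `R + 1`; `w - ξ f` is `C¹` on
the plane, compactly supported and zero on the disc of radius `Λ.R` -/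
theorem e3_cut (hc : Ctx Λ M) (hp : EPic Λ M f ξ c ρ) (R : ℝ) :
    ∃ ξ' : ℂ → ℝ, Cut Λ ξ' ∧ (∀ z : ℂ, ‖z‖ ≤ R + 1 → ξ' z = 1) ∧ XX U (reC ξ' f) ∧
      XX U (imC ξ' f) := by
  let g : ContDiffBump (0 : ℂ) :=
    ⟨|Λ.R| + |R| + 1, |Λ.R| + |R| + 2, by positivity, by linarith⟩
  have hone : ∀ z : ℂ, ‖z‖ ≤ |Λ.R| + |R| + 1 → g z = 1 := fun z hz =>
    g.one_of_mem_closedBall (mem_closedBall_zero_iff.2 hz)
  have hg : Cut Λ g := ⟨g.contDiff, g.hasCompactSupport, fun z hz =>
    hone z (by linarith [le_abs_self Λ.R, abs_nonneg R])⟩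
  have hf : ContDiffOn ℝ 1 f U := (hp.hol.contDiffOn (n := 1) hc.op).restrict_scalars ℝ
  exact ⟨g, hg, fun z hz => hone z (by linarith [le_abs_self R, abs_nonneg Λ.R]),
    h51_xx_diff hc.op hp.cut hg (Complex.reCLM.contDiff.comp_contDiffOn hf) hp.elb.xa,
    h51_xx_diff hc.op hp.cut hg (Complex.imCLM.contDiff.comp_contDiffOn hf) hp.elb.xb⟩

theorem h51_om_cut {φ ξ' x : ℂ → ℝ} {R : ℝ} (h0 : ∀ z : ℂ, R ≤ ‖z‖ → φ z = 0)
    (h1 : ∀ z : ℂ, ‖z‖ ≤ R + 1 → ξ' z = 1) : om U φ x = om U φ (fun z => ξ' z * x z) := by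
  unfold om
  congr 1
  funext z
  by_cases hz : ‖z‖ < R + 1
  · refine wd_congr EventuallyEq.rfl ?_
    filter_upwards [Metric.isOpen_ball.mem_nhds (mem_ball_zero_iff.2 hz)] with w hw
    rw [h1 w (mem_ball_zero_iff.1 hw).le, one_mul]
  · have ho : IsOpen {w : ℂ | R < ‖w‖} := isOpen_lt continuous_const continuous_norm
    have e : φ =ᶠ[𝓝 z] fun _ => 0 := by
      filter_upwards [ho.mem_nhds (show R < ‖z‖ by linarith [not_lt.1 hz])] with w hw
      exact h0 w (le_of_lt hw)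
    simp [wd, e.fderiv_eq]

/-- transfer: a test function vanishing near infinity may be paired with `f` itself.  `e3_cut`,
`om_germ_congr`, and `wd φ (Im f) = wd φ (imC ξ' f)` pointwise (`wd_congr`) -/
theorem e3_tr (hc : Ctx Λ M) (hp : EPic Λ M f ξ c ρ) {φ : ℂ → ℝ} (hφ : XX U φ) {R : ℝ}
    (h0 : ∀ z : ℂ, R ≤ ‖z‖ → φ z = 0) :
    om U φ (fun z => (f z).im) = om U φ (imC ξ f) ∧
      om U φ (fun z => (f z).re) = om U φ (reC ξ f) := by
  obtain ⟨ξ', hξ', h1, hre, him⟩ := e3_cut hc hp R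
  constructor
  · rw [h51_om_cut h0 h1]
    exact om_germ_congr hc.op Λ hφ hφ him hp.elb.xb fun q => ⟨0, 0, 0, fun z _ => by simp,
      fun z hz => by simp [imC, hξ'.lump hz, hp.cut.lump hz]⟩
  · rw [h51_om_cut h0 h1]
    exact om_germ_congr hc.op Λ hφ hφ hre hp.elb.xa fun q => ⟨0, 0, 0, fun z _ => by simp,
      fun z hz => by simp [reC, hξ'.lump hz, hp.cut.lump hz]⟩

/-- `ψ ∘ f = cp ψ (reC ξ' f) (imC ξ' f) * η` for a smooth bump `η` (`xx_cp`, `LC1.of_cpt`,
`XX.mul`, `pos_XX`, `far_bd`) -/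
theorem e3_xx (hc : Ctx Λ M) (hp : EPic Λ M f ξ c ρ) {ψ : ℂ → ℝ} (hψ : ContDiff ℝ 1 ψ)
    (hs : HasCompactSupport ψ) : XX U (fun z => ψ (f z)) ∧ Bdd U (fun z => ψ (f z)) ∧
      ∃ R : ℝ, ∀ z : ℂ, R ≤ ‖z‖ → ψ (f z) = 0 := by
  obtain ⟨S, hS⟩ := hs.isCompact.isBounded.subset_ball (0 : ℂ)
  obtain ⟨R₀, C, -, hC⟩ := far_bd hp.inf
  set R : ℝ := max (max R₀ (S + C)) (|Λ.R| + 1) with hR
  have hR1 : |Λ.R| + 1 ≤ R := le_max_right _ _
  have hR0 : 0 < R := lt_of_lt_of_le (by positivity) hR1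
  have h0 : ∀ z : ℂ, R ≤ ‖z‖ → ψ (f z) = 0 := by
    intro z hz
    have h1 := hC z (((le_max_left _ _).trans (le_max_left _ _)).trans hz)
    have h2 : S + C ≤ ‖z‖ := ((le_max_right _ _).trans (le_max_left _ _)).trans hz
    refine image_eq_zero_of_notMem_tsupport fun h => ?_
    have h3 := mem_ball_zero_iff.1 (hS h)
    have h4 := norm_sub_norm_le z (f z)
    rw [norm_sub_rev] at h4
    linarith
  have hL := LC1.of_cpt hψ hs
  obtain ⟨ξ', -, h1, hre, him⟩ := e3_cut hc hp R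
  let η : ContDiffBump (0 : ℂ) := ⟨R, R + 1, hR0, by linarith⟩
  have hη : Cut Λ η := ⟨η.contDiff, η.hasCompactSupport, fun z hz => η.one_of_mem_closedBall (by
    rw [mem_closedBall_zero_iff]
    change ‖z‖ ≤ R
    linarith [le_abs_self Λ.R])⟩
  have e : (fun z => ψ (f z)) = fun z => cp ψ (reC ξ' f) (imC ξ' f) z * η z := by
    funext z
    by_cases hz : ‖z‖ ≤ R + 1
    · have e1 : cp ψ (reC ξ' f) (imC ξ' f) z = ψ (f z) := by
        simp only [cp, reC, imC, h1 z hz, one_mul]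
      rw [e1]
      by_cases hz' : ‖z‖ ≤ R
      · rw [η.one_of_mem_closedBall (mem_closedBall_zero_iff.2 hz'), mul_one]
      · rw [h0 z (not_le.1 hz').le, zero_mul]
    · rw [h0 z (by linarith [not_le.1 hz]), η.zero_of_le_dist (by
        rw [dist_zero_right]; exact (not_le.1 hz).le), mul_zero]
  refine ⟨?_, ?_, R, h0⟩
  · rw [e]
    exact XX.mul_A0 hc.op Λ (xx_cp hc.op hL hre him) (hη.a0 hc.op).1
  · obtain ⟨B, hB⟩ := hL.bd
    exact ⟨B, fun z _ => hB _⟩

theorem h99_om_prim (hU : IsOpen U) {a b : ℂ → ℝ} (ha : XX U a) (hb : XX U b) {F K : ℝ → ℝ}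
    (hF : ContDiff ℝ 1 F) (hK : ContDiff ℝ 1 K) :
    om U (fun z => F (a z)) (fun z => K (b z)) =
      ∫ z in U, wd a b z * (deriv F (a z) * deriv K (b z)) := by
  rw [om_comp_right hU hK hb.lip]
  refine setIntegral_congr_ae hU.measurableSet ?_
  filter_upwards [ae_diff hU ha.lip] with z hz hzU
  have h2 : fderiv ℝ (fun z => F (a z)) z = deriv F (a z) • fderiv ℝ a z :=
    (((hF.differentiable one_ne_zero (a z)).hasDerivAt).comp_hasFDerivAt z
      (hz hzU).hasFDerivAt).fderiv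
  simp only [wd, h2, _root_.smul_apply, smul_eq_mul]
  ring

theorem deg_germ (hU : IsOpen U) (Λ : Lumps U) {a b a' b' : ℂ → ℝ} (ha : XX U a) (hb : XX U b)
    (ha' : XX U a') (hb' : XX U b') (h : ∀ q, ∀ z ∈ Λ.W 0 q, a z = a' z ∧ b z = b' z)
    {g : ℂ → ℝ} (hg : Measurable g) {C : ℝ} (hC : ∀ y, |g y| ≤ C) :
    ∫ z in U, wd a b z * g ⟨a z, b z⟩ = ∫ z in U, wd a' b' z * g ⟨a' z, b' z⟩ := by
  obtain ⟨n, -, hn, hr⟩ := exists_deg hU ha hb
  obtain ⟨n', -, hn', hr'⟩ := exists_deg hU ha' hb'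
  have key : ∀ g : ℂ → ℝ, Measurable g → ∀ C : ℝ, (∀ y, |g y| ≤ C) →
      ∫ y, ((n y : ℝ) - n' y) * g y =
        (∫ z in U, wd a b z * g ⟨a z, b z⟩) - ∫ z in U, wd a' b' z * g ⟨a' z, b' z⟩ := by
    intro g hg C hC
    rw [hr g hg ⟨C, hC⟩, hr' g hg ⟨C, hC⟩, ← integral_sub
      (hn.mul_bdd hg.aestronglyMeasurable (Eventually.of_forall hC))
      (hn'.mul_bdd hg.aestronglyMeasurable (Eventually.of_forall hC))]
    simp only [sub_mul]
  rw [← sub_eq_zero, ← key g hg C hC]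
  refine gi_int_zero (μ := volume) (w := fun y => (n y : ℝ) - n' y) (a := Complex.re)
    (b := Complex.im) (hn.sub hn') Complex.measurable_re.aemeasurable
    Complex.measurable_im.aemeasurable (fun f k => ?_) (g := fun p => g ⟨p.1, p.2⟩)
    (hg.comp Complex.measurableEquivRealProd.symm.measurable) fun y => hC _
  obtain ⟨F, hF1, hF2, hF3⟩ := gi_prim f
  obtain ⟨K, hK1, hK2, hK3⟩ := gi_prim k
  have hm : Measurable fun y : ℂ => f y.re * k y.im := by fun_prop
  rw [key (fun y => f y.re * k y.im) hm (‖f‖ * ‖k‖) fun y => by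
    rw [abs_mul]
    exact mul_le_mul (f.norm_coe_le_norm _) (k.norm_coe_le_norm _) (abs_nonneg _) (norm_nonneg _)]
  have e1 := h99_om_prim hU ha hb hF1 hK1
  have e2 := h99_om_prim hU ha' hb' hF1 hK1
  simp only [hF2, hK2] at e1 e2
  rw [← e1, ← e2, sub_eq_zero]
  exact om_germ_congr hU Λ (XX.comp_lip hU hF3 ha) (XX.comp_lip hU hF3 ha')
    (XX.comp_lip hU hK3 hb) (XX.comp_lip hU hK3 hb') fun q => ⟨0, 0, 0,
      fun z hz => by rw [(h q z hz).1, add_zero], fun z hz => by rw [(h q z hz).2, add_zero]⟩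

/-- folding at infinity: `F = ξ' (θ f + (1 - θ) z)` has degree zero (`eq_deg0`) -/
theorem e3_fold (hc : Ctx Λ M) (hp : EPic Λ M f ξ c ρ) {g : ℂ → ℝ} (hg : Measurable g) {C S : ℝ}
    (hC : ∀ y, |g y| ≤ C) (hS : ∀ y, S < ‖y‖ → g y = 0) :
    IntegrableOn (fun z => ‖deriv f z‖ ^ 2 * g (f z)) U ∧
      ∫ z in U, ‖deriv f z‖ ^ 2 * g (f z) = (∫ y, g y) +
        ∫ z in U, wd (reC ξ f) (imC ξ f) z * g ⟨reC ξ f z, imC ξ f z⟩ := by
  have hU := hc.op
  have hUm := hU.measurableSet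
  obtain ⟨R₁, D, hD0, hD⟩ := far_bd hp.inf
  set R₀ := |R₁| + |Λ.R| + |S| + D + 1 with hR₀
  have hR0 : 0 < R₀ := by positivity
  have hout : ∀ z : ℂ, R₀ ≤ ‖z‖ → z ∈ U ∧ ‖f z - z‖ ≤ D ∧ S < ‖z‖ - D := fun z hz => by
    have e1 := le_abs_self R₁
    have e2 := le_abs_self Λ.R
    have e3 := le_abs_self S
    have f1 := abs_nonneg R₁
    have f2 := abs_nonneg Λ.R
    have f3 := abs_nonneg S
    exact ⟨Λ.far z (by linarith), hD z (by linarith), by linarith⟩
  let η : ContDiffBump (0 : ℂ) := ⟨R₀ + 1, R₀ + 2, by linarith, by linarith⟩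
  have hη : ContDiff ℝ 1 η := η.contDiff
  obtain ⟨ξ', hξ', h1, x1, x2⟩ := e3_cut hc hp (R₀ + 3)
  have hξ1 : ContDiff ℝ 1 ξ' := hξ'.sm.of_le (by simp)
  have hin : ∀ z : ℂ, ‖z‖ < R₀ + 1 → ∀ᶠ y in 𝓝 z, η y = 1 := fun z hz => by
    filter_upwards [Metric.isOpen_ball.mem_nhds (mem_ball_zero_iff.2 hz)] with y hy
    exact η.one_of_mem_closedBall (Metric.ball_subset_closedBall hy)
  have hin' : ∀ z : ℂ, ‖z‖ < R₀ + 3 → ∀ᶠ y in 𝓝 z, ξ' y = 1 := fun z hz => by
    filter_upwards [Metric.isOpen_ball.mem_nhds (mem_ball_zero_iff.2 hz)] with y hy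
    exact h1 y (by linarith [mem_ball_zero_iff.1 hy])
  have hfar : ∀ z : ℂ, R₀ + 3 ≤ ‖z‖ → ∀ᶠ y in 𝓝 z, η y = 0 := fun z hz => by
    filter_upwards [continuous_norm.continuousAt.eventually
      (lt_mem_nhds (show R₀ + 2 < ‖z‖ by linarith))] with y hy
    exact η.zero_of_le_dist (by simpa using hy.le)
  set G : ℂ → ℂ := fun z => z + (1 - η z) • (f z - z) with hG
  have hG1 : ContDiff ℝ 1 G := by
    refine contDiff_id.add (contDiff_iff_contDiffAt.2 fun z => ?_)
    by_cases hz : ‖z‖ < R₀ + 1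
    · refine (contDiffAt_const (c := (0 : ℂ))).congr_of_eventuallyEq ?_
      filter_upwards [hin z hz] with y hy
      simp [hy]
    · have h2 : ContDiffAt ℂ 1 f z := (hp.hol.contDiffOn hU).contDiffAt
        (hU.mem_nhds (hout z (by linarith [not_lt.1 hz])).1)
      exact (contDiffAt_const.sub hη.contDiffAt).smul
        ((h2.restrict_scalars ℝ).sub contDiffAt_id)
  have d1 : ContDiff ℝ 1 (reC ξ' G) := hξ1.mul (Complex.reCLM.contDiff.comp hG1)
  have d2 : ContDiff ℝ 1 (imC ξ' G) := hξ1.mul (Complex.imCLM.contDiff.comp hG1)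
  obtain ⟨R', hR'⟩ := hξ'.cs.isCompact.isBounded.subset_ball (0 : ℂ)
  obtain ⟨iF, dF⟩ := eq_deg0 d1 d2 (R := R') (c₁ := 0) (c₂ := 0) fun z hz => by
    have : ξ' z = 0 := image_eq_zero_of_notMem_tsupport fun h => by
      have := mem_ball_zero_iff.1 (hR' h)
      linarith
    simp [reC, imC, this]
  have dF' := dF g hg C hC
  have hg2 := hg.comp Complex.measurableEquivRealProd.symm.measurable
  have iFh : Integrable fun z => wd (reC ξ' G) (imC ξ' G) z * g ⟨reC ξ' G z, imC ξ' G z⟩ :=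
    iF.mul_bdd (c := C) (hg2.comp
      (d1.continuous.measurable.prodMk d2.continuous.measurable)).aestronglyMeasurable
      (Eventually.of_forall fun z => hC _)
  have iwh : IntegrableOn
      (fun z => wd (reC ξ' f) (imC ξ' f) z * g ⟨reC ξ' f z, imC ξ' f z⟩) U :=
    (wd_integrableOn x1.en x2.en).mul_bdd (c := C) (hg2.comp_aemeasurable
      ((x1.lip.continuousOn.aemeasurable hUm).prodMk
        (x2.lip.continuousOn.aemeasurable hUm))).aestronglyMeasurable
      (Eventually.of_forall fun z => hC _)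
  have ig : Integrable g := by
    rw [← integrableOn_iff_integrable_of_support_subset (s := Metric.closedBall 0 S)
      fun y hy => mem_closedBall_zero_iff.2 (not_lt.1 fun h => hy (hS y h))]
    exact Measure.integrableOn_of_bounded (M := C) measure_closedBall_lt_top.ne
      hg.aestronglyMeasurable (Eventually.of_forall hC)
  have key : U.indicator (fun z => ‖deriv f z‖ ^ 2 * g (f z)) = fun z =>
      U.indicator (fun z => wd (reC ξ' f) (imC ξ' f) z * g ⟨reC ξ' f z, imC ξ' f z⟩) z -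
        (wd (reC ξ' G) (imC ξ' G) z * g ⟨reC ξ' G z, imC ξ' G z⟩ - g z) := by
    funext z
    by_cases hz : ‖z‖ < R₀ + 3
    · have e0 := (hin' z hz).self_of_nhds
      have e1 : wd (reC ξ' G) (imC ξ' G) z * g ⟨reC ξ' G z, imC ξ' G z⟩ - g z = 0 := by
        have q1 : (⟨reC ξ' G z, imC ξ' G z⟩ : ℂ) = G z := by simp [reC, imC, e0]
        rw [q1]
        by_cases hz' : ‖z‖ < R₀ + 1
        · have p1 : reC ξ' G =ᶠ[𝓝 z] fun z => z.re + (0 : ℂ).re := by
            filter_upwards [hin z hz', hin' z hz] with y h2 h3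
            simp [reC, hG, h2, h3]
          have p2 : imC ξ' G =ᶠ[𝓝 z] fun z => z.im + (0 : ℂ).im := by
            filter_upwards [hin z hz', hin' z hz] with y h2 h3
            simp [imC, hG, h2, h3]
          rw [wd_congr p1 p2, wd_id]
          simp [hG, (hin z hz').self_of_nhds]
        · obtain ⟨-, p1, p2⟩ := hout z (by linarith [not_lt.1 hz'])
          have p3 : ‖(1 - η z) • (f z - z)‖ ≤ D := by
            rw [norm_smul, Real.norm_eq_abs, abs_of_nonneg (sub_nonneg.2 η.le_one)]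
            nlinarith [η.nonneg (x := z), norm_nonneg (f z - z)]
          have p4 : ‖z‖ - D ≤ ‖G z‖ := by
            have := norm_sub_le (G z) ((1 - η z) • (f z - z))
            rw [hG] at this
            simp only [add_sub_cancel_right] at this
            linarith
          rw [hS (G z) (by linarith), hS z (by linarith)]
          simp
      rw [e1, sub_zero]
      by_cases hzU : z ∈ U
      · have p1 : reC ξ' f =ᶠ[𝓝 z] fun z => (f z).re := by
          filter_upwards [hin' z hz] with y h3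
          simp [reC, h3]
        have p2 : imC ξ' f =ᶠ[𝓝 z] fun z => (f z).im := by
          filter_upwards [hin' z hz] with y h3
          simp [imC, h3]
        rw [indicator_of_mem hzU, indicator_of_mem hzU, wd_congr p1 p2,
          (hol_wd (ψ := fun _ => 0) (hp.hol.differentiableAt (hU.mem_nhds hzU))
            (differentiableAt_const _)).2.2, p1.eq_of_nhds, p2.eq_of_nhds]
      · rw [indicator_of_notMem hzU, indicator_of_notMem hzU]
    · have hz' := not_lt.1 hz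
      obtain ⟨p0, p1, p2⟩ := hout z (by linarith)
      have p3 : reC ξ' G =ᶠ[𝓝 z] reC ξ' f := by
        filter_upwards [hfar z hz'] with y h3
        simp [reC, hG, h3]
      have p4 : imC ξ' G =ᶠ[𝓝 z] imC ξ' f := by
        filter_upwards [hfar z hz'] with y h3
        simp [imC, hG, h3]
      have p5 : ‖z‖ - D ≤ ‖f z‖ := by
        have := norm_sub_le (f z) (f z - z)
        simp only [sub_sub_cancel] at this
        linarith
      rw [indicator_of_mem p0, indicator_of_mem p0, wd_congr p3 p4, p3.eq_of_nhds, p4.eq_of_nhds,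
        hS (f z) (by linarith), hS z (by linarith)]
      simp
  refine ⟨(integrable_indicator_iff hUm).1 ?_, ?_⟩
  · rw [key]
    exact (iwh.integrable_indicator hUm).sub (iFh.sub ig)
  · have i3 : Integrable fun z =>
        wd (reC ξ' G) (imC ξ' G) z * g ⟨reC ξ' G z, imC ξ' G z⟩ - g z := iFh.sub ig
    rw [← integral_indicator hUm, key]
    simp only
    rw [integral_sub (iwh.integrable_indicator hUm) i3, integral_sub iFh ig, dF', integral_indicator hUm,
      deg_germ hU Λ x1 x2 hp.elb.xa hp.elb.xb (fun q z hz => by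
        simp only [reC, imC, hξ'.lump hz, hp.cut.lump hz, and_self]) hg hC]
    ring

end Crest.Agent.R105.End
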