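import Crest.Agent.R105.E2El

/-! Row 105, block END, stage 3: the total formula and the geometric interface. -/

set_option autoImplicit false

open MeasureTheory Set Filter Topology Metric
open scoped ENNReal

namespace Crest.Agent.R105.End

variable {U : Set ℂ} {Λ : Lumps U} {M : Set (ℂ → ℝ)}

/-- geometric facts used by the whisker argument -/
structure Geo (Λ : Lumps U) (f : ℂ → ℂ) (c : Λ.E → ℂ) (ρ : Λ.E → ℝ) : Prop where
  inj : InjOn f U
  disj : ∀ q q', q ≠ q' → volume (closedBall (c q) (ρ q) ∩ closedBall (c q') (ρ q')) = 0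
  out : ∀ q, volume (closedBall (c q) (ρ q) ∩ f '' U) = 0
  sep : ∀ p q, p ≠ q → 0 < ρ q → Disjoint (clus Λ f p) (closedBall (c q) (ρ q))

/-- `|∫_{B q} F| ≤ C π ρ²` (`Complex.volume_closedBall`) -/
theorem summable_disc {E : Type} {c : E → ℂ} {ρ m : E → ℝ} (hρ : L2w ρ) {B : ℝ}
    (hm : ∀ q, |m q| ≤ B) {F : ℂ → ℝ} {C : ℝ} (hF : ∀ y, |F y| ≤ C) :
    (∀ q, |∫ y in closedBall (c q) (ρ q), F y| ≤ C * (Real.pi * ρ q ^ 2)) ∧
      Summable fun q => m q * ∫ y in closedBall (c q) (ρ q), F y := by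
  have h1 : ∀ q, |∫ y in closedBall (c q) (ρ q), F y| ≤ C * (Real.pi * ρ q ^ 2) := fun q => by
    have := norm_setIntegral_le_of_norm_le_const (μ := volume) (f := F) (C := C)
      (s := closedBall (c q) (ρ q)) measure_closedBall_lt_top fun y _ => hF y
    rw [Measure.real, Complex.volume_closedBall, ENNReal.toReal_mul, ENNReal.toReal_pow,
      ENNReal.toReal_ofReal (hρ.1 q), ENNReal.coe_toReal, NNReal.coe_real_pi, mul_comm (_ ^ 2)]
      at this
    exact this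
  refine ⟨h1, Summable.of_norm_bounded (((hρ.2.mul_left Real.pi).mul_left C).mul_left B)
    fun q => ?_⟩
  rw [Real.norm_eq_abs, abs_mul]
  exact mul_le_mul (hm q) (h1 q) (abs_nonneg _) ((abs_nonneg _).trans (hm q))

/-- `elb_sum` with `φ = Ψ(α,β) χ` (`bt_cp`, `elb_adm`, `bt_mul_A0`), `ε = 0`; at the end `q` the
cut-offs `χ χ'` and `val χ q * χ'` have the same values for deep lumps (`A0.eq_val`, `val_eq`,
`ell_val`, `ell_smul`); `Rep`, `integral_indicator`. -/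
theorem tot (hc : Ctx Λ M) {α β : ℂ → ℝ} {c : Λ.E → ℂ} {ρ : Λ.E → ℝ} (h : ELB Λ M α β ρ)
    (hr : ∀ q, Rep Λ α β q ((closedBall (c q) (ρ q)).indicator 1)) {χ Ψ₁ Ψ₂ : ℂ → ℝ}
    (hχ : A0 U χ) (h₁ : LC1 Ψ₁) (h₂ : LC1 Ψ₂) :
    ell U α β (fun z => cp Ψ₁ α β z * χ z) (fun z => cp Ψ₂ α β z * χ z) =
      -∑' q, Λ.val χ q * ∫ y in closedBall (c q) (ρ q), dv Ψ₁ Ψ₂ y := by
  have hU := hc.op
  obtain ⟨aα, aβ⟩ := elb_adm hc h
  obtain ⟨L₁, hL₁⟩ := h₁.lip
  obtain ⟨L₂, hL₂⟩ := h₂.lip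
  have x₁ := xx_cp hU h₁ h.xa h.xb
  have x₂ := xx_cp hU h₂ h.xa h.xb
  have b₁ := bt_mul_A0 hc (bt_cp hc h₁ hL₁ h.xa h.xb aα aβ) hχ
  have b₂ := bt_mul_A0 hc (bt_cp hc h₂ hL₂ h.xa h.xb aα aβ) hχ
  obtain ⟨N₂, hN₂⟩ := hχ.eq_val Λ
  obtain ⟨B, hB⟩ := hχ.bdd Λ
  have hval : ∀ q, |Λ.val χ q| ≤ B := fun q => by
    obtain ⟨z, hz⟩ := (Λ.conn N₂ q).nonempty
    rw [← hN₂ N₂ le_rfl q z hz]
    exact hB z (Λ.sub N₂ q hz).1
  obtain ⟨C, hC⟩ := (h₁.dv_meas h₂).2
  have hσ := (summable_disc (c := c) h.l2 hval hC).2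
  have key := elb_sum hc h b₁.xx b₂.xx b₁.adm b₂.adm hσ.neg (ε := fun _ => 0) summable_zero
    (fun _ => le_rfl) fun q η hη => by
      have hv : 0 < |Λ.val χ q| + 1 := by positivity
      obtain ⟨N₁, hN₁⟩ := hr q Ψ₁ Ψ₂ h₁ h₂ (η / (|Λ.val χ q| + 1)) (div_pos hη hv)
      refine ⟨max N₁ N₂, fun n hn χ' hχ' => ?_⟩
      have h1 := hN₁ n (le_of_max_le_left hn) χ' hχ'
      obtain ⟨p1, p2⟩ := hχ.mul hU Λ hχ'.1
      obtain ⟨p3, p4⟩ := (A0.const (Λ.val χ q)).mul hU Λ hχ'.1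
      have e1 := ell_val hU Λ h.xa h.xb x₁ x₂ p1 p3 fun q' => by
        rw [p2, p4, (val_eq Λ ((A0.const (Λ.val χ q)).bdd Λ) (n := 0) fun _ _ => rfl).1, hχ'.2 q']
        split_ifs with e
        · obtain ⟨z, hz⟩ := (Λ.conn n q).nonempty
          rw [← hN₂ n (le_of_max_le_right hn) q z hz,
            ← hN₂ n (le_of_max_le_right hn) q' z (e ▸ hz)]
        · rw [mul_zero, mul_zero]
      have e2 : ∫ y, (closedBall (c q) (ρ q)).indicator 1 y * dv Ψ₁ Ψ₂ y =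
          ∫ y in closedBall (c q) (ρ q), dv Ψ₁ Ψ₂ y := by
        rw [← integral_indicator measurableSet_closedBall]
        simp only [← indicator_mul_left, Pi.one_apply, one_mul]
      simp only [mul_left_comm _ (Λ.val χ q), ell_smul] at e1
      simp only [mul_assoc]
      rw [e1, sub_neg_eq_add, ← mul_add, abs_mul, ← e2, zero_add]
      refine (mul_le_mul_of_nonneg_left h1 (abs_nonneg _)).trans ?_
      rw [mul_div_assoc', div_le_iff₀ hv]
      nlinarith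
  rw [tsum_zero, tsum_neg] at key
  exact sub_eq_zero.1 (abs_nonpos_iff.1 key)

/-- a.e. disjoint discs (`integral_iUnion_ae` / `hasSum_integral_iUnion_ae` on finite subfamilies,
`integral_biUnion_finset_ae`-type or `Σ indicator ≤ 1` a.e.; `Summable.tsum_le_of_sum_le`) -/
theorem sum_disc_le {E : Type} {c : E → ℂ} {ρ : E → ℝ}
    (hd : ∀ q q', q ≠ q' → volume (closedBall (c q) (ρ q) ∩ closedBall (c q') (ρ q')) = 0)
    {F : ℂ → ℝ} (hF : Integrable F) (h0 : ∀ y, 0 ≤ F y) :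
    Summable (fun q => ∫ y in closedBall (c q) (ρ q), F y) ∧
      ∑' q, ∫ y in closedBall (c q) (ρ q), F y ≤ ∫ y, F y := by
  have hn : 0 ≤ fun q => ∫ y in closedBall (c q) (ρ q), F y := fun q => integral_nonneg h0
  have hu : ∀ u : Finset E, ∑ q ∈ u, ∫ y in closedBall (c q) (ρ q), F y ≤ ∫ y, F y := fun u => by
    have := integral_iUnion_ae (μ := volume) (f := F) (s := fun q : u => closedBall (c q) (ρ q))
      (fun q => measurableSet_closedBall.nullMeasurableSet)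
      (fun q q' hq => hd q q' fun e => hq (Subtype.ext e)) hF.integrableOn
    rw [Finset.tsum_subtype u fun q => ∫ y in closedBall (c q) (ρ q), F y] at this
    rw [← this]
    exact setIntegral_le_integral hF (Eventually.of_forall h0)
  exact ⟨summable_of_sum_le hn hu, Real.tsum_le_of_sum_le hn hu⟩

end Crest.Agent.R105.End
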