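import Crest.Agent.R105.E3A
import Crest.Agent.R105.E3Tot

/-! Row 105, block END, stage 3: the degree formula and univalence. -/

set_option autoImplicit false

open MeasureTheory Set Filter Topology
open scoped ENNReal

namespace Crest.Agent.R105.End

variable {U : Set ℂ} {Λ : Lumps U} {M : Set (ℂ → ℝ)} {f : ℂ → ℂ} {ξ : ℂ → ℝ} {c : Λ.E → ℂ}
  {ρ : Λ.E → ℝ}

/-- total variation identity (`elb_sum`, `Rep`) -/
theorem e3_bv (hc : Ctx Λ M) (hp : EPic Λ M f ξ c ρ) {χ ψ : ℂ → ℝ} (hχ : A0 U χ)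
    (hψ : ContDiff ℝ 1 ψ) (hs : HasCompactSupport ψ) :
    om U (fun z => cp ψ (reC ξ f) (imC ξ f) z * χ z) (imC ξ f) =
        -∑' q, Λ.val χ q * ∫ y in Metric.closedBall (c q) (ρ q), fderiv ℝ ψ y 1 ∧
      om U (fun z => cp ψ (reC ξ f) (imC ξ f) z * χ z) (reC ξ f) =
        ∑' q, Λ.val χ q * ∫ y in Metric.closedBall (c q) (ρ q), fderiv ℝ ψ y Complex.I := by
  have h0 : LC1 fun _ => (0 : ℝ) := ⟨contDiff_const, ⟨0, by simp⟩, ⟨0, by simp⟩⟩
  have h1 := tot hc hp.elb hp.rep hχ (LC1.of_cpt hψ hs) h0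
  have h2 := tot hc hp.elb hp.rep hχ h0 (LC1.of_cpt hψ hs)
  have h3 : ∀ u : ℂ → ℝ, om U (fun z => cp (fun _ => (0 : ℝ)) (reC ξ f) (imC ξ f) z * χ z) u = 0 :=
    fun u => by simp [om, wd, cp]
  simp only [ell, h3, dv, fderiv_fun_const, Pi.zero_apply, ContinuousLinearMap.zero_apply,
    add_zero, zero_add, sub_zero, zero_sub, neg_inj] at h1 h2
  exact ⟨h1, h2⟩

/-- The sum of the area measures of the discs has an integrable density.
`μ = Measure.sum fun q => volume.restrict (B q)` is finite (`Measure.sum_apply`,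
`Complex.volume_closedBall`, `ENNReal.ofReal_tsum_of_nonneg`) and absolutely continuous
(`Measure.absolutelyContinuous_sum_left`); `m = (μ.rnDeriv volume).toReal`,
`integral_toReal_rnDeriv_mul` / `integral_rnDeriv_smul`, `hasSum_integral_measure`. -/
theorem disc_density {E : Type} {c : E → ℂ} {ρ : E → ℝ} (hρ : L2w ρ) :
    ∃ m : ℂ → ℝ, Integrable m ∧ ∀ g : ℂ → ℝ, Measurable g → ∀ C : ℝ, (∀ y, |g y| ≤ C) →
      HasSum (fun q => ∫ y in Metric.closedBall (c q) (ρ q), g y) (∫ y, m y * g y) := by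
  set μ : Measure ℂ := Measure.sum fun q => volume.restrict (Metric.closedBall (c q) (ρ q))
    with hμ
  have hfin : IsFiniteMeasure μ := by
    constructor
    rw [hμ, Measure.sum_apply _ MeasurableSet.univ]
    have h1 : ∀ q, (volume.restrict (Metric.closedBall (c q) (ρ q)) : Measure ℂ) univ ≤
        ENNReal.ofReal (ρ q ^ 2 * Real.pi) := by
      intro q
      rw [Measure.restrict_apply_univ, Complex.volume_closedBall,
        ENNReal.ofReal_mul (sq_nonneg _), ← sq_abs, ENNReal.ofReal_pow (abs_nonneg _)]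
      have : ((NNReal.pi : NNReal) : ℝ≥0∞) = ENNReal.ofReal Real.pi := by
        rw [← NNReal.coe_real_pi, ENNReal.ofReal_coe_nnreal]
      rw [this]
      gcongr
      exact le_abs_self _
    refine (ENNReal.tsum_le_tsum h1).trans_lt ?_
    rw [← ENNReal.ofReal_tsum_of_nonneg (fun q => by positivity) (hρ.2.mul_right _)]
    exact ENNReal.ofReal_lt_top
  have hac : μ ≪ volume :=
    Measure.absolutelyContinuous_sum_left fun q => Measure.absolutelyContinuous_of_le
      Measure.restrict_le_self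
  refine ⟨fun y => (μ.rnDeriv volume y).toReal, Measure.integrable_toReal_rnDeriv, ?_⟩
  intro g hg C hC
  rw [integral_toReal_rnDeriv_mul hac]
  refine hasSum_integral_measure ?_
  exact Integrable.of_bound hg.aestronglyMeasurable C (Eventually.of_forall hC)

/-- `n + m` (`exists_deg`, `disc_density`) has zero weak gradient (`e3_bv` with `χ = 1`, `wd_cp`),
so it vanishes a.e. (`ae_zero_of_grad` on `univ`) -/
theorem e3_deg0 (hc : Ctx Λ M) (hp : EPic Λ M f ξ c ρ) {g : ℂ → ℝ} (hg : Measurable g) {C : ℝ}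
    (hC : ∀ y, |g y| ≤ C) :
    HasSum (fun q => ∫ y in Metric.closedBall (c q) (ρ q), g y)
      (-∫ z in U, wd (reC ξ f) (imC ξ f) z * g ⟨reC ξ f z, imC ξ f z⟩) := by
  obtain ⟨n, hn1, hn2, hn3⟩ := exists_deg hc.op hp.elb.xa hp.elb.xb
  obtain ⟨m, hm1, hm2⟩ := disc_density (c := c) hp.elb.l2
  have hint : ∀ g : ℂ → ℝ, Measurable g → ∀ C : ℝ, (∀ y, |g y| ≤ C) →
      ∫ y, ((n y : ℝ) + m y) * g y = (∫ y, (n y : ℝ) * g y) + ∫ y, m y * g y := by
    intro g hg C hC
    have hb : ∀ᵐ y : ℂ, ‖g y‖ ≤ C := Eventually.of_forall hC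
    rw [← integral_add (hn2.mul_bdd hg.aestronglyMeasurable hb)
      (hm1.mul_bdd hg.aestronglyMeasurable hb)]
    simp only [add_mul]
  have v1 : ∀ q, Λ.val (fun _ => (1 : ℝ)) q = 1 := fun q =>
    (val_eq Λ (A0.bdd Λ (A0.const 1)) (n := 0) fun _ _ => rfl).1
  have hz := ae_zero_of_grad isOpen_univ isPreconnected_univ (by simp) (hn2.add hm1)
    (fun ψ hψ hs _ => by
      have hv : ∀ v : ℂ, Measurable (fun y => fderiv ℝ ψ y v) ∧
          ∃ C, ∀ y, |fderiv ℝ ψ y v| ≤ C := by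
        intro v
        have h1 : Continuous fun y => fderiv ℝ ψ y v :=
          (hψ.continuous_fderiv one_ne_zero).clm_apply continuous_const
        obtain ⟨C, hC⟩ := h1.bounded_above_of_compact_support (hs.fderiv_apply (𝕜 := ℝ) v)
        exact ⟨h1.measurable, C, hC⟩
      obtain ⟨b1, b2⟩ := e3_bv hc hp (A0.const 1) hψ hs
      simp only [mul_one, v1, one_mul] at b1 b2
      have hw := wd_cp hc.op hψ hp.elb.xa.lip hp.elb.xb.lip
      obtain ⟨a1, C1, c1⟩ := hv 1
      obtain ⟨a2, C2, c2⟩ := hv Complex.I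
      have e1 : om U (fun z => cp ψ (reC ξ f) (imC ξ f) z) (imC ξ f) =
          ∫ y, (n y : ℝ) * fderiv ℝ ψ y 1 := by
        rw [← hn3 _ a1 ⟨C1, c1⟩]
        refine setIntegral_congr_ae hc.op.measurableSet ?_
        filter_upwards [hw] with z h hz using (h hz).1
      have e2 : om U (fun z => cp ψ (reC ξ f) (imC ξ f) z) (reC ξ f) =
          -∫ y, (n y : ℝ) * fderiv ℝ ψ y Complex.I := by
        rw [← hn3 _ a2 ⟨C2, c2⟩, ← integral_neg]
        refine setIntegral_congr_ae hc.op.measurableSet ?_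
        filter_upwards [hw] with z h hz using (h hz).2
      simp only [Pi.add_apply]
      rw [hint _ a1 C1 c1, hint _ a2 C2 c2, ← (hm2 _ a1 C1 c1).tsum_eq,
        ← (hm2 _ a2 C2 c2).tsum_eq]
      constructor <;> linarith)
  have h0 : ∫ y, ((n y : ℝ) + m y) * g y = 0 := by
    refine integral_eq_zero_of_ae ?_
    filter_upwards [hz] with y hy
    have : (n y : ℝ) + m y = 0 := hy (mem_univ y)
    simp [this]
  rw [hint g hg C hC] at h0
  rw [hn3 g hg ⟨C, hC⟩, show -∫ y, (n y : ℝ) * g y = ∫ y, m y * g y by linarith]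
  exact hm2 g hg C hC

/-- the degree formula: `e3_fold`, `e3_deg0` with `g = O.indicator 1` -/
theorem e3_deg (hc : Ctx Λ M) (hp : EPic Λ M f ξ c ρ) {O : Set ℂ} (hO : IsOpen O)
    (hb : Bornology.IsBounded O) :
    (∫⁻ z in U ∩ f ⁻¹' O, ENNReal.ofReal (‖deriv f z‖ ^ 2)) +
      ∑' q, volume (Metric.closedBall (c q) (ρ q) ∩ O) = volume O := by
  have hm : Measurable (O.indicator (1 : ℂ → ℝ)) := measurable_one.indicator hO.measurableSet
  have h0 : ∀ y, 0 ≤ O.indicator (1 : ℂ → ℝ) y := fun y => indicator_nonneg (fun _ _ => zero_le_one) y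
  have hC : ∀ y, |O.indicator (1 : ℂ → ℝ) y| ≤ 1 := fun y => by
    by_cases hy : y ∈ O <;> simp [hy]
  obtain ⟨S, hS⟩ := hb.exists_norm_le
  have hS' : ∀ y, S < ‖y‖ → O.indicator (1 : ℂ → ℝ) y = 0 := fun y hy =>
    indicator_of_notMem (fun h => (hS y h).not_gt hy) _
  obtain ⟨hi, he⟩ := e3_fold hc hp hm hC hS'
  have hs := e3_deg0 hc hp hm hC
  have hfin : volume O ≠ ⊤ := hb.measure_lt_top.ne
  have hV : MeasurableSet (U ∩ f ⁻¹' O) :=
    (hp.hol.continuousOn.isOpen_inter_preimage hc.op hO).measurableSet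
  have e1 : ∫⁻ z in U ∩ f ⁻¹' O, ENNReal.ofReal (‖deriv f z‖ ^ 2) =
      ENNReal.ofReal (∫ z in U, ‖deriv f z‖ ^ 2 * O.indicator (1 : ℂ → ℝ) (f z)) := by
    rw [ofReal_integral_eq_lintegral_ofReal hi
      (ae_of_all _ fun z => mul_nonneg (by positivity) (h0 _)),
      ← lintegral_indicator hV, ← lintegral_indicator hc.op.measurableSet]
    refine lintegral_congr fun z => ?_
    by_cases hz : z ∈ U
    · by_cases hz' : f z ∈ O
      · rw [indicator_of_mem (show z ∈ U ∩ f ⁻¹' O from ⟨hz, hz'⟩), indicator_of_mem hz,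
          indicator_of_mem hz', Pi.one_apply, mul_one]
      · rw [indicator_of_notMem (fun h : z ∈ U ∩ f ⁻¹' O => hz' h.2), indicator_of_mem hz,
          indicator_of_notMem hz', mul_zero, ENNReal.ofReal_zero]
    · rw [indicator_of_notMem (fun h : z ∈ U ∩ f ⁻¹' O => hz h.1), indicator_of_notMem hz]
  have e2 : ∀ q, volume (Metric.closedBall (c q) (ρ q) ∩ O) =
      ENNReal.ofReal (∫ y in Metric.closedBall (c q) (ρ q), O.indicator (1 : ℂ → ℝ) y) := by
    intro q
    rw [integral_indicator_one hO.measurableSet, measureReal_restrict_apply hO.measurableSet,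
      inter_comm O,
      ofReal_measureReal ((measure_mono inter_subset_right).trans_lt hfin.lt_top).ne]
  have hn : ∀ q, 0 ≤ ∫ y in Metric.closedBall (c q) (ρ q), O.indicator (1 : ℂ → ℝ) y :=
    fun q => integral_nonneg h0
  rw [e1, tsum_congr e2, ← ENNReal.ofReal_tsum_of_nonneg hn hs.summable,
    ← ENNReal.ofReal_add (integral_nonneg fun z => mul_nonneg (by positivity) (h0 _))
      (tsum_nonneg hn), hs.tsum_eq, he, add_neg_cancel_right,
    integral_indicator_one hO.measurableSet, ofReal_measureReal hfin]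

/-- two preimages have disjoint open neighbourhoods `V₁`, `V₂ ⊆ U`; a disc
`O ⊆ f V₁ ∩ f V₂` (`open_map`) would have `2 |O| ≤ |O|` (`area_le`, `e3_deg`) -/
theorem e3_inj (hc : Ctx Λ M) (hp : EPic Λ M f ξ c ρ) : InjOn f U := by
  intro z₁ h₁ z₂ h₂ he
  by_contra hne
  obtain ⟨V₁, V₂, o₁, o₂, m₁, m₂, hd⟩ := t2_separation hne
  have p₁ := open_map hc hp (hc.op.inter o₁) inter_subset_left
  have p₂ := open_map hc hp (hc.op.inter o₂) inter_subset_left
  obtain ⟨r, hr, hO⟩ := Metric.isOpen_iff.1 (p₁.inter p₂) (f z₁)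
    ⟨⟨z₁, ⟨h₁, m₁⟩, rfl⟩, ⟨z₂, ⟨h₂, m₂⟩, he.symm⟩⟩
  have hA : IsOpen (U ∩ f ⁻¹' Metric.ball (f z₁) r) :=
    hp.hol.continuousOn.isOpen_inter_preimage hc.op Metric.isOpen_ball
  have key : ∀ V : Set ℂ, IsOpen V → Metric.ball (f z₁) r ⊆ f '' (U ∩ V) →
      volume (Metric.ball (f z₁) r) ≤
        ∫⁻ z in (U ∩ f ⁻¹' Metric.ball (f z₁) r) ∩ V, ENNReal.ofReal (‖deriv f z‖ ^ 2) := by
    intro V hV hs
    refine le_trans (measure_mono fun y hy => ?_)
      (area_le hc.op hp.hol (hA.inter hV).measurableSet fun z hz => hz.1.1)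
    obtain ⟨z, hz, rfl⟩ := hs hy
    exact ⟨z, ⟨⟨hz.1, hy⟩, hz.2⟩, rfl⟩
  have k := add_le_add (key V₁ o₁ fun y hy => (hO hy).1) (key V₂ o₂ fun y hy => (hO hy).2)
  rw [← lintegral_union (hA.inter o₂).measurableSet
    (hd.mono inter_subset_right inter_subset_right)] at k
  have k2 := (k.trans (lintegral_mono_set (union_subset inter_subset_left inter_subset_left))).trans
    (le_self_add.trans (e3_deg hc hp Metric.isOpen_ball Metric.isBounded_ball).le)
  exact absurd k2 (not_le.2 (ENNReal.lt_add_right measure_ball_lt_top.ne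
    (Metric.measure_ball_pos volume _ hr).ne'))

/-- otherwise the open set `O = f U ∩ ball (c q) (ρ q)` is nonempty (`closure_ball`) and
`2 |O| ≤ |O|` (`area_le`, `e3_deg`) -/
theorem e3_out (hc : Ctx Λ M) (hp : EPic Λ M f ξ c ρ) {q : Λ.E} (hq : 0 < ρ q) :
    Disjoint (Metric.closedBall (c q) (ρ q)) (f '' U) := by
  rw [Set.disjoint_left]
  intro y hy hyU
  have hfU : IsOpen (f '' U) := open_map hc hp hc.op subset_rfl
  have hO : IsOpen (f '' U ∩ Metric.ball (c q) (ρ q)) := hfU.inter Metric.isOpen_ball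
  have hne : (f '' U ∩ Metric.ball (c q) (ρ q)).Nonempty := by
    rw [← closure_ball (c q) hq.ne'] at hy
    exact mem_closure_iff.1 hy _ hfU hyU
  have hb : Bornology.IsBounded (f '' U ∩ Metric.ball (c q) (ρ q)) :=
    Metric.isBounded_ball.subset inter_subset_right
  have hd := e3_deg hc hp hO hb
  set O := f '' U ∩ Metric.ball (c q) (ρ q) with hOdef
  have hV : IsOpen (U ∩ f ⁻¹' O) := hp.hol.continuousOn.isOpen_inter_preimage hc.op hO
  have h1 := area_le hc.op hp.hol hV.measurableSet inter_subset_left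
  have h2 : f '' (U ∩ f ⁻¹' O) = O := by
    rw [image_inter_preimage]
    exact inter_eq_right.2 inter_subset_left
  rw [h2] at h1
  have h3 : volume O ≤ ∑' q, volume (Metric.closedBall (c q) (ρ q) ∩ O) := by
    refine le_trans (le_of_eq ?_) (ENNReal.le_tsum q)
    rw [inter_eq_right.2 (inter_subset_right.trans Metric.ball_subset_closedBall)]
  have h4 : volume O + volume O ≤ volume O + 0 := by
    rw [add_zero]
    exact (add_le_add h1 h3).trans hd.le
  have h5 := (ENNReal.add_le_add_iff_left hb.measure_lt_top.ne).1 h4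
  exact absurd h5 (not_le.2 (hO.measure_pos volume hne))

/-- `e3_deg` for `O = ball ∩ ball`; spheres are null (`Measure.addHaar_sphere`) -/
theorem e3_null (hc : Ctx Λ M) (hp : EPic Λ M f ξ c ρ) {q q' : Λ.E} (h : q ≠ q') :
    volume (Metric.closedBall (c q) (ρ q) ∩ Metric.closedBall (c q') (ρ q')) = 0 := by
  have hO : IsOpen (Metric.ball (c q) (ρ q) ∩ Metric.ball (c q') (ρ q')) :=
    Metric.isOpen_ball.inter Metric.isOpen_ball
  have hb : Bornology.IsBounded (Metric.ball (c q) (ρ q) ∩ Metric.ball (c q') (ρ q')) :=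
    Metric.isBounded_ball.subset inter_subset_right
  have hd := e3_deg hc hp hO hb
  set O := Metric.ball (c q) (ρ q) ∩ Metric.ball (c q') (ρ q') with hOdef
  have h3 : volume O + volume O ≤ ∑' q, volume (Metric.closedBall (c q) (ρ q) ∩ O) := by
    classical
    refine le_trans (le_of_eq ?_) (ENNReal.sum_le_tsum ({q, q'} : Finset Λ.E))
    rw [Finset.sum_pair h,
      inter_eq_right.2 (inter_subset_left.trans Metric.ball_subset_closedBall),
      inter_eq_right.2 (inter_subset_right.trans Metric.ball_subset_closedBall)]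
  have h4 : volume O + volume O ≤ volume O + 0 := by
    rw [add_zero]
    exact h3.trans (le_add_self.trans hd.le)
  have h5 := (ENNReal.add_le_add_iff_left hb.measure_lt_top.ne).1 h4
  have h6 : volume O = 0 := le_antisymm h5 zero_le
  refine measure_mono_null (t := O ∪ (Metric.sphere (c q) (ρ q) ∪ Metric.sphere (c q') (ρ q')))
    ?_ (measure_union_null h6 (measure_union_null (Measure.addHaar_sphere _ _ _)
      (Measure.addHaar_sphere _ _ _)))
  rintro y ⟨h1, h2⟩
  rcases (Metric.mem_closedBall.1 h1).lt_or_eq with h1 | h1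
  · rcases (Metric.mem_closedBall.1 h2).lt_or_eq with h2 | h2
    · exact Or.inl ⟨h1, h2⟩
    · exact Or.inr (Or.inr h2)
  · exact Or.inr (Or.inl h1)

/-- `f` is proper on the closed set `{‖z‖ ≥ Λ.R}` (`far_bd`) -/
theorem e3_closed (hc : Ctx Λ M) (hp : EPic Λ M f ξ c ρ) :
    IsClosed (f '' {z | Λ.R ≤ ‖z‖}) := by
  obtain ⟨R, C, -, h⟩ := far_bd hp.inf
  refine isClosed_of_closure_subset fun y hy => ?_
  have hK : IsCompact ({z : ℂ | Λ.R ≤ ‖z‖} ∩ Metric.closedBall 0 (max R (‖y‖ + 1 + C))) :=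
    (isCompact_closedBall _ _).inter_left (isClosed_le continuous_const continuous_norm)
  have h1 := (hK.image_of_continuousOn
    (hp.hol.continuousOn.mono fun z hz => Λ.far z hz.1)).isClosed
  refine image_mono inter_subset_left (h1.closure_subset (closure_mono ?_
    (Metric.isOpen_ball.inter_closure ⟨Metric.mem_ball_self one_pos, hy⟩)))
  rintro _ ⟨h2, z, hz, rfl⟩
  refine ⟨z, ⟨hz, mem_closedBall_zero_iff.2 (not_lt.1 fun h3 => ?_)⟩, rfl⟩
  rw [max_lt_iff] at h3
  rw [Metric.mem_ball, dist_eq_norm] at h2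
  linarith [h z h3.1.le, norm_sub_norm_le (f z) y, norm_sub_norm_le z (f z), norm_sub_rev z (f z)]

/-- With `S` a bound of `‖f‖` on the circle `‖z‖ = Λ.R`, the preconnected set `{S < ‖y‖}`
(`compl_ball_props`) is covered by the disjoint open sets `f {Λ.R < ‖z‖}` and
`(f {Λ.R ≤ ‖z‖})ᶜ` and meets the first; `e3_inj` -/
theorem e3_bdd (hc : Ctx Λ M) (hp : EPic Λ M f ξ c ρ) :
    ∃ S : ℝ, ∀ z ∈ U, ‖z‖ < Λ.R → ‖f z‖ ≤ S := by
  obtain ⟨R, C, hC, h⟩ := far_bd hp.inf
  obtain ⟨S, hS⟩ := (isCompact_sphere (0 : ℂ) Λ.R).exists_bound_of_continuousOn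
    (hp.hol.continuousOn.mono fun z hz => Λ.far z (mem_sphere_zero_iff_norm.1 hz).ge)
  have key : (Metric.closedBall (0 : ℂ) S)ᶜ ⊆ f '' {z | Λ.R < ‖z‖} := by
    refine (compl_ball_props 0 S).2.1.subset_left_of_subset_union
      (open_map hc hp (isOpen_lt continuous_const continuous_norm) fun z hz => Λ.far z hz.le)
      (e3_closed hc hp).isOpen_compl
      (disjoint_compl_right.mono_left (image_mono fun z (hz : Λ.R < ‖z‖) => hz.le))
      (fun y hy => ?_) ?_
    · by_cases h1 : y ∈ f '' {z | Λ.R ≤ ‖z‖}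
      · obtain ⟨z, hz, rfl⟩ := h1
        refine Or.inl ⟨z, show Λ.R < ‖z‖ from lt_of_le_of_ne hz fun e => hy ?_, rfl⟩
        exact mem_closedBall_zero_iff.2 (hS z (mem_sphere_zero_iff_norm.2 e.symm))
      · exact Or.inr h1
    · obtain ⟨z, hz⟩ : ∃ z : ℂ, ‖z‖ = |R| + |Λ.R| + |S| + C + 1 :=
        ⟨(|R| + |Λ.R| + |S| + C + 1 : ℝ), by
          rw [Complex.norm_real, Real.norm_of_nonneg (by positivity)]⟩
      have := abs_nonneg R
      have := abs_nonneg Λ.R
      have := abs_nonneg S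
      refine ⟨f z, fun h1 => ?_, z, show Λ.R < ‖z‖ by linarith [le_abs_self Λ.R], rfl⟩
      linarith [mem_closedBall_zero_iff.1 h1, h z (by linarith [le_abs_self R]),
        norm_sub_norm_le z (f z), norm_sub_rev z (f z), le_abs_self S]
  refine ⟨S, fun z hz hzR => not_lt.1 fun h1 => ?_⟩
  obtain ⟨w, hw, e⟩ := key (show f z ∉ Metric.closedBall 0 S from
    fun h2 => (mem_closedBall_zero_iff.1 h2).not_gt h1)
  have hw' : Λ.R < ‖w‖ := hw
  rw [e3_inj hc hp (Λ.far w hw'.le) hz e] at hw'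
  exact hw'.not_gt hzR

/-- a compact neighbourhood `V ⊆ U` of `z₀` misses deep lumps (`Λ.exh`); `f (interior V)` is an
open neighbourhood of `f z₀` that misses `f (W n q)` by injectivity -/
theorem e3_clus_out (hc : Ctx Λ M) (hp : EPic Λ M f ξ c ρ) (q : Λ.E) :
    Disjoint (clus Λ f q) (f '' U) := by
  rw [Set.disjoint_right]
  rintro _ ⟨z₀, hz₀, rfl⟩ hcl
  obtain ⟨K, hK, hzK, hKU⟩ := exists_compact_between (isCompact_singleton (x := z₀)) hc.op
    (singleton_subset_iff.2 hz₀)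
  obtain ⟨n, hn⟩ := Λ.exh K hK hKU
  have ho := open_map hc hp isOpen_interior (interior_subset.trans hKU)
  obtain ⟨_, ⟨w, hw, rfl⟩, w', hw', e⟩ := mem_closure_iff.1 (mem_iInter.1 hcl n) _ ho
    ⟨z₀, hzK rfl, rfl⟩
  have := e3_inj hc hp (Λ.sub n q hw').1 (hKU (interior_subset hw)) e
  exact Set.disjoint_left.1 (hn q) hw' (this ▸ interior_subset hw)

/-- nested nonempty compact sets (`e3_bdd`) -/
theorem e3_clus_ne (hc : Ctx Λ M) (hp : EPic Λ M f ξ c ρ) (q : Λ.E) :
    (clus Λ f q).Nonempty := by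
  obtain ⟨S, hS⟩ := e3_bdd hc hp
  refine IsCompact.nonempty_iInter_of_sequence_nonempty_isCompact_isClosed _
    (fun n => closure_mono (image_mono (Λ.anti n q)))
    (fun n => ((Λ.conn n q).nonempty.image f).closure) ?_ fun n => isClosed_closure
  refine Bornology.IsBounded.isCompact_closure
    ((Metric.isBounded_closedBall (x := (0 : ℂ)) (r := S)).subset ?_)
  rintro _ ⟨z, hz, rfl⟩
  exact mem_closedBall_zero_iff.2 (hS z (Λ.sub 0 q hz).1 (mem_ball_zero_iff.1 (Λ.sub 0 q hz).2))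

/-- `koenig'` with `P s := y ∉ closure (f '' s)`; `U` is covered by `C N`, `{Λ.R ≤ ‖z‖}` and the
finitely many lumps of level `N` (`Λ.cover`, `Λ.fin`, `e3_closed`) -/
theorem e3_bdry (hc : Ctx Λ M) (hp : EPic Λ M f ξ c ρ) {y : ℂ} (h1 : y ∈ closure (f '' U))
    (h2 : y ∉ f '' U) : ∃ q, y ∈ clus Λ f q := by
  by_contra hcon
  obtain ⟨N, hN⟩ := Λ.koenig' (fun s => y ∉ closure (f '' s))
    (fun s t hst ht hs => ht (closure_mono (image_mono hst) hs))
    fun q => not_forall.1 fun h => hcon ⟨q, mem_iInter.2 h⟩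
  have hsub : f '' U ⊆ (f '' Λ.C N ∪ f '' {z | Λ.R ≤ ‖z‖}) ∪
      ⋃ s ∈ range (Λ.W N), closure (f '' s) := by
    rintro _ ⟨z, hz, rfl⟩
    by_cases hzC : z ∈ Λ.C N
    · exact Or.inl (Or.inl ⟨z, hzC, rfl⟩)
    · rcases Λ.cover N z hz hzC with h | ⟨q, h⟩
      · exact Or.inl (Or.inr ⟨z, h, rfl⟩)
      · exact Or.inr (mem_biUnion (mem_range_self q) (subset_closure ⟨z, h, rfl⟩))
  have hcl : IsClosed ((f '' Λ.C N ∪ f '' {z | Λ.R ≤ ‖z‖}) ∪
      ⋃ s ∈ range (Λ.W N), closure (f '' s)) :=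
    ((((Λ.cpt N).image_of_continuousOn (hp.hol.continuousOn.mono (Λ.csub N))).isClosed).union
      (e3_closed hc hp)).union ((Λ.fin N).isClosed_biUnion fun _ _ => isClosed_closure)
  rcases closure_minimal hsub hcl h1 with (h | h) | h
  · exact h2 (image_mono (Λ.csub N) h)
  · exact h2 (image_mono (fun z hz => Λ.far z hz) h)
  · obtain ⟨_, ⟨q, rfl⟩, h⟩ := mem_iUnion₂.1 h
    exact hN N le_rfl q h

end Crest.Agent.R105.End
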