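import Crest.Agent.R105.E3Tot

/-! Row 105, block END, stage 3: regular elements of `T` have bounded variation in the picture. -/

set_option autoImplicit false

open MeasureTheory Set Filter Topology Metric
open scoped ENNReal

namespace Crest.Agent.R105.End

variable {U : Set ℂ} {Λ : Lumps U} {M : Set (ℂ → ℝ)}

/-- bound for the part of the circle where `θ ≠ 0` -/
noncomputable def kap (c : ℂ) (ρ : ℝ) (θ : ℂ → ℝ) : ℝ :=
  ∫ y in closedBall c ρ, (2 * θ y / ρ + ‖fderiv ℝ θ y‖)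

theorem h95_int_const (c : ℂ) {ρ : ℝ} (hρ : 0 ≤ ρ) (a : ℝ) :
    ∫ _ in closedBall c ρ, a = a * (Real.pi * ρ ^ 2) := by
  rw [setIntegral_const, Measure.real, Complex.volume_closedBall, smul_eq_mul]
  simp only [ENNReal.toReal_mul, ENNReal.toReal_pow, ENNReal.toReal_ofReal hρ, ENNReal.coe_toReal,
    NNReal.coe_real_pi]
  ring

theorem h95_kap_int (c : ℂ) (ρ : ℝ) {θ : ℂ → ℝ} (hθ : ContDiff ℝ 1 θ) :
    IntegrableOn (fun y => 2 * θ y / ρ + ‖fderiv ℝ θ y‖) (closedBall c ρ) :=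
  (((continuous_const.mul hθ.continuous).div_const ρ).add
    (hθ.continuous_fderiv one_ne_zero).norm).continuousOn.integrableOn_compact
    (isCompact_closedBall c ρ)

theorem kap_le {c : ℂ} {ρ L : ℝ} {θ : ℂ → ℝ} (hρ : 0 ≤ ρ) (hθ : ContDiff ℝ 1 θ)
    (h0 : ∀ y, 0 ≤ θ y ∧ θ y ≤ 1) (hL : ∀ y, ‖fderiv ℝ θ y‖ ≤ L) :
    0 ≤ kap c ρ θ ∧ kap c ρ θ ≤ 2 * Real.pi * ρ + L * (Real.pi * ρ ^ 2) ∧
      ρ * kap c ρ θ = ∫ y in closedBall c ρ, (2 * θ y + ρ * ‖fderiv ℝ θ y‖) := by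
  refine ⟨setIntegral_nonneg measurableSet_closedBall fun y _ =>
    add_nonneg (div_nonneg (by linarith [(h0 y).1]) hρ) (norm_nonneg _), ?_, ?_⟩
  · refine (setIntegral_mono_on (h95_kap_int c ρ hθ) (g := fun _ => 2 / ρ + L)
      (continuous_const.continuousOn.integrableOn_compact (isCompact_closedBall c ρ))
      measurableSet_closedBall fun y _ => add_le_add
        (div_le_div_of_nonneg_right (by linarith [(h0 y).2]) hρ) (hL y)).trans (le_of_eq ?_)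
    rw [h95_int_const c hρ]
    rcases hρ.eq_or_lt with rfl | h
    · simp
    · field_simp
  · rcases hρ.eq_or_lt with rfl | h
    · simp
    · rw [kap, ← integral_const_mul]
      congr 1
      funext y
      field_simp

/-- `Ψ y = (y - c) / ρ * lam y * (1 - θ y)` with `lam` from `exists_disc_cut c` for the radii
`ρ (1 + η/2)`, `ρ η / 2`; on the disc `dv = 2 (1 - θ) / ρ - fderiv θ y (y - c) / ρ`. -/
theorem exists_Psi0 (c : ℂ) {ρ η : ℝ} (hρ : 0 < ρ) (hη : 0 < η) {θ : ℂ → ℝ}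
    (hθ : ContDiff ℝ 1 θ) (h0 : ∀ y, 0 ≤ θ y ∧ θ y ≤ 1) : ∃ Ψ₁ Ψ₂ : ℂ → ℝ, LC1 Ψ₁ ∧ LC1 Ψ₂ ∧
      (∀ y, ‖(⟨Ψ₁ y, Ψ₂ y⟩ : ℂ)‖ ≤ (1 + η) * (1 - θ y)) ∧
      2 * Real.pi * ρ - kap c ρ θ ≤ ∫ y in closedBall c ρ, dv Ψ₁ Ψ₂ y := by
  obtain ⟨lam, l1, l2, l3, l4, l5⟩ := exists_disc_cut c (r := ρ * (1 + η / 2)) (η := ρ * η / 2)
    (by positivity) (by positivity)
  have hc : ∀ T : ℂ →L[ℝ] ℝ, LC1 fun y => T (y - c) / ρ * (1 - θ y) * lam y := fun T =>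
    LC1.of_cpt ((((T.contDiff.comp (contDiff_id.sub contDiff_const)).div_const ρ).mul
      (contDiff_const.sub hθ)).mul l1) l2.mul_left
  have hd : ∀ (T : ℂ →L[ℝ] ℝ) (y v : ℂ), y ∈ closedBall c ρ →
      fderiv ℝ (fun y => T (y - c) / ρ * (1 - θ y) * lam y) y v =
        T v / ρ * (1 - θ y) - T (y - c) / ρ * fderiv ℝ θ y v := fun T y v hy => by
    have e : (fun y => T (y - c) / ρ * (1 - θ y) * lam y) =ᶠ[𝓝 y]
        fun y => T (y - c) * ρ⁻¹ * (1 - θ y) := by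
      have hy' : y ∈ ball c (ρ * (1 + η / 2)) :=
        closedBall_subset_ball (by nlinarith [mul_pos hρ hη]) hy
      filter_upwards [isOpen_ball.mem_nhds hy'] with w hw
      rw [l4 w (mem_ball_iff_norm.1 hw).le, mul_one, div_eq_mul_inv]
    have h1 : HasFDerivAt (fun y => T (y - c)) T y := by
      have := T.hasFDerivAt.comp y ((hasFDerivAt_id y).sub_const c)
      rw [ContinuousLinearMap.comp_id] at this
      exact this
    have h2 := (h1.mul_const ρ⁻¹).fun_mul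
      (((hθ.differentiable one_ne_zero) y).hasFDerivAt.const_sub 1)
    rw [e.fderiv_eq, HasFDerivAt.fderiv h2]
    simp only [ContinuousLinearMap.add_apply, ContinuousLinearMap.smul_apply,
      ContinuousLinearMap.neg_apply, smul_eq_mul, div_eq_mul_inv]
    ring
  refine ⟨_, _, hc Complex.reCLM, hc Complex.imCLM, fun y => ?_, ?_⟩
  · have e : (⟨Complex.reCLM (y - c) / ρ * (1 - θ y) * lam y,
        Complex.imCLM (y - c) / ρ * (1 - θ y) * lam y⟩ : ℂ) =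
        ((1 - θ y) * lam y / ρ : ℝ) * (y - c) := by
      apply Complex.ext
      · rw [Complex.re_ofReal_mul, Complex.reCLM_apply]; ring
      · rw [Complex.im_ofReal_mul, Complex.imCLM_apply]; ring
    have p1 : 0 ≤ 1 - θ y := by linarith [(h0 y).2]
    rw [e, norm_mul, Complex.norm_real, Real.norm_of_nonneg
      (div_nonneg (mul_nonneg p1 (l3 y).1) hρ.le)]
    rcases le_total (ρ * (1 + η / 2) + ρ * η / 2) ‖y - c‖ with h | h
    · rw [l5 y h, mul_zero, zero_div, zero_mul]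
      positivity
    · rw [div_mul_eq_mul_div, div_le_iff₀ hρ]
      have p2 : lam y * ‖y - c‖ ≤ (1 + η) * ρ := by
        have := mul_le_mul_of_nonneg_right (l3 y).2 (norm_nonneg (y - c))
        linarith
      have := mul_le_mul_of_nonneg_left p2 p1
      linarith
  · have i0 : IntegrableOn (fun _ : ℂ => 2 / ρ) (closedBall c ρ) :=
      continuous_const.continuousOn.integrableOn_compact (isCompact_closedBall c ρ)
    have e : 2 * Real.pi * ρ - kap c ρ θ =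
        ∫ y in closedBall c ρ, (2 / ρ - (2 * θ y / ρ + ‖fderiv ℝ θ y‖)) := by
      rw [integral_sub i0 (h95_kap_int c ρ hθ), h95_int_const c hρ.le, kap]
      field_simp
    rw [e]
    refine setIntegral_mono_on (i0.sub (h95_kap_int c ρ hθ))
      (((hc _).dv_meas (hc _)).1.continuousOn.integrableOn_compact (isCompact_closedBall c ρ))
      measurableSet_closedBall fun y hy => ?_
    rw [dv, hd _ y _ hy, hd _ y _ hy]
    have e1 : fderiv ℝ θ y (y - c) =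
        (y - c).re * fderiv ℝ θ y 1 + (y - c).im * fderiv ℝ θ y Complex.I := by
      conv_lhs => rw [← Complex.re_add_im (y - c)]
      rw [map_add, ← smul_eq_mul (y - c).re, ← smul_eq_mul (y - c).im, ← map_smul, ← map_smul]
      simp
    have e2 : fderiv ℝ θ y (y - c) ≤ ‖fderiv ℝ θ y‖ * ρ :=
      (le_abs_self _).trans (((fderiv ℝ θ y).le_opNorm _).trans
        (mul_le_mul_of_nonneg_left (mem_closedBall_iff_norm.1 hy) (norm_nonneg _)))
    have e3 : fderiv ℝ θ y (y - c) / ρ ≤ ‖fderiv ℝ θ y‖ := (div_le_iff₀ hρ).2 e2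
    rw [e1] at e3
    simp only [Complex.reCLM_apply, Complex.imCLM_apply, Complex.one_re, Complex.I_im,
      div_eq_mul_inv] at e3 ⊢
    linarith

theorem h56_lc1_smul {ψ : ℂ → ℝ} (hψ : LC1 ψ) (a : ℝ) : LC1 (fun y => a * ψ y) ∧
    ∀ y, fderiv ℝ (fun y => a * ψ y) y = a • fderiv ℝ ψ y := by
  have hd : ∀ y, fderiv ℝ (fun y => a * ψ y) y = a • fderiv ℝ ψ y := fun y =>
    fderiv_const_mul ((hψ.sm.differentiable one_ne_zero) y) a
  obtain ⟨B, hB⟩ := hψ.bd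
  obtain ⟨L, hL⟩ := hψ.lip
  refine ⟨⟨contDiff_const.mul hψ.sm, ⟨|a| * B, fun y => ?_⟩, ⟨|a| * L, fun y => ?_⟩⟩, hd⟩
  · rw [abs_mul]
    exact mul_le_mul_of_nonneg_left (hB y) (abs_nonneg _)
  · rw [hd, norm_smul, Real.norm_eq_abs]
    exact mul_le_mul_of_nonneg_left (hL y) (abs_nonneg _)

theorem h56_Psi (c : ℂ) {ρ η : ℝ} (hρ : 0 ≤ ρ) (hη : 0 < η) {θ : ℂ → ℝ}
    (hθ : ContDiff ℝ 1 θ) (h0 : ∀ y, 0 ≤ θ y ∧ θ y ≤ 1) : ∃ Ψ₁ Ψ₂ : ℂ → ℝ, LC1 Ψ₁ ∧ LC1 Ψ₂ ∧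
      (∀ y, ‖(⟨Ψ₁ y, Ψ₂ y⟩ : ℂ)‖ ≤ (1 + η) * (1 - θ y)) ∧
      2 * Real.pi * ρ - kap c ρ θ ≤ ∫ y in closedBall c ρ, dv Ψ₁ Ψ₂ y := by
  rcases hρ.lt_or_eq with h | h
  · exact exists_Psi0 c h hη hθ h0
  · subst h
    have hz : LC1 (fun _ => (0 : ℝ)) :=
      ⟨contDiff_const, ⟨0, fun _ => by simp⟩, ⟨0, fun _ => by simp⟩⟩
    refine ⟨fun _ => 0, fun _ => 0, hz, hz, fun y => ?_, ?_⟩
    · have e : (⟨0, 0⟩ : ℂ) = 0 := rfl
      rw [e, norm_zero]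
      exact mul_nonneg (by linarith) (by linarith [(h0 y).2])
    · have h1 : 0 ≤ kap c 0 θ := integral_nonneg fun y => by
        simp only [div_zero, zero_add, Pi.zero_apply]
        exact norm_nonneg _
      have h2 : ∫ y in closedBall c 0, dv (fun _ => (0 : ℝ)) (fun _ => (0 : ℝ)) y = 0 := by
        simp [dv]
      rw [h2]
      linarith

/-- The norm of the node functional is attained off the support of `θ`.  For `ρ q = 0` use
`elb_node` (any radius; the disc is a null set).  For `ρ q > 0` and `s = ±1` apply `elb_node` to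
`s (v - m) ψ(α,β) d + V Ψ₀(α,β)` (`exists_Psi0`), which lies in the disc of centre `0` and radius
`V (1 + η')` at `q` since `|ψ| ≤ θ`; `Rep` for `Ψ₀` and for `(d.re ψ, d.im ψ)`
(`dv = fderiv ψ y d`); `ell_add`, `ell_smul`.  Weights from `bt_cp`, `bt_mul`, `bt_sub`,
`bt_A0`, `bt_smul`, `bt_add`. -/
theorem bv_node (hc : Ctx Λ M) {α β : ℂ → ℝ} {ρ : Λ.E → ℝ} (h : ELB Λ M α β ρ) {q : Λ.E} {c : ℂ}
    (hr : Rep Λ α β q ((closedBall c (ρ q)).indicator 1)) {v ψ θ : ℂ → ℝ} {n : Λ.E → ℝ}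
    (hv : BT Λ M v n) {m V : ℝ} (hb : InBall Λ v (fun _ => 0) q ⟨m, 0⟩ V) (hψ : LC1 ψ)
    (hθ : ContDiff ℝ 1 θ) (h0 : ∀ y, 0 ≤ θ y ∧ θ y ≤ 1) (hψθ : ∀ y, |ψ y| ≤ θ y) {d : ℂ}
    (hd : ‖d‖ = 1) {η : ℝ} (hη : 0 < η) : ∃ N, ∀ k ≥ N, ∀ χ, Ind Λ k q χ →
      |ell U α β (fun z => d.re * (v z * cp ψ α β z) * χ z)
          (fun z => d.im * (v z * cp ψ α β z) * χ z) +
        m * ∫ y in closedBall c (ρ q), fderiv ℝ ψ y d| ≤ V * kap c (ρ q) θ + η := by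
  have hU := hc.op
  have hρ : 0 ≤ ρ q := h.l2.1 q
  have hV : 0 ≤ V := inBall_nonneg hb
  obtain ⟨aα, aβ⟩ := elb_adm hc h
  have hbt : ∀ Ψ, LC1 Ψ → ∃ e, BT Λ M (cp Ψ α β) e := fun Ψ hΨ => by
    obtain ⟨L, hL⟩ := hΨ.lip
    exact ⟨_, bt_cp hc hΨ hL h.xa h.xb aα aβ⟩
  set η₁ : ℝ := η / (4 * (2 * Real.pi * ρ q * V + V + |m| + 1)) with hη₁
  have hK : 0 < 2 * Real.pi * ρ q * V + V + |m| + 1 := by positivity
  have hη₁0 : 0 < η₁ := by positivity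
  have hη₁e : η₁ * (2 * Real.pi * ρ q * V + V + |m| + 1) = η / 4 := by
    rw [hη₁]; field_simp
  obtain ⟨Ψ₁, Ψ₂, l₁, l₂, hn, hJ⟩ := h56_Psi c hρ hη₁0 hθ h0
  obtain ⟨eP, bP⟩ := hbt ψ hψ
  obtain ⟨e₁, b₁⟩ := hbt Ψ₁ l₁
  obtain ⟨e₂, b₂⟩ := hbt Ψ₂ l₂
  obtain ⟨C, -, bw⟩ := bt_mul hc (bt_sub hc hv (bt_A0 hc (A0.const m))) bP
  set w : ℂ → ℝ := fun z => (v z - m) * cp ψ α β z with hw
  have hball : ∀ s : ℝ, |s| = 1 → InBall Λ (fun z => s * (d.re * w z) + V * cp Ψ₁ α β z)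
      (fun z => s * (d.im * w z) + V * cp Ψ₂ α β z) q 0 (V * (1 + η₁)) := by
    intro s hs δ hδ
    obtain ⟨k, hk⟩ := hb δ hδ
    refine ⟨k, fun z hz => ?_⟩
    have h1 : |v z - m| ≤ V + δ := by
      have h2 := hk z hz
      have e : (⟨v z, 0⟩ : ℂ) - ⟨m, 0⟩ = ((v z - m : ℝ) : ℂ) := by
        apply Complex.ext <;> simp
      rwa [e, Complex.norm_real, Real.norm_eq_abs] at h2
    have e : (⟨s * (d.re * w z) + V * cp Ψ₁ α β z, s * (d.im * w z) + V * cp Ψ₂ α β z⟩ : ℂ) - 0 =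
        ((s * w z : ℝ) : ℂ) * d + (V : ℂ) * ⟨Ψ₁ ⟨α z, β z⟩, Ψ₂ ⟨α z, β z⟩⟩ := by
      apply Complex.ext <;> simp [cp] <;> ring
    rw [e]
    refine (norm_add_le _ _).trans ?_
    rw [norm_mul, norm_mul, hd, Complex.norm_real, Complex.norm_real, Real.norm_eq_abs,
      Real.norm_eq_abs, abs_mul, hs, abs_of_nonneg hV, one_mul, mul_one]
    have h3 := hn ⟨α z, β z⟩
    obtain ⟨h4, h5⟩ := h0 ⟨α z, β z⟩
    have h6 : |w z| ≤ (V + δ) * θ ⟨α z, β z⟩ := by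
      simp only [hw, cp]
      rw [abs_mul]
      exact mul_le_mul h1 (hψθ _) (abs_nonneg _) (by linarith)
    have h7 := mul_le_mul_of_nonneg_left h3 hV
    have h8 : 0 ≤ V * η₁ * θ ⟨α z, β z⟩ := by positivity
    have h9 : δ * θ ⟨α z, β z⟩ ≤ δ := by nlinarith
    nlinarith
  have hnode : ∀ s : ℝ, |s| = 1 → ∃ N, ∀ k ≥ N, ∀ χ, Ind Λ k q χ →
      |s * ell U α β (fun z => d.re * w z * χ z) (fun z => d.im * w z * χ z) +
        V * ell U α β (fun z => cp Ψ₁ α β z * χ z) (fun z => cp Ψ₂ α β z * χ z)| ≤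
        2 * Real.pi * ρ q * (V * (1 + η₁)) + η₁ := by
    intro s hs
    have c₁ := bt_add hc (bt_smul hc s (bt_smul hc d.re bw)) (bt_smul hc V b₁)
    have c₂ := bt_add hc (bt_smul hc s (bt_smul hc d.im bw)) (bt_smul hc V b₂)
    obtain ⟨N, hN⟩ := elb_node hc h c₁.xx c₂.xx c₁.adm c₂.adm (hball s hs) hη₁0
    refine ⟨N, fun k hk χ hχ => ?_⟩
    have h1 := hN k hk χ hχ
    have x1 := ((bt_smul hc d.re bw).xx.mul_A0 hU Λ hχ.1)
    have x2 := ((bt_smul hc d.im bw).xx.mul_A0 hU Λ hχ.1)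
    have x3 := (b₁.xx.mul_A0 hU Λ hχ.1)
    have x4 := (b₂.xx.mul_A0 hU Λ hχ.1)
    rw [← ell_smul, ← ell_smul,
      ← ell_add hU h.xa h.xb (x1.smul s) (x2.smul s) (x3.smul V) (x4.smul V)]
    convert h1 using 3 <;> (funext z; ring)
  obtain ⟨N₁, hN₁⟩ := hnode 1 (by simp)
  obtain ⟨N₂, hN₂⟩ := hnode (-1) (by simp)
  obtain ⟨N₃, hN₃⟩ := hr Ψ₁ Ψ₂ l₁ l₂ η₁ hη₁0
  obtain ⟨k₁, d₁⟩ := h56_lc1_smul hψ d.re
  obtain ⟨k₂, d₂⟩ := h56_lc1_smul hψ d.im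
  obtain ⟨N₄, hN₄⟩ := hr _ _ k₁ k₂ η₁ hη₁0
  have hind : ∀ F : ℂ → ℝ, ∫ y, (closedBall c (ρ q)).indicator (1 : ℂ → ℝ) y * F y =
      ∫ y in closedBall c (ρ q), F y := fun F => by
    rw [← integral_indicator measurableSet_closedBall]
    congr 1
    funext y
    by_cases hy : y ∈ closedBall c (ρ q) <;> simp [hy]
  refine ⟨max (max N₁ N₂) (max N₃ N₄), fun k hk χ hχ => ?_⟩
  have g₁ := hN₁ k (le_trans (le_max_left _ _) (le_trans (le_max_left _ _) hk)) χ hχ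
  have g₂ := hN₂ k (le_trans (le_max_right _ _) (le_trans (le_max_left _ _) hk)) χ hχ
  have g₃ := hN₃ k (le_trans (le_max_left _ _) (le_trans (le_max_right _ _) hk)) χ hχ
  have g₄ := hN₄ k (le_trans (le_max_right _ _) (le_trans (le_max_right _ _) hk)) χ hχ
  rw [hind] at g₃ g₄
  have hdv : ∀ y, dv (fun y => d.re * ψ y) (fun y => d.im * ψ y) y = fderiv ℝ ψ y d := fun y => by
    simp only [dv, d₁, d₂, smul_apply, smul_eq_mul]
    exact (h74_lin (fderiv ℝ ψ y) d.re d.im).symm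
  simp only [hdv] at g₄
  obtain ⟨f₁, p₁⟩ := hbt _ k₁
  obtain ⟨f₂, p₂⟩ := hbt _ k₂
  have hA : ell U α β (fun z => d.re * (v z * cp ψ α β z) * χ z)
      (fun z => d.im * (v z * cp ψ α β z) * χ z) =
      ell U α β (fun z => d.re * w z * χ z) (fun z => d.im * w z * χ z) +
        m * ell U α β (fun z => cp (fun y => d.re * ψ y) α β z * χ z)
          (fun z => cp (fun y => d.im * ψ y) α β z * χ z) := by
    rw [← ell_smul, ← ell_add hU h.xa h.xb ((bt_smul hc d.re bw).xx.mul_A0 hU Λ hχ.1)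
      ((bt_smul hc d.im bw).xx.mul_A0 hU Λ hχ.1) ((p₁.xx.mul_A0 hU Λ hχ.1).smul m)
      ((p₂.xx.mul_A0 hU Λ hχ.1).smul m)]
    congr 1 <;> (funext z; simp only [hw, cp]; ring)
  rw [hA]
  set F := ell U α β (fun z => d.re * w z * χ z) (fun z => d.im * w z * χ z)
  set G := ell U α β (fun z => cp Ψ₁ α β z * χ z) (fun z => cp Ψ₂ α β z * χ z)
  set D := ell U α β (fun z => cp (fun y => d.re * ψ y) α β z * χ z)
    (fun z => cp (fun y => d.im * ψ y) α β z * χ z)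
  set I := ∫ y in closedBall c (ρ q), fderiv ℝ ψ y d
  set J := ∫ y in closedBall c (ρ q), dv Ψ₁ Ψ₂ y
  have hG : V * G ≤ V * (η₁ - (2 * Real.pi * ρ q - kap c (ρ q) θ)) :=
    mul_le_mul_of_nonneg_left (by linarith [(abs_le.1 g₃).2]) hV
  have hF : |F| ≤ V * kap c (ρ q) θ + (2 * Real.pi * ρ q * V + V + 1) * η₁ := by
    have a1 := (abs_le.1 g₁).1
    have a2 := (abs_le.1 g₂).1
    rw [abs_le]
    constructor <;> nlinarith
  have hm : |m * (D + I)| ≤ |m| * η₁ := by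
    rw [abs_mul]
    exact mul_le_mul_of_nonneg_left g₄ (abs_nonneg _)
  have e : F + m * D + m * I = F + m * (D + I) := by ring
  rw [e]
  have := abs_add_le F (m * (D + I))
  nlinarith

/-- `elb_sum` with `bv_node`; `|m q| ≤ sup |v| + nrm V` (a point of a lump), `summable_disc`,
`kap_le`, `L2w.summable_mul` -/
theorem bv (hc : Ctx Λ M) {α β : ℂ → ℝ} {c : Λ.E → ℂ} {ρ : Λ.E → ℝ} (h : ELB Λ M α β ρ)
    (hr : ∀ q, Rep Λ α β q ((closedBall (c q) (ρ q)).indicator 1)) {v ψ θ : ℂ → ℝ}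
    {n m V : Λ.E → ℝ} (hv : BT Λ M v n) (hV : L2w V)
    (hb : ∀ q, InBall Λ v (fun _ => 0) q ⟨m q, 0⟩ (V q)) (hψ : LC1 ψ) (hθ : LC1 θ)
    (h0 : ∀ y, 0 ≤ θ y ∧ θ y ≤ 1) (hψθ : ∀ y, |ψ y| ≤ θ y) {d : ℂ} (hd : ‖d‖ = 1) :
    |ell U α β (fun z => d.re * (v z * cp ψ α β z)) (fun z => d.im * (v z * cp ψ α β z)) +
        ∑' q, m q * ∫ y in closedBall (c q) (ρ q), fderiv ℝ ψ y d| ≤
      ∑' q, V q * kap (c q) (ρ q) θ := by
  obtain ⟨L, hL⟩ := hψ.lip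
  obtain ⟨L', hL'⟩ := hθ.lip
  obtain ⟨B, hB⟩ := hv.bdd
  have ha := elb_adm hc h
  have hcp := bt_cp hc hψ hL h.xa h.xb ha.1 ha.2
  obtain ⟨C, -, hm⟩ := bt_mul hc hv hcp
  have b1 := bt_smul hc d.re hm
  have b2 := bt_smul hc d.im hm
  have hmB : ∀ q, |m q| ≤ B + nrm V + 1 := by
    intro q
    obtain ⟨k, hk⟩ := hb q 1 one_pos
    obtain ⟨z, hz⟩ := (Λ.conn k q).nonempty
    have h1 := hk z hz
    have h2 := hB z (Λ.sub k q hz).1
    have h3 : |v z - m q| ≤ V q + 1 :=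
      (Complex.abs_re_le_norm ((⟨v z, 0⟩ : ℂ) - ⟨m q, 0⟩)).trans h1
    have h4 := hV.le_nrm q
    rw [abs_le] at h2 h3 ⊢
    constructor <;> linarith [h2.1, h2.2, h3.1, h3.2]
  have hF : ∀ y, |fderiv ℝ ψ y d| ≤ L := fun y => by
    have := (fderiv ℝ ψ y).le_opNorm d
    rw [hd, mul_one] at this
    exact this.trans (hL y)
  have hσ := (summable_disc (c := c) h.l2 hmB hF).2
  have hk := fun q => kap_le (c := c q) (h.l2.1 q) hθ.sm h0 hL'
  have hL0 : 0 ≤ L' := (norm_nonneg _).trans (hL' 0)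
  have hε : Summable fun q => V q * kap (c q) (ρ q) θ := by
    refine Summable.of_nonneg_of_le (fun q => mul_nonneg (hV.1 q) (hk q).1) (fun q => ?_)
      ((hV.summable_mul h.l2).1.mul_left (2 * Real.pi + L' * (Real.pi * nrm ρ)))
    have h1 : ρ q ^ 2 ≤ nrm ρ * ρ q := by
      rw [sq]; exact mul_le_mul_of_nonneg_right (h.l2.le_nrm q) (h.l2.1 q)
    have h2 : L' * (Real.pi * ρ q ^ 2) ≤ L' * (Real.pi * (nrm ρ * ρ q)) :=
      mul_le_mul_of_nonneg_left (mul_le_mul_of_nonneg_left h1 Real.pi_pos.le) hL0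
    have h3 : kap (c q) (ρ q) θ ≤ (2 * Real.pi + L' * (Real.pi * nrm ρ)) * ρ q := by
      linarith [(hk q).2.1]
    calc V q * kap (c q) (ρ q) θ ≤ V q * ((2 * Real.pi + L' * (Real.pi * nrm ρ)) * ρ q) :=
          mul_le_mul_of_nonneg_left h3 (hV.1 q)
      _ = _ := by ring
  have := elb_sum hc h b1.xx b2.xx b1.adm b2.adm hσ.neg hε
    (fun q => mul_nonneg (hV.1 q) (hk q).1) (fun q η hη => by
      simp only [sub_neg_eq_add]
      exact bv_node hc h (hr q) hv (hb q) hψ hθ.sm h0 hψθ hd hη)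
  rwa [tsum_neg, sub_neg_eq_add] at this

/-- `V ≤ 2 ρ + 2 |r - ρ|`; `kap_le`, `sum_disc_le` for `2 θ + s ‖θ'‖` (only discs meeting the
closed disc of radius `3δ` contribute), area `9 π δ²`. -/
theorem sum_kap_le {E : Type} {c : E → ℂ} {ρ : E → ℝ} (hρ : L2w ρ)
    (hd : ∀ q q', q ≠ q' → volume (closedBall (c q) (ρ q) ∩ closedBall (c q') (ρ q')) = 0)
    {θ : ℂ → ℝ} {y₀ : ℂ} {δ s C : ℝ} (hδ : 0 < δ) (hs : 0 ≤ s) (hθ : ContDiff ℝ 1 θ)
    (h0 : ∀ y, 0 ≤ θ y ∧ θ y ≤ 1) (hz : ∀ y, 3 * δ < ‖y - y₀‖ → θ y = 0 ∧ fderiv ℝ θ y = 0)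
    (hL : ∀ y, ‖fderiv ℝ θ y‖ ≤ C / δ)
    (hsm : ∀ q, (closedBall (c q) (ρ q) ∩ closedBall y₀ (3 * δ)).Nonempty → ρ q ≤ s)
    {r : ℕ → E → ℝ} (hr : ∀ k, L2w (r k))
    (hl : Tendsto (fun k => nrm (fun q => r k q - ρ q)) atTop (𝓝 0)) {η : ℝ} (hη : 0 < η) :
    ∀ᶠ k in atTop, ∑' q, 2 * r k q * kap (c q) (ρ q) θ ≤
      18 * Real.pi * (2 * δ ^ 2 + s * C * δ) + η := by
  have hk := fun q => kap_le (c := c q) (hρ.1 q) hθ h0 hL
  have hL0 : 0 ≤ C / δ := (norm_nonneg _).trans (hL 0)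
  have hκ : L2w fun q => kap (c q) (ρ q) θ :=
    ((hρ.smul (a := 2 * Real.pi + C / δ * (Real.pi * nrm ρ))
      (by have := L2w.nrm_nonneg ρ; positivity)).1.of_le (fun q => (hk q).1) fun q => by
      have h1 := mul_le_mul_of_nonneg_left (mul_le_mul_of_nonneg_left
        (mul_le_mul_of_nonneg_right (hρ.le_nrm q) (hρ.1 q)) Real.pi_pos.le) hL0
      linarith [(hk q).2.1]).1
  have hd' : Continuous fun y => ‖fderiv ℝ θ y‖ := (hθ.continuous_fderiv one_ne_zero).norm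
  have hFc : Continuous fun y => 2 * θ y + s * ‖fderiv ℝ θ y‖ :=
    (hθ.continuous.const_mul 2).add (hd'.const_mul s)
  have hF0 : ∀ y, 0 ≤ 2 * θ y + s * ‖fderiv ℝ θ y‖ := fun y => by have := (h0 y).1; positivity
  have hz' : ∀ y, y ∉ closedBall y₀ (3 * δ) → θ y = 0 ∧ fderiv ℝ θ y = 0 := fun y hy =>
    hz y (by rwa [mem_closedBall_iff_norm, not_le] at hy)
  have hFz : ∀ y, y ∉ closedBall y₀ (3 * δ) → 2 * θ y + s * ‖fderiv ℝ θ y‖ = 0 := fun y hy => by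
    simp [hz' y hy]
  obtain ⟨h1, h2⟩ := sum_disc_le hd (hFc.integrable_of_hasCompactSupport
    (HasCompactSupport.intro (isCompact_closedBall y₀ (3 * δ)) hFz)) hF0
  have h3 := (summable_disc (E := Unit) (c := fun _ => y₀) (ρ := fun _ => 3 * δ)
    ⟨fun _ => by positivity, Summable.of_finite⟩ (m := 0) (B := 0) (fun _ => abs_zero.le)
    (F := fun y => 2 * θ y + s * ‖fderiv ℝ θ y‖) (C := 2 + s * (C / δ)) fun y => by
      rw [abs_of_nonneg (hF0 y)]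
      linarith [(h0 y).2, mul_le_mul_of_nonneg_left (hL y) hs]).1 ()
  rw [setIntegral_eq_integral_of_forall_compl_eq_zero hFz] at h3
  have h4 : ∑' q, ρ q * kap (c q) (ρ q) θ ≤ _ :=
    (hρ.summable_mul hκ).1.tsum_le_tsum (fun q => by
      rw [(hk q).2.2]
      refine setIntegral_mono_on
        (((hθ.continuous.const_mul 2).add (hd'.const_mul _)).continuousOn.integrableOn_compact
          (isCompact_closedBall _ _))
        (hFc.continuousOn.integrableOn_compact (isCompact_closedBall _ _))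
        measurableSet_closedBall fun y hy => ?_
      by_cases hy' : y ∈ closedBall y₀ (3 * δ)
      · linarith [mul_le_mul_of_nonneg_right (hsm q ⟨y, hy, hy'⟩) (norm_nonneg (fderiv ℝ θ y))]
      · simp [hz' y hy']) h1
  have h5 : ∑' q, kap (c q) (ρ q) θ * (2 * ρ q) <
      18 * Real.pi * (2 * δ ^ 2 + s * C * δ) + η := by
    have e : (2 + s * (C / δ)) * (Real.pi * (3 * δ) ^ 2) =
        9 * Real.pi * (2 * δ ^ 2 + s * C * δ) := by field_simp; ring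
    rw [tsum_congr (g := fun q => 2 * (ρ q * kap (c q) (ρ q) θ)) fun q => by ring, tsum_mul_left]
    linarith [(le_abs_self _).trans h3]
  filter_upwards [(tsum_tendsto (g := fun _ => 2) hκ hρ hr (fun _ => le_rfl) hl).1.eventually
    (ge_mem_nhds h5)] with k hk'
  simpa only [mul_comm (2 * r k _)] using hk'

end Crest.Agent.R105.End
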