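import Crest.Agent.R105.E3B

/-! Row 105, block END, stage 3: separation of the ends in the picture. -/

set_option autoImplicit false

open MeasureTheory Set Filter Topology
open scoped ENNReal

namespace Crest.Agent.R105.End

variable {U : Set ℂ} {Λ : Lumps U} {M : Set (ℂ → ℝ)} {f : ℂ → ℂ} {ξ : ℂ → ℝ} {c : Λ.E → ℂ}
  {ρ : Λ.E → ℝ}

/-- the inverse of an injective open map is continuous -/
theorem inv_cont (hc : Ctx Λ M) (hp : EPic Λ M f ξ c ρ) :
    ContinuousOn (Function.invFunOn f U) (f '' U) := by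
  have hi := (e3_inj hc hp).leftInvOn_invFunOn
  rintro _ ⟨z, hz, rfl⟩
  refine ContinuousAt.continuousWithinAt fun s hs => ?_
  rw [hi hz] at hs
  obtain ⟨V, hV, hVo, hzV⟩ := mem_nhds_iff.1 (inter_mem hs (hc.op.mem_nhds hz))
  refine mem_map.2 (mem_of_superset ((open_map hc hp hVo fun w hw => (hV hw).2).mem_nhds
    (mem_image_of_mem _ hzV)) ?_)
  rintro _ ⟨w, hw, rfl⟩
  rw [mem_preimage, hi (hV hw).2]
  exact (hV hw).1


/-- the union `A` of the discs of positive radius with `v q = 1` (a countable family, pairwise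
a.e. disjoint, of finite total measure: `eq_discs`, `hasSum_integral_iUnion_ae`) -/
theorem disc_union {E : Type} {c : E → ℂ} {ρ v : E → ℝ} (hρ : L2w ρ) (hv : ∀ q, v q = 0 ∨ v q = 1)
    (hd : ∀ q q', q ≠ q' →
      volume (Metric.closedBall (c q) (ρ q) ∩ Metric.closedBall (c q') (ρ q')) = 0) :
    ∃ A : Set ℂ, MeasurableSet A ∧ (A ⊆ ⋃ q ∈ {q | 0 < ρ q}, Metric.closedBall (c q) (ρ q)) ∧
      (∀ q, 0 < ρ q → ∀ᵐ y, y ∈ Metric.closedBall (c q) (ρ q) → A.indicator 1 y = v q) ∧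
      ∀ g : ℂ → ℝ, Integrable g →
        ∫ y in A, g y = ∑' q, v q * ∫ y in Metric.closedBall (c q) (ρ q), g y := by
  set S : Set E := {q | 0 < ρ q ∧ v q = 1} with hS
  have hc : S.Countable := hρ.2.countable_support.mono fun q hq => (pow_pos hq.1 2).ne'
  have := hc.to_subtype
  refine ⟨⋃ q : S, Metric.closedBall (c q) (ρ q),
    MeasurableSet.iUnion fun q => measurableSet_closedBall,
    iUnion_subset fun q => subset_biUnion_of_mem (u := fun q => Metric.closedBall (c q) (ρ q)) q.2.1,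
    fun q hq => ?_, fun g hg => ?_⟩
  · rcases hv q with h | h
    · have h1 : ∀ᵐ y, ∀ p : S,
          y ∉ Metric.closedBall (c q) (ρ q) ∩ Metric.closedBall (c p) (ρ p) :=
        ae_all_iff.2 fun p => measure_eq_zero_iff_ae_notMem.1 (hd _ _ fun e => by
          have h2 := p.2.2
          rw [← e, h] at h2
          exact zero_ne_one h2)
      filter_upwards [h1] with y hy hq'
      rw [h, indicator_of_notMem fun h3 => ?_]
      obtain ⟨p, hp⟩ := mem_iUnion.1 h3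
      exact hy p ⟨hq', hp⟩
    · refine Eventually.of_forall fun y hy => ?_
      rw [h, indicator_of_mem (mem_iUnion.2 ⟨⟨q, hq, h⟩, hy⟩), Pi.one_apply]
  · rw [← (hasSum_integral_iUnion_ae (s := fun q : S => Metric.closedBall (c q) (ρ q))
      (fun q => measurableSet_closedBall.nullMeasurableSet)
      (fun p q hpq => hd _ _ fun e => hpq (Subtype.ext e)) hg.integrableOn).tsum_eq,
      tsum_subtype S fun q => ∫ y in Metric.closedBall (c q) (ρ q), g y]
    refine tsum_congr fun q => ?_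
    by_cases hq : q ∈ S
    · rw [indicator_of_mem hq, hq.2, one_mul]
    · rw [indicator_of_notMem hq]
      rcases hv q with h | h
      · rw [h, zero_mul]
      · have h0 : ρ q = 0 := le_antisymm (not_lt.1 fun h1 => hq ⟨h1, h⟩) (hρ.1 q)
        rw [h0, Metric.closedBall_zero, setIntegral_measure_zero _ (measure_singleton _), mul_zero]


/-- the pairing of `ψ(f) χ` when `ψ` is supported off `f C`: pointwise on `U`, off `C` the function
`χ` is locally constant (`hol_wd`), on `C` the function `ψ ∘ f` vanishes locally; then `e3_tr`,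
`om_germ_congr`, `e3_bv` -/
theorem e3_weak (hc : Ctx Λ M) (hp : EPic Λ M f ξ c ρ) {χ ψ : ℂ → ℝ} (hχ : A0 U χ) {C : Set ℂ}
    (hC : ∀ z ∈ U, z ∉ C → ∀ᶠ w in 𝓝 z, χ w = χ z) (hψ : ContDiff ℝ 1 ψ)
    (hs : HasCompactSupport ψ) (hd : Disjoint (tsupport ψ) (f '' C)) :
    ∫ z in U, ‖deriv f z‖ ^ 2 * (χ z * fderiv ℝ ψ (f z) 1) =
        -∑' q, Λ.val χ q * ∫ y in Metric.closedBall (c q) (ρ q), fderiv ℝ ψ y 1 ∧
      ∫ z in U, ‖deriv f z‖ ^ 2 * (χ z * fderiv ℝ ψ (f z) Complex.I) =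
        -∑' q, Λ.val χ q * ∫ y in Metric.closedBall (c q) (ρ q), fderiv ℝ ψ y Complex.I := by
  obtain ⟨x1, -, R, hR⟩ := e3_xx hc hp hψ hs
  have hφ := x1.mul_A0 hc.op Λ hχ
  obtain ⟨t1, t2⟩ := e3_tr hc hp hφ (R := R) fun z hz => by rw [hR z hz, zero_mul]
  obtain ⟨b1, b2⟩ := e3_bv hc hp hχ hψ hs
  have hφ' := (xx_cp hc.op (LC1.of_cpt hψ hs) hp.elb.xa hp.elb.xb).mul_A0 hc.op Λ hχ
  have g : ∀ v, XX U v → om U (fun z => ψ (f z) * χ z) v =
      om U (fun z => cp ψ (reC ξ f) (imC ξ f) z * χ z) v := fun v hv =>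
    om_germ_congr hc.op Λ hφ hφ' hv hv fun q => ⟨0, 0, 0, fun z hz => by
      have h1 : ξ z = 1 := hp.cut.one z (mem_ball_zero_iff.1 (Λ.sub 0 q hz).2).le
      simp only [cp, reC, imC, h1, one_mul, add_zero], fun z _ => (add_zero _).symm⟩
  have hf : ∀ z ∈ U, DifferentiableAt ℂ f z := fun z hz =>
    hp.hol.differentiableAt (hc.op.mem_nhds hz)
  have hψ' : Differentiable ℝ ψ := hψ.differentiable one_ne_zero
  have pt : ∀ v, ∀ z ∈ U, wd (fun z => ψ (f z) * χ z) v z = χ z * wd (fun z => ψ (f z)) v z := by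
    intro v z hz
    have e : (fun w => ψ (f w) * χ w) =ᶠ[𝓝 z] fun w => ψ (f w) * χ z := by
      by_cases h : z ∈ C
      · have h1 : ψ =ᶠ[𝓝 (f z)] 0 := notMem_tsupport_iff_eventuallyEq.1 fun h' =>
          disjoint_left.1 hd h' (mem_image_of_mem f h)
        filter_upwards [(hf z hz).continuousAt.tendsto.eventually h1] with w hw
        rw [hw, Pi.zero_apply, zero_mul, zero_mul]
      · filter_upwards [hC z hz h] with w hw
        rw [hw]
    have d : DifferentiableAt ℝ (fun w => ψ (f w)) z :=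
      (hψ' (f z)).comp z ((hf z hz).restrictScalars ℝ)
    simp only [wd, e.fderiv_eq, fderiv_mul_const d, smul_apply, smul_eq_mul]
    ring
  constructor
  · rw [← b1, ← g _ hp.elb.xb, ← t1, om]
    refine setIntegral_congr_fun hc.op.measurableSet fun z hz => ?_
    simp only [pt _ z hz, (hol_wd (hf z hz) (hψ' (f z))).1]
    ring
  · rw [← b2, ← g _ hp.elb.xa, ← t2, om, ← integral_neg]
    refine setIntegral_congr_fun hc.op.measurableSet fun z hz => ?_
    simp only [pt _ z hz, (hol_wd (hf z hz) (hψ' (f z))).2.1]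
    ring

/-- SEP.  `ae_const_of_grad` for `g = 1_{f U} χ ∘ f⁻¹ + 1_A` (`inv_cont`, `disc_union`, `area_int`,
`e3_weak`, `e3_out`) -/
theorem e3_sep (hc : Ctx Λ M) (hp : EPic Λ M f ξ c ρ) {χ : ℂ → ℝ} (hχ : A0 U χ)
    (hv : ∀ q, Λ.val χ q = 0 ∨ Λ.val χ q = 1) {C : Set ℂ}
    (hC : ∀ z ∈ U, z ∉ C → ∀ᶠ w in 𝓝 z, χ w = χ z) {O : Set ℂ} (hO : IsOpen O)
    (hOc : IsPreconnected O) (hd : Disjoint O (f '' C)) :
    ∃ κ : ℝ, (∀ z ∈ U, f z ∈ O → χ z = κ) ∧
      ∀ q, 0 < ρ q → (O ∩ Metric.closedBall (c q) (ρ q)).Nonempty → Λ.val χ q = κ := by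
  have hU := hc.op
  have hi := e3_inj hc hp
  have hV := open_map hc hp hU subset_rfl
  obtain ⟨A, hA, hAB, hAv, hAi⟩ := disc_union (c := c) hp.elb.l2 hv fun q q' => e3_null hc hp
  have hAV : ∀ y ∈ f '' U, y ∉ A := fun y hy h => by
    obtain ⟨q, hq, h⟩ := mem_iUnion₂.1 (hAB h)
    exact disjoint_left.1 (e3_out hc hp hq) h hy
  set k : ℂ → ℝ := fun y => χ (Function.invFunOn f U y) with hk
  have kc : ContinuousOn k (f '' U) := hχ.xx.lip.continuousOn.comp (inv_cont hc hp)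
    fun y hy => Function.invFunOn_mem hy
  have kf : ∀ z ∈ U, k (f z) = χ z := fun z hz => by
    simp only [hk, hi.leftInvOn_invFunOn hz]
  obtain ⟨B, hB⟩ := hχ.bdd Λ
  have m1 : AEStronglyMeasurable ((f '' U).indicator k) volume :=
    (aestronglyMeasurable_indicator_iff hV.measurableSet).2
      (kc.aestronglyMeasurable hV.measurableSet)
  have b1 : ∀ y, ‖(f '' U).indicator k y‖ ≤ |B| := fun y => by
    by_cases hy : y ∈ f '' U
    · rw [indicator_of_mem hy]
      exact (hB _ (Function.invFunOn_mem hy)).trans (le_abs_self B)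
    · rw [indicator_of_notMem hy, norm_zero]
      exact abs_nonneg B
  have m2 : AEStronglyMeasurable (A.indicator (1 : ℂ → ℝ)) volume :=
    (measurable_one.indicator hA).aestronglyMeasurable
  have b2 : ∀ y, ‖A.indicator (1 : ℂ → ℝ) y‖ ≤ 1 := fun y => by
    by_cases hy : y ∈ A <;> simp [hy]
  have e0 : ∀ h : ℂ → ℝ, Integrable h →
      ∫ y, ((f '' U).indicator k y + A.indicator 1 y) * h y =
        (∫ z in U, ‖deriv f z‖ ^ 2 * (χ z * h (f z))) +
          ∑' q, Λ.val χ q * ∫ y in Metric.closedBall (c q) (ρ q), h y := fun h hh => by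
    simp only [add_mul]
    rw [integral_add (hh.bdd_mul m1 (Eventually.of_forall b1))
      (hh.bdd_mul m2 (Eventually.of_forall b2)), ← hAi h hh]
    simp only [← indicator_mul_left, Pi.one_apply, one_mul]
    rw [integral_indicator hV.measurableSet, integral_indicator hA, area_int hU hp.hol hi]
    congr 1
    exact setIntegral_congr_fun hU.measurableSet fun z hz => by simp only [kf z hz]
  obtain ⟨κ, hκ⟩ := ae_const_of_grad hO hOc
    (g := fun y => (f '' U).indicator k y + A.indicator 1 y)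
    (LocallyIntegrable.locallyIntegrableOn ((locallyIntegrable_const (|B| + 1)).mono (m1.add m2)
      (Eventually.of_forall fun y => (norm_add_le _ _).trans
        ((add_le_add (b1 y) (b2 y)).trans (le_abs_self _)))) O)
    fun ψ h1 h2 h3 => by
      have h4 := h1.continuous_fderiv one_ne_zero
      have h5 : ∀ v : ℂ, Integrable fun y => fderiv ℝ ψ y v := fun v =>
        Continuous.integrable_of_hasCompactSupport (by fun_prop)
          ((h2.fderiv ℝ).mono fun y hy h => hy (by simp [h]))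
      obtain ⟨w1, w2⟩ := e3_weak hc hp hχ hC h1 h2 (hd.mono_left h3)
      rw [e0 _ (h5 1), e0 _ (h5 _), w1, w2]
      simp
  refine ⟨κ, fun z hz hzO => ?_, fun q hq ⟨y, hy1, hy2⟩ => ?_⟩
  · have h1 : k =ᵐ[volume.restrict (O ∩ f '' U)] fun _ => κ := by
      rw [EventuallyEq, ae_restrict_iff' (hO.inter hV).measurableSet]
      filter_upwards [hκ] with y h hy
      have := h hy.1
      rwa [indicator_of_mem hy.2, indicator_of_notMem (hAV y hy.2), add_zero] at this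
    rw [← kf z hz]
    exact Measure.eqOn_open_of_ae_eq h1 (hO.inter hV) (kc.mono inter_subset_right)
      continuousOn_const ⟨hzO, mem_image_of_mem f hz⟩
  · rw [← closure_ball _ hq.ne'] at hy2
    have h1 : (O ∩ Metric.ball (c q) (ρ q)).Nonempty := mem_closure_iff.1 hy2 O hO hy1
    have h2 := (hO.inter Metric.isOpen_ball).measure_ne_zero (volume : Measure ℂ) h1
    obtain ⟨w, hw, h3, h4⟩ := (frequently_ae_mem_iff.2 h2).and_eventually (hκ.and (hAv q hq))
      |>.exists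
    have h5 := Metric.ball_subset_closedBall hw.2
    rw [← h4 h5, ← h3 hw.1,
      indicator_of_notMem (disjoint_left.1 (e3_out hc hp hq) h5), zero_add]

/-- the point `y` of the picture is attached to the end `q` -/
def Att (Λ : Lumps U) (f : ℂ → ℂ) (c : Λ.E → ℂ) (ρ : Λ.E → ℝ) (y : ℂ) (q : Λ.E) : Prop :=
  y ∈ clus Λ f q ∨ (0 < ρ q ∧ y ∈ Metric.closedBall (c q) (ρ q))

theorem att_out (hc : Ctx Λ M) (hp : EPic Λ M f ξ c ρ) {y : ℂ} {q : Λ.E}
    (h : Att Λ f c ρ y q) : y ∉ f '' U := by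
  rcases h with h | ⟨h1, h2⟩
  · exact disjoint_left.1 (e3_clus_out hc hp q) h
  · exact disjoint_left.1 (e3_out hc hp h1) h2

/-- all ends attached to points of a connected open set `O` off `f C` have the same value -/
theorem att_val (hc : Ctx Λ M) (hp : EPic Λ M f ξ c ρ) {χ : ℂ → ℝ} (hχ : A0 U χ)
    (hv : ∀ q, Λ.val χ q = 0 ∨ Λ.val χ q = 1) {C : Set ℂ}
    (hC : ∀ z ∈ U, z ∉ C → ∀ᶠ w in 𝓝 z, χ w = χ z) {O : Set ℂ} (hO : IsOpen O)
    (hOc : IsPreconnected O) (hd : Disjoint O (f '' C)) :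
    ∃ κ : ℝ, ∀ y ∈ O, ∀ q, Att Λ f c ρ y q → Λ.val χ q = κ := by
  obtain ⟨κ, h1, h2⟩ := e3_sep hc hp hχ hv hC hO hOc hd
  refine ⟨κ, fun y hy q h => ?_⟩
  rcases h with h | ⟨h3, h4⟩
  · obtain ⟨N, hN⟩ := hχ.eq_val Λ
    obtain ⟨w, hw, z, hz, rfl⟩ := mem_closure_iff.1 (mem_iInter.1 h N) O hO hy
    rw [← hN N le_rfl q z hz]
    exact h1 z (Λ.sub N q hz).1 hw
  · exact h2 q h3 ⟨y, hy, h4⟩

/-- local form: near a point outside the image all attached ends lie in one lump -/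
theorem att_loc (hc : Ctx Λ M) (hp : EPic Λ M f ξ c ρ) {y : ℂ} (hy : y ∉ f '' U) (n : ℕ)
    (p : Λ.E) : ∃ δ > 0, ∀ y₁ ∈ Metric.ball y δ, ∀ y₂ ∈ Metric.ball y δ, ∀ q₁ q₂,
      Att Λ f c ρ y₁ q₁ → Att Λ f c ρ y₂ q₂ → Λ.W n q₁ = Λ.W n p → Λ.W n q₂ = Λ.W n p := by
  obtain ⟨χ, hχ, -⟩ := exists_Ind hc.op Λ n p
  obtain ⟨C, hC, hCU, hl⟩ := hχ.1.loc
  have h1 : IsClosed (f '' C) :=
    (hC.image_of_continuousOn (hp.hol.continuousOn.mono hCU)).isClosed
  obtain ⟨δ, hδ, hb⟩ := Metric.isOpen_iff.1 h1.isOpen_compl y fun h => hy (image_mono hCU h)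
  obtain ⟨κ, hκ⟩ := att_val hc hp hχ.1 (ind_val hχ).2 hl Metric.isOpen_ball
    (convex_ball y δ).isPreconnected (disjoint_left.2 hb)
  refine ⟨δ, hδ, fun y₁ h₁ y₂ h₂ q₁ q₂ a₁ a₂ e => ?_⟩
  have e1 := hκ y₁ h₁ q₁ a₁
  have e2 := hκ y₂ h₂ q₂ a₂
  rw [hχ.2, if_pos e] at e1
  rw [hχ.2, ← e1] at e2
  by_contra h
  rw [if_neg h] at e2
  exact zero_ne_one e2

theorem eq_of_lumps {p q : Λ.E} (h : ∀ n, Λ.W n q = Λ.W n p) : q = p := by
  by_contra hne
  obtain ⟨n, hn⟩ := Λ.sep q p hne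
  rw [h n, disjoint_self] at hn
  exact (Λ.conn n p).nonempty.ne_empty hn

theorem att_unique (hc : Ctx Λ M) (hp : EPic Λ M f ξ c ρ) {y : ℂ} {p q : Λ.E}
    (h₁ : Att Λ f c ρ y p) (h₂ : Att Λ f c ρ y q) : q = p := by
  refine eq_of_lumps fun n => ?_
  obtain ⟨δ, hδ, h⟩ := att_loc hc hp (att_out hc hp h₁) n p
  exact h y (Metric.mem_ball_self hδ) y (Metric.mem_ball_self hδ) p q h₁ h₂ rfl

/-- Every point outside the image is attached.  On the boundary: `e3_bdry`.  In the interior take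
a disc `O` off `f U`; `e3_deg` gives `Σ |B q ∩ O| = |O|`; by `att_val` (with `exists_Ind`,
`eq_of_lumps`) only one `q` with `0 < ρ q` meets `O`; the open set `O \ B q` is null, so empty. -/
theorem att_exists (hc : Ctx Λ M) (hp : EPic Λ M f ξ c ρ) {y : ℂ} (hy : y ∉ f '' U) :
    ∃ q, Att Λ f c ρ y q := by
  by_cases h1 : y ∈ closure (f '' U)
  · exact (e3_bdry hc hp h1 hy).imp fun q h => Or.inl h
  obtain ⟨δ, hδ, hb⟩ := Metric.isOpen_iff.1 isClosed_closure.isOpen_compl y h1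
  have A : ∀ O : Set ℂ, IsOpen O → O ⊆ Metric.ball y δ → O.Nonempty →
      ∃ q, 0 < ρ q ∧ (Metric.closedBall (c q) (ρ q) ∩ O).Nonempty := fun O hO hs hne => by
    by_contra hn
    have e := e3_deg hc hp hO (Metric.isBounded_ball.subset hs)
    have e1 : U ∩ f ⁻¹' O = ∅ := eq_empty_of_forall_notMem fun z hz =>
      hb (hs hz.2) (subset_closure (mem_image_of_mem f hz.1))
    have e2 : ∀ q, volume (Metric.closedBall (c q) (ρ q) ∩ O) = 0 := fun q => by
      rcases (hp.elb.l2.1 q).eq_or_lt with h0 | h0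
      · rw [← h0, Metric.closedBall_zero]
        exact measure_mono_null inter_subset_left (measure_singleton _)
      · rw [not_nonempty_iff_eq_empty.1 fun h => hn ⟨q, h0, h⟩, measure_empty]
    rw [e1, Measure.restrict_empty, lintegral_zero_measure, zero_add] at e
    simp only [e2, tsum_zero] at e
    exact (hO.measure_pos volume hne).ne e
  have B : ∀ q q', 0 < ρ q → 0 < ρ q' → (Metric.closedBall (c q) (ρ q) ∩ Metric.ball y δ).Nonempty →
      (Metric.closedBall (c q') (ρ q') ∩ Metric.ball y δ).Nonempty → q' = q :=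
    fun q q' h0 h0' ⟨w, hw⟩ ⟨w', hw'⟩ => eq_of_lumps fun n => by
      obtain ⟨χ, hχ, -⟩ := exists_Ind hc.op Λ n q
      obtain ⟨C, -, hCU, hl⟩ := hχ.1.loc
      obtain ⟨κ, hκ⟩ := att_val hc hp hχ.1 (ind_val hχ).2 hl Metric.isOpen_ball
        (convex_ball y δ).isPreconnected
        (disjoint_left.2 fun z hz hz' => hb hz (subset_closure (image_mono hCU hz')))
      have e1 := hκ w hw.2 q (Or.inr ⟨h0, hw.1⟩)
      have e2 := hκ w' hw'.2 q' (Or.inr ⟨h0', hw'.1⟩)
      rw [(ind_val hχ).1] at e1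
      rw [hχ.2, ← e1] at e2
      by_contra h
      rw [if_neg h] at e2
      exact zero_ne_one e2
  obtain ⟨q, h0, hq⟩ := A _ Metric.isOpen_ball subset_rfl ⟨y, Metric.mem_ball_self hδ⟩
  refine ⟨q, Or.inr ⟨h0, by_contra fun hn => ?_⟩⟩
  obtain ⟨q', h0', w, hw⟩ := A (Metric.ball y δ \ Metric.closedBall (c q) (ρ q))
    (Metric.isOpen_ball.sdiff Metric.isClosed_closedBall) diff_subset
    ⟨y, Metric.mem_ball_self hδ, hn⟩
  obtain rfl := B q q' h0 h0' hq ⟨w, hw.1, hw.2.1⟩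
  exact hw.2.2 hw.1

/-- the case without nodes -/
theorem e3_nonode (hc : Ctx Λ M) (hp : EPic Λ M f ξ c ρ)
    (h : ∀ r, Reg Λ r → TT Λ M r → ∀ ε > 0, ∃ r', Reg Λ r' ∧ TT Λ M r' ∧
      (∀ q, Λ.osc r' q = 0) ∧ En U (fun z => r' z - r z) ≤ ENNReal.ofReal ε) :
    (∀ q, ρ q = 0) ∧ ∀ v, TT Λ M v → Bdd U v → ∀ φ : ℂ → ℝ, ContDiff ℝ 1 φ →
      HasCompactSupport φ → om U (fun z => v z * φ (f z)) (fun z => (f z).im) = 0 ∧
        om U (fun z => v z * φ (f z)) (fun z => (f z).re) = 0 := by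
  have hU := hc.op
  have he := hp.elb
  have z0 : ∀ c : ℂ → ℝ, om U (fun _ => 0) c = 0 := fun c => by simp [om, wd]
  obtain ⟨r0, o0⟩ := rt_A0 hc (A0.const (U := U) 0)
  have s1 : ∀ u, RT Λ M u → (∀ q, Λ.osc u q = 0) → om U u (imC ξ f) = 0 := fun u hu ho => by
    have := he.le u (fun _ => 0) (fun q => ⟨Λ.lo u q, Λ.lo (fun _ => 0) q⟩) (fun _ => 0) hu r0
      ⟨fun _ => le_rfl, by simp⟩ fun q => by
        simpa only [ho q, o0 q, add_zero] using inBall_osc hu.reg.bdd r0.reg.bdd q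
    simpa [ell, z0] using this
  have s2 : ∀ u, RT Λ M u → om U u (imC ξ f) = 0 := fun u hu => by
    choose r h1 h2 h3 h4 using fun k : ℕ => h u hu.reg hu.tt (1 / ((k : ℝ) + 1)) (by positivity)
    have h5 := ENNReal.tendsto_ofReal (tendsto_one_div_add_atTop_nhds_zero_nat (𝕜 := ℝ))
    rw [ENNReal.ofReal_zero] at h5
    have h6 := h18_om_tendsto hU he.xb hu.reg.xx (fun k => (h1 k).xx)
      (tendsto_of_tendsto_of_tendsto_of_le_of_le tendsto_const_nhds h5 (fun _ => zero_le) h4)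
    simp only [fun k => s1 (r k) ⟨h1 k, h2 k⟩ (h3 k)] at h6
    exact tendsto_nhds_unique h6 tendsto_const_nhds
  have s3 : ∀ q, ρ q = 0 := fun q => by
    obtain ⟨u₁, u₂, ck, rk, ha, -⟩ := hp.appr
    have h6 := h18_om_tendsto hU he.xb he.xa (fun k => (ha.rt₁ k).reg.xx) ha.en₁
    simp only [fun k => s2 (u₁ k) (ha.rt₁ k)] at h6
    have h7 := tendsto_nhds_unique h6 tendsto_const_nhds
    rw [hp.area, neg_eq_zero, mul_eq_zero] at h7
    have h8 := he.l2.le_nrm q
    rw [nrm, h7.resolve_left Real.pi_ne_zero, Real.sqrt_zero] at h8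
    exact le_antisymm h8 (he.l2.1 q)
  refine ⟨s3, fun v ⟨hv, n, hn⟩ hb φ hφ hs => ?_⟩
  obtain ⟨L, hL⟩ := (LC1.of_cpt hφ hs).lip
  obtain ⟨C, -, hw⟩ := bt_mul hc ⟨hv, hb, hn⟩
    (bt_cp hc (LC1.of_cpt hφ hs) hL he.xa he.xb (elb_adm hc he).1 (elb_adm hc he).2)
  obtain ⟨x1, x2, R, hR⟩ := e3_xx hc hp hφ hs
  have x3 := hv.mul hU x1 hb x2
  obtain ⟨t1, t2⟩ := e3_tr hc hp x3 (R := R) fun z hz => by rw [hR z hz, mul_zero]
  have g : ∀ c, XX U c → om U (fun z => v z * φ (f z)) c =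
      om U (fun z => v z * cp φ (reC ξ f) (imC ξ f) z) c := fun c hc' =>
    om_germ_congr hU Λ x3 hw.xx hc' hc' fun q => ⟨0, 0, 0,
      fun z hz => by simp [cp, reC, imC, hp.cut.lump hz], fun _ _ => (add_zero _).symm⟩
  have a0 := adm_A0 hc (A0.const (U := U) 0)
  have e1 := elb_tail hc he hw.xx r0.reg.xx hw.adm a0
  have e2 := elb_tail hc he r0.reg.xx hw.xx a0 hw.adm
  rw [t1, t2, g _ he.xa, g _ he.xb]
  exact ⟨by simpa [ell, z0, s3] using e1, by simpa [ell, z0, s3] using e2⟩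

/-- assembly from the absence of whiskers -/
theorem endOut_of (hc : Ctx Λ M) (hp : EPic Λ M f ξ c ρ)
    (hw : ∀ p, (0 < ρ p → clus Λ f p ⊆ Metric.closedBall (c p) (ρ p)) ∧
      (ρ p = 0 → (clus Λ f p).Subsingleton)) : ∃ c', EndOut Λ M f c' ρ := by
  classical
  choose d hd using e3_clus_ne hc hp
  let c' : Λ.E → ℂ := fun q => if 0 < ρ q then c q else d q
  have key : ∀ q y, y ∈ Metric.closedBall (c' q) (ρ q) ↔ Att Λ f c ρ y q := fun q y => by
    by_cases hq : 0 < ρ q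
    · simp only [c', if_pos hq]
      exact ⟨fun h => Or.inr ⟨hq, h⟩, fun h => h.elim (fun h => (hw q).1 hq h) fun h => h.2⟩
    · have h0 : ρ q = 0 := le_antisymm (not_lt.1 hq) (hp.elb.l2.1 q)
      simp only [c', if_neg hq]
      rw [h0, Metric.closedBall_zero, mem_singleton_iff]
      exact ⟨fun h => Or.inl (h ▸ hd q),
        fun h => h.elim (fun h => (hw q).2 h0 h (hd q)) fun h => absurd h.1 hq⟩
  refine ⟨c', hp.hol, e3_inj hc hp, hp.inf, hp.elb.l2, fun q y hy => (key q y).2 (Or.inl hy), ?_,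
    fun q q' hq => disjoint_left.2 fun y h1 h2 =>
      hq (att_unique hc hp ((key _ _).1 h2) ((key _ _).1 h1)), fun n q => ?_, e3_nonode hc hp⟩
  · ext y
    rw [mem_iUnion]
    exact ⟨fun hy => (att_exists hc hp hy).imp fun q h => (key q y).2 h,
      fun ⟨q, h⟩ => att_out hc hp ((key q y).1 h)⟩
  · refine isClosed_of_closure_subset fun y hy => ?_
    have h1 : y ∉ f '' U := by
      refine (closure_minimal (t := (f '' U)ᶜ) (fun w hw => ?_)
        (open_map hc hp hc.op subset_rfl).isClosed_compl) hy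
      obtain ⟨q', -, h⟩ := mem_iUnion₂.1 hw
      exact att_out hc hp ((key q' w).1 h)
    obtain ⟨p, hp'⟩ := att_exists hc hp h1
    obtain ⟨δ, hδ, h⟩ := att_loc hc hp h1 n q
    obtain ⟨w, hw1, hw2⟩ := mem_closure_iff.1 hy _ Metric.isOpen_ball (Metric.mem_ball_self hδ)
    obtain ⟨q', e, hw3⟩ := mem_iUnion₂.1 hw2
    exact mem_iUnion₂.2 ⟨p, h w hw1 y (Metric.mem_ball_self hδ) q' p ((key q' w).1 hw3) hp' e,
      (key p y).2 hp'⟩

end Crest.Agent.R105.End
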