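import Crest.Agent.R105.E2An

/-! Row 105, block END, stage 3: test functions for the whisker argument. -/

set_option autoImplicit false

open MeasureTheory Set Filter Topology Metric
open scoped ENNReal

namespace Crest.Agent.R105.End

/-- rescale a fixed bump (`ContDiffBump` with radii `2`, `3`) -/
theorem exists_theta : ∃ C : ℝ, 0 ≤ C ∧ ∀ (y₀ : ℂ) (δ : ℝ), 0 < δ → ∃ θ : ℂ → ℝ, LC1 θ ∧
    (∀ y, 0 ≤ θ y ∧ θ y ≤ 1) ∧ (∀ y, ‖y - y₀‖ ≤ 2 * δ → θ y = 1) ∧
    (∀ y, 3 * δ < ‖y - y₀‖ → θ y = 0 ∧ fderiv ℝ θ y = 0) ∧ ∀ y, ‖fderiv ℝ θ y‖ ≤ C / δ := by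
  let f : ContDiffBump (0 : ℂ) := ⟨2, 3, by norm_num, by norm_num⟩
  have hf : ContDiff ℝ 1 f := f.contDiff
  obtain ⟨C, hC⟩ := (hf.continuous_fderiv one_ne_zero).bounded_above_of_compact_support
    (f.hasCompactSupport.fderiv ℝ)
  have hC0 : 0 ≤ C := (norm_nonneg _).trans (hC 0)
  refine ⟨C, hC0, fun y₀ δ hδ => ?_⟩
  have hn : ∀ y : ℂ, ‖δ⁻¹ • (y - y₀)‖ = ‖y - y₀‖ / δ := fun y => by
    rw [norm_smul, Real.norm_eq_abs, abs_of_pos (inv_pos.2 hδ)]; ring
  have hd : ∀ y : ℂ, HasFDerivAt (fun y => f (δ⁻¹ • (y - y₀)))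
      ((fderiv ℝ f (δ⁻¹ • (y - y₀))).comp (δ⁻¹ • ContinuousLinearMap.id ℝ ℂ)) y := fun y =>
    (hf.differentiable one_ne_zero _).hasFDerivAt.comp y
      (((hasFDerivAt_id y).sub_const y₀).const_smul δ⁻¹)
  have hb : ∀ y, ‖fderiv ℝ (fun y => f (δ⁻¹ • (y - y₀))) y‖ ≤ C / δ := fun y => by
    rw [(hd y).fderiv]
    refine (ContinuousLinearMap.opNorm_comp_le _ _).trans ?_
    rw [norm_smul, ContinuousLinearMap.norm_id, Real.norm_eq_abs, abs_of_pos (inv_pos.2 hδ),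
      mul_one, div_eq_mul_inv]
    exact mul_le_mul_of_nonneg_right (hC _) (inv_pos.2 hδ).le
  refine ⟨fun y => f (δ⁻¹ • (y - y₀)), ⟨hf.comp ((contDiff_id.sub contDiff_const).const_smul _),
    ⟨1, fun y => ?_⟩, ⟨_, hb⟩⟩, fun y => ⟨f.nonneg, f.le_one⟩, fun y hy => ?_, fun y hy => ?_, hb⟩
  · rw [abs_of_nonneg f.nonneg]; exact f.le_one
  · refine f.one_of_mem_closedBall (mem_closedBall_zero_iff.2 ?_)
    rw [hn, div_le_iff₀ hδ]; exact hy
  · have h1 : δ⁻¹ • (y - y₀) ∉ tsupport f := by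
      rw [f.tsupport_eq, mem_closedBall_zero_iff, hn, div_le_iff₀ hδ]
      exact not_le.2 hy
    refine ⟨image_eq_zero_of_notMem_tsupport h1, ?_⟩
    rw [(hd y).fderiv, fderiv_of_notMem_tsupport ℝ h1, ContinuousLinearMap.zero_comp]

/-- test function whose derivative in direction `d` is `h₁ - h₀` -/
structure Test (C : ℝ) (y₀ : ℂ) (δ : ℝ) (O : Set ℂ) (d : ℂ) (ψ h₁ h₀ : ℂ → ℝ) : Prop where
  sm : ContDiff ℝ 1 ψ
  bd : ∀ y, |ψ y| ≤ 1
  supp : ∀ y, 2 * δ < ‖y - y₀‖ → ψ y = 0 ∧ h₁ y = 0 ∧ h₀ y = 0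
  c₁ : Continuous h₁
  c₀ : Continuous h₀
  der : ∀ y, fderiv ℝ ψ y d = h₁ y - h₀ y
  p₁ : ∀ y, 0 ≤ h₁ y
  s₁ : ∀ y, h₁ y ≠ 0 → y ∈ O
  big : δ / 8 ≤ ∫ y, h₁ y
  p₀ : ∀ y, 0 ≤ h₀ y ∧ h₀ y ≤ C / δ

/-- one-dimensional data: a smooth step with nonnegative derivative of integral one
(`Real.smoothTransition` rescaled; `C` bounds its derivative) -/
theorem exists_step : ∃ C : ℝ, 0 ≤ C ∧ ∀ a b : ℝ, a < b → ∃ A : ℝ → ℝ, ContDiff ℝ 1 A ∧
    (∀ x, 0 ≤ A x ∧ A x ≤ 1) ∧ (∀ x, x ≤ a → A x = 0) ∧ (∀ x, b ≤ x → A x = 1) ∧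
    (∀ x, 0 ≤ deriv A x ∧ deriv A x ≤ C / (b - a)) ∧ (∀ x, deriv A x ≠ 0 → x ∈ Icc a b) ∧
    ∫ x, deriv A x = 1 := by
  have hf : ContDiff ℝ 1 Real.smoothTransition := Real.smoothTransition.contDiff
  have hz : ∀ x, x ∉ Icc (0 : ℝ) 1 → deriv Real.smoothTransition x = 0 := by
    intro x hx
    rcases not_and_or.1 hx with h | h
    · have : Real.smoothTransition =ᶠ[𝓝 x] fun _ => 0 := by
        filter_upwards [Iio_mem_nhds (not_le.1 h)] with y hy
        exact Real.smoothTransition.zero_of_nonpos (le_of_lt hy)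
      rw [this.deriv_eq]; simp
    · have : Real.smoothTransition =ᶠ[𝓝 x] fun _ => 1 := by
        filter_upwards [Ioi_mem_nhds (not_le.1 h)] with y hy
        exact Real.smoothTransition.one_of_one_le (le_of_lt hy)
      rw [this.deriv_eq]; simp
  obtain ⟨C, hC⟩ := (hf.continuous_deriv le_rfl).bounded_above_of_compact_support
    (HasCompactSupport.intro isCompact_Icc hz)
  refine ⟨C, (norm_nonneg _).trans (hC 0), fun a b hab => ?_⟩
  have hp : 0 < b - a := sub_pos.2 hab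
  have hd : ∀ x : ℝ, HasDerivAt (fun x => Real.smoothTransition ((x - a) / (b - a)))
      (deriv Real.smoothTransition ((x - a) / (b - a)) * (1 / (b - a))) x := fun x =>
    (hf.differentiable one_ne_zero _).hasDerivAt.comp x
      (((hasDerivAt_id x).sub_const a).div_const (b - a))
  have hA : ContDiff ℝ 1 fun x => Real.smoothTransition ((x - a) / (b - a)) :=
    hf.comp ((contDiff_id.sub contDiff_const).div_const _)
  have h0 : ∀ x, x ≤ a → Real.smoothTransition ((x - a) / (b - a)) = 0 := fun x hx =>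
    Real.smoothTransition.zero_of_nonpos (div_nonpos_of_nonpos_of_nonneg (sub_nonpos.2 hx) hp.le)
  have h1 : ∀ x, b ≤ x → Real.smoothTransition ((x - a) / (b - a)) = 1 := fun x hx =>
    Real.smoothTransition.one_of_one_le ((one_le_div hp).2 (by linarith))
  have hs : ∀ x, deriv (fun x => Real.smoothTransition ((x - a) / (b - a))) x ≠ 0 →
      x ∈ Icc a b := by
    intro x hx
    rw [(hd x).deriv] at hx
    by_contra hn
    refine hx ?_
    rw [hz, zero_mul]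
    rintro ⟨h2, h3⟩
    rw [le_div_iff₀ hp] at h2
    rw [div_le_one hp] at h3
    exact hn ⟨by linarith, by linarith⟩
  refine ⟨_, hA, fun x => ⟨Real.smoothTransition.nonneg _, Real.smoothTransition.le_one _⟩,
    h0, h1, fun x => ?_, hs, ?_⟩
  · rw [(hd x).deriv, mul_one_div]
    exact ⟨div_nonneg Real.smoothTransition.monotone.deriv_nonneg hp.le,
      div_le_div_of_nonneg_right ((le_abs_self _).trans (hC _)) hp.le⟩
  · rw [← intervalIntegral.integral_eq_integral_of_support_subset (a := a - 1) (b := b)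
      fun x hx => ⟨by linarith [(hs x hx).1], (hs x hx).2⟩,
      intervalIntegral.integral_deriv_eq_sub (fun x _ => (hd x).differentiableAt)
        ((hA.continuous_deriv le_rfl).intervalIntegrable _ _), h1 b le_rfl, h0 _ (by linarith),
      sub_zero]

theorem h22_unif {O : Set ℂ} (hO : IsOpen O) {K : Set ℝ} (hK : IsCompact K)
    (h : ∀ t ∈ K, ∃ y ∈ O, y.im = t) :
    ∃ η > 0, ∀ t ∈ K, ∃ x : ℝ, ∀ y : ℂ, |y.re - x| + |y.im - t| < η → y ∈ O := by
  refine hK.induction_on (p := fun S => ∃ η > 0, ∀ t ∈ S, ∃ x : ℝ, ∀ y : ℂ,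
    |y.re - x| + |y.im - t| < η → y ∈ O) ⟨1, one_pos, fun t ht => ht.elim⟩ ?_ ?_ ?_
  · rintro S T hST ⟨η, hη, hT⟩
    exact ⟨η, hη, fun t ht => hT t (hST ht)⟩
  · rintro S T ⟨η, hη, hS⟩ ⟨η', hη', hT⟩
    refine ⟨min η η', lt_min hη hη', ?_⟩
    rintro t (ht | ht)
    · obtain ⟨x, hx⟩ := hS t ht
      exact ⟨x, fun y hy => hx y (hy.trans_le (min_le_left _ _))⟩
    · obtain ⟨x, hx⟩ := hT t ht
      exact ⟨x, fun y hy => hx y (hy.trans_le (min_le_right _ _))⟩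
  · intro t ht
    obtain ⟨y, hy, rfl⟩ := h t ht
    obtain ⟨ε, hε, hb⟩ := Metric.isOpen_iff.1 hO y hy
    refine ⟨ball y.im (ε / 2), mem_nhdsWithin_of_mem_nhds (ball_mem_nhds _ (by positivity)),
      ε / 2, by positivity, fun s hs => ⟨y.re, fun w hw => hb ?_⟩⟩
    rw [mem_ball, Real.dist_eq] at hs
    rw [mem_ball, dist_eq_norm]
    have h1 := Complex.norm_le_abs_re_add_abs_im (w - y)
    rw [Complex.sub_re, Complex.sub_im] at h1
    have h2 : |w.im - y.im| ≤ |w.im - s| + |s - y.im| := abs_sub_le _ _ _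
    linarith

theorem h22_hasFDerivAt {b g : ℝ → ℝ} (hb : Differentiable ℝ b) (hg : Differentiable ℝ g) (y : ℂ) :
    HasFDerivAt (fun y : ℂ => b y.im * g y.re)
      (b y.im • (deriv g y.re • Complex.reCLM) + g y.re • (deriv b y.im • Complex.imCLM)) y :=
  ((hb y.im).hasDerivAt.comp_hasFDerivAt y Complex.imCLM.hasFDerivAt).mul
    ((hg y.re).hasDerivAt.comp_hasFDerivAt y Complex.reCLM.hasFDerivAt)

theorem h22_int {b g : ℝ → ℝ} (hb : Integrable b) (hg : Integrable g) :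
    Integrable (fun y : ℂ => b y.im * g y.re) ∧
      ∫ y : ℂ, b y.im * g y.re = (∫ x, g x) * ∫ x, b x := by
  have hm := Complex.volume_preserving_equiv_real_prod
  have he : (fun y : ℂ => b y.im * g y.re) =
      (fun z : ℝ × ℝ => g z.1 * b z.2) ∘ Complex.measurableEquivRealProd := by
    ext y
    simp [mul_comm]
  constructor
  · rw [he]
    exact (hm.integrable_comp_emb Complex.measurableEquivRealProd.measurableEmbedding).2
      (hg.mul_prod hb)
  · rw [← integral_prod_mul, he]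
    exact hm.integral_comp' (fun z : ℝ × ℝ => g z.1 * b z.2)

/-- Horizontal test function.  Each height `t ∈ [t₀, t₀ + δ/4]` has a rectangle
`[a,b] × (t - ε, t + ε) ⊆ O`; finitely many cover; take a smooth partition of unity `b_i` on `ℝ`
subordinate to the height intervals with sum `1` on `[t₀, t₀ + δ/4]` and `≤ 1`
(`SmoothPartitionOfUnity.exists_isSubordinate`, or `exists_contMDiff..`), steps `A_i` across
`[a_i,b_i]` and `A` across `[y₀.re - δ, y₀.re + δ]` (`exists_step`);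
`ψ = Σ b_i(im) (A_i - A)(re)`, `h₁ = Σ b_i A_i'`, `h₀ = Σ b_i A'`; Fubini
(`Complex.volume_preserving_equiv_real_prod`, `integral_prod_mul`). -/
theorem exists_test_x : ∃ C : ℝ, 0 ≤ C ∧ ∀ (y₀ : ℂ) (δ : ℝ) (O : Set ℂ) (t₀ : ℝ), 0 < δ →
    IsOpen O → O ⊆ ball y₀ δ → (∀ t ∈ Icc t₀ (t₀ + δ / 4), ∃ y ∈ O, y.im = t) →
    ∃ ψ h₁ h₀, Test C y₀ δ O 1 ψ h₁ h₀ := by
  obtain ⟨C, hC, hSt⟩ := exists_step
  refine ⟨C, hC, fun y₀ δ O t₀ hδ hO hOb ht => ?_⟩
  choose! St hSc hS01 hS0 hS1 hSd hSs hSi using hSt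
  obtain ⟨η, hη, hx⟩ := h22_unif hO isCompact_Icc ht
  choose! x hx using hx
  obtain ⟨n, hn⟩ := exists_nat_gt (δ / η)
  have hn0 : (0 : ℝ) < n := lt_trans (by positivity) hn
  set l : ℝ := δ / 4 / n with hl
  have hl0 : 0 < l := by positivity
  have hnl : n * l = δ / 4 := by rw [hl]; field_simp
  have hlη : l ≤ η / 4 := by
    rw [div_lt_iff₀ hη] at hn
    rw [hl, div_le_iff₀ hn0]
    linarith
  set s : ℕ → ℝ := fun i => t₀ + i * l with hs
  have hs1 : ∀ i, s (i + 1) - l = s i := fun i => by simp only [hs]; push_cast; ring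
  have hsK : ∀ i ∈ Finset.range (n + 1), s i ∈ Icc t₀ (t₀ + δ / 4) := fun i hi => by
    have h1 : (i : ℝ) ≤ n := by exact_mod_cast Nat.lt_succ_iff.1 (Finset.mem_range.1 hi)
    have h2 : (0 : ℝ) ≤ i * l := by positivity
    have h3 : (i : ℝ) * l ≤ n * l := by gcongr
    constructor <;> simp only [hs] <;> linarith
  have hlt : ∀ i, s i - l < s i := fun i => by linarith
  set B : ℕ → ℝ → ℝ := fun i => St (s i - l) (s i) with hB
  set b : ℕ → ℝ → ℝ := fun i t => B i t - B (i + 1) t with hb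
  have hbc : ∀ i, ContDiff ℝ 1 (b i) := fun i => (hSc _ _ (hlt i)).sub (hSc _ _ (hlt (i + 1)))
  have hb0 : ∀ i t, 0 ≤ b i t := fun i t => by
    simp only [hb, hB]
    rcases le_total t (s i) with h | h
    · rw [hS0 _ _ (hlt (i + 1)) t (by rw [hs1]; exact h), sub_zero]
      exact (hS01 _ _ (hlt i) t).1
    · rw [hS1 _ _ (hlt i) t h]
      linarith [(hS01 _ _ (hlt (i + 1)) t).2]
  have hbs : ∀ i t, b i t ≠ 0 → |t - s i| ≤ l := fun i t h => by
    by_contra hc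
    apply h
    simp only [hb, hB]
    have h1 := hs1 i
    rcases lt_abs.1 (not_le.1 hc) with h2 | h2
    · rw [hS1 _ _ (hlt i) t (by linarith), hS1 _ _ (hlt (i + 1)) t (by linarith), sub_self]
    · rw [hS0 _ _ (hlt i) t (by linarith), hS0 _ _ (hlt (i + 1)) t (by linarith), sub_self]
  have hsum : ∀ t, ∑ i ∈ Finset.range (n + 1), b i t = B 0 t - B (n + 1) t := fun t =>
    Finset.sum_range_sub' (fun i => B i t) (n + 1)
  have hsum1 : ∀ t, ∑ i ∈ Finset.range (n + 1), b i t ≤ 1 := fun t => by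
    rw [hsum]
    linarith [(hS01 _ _ (hlt 0) t).2, (hS01 _ _ (hlt (n + 1)) t).1]
  have hbi : ∀ i, Integrable (b i) := fun i =>
    (hbc i).continuous.integrable_of_hasCompactSupport
      (HasCompactSupport.intro (K := Icc (s i - l) (s i + l)) isCompact_Icc fun t ht => by
        by_contra hc
        have := abs_le.1 (hbs i t hc)
        exact ht ⟨by linarith, by linarith⟩)
  have hac : ∀ i, x (s i) - η / 4 < x (s i) + η / 4 := fun i => by linarith
  have hyy : y₀.re - δ < y₀.re + δ := by linarith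
  set A : ℕ → ℝ → ℝ := fun i => St (x (s i) - η / 4) (x (s i) + η / 4) with hA
  set A₀ : ℝ → ℝ := St (y₀.re - δ) (y₀.re + δ) with hA₀
  have hAc : ∀ i, ContDiff ℝ 1 (A i) := fun i => hSc _ _ (hac i)
  have hA₀c : ContDiff ℝ 1 A₀ := hSc _ _ hyy
  have hrect : ∀ i ∈ Finset.range (n + 1), ∀ y : ℂ, b i y.im ≠ 0 →
      y.re ∈ Icc (x (s i) - η / 4) (x (s i) + η / 4) → y ∈ O := fun i hi y h1 h2 => by
    refine hx _ (hsK i hi) y ?_
    have h3 := hbs i _ h1
    have h4 : |y.re - x (s i)| ≤ η / 4 := abs_le.2 ⟨by linarith [h2.1], by linarith [h2.2]⟩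
    linarith
  have hball : ∀ y ∈ O, |y.re - y₀.re| < δ ∧ |y.im - y₀.im| < δ := fun y hy => by
    have h1 := hOb hy
    rw [mem_ball, dist_eq_norm] at h1
    exact ⟨(Complex.abs_re_le_norm (y - y₀)).trans_lt h1,
      (Complex.abs_im_le_norm (y - y₀)).trans_lt h1⟩
  have hfar : ∀ y : ℂ, 2 * δ < ‖y - y₀‖ → ∀ i ∈ Finset.range (n + 1), b i y.im ≠ 0 →
      A i y.re - A₀ y.re = 0 ∧ deriv (A i) y.re = 0 ∧ deriv A₀ y.re = 0 := by
    intro y hy i hi h1
    have e1 := hball _ (hrect i hi ⟨x (s i) - η / 4, y.im⟩ h1 ⟨le_rfl, (hac i).le⟩)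
    have e2 := hball _ (hrect i hi ⟨x (s i) + η / 4, y.im⟩ h1 ⟨(hac i).le, le_rfl⟩)
    have e3 := Complex.norm_le_abs_re_add_abs_im (y - y₀)
    rw [Complex.sub_re, Complex.sub_im] at e3
    have e4 := abs_lt.1 e1.1
    have e5 := abs_lt.1 e2.1
    have e6 := e1.2
    simp only at e4 e5 e6
    have e7 : δ < |y.re - y₀.re| := by linarith
    have f1 : deriv (A i) y.re = 0 := by
      by_contra hc
      have := hSs _ _ (hac i) _ hc
      rcases lt_abs.1 e7 with h2 | h2 <;> linarith [this.1, this.2]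
    have f2 : deriv A₀ y.re = 0 := by
      by_contra hc
      have := hSs _ _ hyy _ hc
      rcases lt_abs.1 e7 with h2 | h2 <;> linarith [this.1, this.2]
    refine ⟨?_, f1, f2⟩
    simp only [hA, hA₀]
    rcases lt_abs.1 e7 with h2 | h2
    · rw [hS1 _ _ (hac i) _ (by linarith), hS1 _ _ hyy _ (by linarith), sub_self]
    · rw [hS0 _ _ (hac i) _ (by linarith), hS0 _ _ hyy _ (by linarith), sub_self]
  have hcd : ∀ {g : ℝ → ℝ}, ContDiff ℝ 1 g → Continuous (deriv g) := fun hg =>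
    hg.continuous_deriv le_rfl
  refine ⟨fun y => ∑ i ∈ Finset.range (n + 1), b i y.im * (A i y.re - A₀ y.re),
    fun y => ∑ i ∈ Finset.range (n + 1), b i y.im * deriv (A i) y.re,
    fun y => ∑ i ∈ Finset.range (n + 1), b i y.im * deriv A₀ y.re, ?_, fun y => ?_,
    fun y hy => ⟨?_, ?_, ?_⟩, ?_, ?_, fun y => ?_, fun y => ?_, fun y hy => ?_, ?_,
    fun y => ⟨?_, ?_⟩⟩
  · exact ContDiff.sum fun i _ => ((hbc i).comp Complex.imCLM.contDiff).mul
      (((hAc i).sub hA₀c).comp Complex.reCLM.contDiff)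
  · refine (Finset.abs_sum_le_sum_abs _ _).trans (le_trans (Finset.sum_le_sum fun i _ => ?_)
      (hsum1 y.im))
    rw [abs_mul, abs_of_nonneg (hb0 i _)]
    refine mul_le_of_le_one_right (hb0 i _) (abs_le.2 ⟨?_, ?_⟩)
    · linarith [(hS01 _ _ (hac i) y.re).1, (hS01 _ _ hyy y.re).2]
    · linarith [(hS01 _ _ (hac i) y.re).2, (hS01 _ _ hyy y.re).1]
  · refine Finset.sum_eq_zero fun i hi => ?_
    by_cases h1 : b i y.im = 0
    · rw [h1, zero_mul]
    · rw [(hfar y hy i hi h1).1, mul_zero]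
  · refine Finset.sum_eq_zero fun i hi => ?_
    by_cases h1 : b i y.im = 0
    · rw [h1, zero_mul]
    · rw [(hfar y hy i hi h1).2.1, mul_zero]
  · refine Finset.sum_eq_zero fun i hi => ?_
    by_cases h1 : b i y.im = 0
    · rw [h1, zero_mul]
    · rw [(hfar y hy i hi h1).2.2, mul_zero]
  · exact continuous_finset_sum _ fun i _ => ((hbc i).continuous.comp Complex.continuous_im).mul
      ((hcd (hAc i)).comp Complex.continuous_re)
  · exact continuous_finset_sum _ fun i _ => ((hbc i).continuous.comp Complex.continuous_im).mul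
      ((hcd hA₀c).comp Complex.continuous_re)
  · have h1 := HasFDerivAt.fun_sum (u := Finset.range (n + 1)) fun i _ =>
      h22_hasFDerivAt ((hbc i).differentiable one_ne_zero)
        (((hAc i).sub hA₀c).differentiable one_ne_zero) y
    rw [h1.fderiv, ContinuousLinearMap.sum_apply, ← Finset.sum_sub_distrib]
    refine Finset.sum_congr rfl fun i _ => ?_
    rw [deriv_fun_sub ((hAc i).differentiable one_ne_zero _) (hA₀c.differentiable one_ne_zero _)]
    simp [mul_sub]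
  · exact Finset.sum_nonneg fun i _ => mul_nonneg (hb0 i _) (hSd _ _ (hac i) _).1
  · obtain ⟨i, hi, h1⟩ := Finset.exists_ne_zero_of_sum_ne_zero hy
    exact hrect i hi y (left_ne_zero_of_mul h1) (hSs _ _ (hac i) _ (right_ne_zero_of_mul h1))
  · have hAi : ∀ i, Integrable (deriv (A i)) := fun i =>
      (hcd (hAc i)).integrable_of_hasCompactSupport
        (HasCompactSupport.intro isCompact_Icc fun t ht => by
          by_contra hc
          exact ht (hSs _ _ (hac i) _ hc))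
    rw [integral_finset_sum _ fun i _ => (h22_int (hbi i) (hAi i)).1]
    have h1 : ∀ i ∈ Finset.range (n + 1), ∫ y : ℂ, b i y.im * deriv (A i) y.re = ∫ t, b i t :=
      fun i _ => by rw [(h22_int (hbi i) (hAi i)).2, hSi _ _ (hac i), one_mul]
    rw [Finset.sum_congr rfl h1, ← integral_finset_sum _ fun i _ => hbi i]
    have h2 : ∫ t, (Icc t₀ (t₀ + δ / 4)).indicator (fun _ => (1 : ℝ)) t = δ / 4 := by
      rw [integral_indicator_const _ measurableSet_Icc]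
      simp
      linarith
    refine le_trans (by linarith) (h2.symm.le.trans (integral_mono
      ((integrable_indicator_iff measurableSet_Icc).2 (by simp))
      (integrable_finset_sum _ fun i _ => hbi i) fun t => ?_))
    by_cases h3 : t ∈ Icc t₀ (t₀ + δ / 4)
    · rw [indicator_of_mem h3]
      have e0 : s 0 = t₀ := by simp [hs]
      have e1 : s n = t₀ + δ / 4 := by simp only [hs]; rw [hnl]
      simp only [hsum, hB]
      rw [hS1 _ _ (hlt 0) t (by rw [e0]; exact h3.1),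
        hS0 _ _ (hlt (n + 1)) t (by rw [hs1, e1]; exact h3.2), sub_zero]
    · rw [indicator_of_notMem h3]
      exact Finset.sum_nonneg fun i _ => hb0 i t
  · exact Finset.sum_nonneg fun i _ => mul_nonneg (hb0 i _) (hSd _ _ hyy _).1
  · rw [← Finset.sum_mul]
    refine (mul_le_of_le_one_left (hSd _ _ hyy _).1 (hsum1 _)).trans
      ((hSd _ _ hyy _).2.trans ?_)
    exact div_le_div_of_nonneg_left hC hδ (by linarith)

theorem h93_test_comp (T : ℂ ≃ₗᵢ[ℝ] ℂ) {C δ : ℝ} {y₀ d : ℂ} {O : Set ℂ} {ψ h₁ h₀ : ℂ → ℝ}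
    (h : Test C (T y₀) δ (T '' O) d ψ h₁ h₀) :
    Test C y₀ δ O (T.symm d) (fun y => ψ (T y)) (fun y => h₁ (T y)) (fun y => h₀ (T y)) where
  sm := h.sm.comp T.toContinuousLinearEquiv.contDiff
  bd := fun y => h.bd _
  supp := fun y hy => h.supp _ (by rwa [← map_sub, T.norm_map])
  c₁ := h.c₁.comp T.continuous
  c₀ := h.c₀.comp T.continuous
  der := fun y => by
    have h1 : HasFDerivAt (fun y => ψ (T y))
        ((fderiv ℝ ψ (T y)).comp (T.toContinuousLinearEquiv : ℂ →L[ℝ] ℂ)) y :=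
      ((h.sm.differentiable (by norm_num)) (T y)).hasFDerivAt.comp y
        T.toContinuousLinearEquiv.hasFDerivAt
    rw [h1.fderiv, ← h.der]
    simp
  p₁ := fun y => h.p₁ _
  s₁ := fun y hy => by
    obtain ⟨w, hw, e⟩ := h.s₁ _ hy
    rwa [← T.injective e]
  big := by
    rw [T.measurePreserving.integral_comp T.toHomeomorph.measurableEmbedding h₁]
    exact h.big
  p₀ := fun y => h.p₀ _

theorem h93_heights {O Γ : Set ℂ} {y₁ y₂ : ℂ} {δ : ℝ} (hΓ : IsPreconnected Γ) (hO : Γ ⊆ O)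
    (h₁ : y₁ ∈ Γ) (h₂ : y₂ ∈ Γ) (h : δ / 4 ≤ |(y₁ - y₂).im|) :
    ∃ t₀ : ℝ, ∀ t ∈ Icc t₀ (t₀ + δ / 4), ∃ y ∈ O, y.im = t := by
  have hI : IsPreconnected (Complex.im '' Γ) := hΓ.image _ Complex.continuous_im.continuousOn
  rw [Complex.sub_im, le_abs] at h
  rcases h with h | h
  · refine ⟨y₂.im, fun t ht => ?_⟩
    obtain ⟨y, hy, e⟩ := hI.Icc_subset (mem_image_of_mem _ h₂) (mem_image_of_mem _ h₁)
      (⟨ht.1, by linarith [ht.2]⟩ : t ∈ Icc y₂.im y₁.im)
    exact ⟨y, hO hy, e⟩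
  · refine ⟨y₁.im, fun t ht => ?_⟩
    obtain ⟨y, hy, e⟩ := hI.Icc_subset (mem_image_of_mem _ h₁) (mem_image_of_mem _ h₂)
      (⟨ht.1, by linarith [ht.2]⟩ : t ∈ Icc y₁.im y₂.im)
    exact ⟨y, hO hy, e⟩

/-- The projections of `Γ` to the axes are intervals (`IsPreconnected.image`,
`IsPreconnected.Icc_subset`), one of length `≥ δ/4`.  For the real axis rotate by `I`: apply
`exists_test_x` to the preimage of `O` under `y ↦ y₀ + (y - y₀) * (-I)` (a measure preserving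
linear isometry up to translation) and take `d = I` or `-I`. -/
theorem exists_test : ∃ C : ℝ, 0 ≤ C ∧ ∀ (y₀ : ℂ) (δ : ℝ) (O Γ : Set ℂ) (y₁ y₂ : ℂ), 0 < δ →
    IsOpen O → O ⊆ ball y₀ δ → IsPreconnected Γ → Γ ⊆ O → y₁ ∈ Γ → y₂ ∈ Γ →
    δ / 2 ≤ ‖y₁ - y₂‖ → ∃ d ψ h₁ h₀, ‖d‖ = 1 ∧ Test C y₀ δ O d ψ h₁ h₀ := by
  obtain ⟨C, hC, H⟩ := exists_test_x
  refine ⟨C, hC, fun y₀ δ O Γ y₁ y₂ hδ hO hb hΓ hΓO h₁ h₂ hn => ?_⟩
  by_cases him : δ / 4 ≤ |(y₁ - y₂).im|
  · obtain ⟨t₀, ht⟩ := h93_heights hΓ hΓO h₁ h₂ him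
    obtain ⟨ψ, g₁, g₀, h⟩ := H y₀ δ O t₀ hδ hO hb ht
    exact ⟨1, ψ, g₁, g₀, norm_one, h⟩
  · have hre : δ / 4 ≤ |(y₁ - y₂).re| := by
      have := Complex.norm_le_abs_re_add_abs_im (y₁ - y₂)
      linarith [not_le.1 him]
    let T : ℂ ≃ₗᵢ[ℝ] ℂ := rotation ⟨Complex.I, by simp [Submonoid.unitSphere]⟩
    have hT : ∀ y, T y = Complex.I * y := fun y => rfl
    obtain ⟨t₀, ht⟩ := h93_heights (O := T '' O) (hΓ.image _ T.continuous.continuousOn)
      (image_mono hΓO) (mem_image_of_mem _ h₁) (mem_image_of_mem _ h₂) (δ := δ) (by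
        rw [← map_sub, hT]
        simpa using hre)
    obtain ⟨ψ, g₁, g₀, h⟩ := H (T y₀) δ (T '' O) t₀ hδ (T.toHomeomorph.isOpenMap _ hO) (by
      rintro _ ⟨y, hy, rfl⟩
      have := hb hy
      rwa [mem_ball, T.dist_map, ← mem_ball]) ht
    exact ⟨T.symm 1, _, _, _, by rw [T.symm.norm_map, norm_one], h93_test_comp T h⟩

/-- the initial piece of a path in `V` from a point near `y₀` to a point outside the disc, up to
the first time it reaches the radius `3δ/4` (`IsOpen.isConnected_iff_isPathConnected`, `sInf` of a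
closed set of times) -/
theorem exists_piece {V : Set ℂ} (hV : IsOpen V) (hc : IsPreconnected V) {y₀ y₃ : ℂ} {δ : ℝ}
    (hδ : 0 < δ) (h₀ : y₀ ∈ closure V) (h₃ : y₃ ∈ V) (hfar : δ ≤ ‖y₃ - y₀‖) :
    ∃ (Γ : Set ℂ) (y₁ y₂ : ℂ), IsPreconnected Γ ∧ Γ ⊆ V ∩ ball y₀ δ ∧ y₁ ∈ Γ ∧ y₂ ∈ Γ ∧
      δ / 2 ≤ ‖y₁ - y₂‖ := by
  obtain ⟨y₁, hy₁, hd⟩ := Metric.mem_closure_iff.1 h₀ (δ / 4) (by positivity)
  obtain ⟨γ, hγ⟩ := (hV.isConnected_iff_isPathConnected.1 ⟨⟨y₃, h₃⟩, hc⟩).joinedIn y₁ hy₁ y₃ h₃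
  have hg : Continuous fun t : ℝ => ‖γ.extend t - y₀‖ :=
    (γ.continuous_extend.sub continuous_const).norm
  rw [dist_comm, dist_eq_norm] at hd
  have ivt : ∀ t : ℝ, 0 ≤ t → δ ≤ ‖γ.extend t - y₀‖ →
      ∃ s ∈ Icc 0 t, ‖γ.extend s - y₀‖ = 3 * δ / 4 := fun t ht h =>
    intermediate_value_Icc ht hg.continuousOn
      ⟨by simp only [Path.extend_zero]; linarith, by linarith⟩
  have hK : IsCompact (Icc (0 : ℝ) 1 ∩ {t | ‖γ.extend t - y₀‖ = 3 * δ / 4}) :=
    isCompact_Icc.inter_right (isClosed_eq hg continuous_const)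
  obtain ⟨s, ⟨hs, hs'⟩, hmin⟩ := hK.exists_isLeast (ivt 1 zero_le_one (by simpa using hfar))
  refine ⟨γ.extend '' Icc 0 s, y₁, γ.extend s,
    isPreconnected_Icc.image _ γ.continuous_extend.continuousOn, ?_,
    ⟨0, ⟨le_rfl, hs.1⟩, γ.extend_zero⟩, ⟨s, ⟨hs.1, le_rfl⟩, rfl⟩, ?_⟩
  · rintro _ ⟨t, ht, rfl⟩
    refine ⟨?_, ?_⟩
    · rw [γ.extend_apply ⟨ht.1, ht.2.trans hs.2⟩]
      exact hγ _
    · rw [mem_ball, dist_eq_norm]
      by_contra hlt
      obtain ⟨t', ht', e⟩ := ivt t ht.1 (not_lt.1 hlt)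
      have h1 : s ≤ t' := hmin ⟨⟨ht'.1, ht'.2.trans (ht.2.trans hs.2)⟩, e⟩
      obtain rfl : t = s := le_antisymm ht.2 (h1.trans ht'.2)
      exact hlt (by rw [show ‖γ.extend t - y₀‖ = 3 * δ / 4 from hs']; linarith)
  · have h1 : ‖γ.extend s - y₀‖ = 3 * δ / 4 := hs'
    have h2 := norm_sub_le_norm_sub_add_norm_sub (γ.extend s) y₁ y₀
    rw [norm_sub_rev (γ.extend s) y₁] at h2
    linarith

/-- the bounded height function in direction `e` -/
noncomputable def hgt (e y₀ y : ℂ) : ℝ :=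
  Real.arctan (e.re * (y - y₀).re + e.im * (y - y₀).im)

theorem h28_cs {e : ℂ} (he : ‖e‖ = 1) (z : ℂ) : |e.re * z.re + e.im * z.im| ≤ ‖z‖ := by
  have h := Complex.abs_re_le_norm ((starRingEnd ℂ) e * z)
  rw [norm_mul, Complex.norm_conj, he, one_mul] at h
  simpa using h

theorem h28_arctan (a b : ℝ) : |Real.arctan a - Real.arctan b| ≤ |a - b| := by
  have h : LipschitzWith 1 Real.arctan :=
    lipschitzWith_of_nnnorm_deriv_le Real.differentiable_arctan fun x => by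
      rw [← NNReal.coe_le_coe, coe_nnnorm, Real.deriv_arctan, Real.norm_of_nonneg (by positivity)]
      exact (div_le_one (by positivity)).2 (by simpa using sq_nonneg x)
  simpa [Real.dist_eq] using h.dist_le_mul a b

theorem hgt_props {e : ℂ} (he : ‖e‖ = 1) (y₀ : ℂ) : LC1 (hgt e y₀) ∧
    (∀ y, ‖fderiv ℝ (hgt e y₀) y‖ ≤ 1) ∧ (∀ y, |hgt e y₀ y| ≤ 2) ∧
    ∀ y y', |hgt e y₀ y - hgt e y₀ y'| ≤ ‖y - y'‖ := by
  have h4 : ∀ y y', |hgt e y₀ y - hgt e y₀ y'| ≤ ‖y - y'‖ := fun y y' => by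
    refine (h28_arctan _ _).trans (le_trans (le_of_eq ?_) (h28_cs he (y - y')))
    congr 1
    simp only [Complex.sub_re, Complex.sub_im]
    ring
  have h2 : ∀ y, ‖fderiv ℝ (hgt e y₀) y‖ ≤ 1 := fun y =>
    norm_fderiv_le_of_lipschitz ℝ (C := 1) (LipschitzWith.of_dist_le_mul fun a b => by
      simpa [Real.dist_eq, dist_eq_norm] using h4 a b)
  have h3 : ∀ y, |hgt e y₀ y| ≤ 2 := fun y =>
    abs_le.2 ⟨by linarith [Real.neg_pi_div_two_lt_arctan (e.re * (y - y₀).re + e.im * (y - y₀).im),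
        Real.pi_le_four, show hgt e y₀ y = Real.arctan _ from rfl],
      by linarith [Real.arctan_lt_pi_div_two (e.re * (y - y₀).re + e.im * (y - y₀).im),
        Real.pi_le_four, show hgt e y₀ y = Real.arctan _ from rfl]⟩
  refine ⟨⟨ContDiff.arctan ?_, ⟨2, h3⟩, 1, h2⟩, h2, h3, h4⟩
  exact (contDiff_const.mul (Complex.reCLM.contDiff.comp (contDiff_id.sub contDiff_const))).add
    (contDiff_const.mul (Complex.imCLM.contDiff.comp (contDiff_id.sub contDiff_const)))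

/-- monotonicity of `arctan`, Cauchy-Schwarz -/
theorem hgt_gap {e y₀ c w y : ℂ} (he : ‖e‖ = 1) {γ r : ℝ} (hγ : 0 < γ)
    (hc : e.re * (c - y₀).re + e.im * (c - y₀).im + r + 2 * γ ≤ 0) (hw : ‖w - c‖ ≤ r + γ / 2)
    (hy : ‖y - y₀‖ ≤ γ / 2) :
    hgt e y₀ w - hgt e y₀ y ≤ -(Real.arctan (3 * γ / 2) - Real.arctan (γ / 2)) := by
  have a := abs_le.1 (h28_cs he (w - c))
  have b := abs_le.1 (h28_cs he (y - y₀))
  have h1 : hgt e y₀ w ≤ Real.arctan (-(3 * γ / 2)) := Real.arctan_strictMono.monotone (by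
    simp only [Complex.sub_re, Complex.sub_im] at *
    linarith [a.2])
  have h2 : Real.arctan (-(γ / 2)) ≤ hgt e y₀ y := Real.arctan_strictMono.monotone (by
    linarith [b.1])
  rw [Real.arctan_neg] at h1 h2
  linarith

theorem LC1.mul {Ψ Φ : ℂ → ℝ} (h₁ : LC1 Ψ) (h₂ : LC1 Φ) : LC1 (fun y => Ψ y * Φ y) := by
  obtain ⟨s₁, ⟨B₁, b₁⟩, L₁, l₁⟩ := h₁
  obtain ⟨s₂, ⟨B₂, b₂⟩, L₂, l₂⟩ := h₂
  refine ⟨s₁.mul s₂, ⟨B₁ * B₂, fun y => ?_⟩, B₁ * L₂ + B₂ * L₁, fun y => ?_⟩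
  · rw [abs_mul]
    exact mul_le_mul (b₁ y) (b₂ y) (abs_nonneg _) ((abs_nonneg _).trans (b₁ y))
  · rw [fderiv_fun_mul (s₁.differentiable one_ne_zero y) (s₂.differentiable one_ne_zero y)]
    refine (norm_add_le _ _).trans (add_le_add ?_ ?_) <;> rw [norm_smul]
    · exact mul_le_mul (b₁ y) (l₂ y) (norm_nonneg _) ((abs_nonneg _).trans (b₁ y))
    · exact mul_le_mul (b₂ y) (l₁ y) (norm_nonneg _) ((abs_nonneg _).trans (b₂ y))

theorem LC1.const (a : ℝ) : LC1 (fun _ => a) := by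
  exact ⟨contDiff_const, ⟨|a|, fun _ => le_rfl⟩, 0, fun _ => by simp⟩

theorem Test.lc1 {C δ : ℝ} {y₀ d : ℂ} {O : Set ℂ} {ψ h₁ h₀ : ℂ → ℝ}
    (h : Test C y₀ δ O d ψ h₁ h₀) : LC1 ψ ∧ HasCompactSupport ψ ∧ HasCompactSupport h₁ ∧
      HasCompactSupport h₀ ∧ ∫ y, |ψ y| ≤ 4 * Real.pi * δ ^ 2 := by
  have K := isCompact_closedBall y₀ (2 * δ)
  have o : ∀ y, y ∉ closedBall y₀ (2 * δ) → ψ y = 0 ∧ h₁ y = 0 ∧ h₀ y = 0 := fun y hy =>
    h.supp y (by simpa [dist_eq_norm] using hy)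
  have c := HasCompactSupport.intro K fun y hy => (o y hy).1
  refine ⟨LC1.of_cpt h.sm c, c, HasCompactSupport.intro K fun y hy => (o y hy).2.1,
    HasCompactSupport.intro K fun y hy => (o y hy).2.2, ?_⟩
  rw [← setIntegral_eq_integral_of_forall_compl_eq_zero (s := closedBall y₀ (2 * δ))
    fun y hy => by simp [(o y hy).1]]
  refine (Real.le_norm_self _).trans ((norm_setIntegral_le_of_norm_le_const (C := 1)
    (f := fun y => |ψ y|) K.measure_lt_top fun y _ => by simpa using h.bd y).trans ?_)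
  rw [one_mul, Measure.real, Complex.volume_closedBall, ENNReal.toReal_mul, ENNReal.toReal_pow,
    ENNReal.toReal_ofReal', ENNReal.coe_toReal, NNReal.coe_real_pi]
  have : max (2 * δ) 0 ^ 2 ≤ 4 * δ ^ 2 := by
    rcases le_total (2 * δ) 0 with a | a
    · rw [max_eq_right a]; nlinarith [sq_nonneg δ]
    · rw [max_eq_left a]; nlinarith
  nlinarith [Real.pi_pos]

end Crest.Agent.R105.End
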