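import Crest.Agent.R105.E3Bv
import Crest.Agent.R105.E3Test

/-! Row 105, block END, stage 3: local lemmas for the whisker argument. -/

set_option autoImplicit false

open MeasureTheory Set Filter Topology Metric
open scoped ENNReal

namespace Crest.Agent.R105.End

variable {U : Set ℂ} {Λ : Lumps U} {M : Set (ℂ → ℝ)} {f : ℂ → ℂ} {ξ : ℂ → ℝ} {c : Λ.E → ℂ}
  {ρ : Λ.E → ℝ}

/-- open mapping theorem for an injective holomorphic map
(`AnalyticAt.eventually_constant_or_nhds_le_map_nhds`) -/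
theorem isOpen_image (hU : IsOpen U) (hf : DifferentiableOn ℂ f U) (hi : InjOn f U) {V : Set ℂ}
    (hV : IsOpen V) (hVU : V ⊆ U) : IsOpen (f '' V) := by
  rw [isOpen_iff_mem_nhds]
  rintro _ ⟨z, hz, rfl⟩
  have hz' := hU.mem_nhds (hVU hz)
  rcases (hf.analyticAt hz').eventually_constant_or_nhds_le_map_nhds with h | h
  · exfalso
    have h2 : ∀ᶠ w in 𝓝[≠] z, f w = f z ∧ w ∈ U := nhdsWithin_le_nhds (h.and hz')
    obtain ⟨w, ⟨hw1, hw2⟩, hw3⟩ := (h2.and self_mem_nhdsWithin).exists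
    exact hw3 (hi hw2 (hVU hz) hw1)
  · exact h (image_mem_map (hV.mem_nhds hz))

/-- If `y₀ = f z₀`, a compact disc `D ⊆ U` around `z₀` misses a level of lumps (`Λ.exh`), and the
open neighbourhood `f '' interior D` of `y₀` misses `f '' W n p` by injectivity.  The image of
`{Λ.R ≤ ‖z‖}` is closed (`f z - z` is bounded near infinity, compactness). -/
theorem clus_far (hU : IsOpen U) (hf : DifferentiableOn ℂ f U) (hi : InjOn f U)
    (hinf : ∃ b : ℂ, Tendsto (fun z => f z - z) (cocompact ℂ) (𝓝 b)) {p : Λ.E} {y₀ : ℂ}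
    (hy : y₀ ∈ clus Λ f p) : y₀ ∉ f '' U ∧
      ∃ δ₀ > 0, ∀ z ∈ U, ‖f z - y₀‖ ≤ δ₀ → ‖z‖ < Λ.R := by
  have h1 : y₀ ∉ f '' U := by
    rintro ⟨z₀, hz₀, rfl⟩
    obtain ⟨ε, hε, hεU⟩ := Metric.isOpen_iff.1 hU z₀ hz₀
    have hD : closedBall z₀ (ε / 2) ⊆ U := (closedBall_subset_ball (by linarith)).trans hεU
    obtain ⟨n, hn⟩ := Λ.exh _ (isCompact_closedBall z₀ (ε / 2)) hD
    have ho := isOpen_image hU hf hi (isOpen_ball (x := z₀) (ε := ε / 2))
      (ball_subset_closedBall.trans hD)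
    obtain ⟨_, ⟨z, hz, rfl⟩, ⟨w, hw, hwz⟩⟩ := mem_closure_iff.1 (mem_iInter.1 hy n) _ ho
      ⟨z₀, mem_ball_self (by linarith), rfl⟩
    have hwz' : w = z := hi (Λ.sub n p hw).1 (hD (ball_subset_closedBall hz)) hwz
    exact disjoint_left.1 (hn p) hw (hwz' ▸ ball_subset_closedBall hz)
  refine ⟨h1, ?_⟩
  obtain ⟨b, hb⟩ := hinf
  have h2 : ∀ᶠ z in cocompact ℂ, f z - z ∈ ball b 1 := hb (ball_mem_nhds b one_pos)
  obtain ⟨K, hK, hKs⟩ := mem_cocompact.1 h2
  obtain ⟨R₁, hR₁⟩ := hK.isBounded.subset_closedBall 0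
  set R₂ : ℝ := max R₁ (‖b‖ + ‖y₀‖ + 3) with hR₂
  have hA : IsCompact (closedBall (0 : ℂ) R₂ ∩ {z | Λ.R ≤ ‖z‖}) :=
    (isCompact_closedBall _ _).inter_right (isClosed_le continuous_const continuous_norm)
  have hAU : closedBall (0 : ℂ) R₂ ∩ {z | Λ.R ≤ ‖z‖} ⊆ U := fun z hz => Λ.far z hz.2
  have hB := (hA.image_of_continuousOn (hf.continuousOn.mono hAU)).isClosed.isOpen_compl
  obtain ⟨ε, hε, hεB⟩ := Metric.isOpen_iff.1 hB y₀ fun h => h1 (image_mono hAU h)
  refine ⟨min (ε / 2) 1, by positivity, fun z _ hz => ?_⟩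
  by_contra hR
  rw [not_lt] at hR
  by_cases hz2 : ‖z‖ ≤ R₂
  · refine hεB (a := f z) ?_ ⟨z, ⟨mem_closedBall_zero_iff.2 hz2, hR⟩, rfl⟩
    rw [mem_ball, dist_eq_norm]
    linarith [min_le_left (ε / 2) 1]
  · rw [not_le] at hz2
    have h3 : z ∉ K := fun h => by
      have := mem_closedBall_zero_iff.1 (hR₁ h)
      linarith [le_max_left R₁ (‖b‖ + ‖y₀‖ + 3)]
    have h4 : f z - z ∈ ball b 1 := hKs h3
    rw [mem_ball, dist_eq_norm] at h4
    have h5 : z = (f z - y₀) - (f z - z - b) - b + y₀ := by ring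
    have h6 : ‖z‖ ≤ ‖f z - y₀‖ + ‖f z - z - b‖ + ‖b‖ + ‖y₀‖ := by
      conv_lhs => rw [h5]
      linarith [norm_add_le ((f z - y₀) - (f z - z - b) - b) y₀,
        norm_sub_le ((f z - y₀) - (f z - z - b)) b, norm_sub_le (f z - y₀) (f z - z - b)]
    linarith [le_max_right R₁ (‖b‖ + ‖y₀‖ + 3), min_le_right (ε / 2) 1]

/-- finitely many discs have radius `> s` (`L2w.finite_big`); they are closed and miss `y₀` -/
theorem small_discs (hρ : L2w ρ) (hg : Geo Λ f c ρ) {p : Λ.E} {y₀ : ℂ} (hy : y₀ ∈ clus Λ f p)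
    (hp : 0 < ρ p → y₀ ∉ closedBall (c p) (ρ p)) {s : ℝ} (hs : 0 < s) : ∃ δ₀ > 0, ∀ q,
      (closedBall (c q) (ρ q) ∩ closedBall y₀ δ₀).Nonempty → ρ q ≤ s := by
  have hF := L2w.finite_big hρ.2 hs
  have hcl : IsClosed (⋃ q ∈ {q | s ≤ |ρ q|}, closedBall (c q) (ρ q)) :=
    hF.isClosed_biUnion fun _ _ => isClosed_closedBall
  have hy' : y₀ ∈ (⋃ q ∈ {q | s ≤ |ρ q|}, closedBall (c q) (ρ q))ᶜ := by
    intro h
    obtain ⟨q, hq, hq'⟩ := mem_iUnion₂.1 h
    have hq0 : 0 < ρ q := by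
      have : s ≤ |ρ q| := hq
      rw [abs_of_nonneg (hρ.1 q)] at this
      linarith
    by_cases hpq : p = q
    · subst hpq
      exact hp hq0 hq'
    · exact disjoint_left.1 (hg.sep p q hpq hq0) hy hq'
  obtain ⟨ε, hε, hεs⟩ := Metric.isOpen_iff.1 hcl.isOpen_compl y₀ hy'
  refine ⟨ε / 2, by positivity, fun q ⟨y, h1, h2⟩ => ?_⟩
  by_contra hq
  rw [not_le] at hq
  refine hεs (closedBall_subset_ball (by linarith) h2) (mem_iUnion₂.2 ⟨q, ?_, h1⟩)
  exact hq.le.trans (le_abs_self _)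

/-- on the open disc of radius `Λ.R` the pair `(reC ξ f, imC ξ f)` is `f`; Cauchy-Riemann -/
theorem wd_reC (hU : IsOpen U) (hξ : Cut Λ ξ) (hf : DifferentiableOn ℂ f U) {z : ℂ} (hz : z ∈ U)
    (hR : ‖z‖ < Λ.R) : (⟨reC ξ f z, imC ξ f z⟩ : ℂ) = f z ∧
      wd (reC ξ f) (imC ξ f) z = ‖deriv f z‖ ^ 2 := by
  refine ⟨by simp [reC, imC, hξ.one z hR.le], ?_⟩
  have hn : ∀ᶠ w in 𝓝 z, ξ w = 1 := by
    filter_upwards [(isOpen_lt continuous_norm continuous_const).mem_nhds hR] with w hw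
    exact hξ.one w (le_of_lt hw)
  have h1 : reC ξ f =ᶠ[𝓝 z] fun w => Complex.reCLM (f w) := by
    filter_upwards [hn] with w hw
    simp [reC, hw]
  have h2 : imC ξ f =ᶠ[𝓝 z] fun w => Complex.imCLM (f w) := by
    filter_upwards [hn] with w hw
    simp [imC, hw]
  have hd := (hf.differentiableAt (hU.mem_nhds hz)).hasDerivAt.hasFDerivAt.restrictScalars ℝ
  have e1 := (Complex.reCLM.hasFDerivAt.comp z hd).fderiv
  have e2 := (Complex.imCLM.hasFDerivAt.comp z hd).fderiv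
  simp only [Function.comp_def] at e1 e2
  rw [wd, h1.fderiv_eq, h2.fderiv_eq, e1, e2, Complex.sq_norm, Complex.normSq_apply]
  simp

/-- change of variables `integral_image_eq_integral_abs_det_fderiv_smul` for the injective `f`
(the real determinant of `w ↦ f' * w` is `‖f'‖²`), `wd_reC` where `h (f z) ≠ 0` -/
theorem jac_int (hU : IsOpen U) (hξ : Cut Λ ξ) (hf : DifferentiableOn ℂ f U) (hi : InjOn f U)
    {h : ℂ → ℝ} (hs : ∀ y, h y ≠ 0 → y ∈ f '' U)
    (hR : ∀ z ∈ U, h (f z) ≠ 0 → ‖z‖ < Λ.R) :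
    ∫ z in U, wd (reC ξ f) (imC ξ f) z * h (f z) = ∫ y, h y := by
  rw [← setIntegral_eq_integral_of_forall_compl_eq_zero (s := f '' U)
    (fun y hy => by_contra fun h0 => hy (hs y h0)),
    integral_image_eq_integral_abs_det_fderiv_smul (volume : Measure ℂ) hU.measurableSet
    (f := f) (f' := fun z => (ContinuousLinearMap.toSpanSingleton ℂ (deriv f z)).restrictScalars ℝ)
    (fun z hz => ((hf.differentiableAt
      (hU.mem_nhds hz)).hasDerivAt.hasFDerivAt.restrictScalars ℝ).hasFDerivWithinAt) hi]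
  refine setIntegral_congr_fun hU.measurableSet fun z hz => ?_
  by_cases h0 : h (f z) = 0
  · simp [h0]
  · simp only [(wd_reC hU hξ hf hz (hR z hz h0)).2, smul_eq_mul]
    congr 1
    simp [ContinuousLinearMap.det, LinearMap.det_restrictScalars, Algebra.norm_complex_eq,
      Complex.normSq_eq_norm_sq]

theorem h10_xx_loc (hU : IsOpen U) {u w : ℂ → ℝ} (hu : XX U u)
    (h : ∀ z ∈ U, w =ᶠ[𝓝 z] u ∨ w =ᶠ[𝓝 z] fun _ => 0)
    (hi : ∃ R c : ℝ, ∀ z : ℂ, R ≤ ‖z‖ → w z = c) : XX U w := by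
  refine ⟨fun z hz => ?_, hi, lt_of_le_of_lt ?_ hu.en⟩
  · rcases h z hz with he | he
    · obtain ⟨K, t, ht, hK⟩ := hu.lip hz
      refine ⟨K, t ∩ {y | w y = u y}, inter_mem ht (mem_nhdsWithin_of_mem_nhds he), ?_⟩
      refine LipschitzOnWith.of_dist_le_mul fun x hx y hy => ?_
      rw [show w x = u x from hx.2, show w y = u y from hy.2]
      exact hK.dist_le_mul x hx.1 y hy.1
    · refine ⟨0, {y | w y = 0}, mem_nhdsWithin_of_mem_nhds he, ?_⟩
      refine LipschitzOnWith.of_dist_le_mul fun x hx y hy => ?_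
      rw [show w x = 0 from hx, show w y = 0 from hy]
      simp
  · refine setLIntegral_mono' hU.measurableSet fun z hz => ?_
    rcases h z hz with he | he <;> rw [he.fderiv_eq]
    rw [fderiv_fun_const, Pi.zero_apply]
    gcongr
    rw [enorm_le_iff_norm_le, norm_zero]
    exact norm_nonneg _

/-- Localisation.  `φ = g ψ(f)` is locally Lipschitz on `U`, vanishes near infinity, agrees with
`g ψ(α,β)` on the open disc of radius `Λ.R` and vanishes near the other points of `U` (there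
`‖f z - y₀‖ > 3δ`), so it has finite energy (`XX`), `ell_germ` applies, and a.e. on `U` the
integrand is computed by the product rule and `wd_cp`, `wd_reC`. -/
theorem ell_loc (hU : IsOpen U) (hξ : Cut Λ ξ) (hf : DifferentiableOn ℂ f U)
    (hα : XX U (reC ξ f)) (hβ : XX U (imC ξ f)) {g ψ : ℂ → ℝ} (hg : XX U g) (hgb : Bdd U g)
    (hψ : LC1 ψ) {y₀ : ℂ} {δ : ℝ} (hδ : 0 < δ) (hs : ∀ y, 2 * δ < ‖y - y₀‖ → ψ y = 0)
    (hR : ∀ z ∈ U, ‖f z - y₀‖ ≤ 3 * δ → ‖z‖ < Λ.R) (d : ℂ) :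
    ell U (reC ξ f) (imC ξ f) (fun z => d.re * (g z * cp ψ (reC ξ f) (imC ξ f) z))
        (fun z => d.im * (g z * cp ψ (reC ξ f) (imC ξ f) z)) =
      (∫ z in U, ψ (f z) * (d.re * wd g (imC ξ f) z - d.im * wd g (reC ξ f) z)) +
        ∫ z in U, g z * (wd (reC ξ f) (imC ξ f) z * fderiv ℝ ψ (f z) d) := by
  set α := reC ξ f
  set β := imC ξ f
  have hP : XX U (cp ψ α β) := xx_cp hU hψ hα hβ
  obtain ⟨B, hB⟩ := hψ.bd
  have h1 : XX U fun z => g z * cp ψ α β z := XX.mul hU hg hP hgb ⟨B, fun z _ => hB _⟩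
  have hin : ∀ z ∈ U, ‖z‖ < Λ.R → cp ψ α β z = ψ (f z) := fun z hz h => by
    rw [cp, (wd_reC hU hξ hf hz h).1]
  have hin' : ∀ z ∈ U, ‖z‖ < Λ.R →
      (fun z => g z * ψ (f z)) =ᶠ[𝓝 z] fun z => g z * cp ψ α β z := fun z hz h => by
    filter_upwards [hU.mem_nhds hz, (isOpen_lt continuous_norm continuous_const).mem_nhds h]
      with y a b
    rw [hin y a b]
  have hout : ∀ z ∈ U, ¬ ‖z‖ < Λ.R → ψ =ᶠ[𝓝 (f z)] fun _ => 0 := fun z hz h => by
    have h3 : 2 * δ < ‖f z - y₀‖ := by linarith [not_le.1 (mt (hR z hz) h)]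
    filter_upwards [(isOpen_lt continuous_const
      (continuous_id.sub continuous_const).norm).mem_nhds h3] with y hy using hs y hy
  have hout' : ∀ z ∈ U, ¬ ‖z‖ < Λ.R → (fun z => g z * ψ (f z)) =ᶠ[𝓝 z] fun _ => 0 :=
    fun z hz h => by
    filter_upwards [(hf.continuousOn.continuousAt (hU.mem_nhds hz)).eventually (hout z hz h)]
      with y hy
    rw [hy, mul_zero]
  have h2 : XX U fun z => g z * ψ (f z) := h10_xx_loc hU h1
    (fun z hz => (em (‖z‖ < Λ.R)).imp (hin' z hz) (hout' z hz))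
    ⟨Λ.R, 0, fun z hz => (hout' z (Λ.far z hz) (not_lt.2 hz)).eq_of_nhds⟩
  rw [ell_germ hU Λ hα hβ (h1.smul d.re) (h1.smul d.im) (h2.smul d.re) (h2.smul d.im) fun q =>
    ⟨0, 0, 0, fun z hz => by
      rw [hin z (Λ.sub 0 q hz).1 (mem_ball_zero_iff.1 (Λ.sub 0 q hz).2), add_zero, add_zero]
      exact ⟨rfl, rfl⟩⟩]
  have i1 := (wd_integrableOn h2.en hβ.en).const_mul d.re
  have i2 := (wd_integrableOn h2.en hα.en).const_mul d.im
  have i3 : IntegrableOn (fun z => ψ (f z) * (d.re * wd g β z - d.im * wd g α z)) U :=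
    (((wd_integrableOn hg.en hβ.en).const_mul d.re).sub
      ((wd_integrableOn hg.en hα.en).const_mul d.im)).bdd_mul (c := B)
      ((hψ.sm.continuous.comp_continuousOn hf.continuousOn).aestronglyMeasurable hU.measurableSet)
      (Eventually.of_forall fun z => hB _)
  have key : ∀ᵐ z ∂(volume.restrict U), d.re * wd (fun z => g z * ψ (f z)) β z -
      d.im * wd (fun z => g z * ψ (f z)) α z - ψ (f z) * (d.re * wd g β z - d.im * wd g α z) =
      g z * (wd α β z * fderiv ℝ ψ (f z) d) := by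
    rw [ae_restrict_iff' hU.measurableSet]
    filter_upwards [ae_diff hU hg.lip, ae_diff hU hP.lip, wd_cp hU hψ.sm hα.lip hβ.lip]
      with z a b e hz
    by_cases h : ‖z‖ < Λ.R
    · have e1 : ∀ c : ℂ → ℝ, wd (fun z => g z * ψ (f z)) c z =
          g z * wd (cp ψ α β) c z + ψ (f z) * wd g c z := fun c => by
        simp only [wd, (hin' z hz h).fderiv_eq, fderiv_fun_mul (a hz) (b hz), hin z hz h,
          add_apply, smul_apply, smul_eq_mul]
        ring
      have e2 : fderiv ℝ ψ (f z) d =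
          d.re * fderiv ℝ ψ (f z) 1 + d.im * fderiv ℝ ψ (f z) Complex.I := by
        rw [← smul_eq_mul, ← smul_eq_mul, ← map_smul, ← map_smul, ← map_add]
        congr 1
        simp
      rw [e1, e1, (e hz).1, (e hz).2, (wd_reC hU hξ hf hz h).1, e2]
      ring
    · simp [wd, (hout' z hz h).fderiv_eq, (hout z hz h).fderiv_eq, (hout z hz h).eq_of_nhds]
  have i4 : Integrable (fun z => d.re * wd (fun z => g z * ψ (f z)) β z -
      d.im * wd (fun z => g z * ψ (f z)) α z) (volume.restrict U) := i1.sub i2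
  rw [ell, om_smul_left, om_smul_left, om, om, ← integral_const_mul, ← integral_const_mul,
    ← integral_sub i1 i2, ← integral_congr_ae key, integral_sub i4 i3]
  ring

/-- `g z * J * (h₁ - h₀)(f z) ≤ -γ J h₁(f z) + |g| |J| C/δ` pointwise on `U` (`J ≥ 0` by
`wd_reC` where `h₁ (f z) ≠ 0`), `jac_int`, `Test.big` -/
theorem main_term (hU : IsOpen U) (hξ : Cut Λ ξ) (hf : DifferentiableOn ℂ f U) (hi : InjOn f U)
    (hα : XX U (reC ξ f)) (hβ : XX U (imC ξ f)) {g ψ h₁ h₀ : ℂ → ℝ} (hg : XX U g)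
    (hgb : Bdd U g) {C δ γ : ℝ} {y₀ d : ℂ} {O : Set ℂ} (hδ : 0 < δ) (hγ : 0 ≤ γ)
    (ht : Test C y₀ δ O d ψ h₁ h₀) (hO : O ⊆ f '' U)
    (hR : ∀ z ∈ U, ‖f z - y₀‖ ≤ 3 * δ → ‖z‖ < Λ.R) (hneg : ∀ z ∈ U, f z ∈ O → g z ≤ -γ) :
    ∫ z in U, g z * (wd (reC ξ f) (imC ξ f) z * fderiv ℝ ψ (f z) d) ≤
      -(γ * (δ / 8)) + C / δ * ∫ z in U, |g z| * |wd (reC ξ f) (imC ξ f) z| := by
  have hJ : IntegrableOn (wd (reC ξ f) (imC ξ f)) U := wd_integrableOn hα.en hβ.en
  obtain ⟨B, hB⟩ := hgb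
  have hm := hU.measurableSet
  have hcs : HasCompactSupport h₁ := by
    refine HasCompactSupport.intro (isCompact_closedBall y₀ (2 * δ)) fun y hy => ?_
    rw [mem_closedBall, dist_eq_norm, not_le] at hy
    exact (ht.supp y hy).2.1
  obtain ⟨B₁, hB₁⟩ := ht.c₁.bounded_above_of_compact_support hcs
  have hgm : AEStronglyMeasurable g (volume.restrict U) :=
    hg.lip.continuousOn.aestronglyMeasurable hm
  have hgB : ∀ᵐ z ∂(volume.restrict U), ‖g z‖ ≤ B := by
    filter_upwards [ae_restrict_mem hm] with z hz using hB z hz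
  have i1 : IntegrableOn (fun z => wd (reC ξ f) (imC ξ f) z * h₁ (f z)) U :=
    Integrable.mul_bdd (c := B₁) hJ
      ((ht.c₁.comp_continuousOn hf.continuousOn).aestronglyMeasurable hm)
      (Eventually.of_forall fun z => hB₁ _)
  have i0 : IntegrableOn (fun z => wd (reC ξ f) (imC ξ f) z * h₀ (f z)) U :=
    Integrable.mul_bdd (c := C / δ) hJ
      ((ht.c₀.comp_continuousOn hf.continuousOn).aestronglyMeasurable hm)
      (Eventually.of_forall fun z => by
        rw [Real.norm_eq_abs, abs_of_nonneg (ht.p₀ _).1]; exact (ht.p₀ _).2)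
  have i2 : IntegrableOn (fun z => |g z| * |wd (reC ξ f) (imC ξ f) z|) U := by
    refine (Integrable.bdd_mul (c := B) hJ hgm hgB).abs.congr (Eventually.of_forall fun z => ?_)
    simp only [abs_mul]
  have iL : IntegrableOn (fun z => g z * (wd (reC ξ f) (imC ξ f) z * fderiv ℝ ψ (f z) d)) U := by
    have := Integrable.bdd_mul (c := B) (i1.sub i0) hgm hgB
    refine this.congr (Eventually.of_forall fun z => ?_)
    simp only [Pi.sub_apply, ht.der]
    ring
  have hR1 : ∀ z ∈ U, h₁ (f z) ≠ 0 → ‖z‖ < Λ.R := fun z hz h => hR z hz (by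
    by_contra hn
    exact h (ht.supp _ (by linarith [not_le.1 hn])).2.1)
  have hj := jac_int hU hξ hf hi (h := h₁) (fun y hy => hO (ht.s₁ y hy)) hR1
  calc ∫ z in U, g z * (wd (reC ξ f) (imC ξ f) z * fderiv ℝ ψ (f z) d)
      ≤ ∫ z in U, (-γ * (wd (reC ξ f) (imC ξ f) z * h₁ (f z)) +
          C / δ * (|g z| * |wd (reC ξ f) (imC ξ f) z|)) := by
        refine setIntegral_mono_on iL ((i1.const_mul _).add (i2.const_mul _)) hm fun z hz => ?_
        rw [ht.der]
        have a1 : g z * (wd (reC ξ f) (imC ξ f) z * h₁ (f z)) ≤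
            -γ * (wd (reC ξ f) (imC ξ f) z * h₁ (f z)) := by
          by_cases h : h₁ (f z) = 0
          · simp [h]
          · refine mul_le_mul_of_nonneg_right (hneg z hz (ht.s₁ _ h)) (mul_nonneg ?_ (ht.p₁ _))
            rw [(wd_reC hU hξ hf hz (hR1 z hz h)).2]
            positivity
        have a2 : -(g z * (wd (reC ξ f) (imC ξ f) z * h₀ (f z))) ≤
            C / δ * (|g z| * |wd (reC ξ f) (imC ξ f) z|) := by
          refine (neg_le_abs _).trans ?_
          rw [abs_mul, abs_mul, abs_of_nonneg (ht.p₀ _).1, ← mul_assoc, mul_comm (C / δ)]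
          exact mul_le_mul_of_nonneg_left (ht.p₀ _).2 (by positivity)
        linarith
    _ = -γ * (∫ y, h₁ y) + C / δ * ∫ z in U, |g z| * |wd (reC ξ f) (imC ξ f) z| := by
        rw [integral_add (i1.const_mul _) (i2.const_mul _), integral_const_mul, integral_const_mul,
          hj]
    _ ≤ _ := by nlinarith [mul_le_mul_of_nonneg_left ht.big hγ]

theorem h69_int_le {F : ℂ → ℝ} (hc : Continuous F) {K δ : ℝ} {y₀ : ℂ} (hδ : 0 < δ)
    (hK : ∀ y, |F y| ≤ K) (h0 : ∀ y, 2 * δ < ‖y - y₀‖ → F y = 0) :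
    Integrable F ∧ ∫ y, F y ≤ K * (Real.pi * (2 * δ) ^ 2) := by
  have h1 : ∀ y, y ∉ closedBall y₀ (2 * δ) → F y = 0 := fun y hy =>
    h0 y (by rwa [mem_closedBall, dist_eq_norm, not_le] at hy)
  refine ⟨hc.integrable_of_hasCompactSupport
    (HasCompactSupport.intro (isCompact_closedBall y₀ (2 * δ)) h1), ?_⟩
  rw [← setIntegral_eq_integral_of_forall_compl_eq_zero h1]
  have := (summable_disc (E := Unit) (c := fun _ => y₀) (ρ := fun _ => 2 * δ) (m := fun _ => 0)
    ⟨fun _ => by positivity, Summable.of_finite⟩ (B := 0) (fun _ => by simp) hK).1 ()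
  exact (le_abs_self _).trans this

theorem h69_dv {T ψ : ℂ → ℝ} (hT : ContDiff ℝ 1 T) (hψ : ContDiff ℝ 1 ψ) (d y : ℂ) :
    dv (fun y => d.re * (T y * ψ y)) (fun y => d.im * (T y * ψ y)) y =
      T y * fderiv ℝ ψ y d + ψ y * fderiv ℝ T y d := by
  have d1 := hT.differentiable one_ne_zero y
  have d2 := hψ.differentiable one_ne_zero y
  have d3 : DifferentiableAt ℝ (fun y => T y * ψ y) y := d1.mul d2
  rw [dv, fderiv_const_mul d3, fderiv_const_mul d3, ← h90_fderiv_mul d1 d2 d]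
  generalize fderiv ℝ (fun y => T y * ψ y) y = A
  have e : d = d.re • (1 : ℂ) + d.im • Complex.I := by
    apply Complex.ext <;> simp
  conv_rhs => rw [e, map_add, map_smul, map_smul]
  simp

/-- The disc terms.  On a disc `fderiv (T ψ) y d = T y * fderiv ψ y d + fderiv T y d * ψ y` and
`fderiv ψ y d = - h₀ y` a.e. (`Geo.out`, `Test.s₁`); `|T (ck q) - T y| ≤ min ‖ck q - c q‖ 4 + s`
when the disc meets the support of `h₀`; `sum_disc_le` for `h₀` (integral `≤ C/δ * 4πδ²`) and for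
`|ψ|`; `summable_disc`. -/
theorem disc_term (hρ : L2w ρ) (hg : Geo Λ f c ρ) {ψ h₁ h₀ T : ℂ → ℝ} {C δ s : ℝ} {y₀ d : ℂ}
    {O : Set ℂ} (hδ : 0 < δ) (hs : 0 ≤ s) (hd : ‖d‖ = 1) (ht : Test C y₀ δ O d ψ h₁ h₀)
    (hO : O ⊆ f '' U) (hT : LC1 T) (hT1 : ∀ y, ‖fderiv ℝ T y‖ ≤ 1) (hT2 : ∀ y, |T y| ≤ 2)
    (hT3 : ∀ y y', |T y - T y'| ≤ ‖y - y'‖)
    (hsm : ∀ q, (closedBall (c q) (ρ q) ∩ closedBall y₀ (3 * δ)).Nonempty → ρ q ≤ s)
    (c' : Λ.E → ℂ) :
    |(∑' q, T (c' q) * ∫ y in closedBall (c q) (ρ q), fderiv ℝ ψ y d) -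
      ∑' q, ∫ y in closedBall (c q) (ρ q),
        dv (fun y => d.re * (T y * ψ y)) (fun y => d.im * (T y * ψ y)) y| ≤
      4 * Real.pi * (δ ^ 2 + s * C * δ) +
        C / δ * ∑' q, min ‖c' q - c q‖ 4 * (Real.pi * ρ q ^ 2) := by
  have hK : 0 ≤ C / δ := (ht.p₀ 0).1.trans (ht.p₀ 0).2
  have hb0 : ∀ y, |h₀ y| ≤ C / δ := fun y => by rw [abs_of_nonneg (ht.p₀ y).1]; exact (ht.p₀ y).2
  have hDT : ∀ y, |fderiv ℝ T y d| ≤ 1 := fun y => by
    have := (fderiv ℝ T y).le_opNorm d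
    rw [hd, mul_one, Real.norm_eq_abs] at this
    exact this.trans (hT1 y)
  have cT := hT.sm.continuous
  have cψ := ht.sm.continuous
  have c0 := ht.c₀
  have cD : Continuous fun y => fderiv ℝ T y d :=
    (hT.sm.continuous_fderiv one_ne_zero).clm_apply continuous_const
  have hae : ∀ q, ∀ᵐ y, y ∈ closedBall (c q) (ρ q) → fderiv ℝ ψ y d = -h₀ y := fun q => by
    filter_upwards [measure_eq_zero_iff_ae_notMem.1 (hg.out q)] with y hy hyq
    have : h₁ y = 0 := by
      by_contra h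
      exact hy ⟨hyq, hO (ht.s₁ y h)⟩
    rw [ht.der, this, zero_sub]
  have e1 : ∀ q, ∫ y in closedBall (c q) (ρ q), fderiv ℝ ψ y d =
      ∫ y in closedBall (c q) (ρ q), -h₀ y := fun q =>
    setIntegral_congr_ae measurableSet_closedBall (hae q)
  have e2 : ∀ q, ∫ y in closedBall (c q) (ρ q),
      dv (fun y => d.re * (T y * ψ y)) (fun y => d.im * (T y * ψ y)) y =
      ∫ y in closedBall (c q) (ρ q), (T y * -h₀ y + ψ y * fderiv ℝ T y d) := fun q => by
    refine setIntegral_congr_ae measurableSet_closedBall ?_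
    filter_upwards [hae q] with y hy hyq
    rw [h69_dv hT.sm ht.sm, hy hyq]
  simp only [e1, e2]
  have s1 := (summable_disc (c := c) (m := fun q => T (c' q)) hρ (fun q => hT2 _)
    (F := fun y => -h₀ y) (C := C / δ) (fun y => by rw [abs_neg]; exact hb0 y)).2
  have s2 := (summable_disc (c := c) (m := fun _ => 1) hρ (B := 1) (fun q => by simp)
    (F := fun y => T y * -h₀ y + ψ y * fderiv ℝ T y d) (C := 2 * (C / δ) + 1 * 1) (fun y => by
      refine (abs_add_le _ _).trans (add_le_add ?_ ?_)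
      · rw [abs_mul, abs_neg]
        exact mul_le_mul (hT2 y) (hb0 y) (abs_nonneg _) (by norm_num)
      · rw [abs_mul]
        exact mul_le_mul (ht.bd y) (hDT y) (abs_nonneg _) (by norm_num))).2
  simp only [one_mul] at s2
  obtain ⟨i0, j0⟩ := h69_int_le c0 hδ hb0 fun y hy => (ht.supp y hy).2.2
  obtain ⟨i1, j1⟩ := h69_int_le (F := fun y => |ψ y|) (K := 1) cψ.abs hδ
    (fun y => by rw [abs_abs]; exact ht.bd y) fun y hy => by rw [(ht.supp y hy).1, abs_zero]
  obtain ⟨s3, k3⟩ := sum_disc_le hg.disj i0 fun y => (ht.p₀ y).1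
  obtain ⟨s4, k4⟩ := sum_disc_le hg.disj i1 fun y => abs_nonneg _
  have hm0 : ∀ q, 0 ≤ min ‖c' q - c q‖ 4 := fun q => le_min (norm_nonneg _) (by norm_num)
  have s5 : Summable fun q => min ‖c' q - c q‖ 4 * (Real.pi * ρ q ^ 2) :=
    Summable.of_nonneg_of_le (fun q => mul_nonneg (hm0 q) (by positivity))
      (fun q => mul_le_mul_of_nonneg_right (min_le_right _ _) (by positivity))
      ((hρ.2.mul_left Real.pi).mul_left 4)
  rw [← s1.tsum_sub s2, ← Real.norm_eq_abs]
  have hsum := ((s3.hasSum.mul_left s).add s4.hasSum).add (s5.hasSum.mul_left (C / δ))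
  refine le_trans (tsum_of_norm_bounded hsum fun q => ?_) ?_
  · have io : ∀ {F : ℂ → ℝ}, Continuous F → IntegrableOn F (closedBall (c q) (ρ q)) := fun h =>
      h.continuousOn.integrableOn_compact (isCompact_closedBall _ _)
    have k5 := (le_abs_self _).trans ((summable_disc (c := c) (m := fun _ => 1) hρ (B := 1)
      (fun q => by simp) hb0).1 q)
    rw [← integral_const_mul, ← integral_sub (io (by fun_prop)) (io (by fun_prop))]
    have k6 : ‖∫ y in closedBall (c q) (ρ q),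
        (T (c' q) * -h₀ y - (T y * -h₀ y + ψ y * fderiv ℝ T y d))‖ ≤
        ∫ y in closedBall (c q) (ρ q), ((min ‖c' q - c q‖ 4 + s) * h₀ y + |ψ y|) := by
      refine norm_integral_le_of_norm_le (io (by fun_prop)) ?_
      refine (ae_restrict_iff' measurableSet_closedBall).2 (Eventually.of_forall fun y hy => ?_)
      rw [Real.norm_eq_abs, show T (c' q) * -h₀ y - (T y * -h₀ y + ψ y * fderiv ℝ T y d) =
        -((T (c' q) - T y) * h₀ y + ψ y * fderiv ℝ T y d) by ring, abs_neg]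
      refine (abs_add_le _ _).trans (add_le_add ?_ ?_)
      · rw [abs_mul, abs_of_nonneg (ht.p₀ y).1]
        by_cases h : h₀ y = 0
        · rw [h, mul_zero, mul_zero]
        refine mul_le_mul_of_nonneg_right ?_ (ht.p₀ y).1
        have h2 : ‖y - y₀‖ ≤ 2 * δ := not_lt.1 fun h' => h (ht.supp y h').2.2
        have h3 : ρ q ≤ s := hsm q ⟨y, hy, by rw [mem_closedBall, dist_eq_norm]; linarith⟩
        have h4 : |T (c q) - T y| ≤ s := by
          refine (hT3 _ _).trans (le_trans ?_ h3)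
          rwa [mem_closedBall, dist_comm, dist_eq_norm] at hy
        have h5 : |T (c' q) - T (c q)| ≤ min ‖c' q - c q‖ 4 := by
          refine le_min (hT3 _ _) ((abs_sub _ _).trans ?_)
          linarith [hT2 (c' q), hT2 (c q)]
        linarith [abs_sub_le (T (c' q)) (T (c q)) (T y)]
      · rw [abs_mul]
        exact mul_le_of_le_one_right (abs_nonneg _) (hDT y)
    refine k6.trans ?_
    rw [integral_add (io (by fun_prop)) (io (by fun_prop)), integral_const_mul]
    nlinarith [mul_le_mul_of_nonneg_left k5 (hm0 q)]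
  · have k7 : C / δ * (Real.pi * (2 * δ) ^ 2) = 4 * Real.pi * (C * δ) := by
      field_simp
      ring
    nlinarith [mul_le_mul_of_nonneg_left (k3.trans j0) hs]

/-- `tendsto_tsum_of_dominated_convergence` -/
theorem centre_term {E : Type} {c : E → ℂ} {ρ : E → ℝ} (hρ : L2w ρ) {ck : ℕ → E → ℂ}
    (h : ∀ q, 0 < ρ q → Tendsto (fun k => ck k q) atTop (𝓝 (c q))) :
    Tendsto (fun k => ∑' q, min ‖ck k q - c q‖ 4 * (Real.pi * ρ q ^ 2)) atTop (𝓝 0) := by
  have key := tendsto_tsum_of_dominated_convergence (𝓕 := atTop)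
    (f := fun k q => min ‖ck k q - c q‖ 4 * (Real.pi * ρ q ^ 2)) (g := fun _ => (0 : ℝ))
    (bound := fun q => 4 * (Real.pi * ρ q ^ 2)) ((hρ.2.mul_left _).mul_left _) (fun q => ?_)
    (Eventually.of_forall fun k q => ?_)
  · simpa using key
  · rcases (hρ.1 q).eq_or_lt with h0 | h0
    · simp [← h0]
    · have h1 := (tendsto_iff_norm_sub_tendsto_zero.mp (h q h0)).min
        (tendsto_const_nhds (x := (4 : ℝ)))
      simpa using h1.mul_const (Real.pi * ρ q ^ 2)
  · have h1 : 0 ≤ min ‖ck k q - c q‖ 4 := le_min (norm_nonneg _) (by norm_num)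
    rw [Real.norm_of_nonneg (by positivity)]
    exact mul_le_mul_of_nonneg_right (min_le_right _ _) (by positivity)

theorem h5_int_abs_wd {u c : ℂ → ℝ} (hu : En U u < ⊤) (hc : En U c < ⊤) :
    ∫ z in U, |wd u c z| ≤ Real.sqrt (En U u).toReal * Real.sqrt (En U c).toReal := by
  have h1 : En U u ^ (1 / 2 : ℝ) ≠ ⊤ := ENNReal.rpow_ne_top_of_nonneg (by norm_num) hu.ne
  have h2 : En U c ^ (1 / 2 : ℝ) ≠ ⊤ := ENNReal.rpow_ne_top_of_nonneg (by norm_num) hc.ne
  rw [h99_sqrt_toReal, h99_sqrt_toReal, ← ENNReal.toReal_mul]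
  have h4 := ENNReal.toReal_mono (ENNReal.mul_ne_top h1 h2) (h99_lint_wd U u c)
  rwa [← integral_norm_eq_lintegral_enorm (wd_integrableOn hu hc).aestronglyMeasurable] at h4

/-- `|ψ| ≤ 1`, `abs_wd_le`, Cauchy-Schwarz as in `abs_om_le`; dominated convergence for the second
statement -/
theorem error_terms (hU : IsOpen U) {α β : ℂ → ℝ} (hα : XX U α) (hβ : XX U β) {g : ℕ → ℂ → ℝ}
    (hg : ∀ k, XX U (g k)) (hb : ∀ k, ∀ z ∈ U, |g k z| ≤ 4)
    (he : Tendsto (fun k => En U (g k)) atTop (𝓝 0))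
    (ha : ∀ᵐ z, z ∈ U → Tendsto (fun k => g k z) atTop (𝓝 0)) {η : ℝ} (hη : 0 < η) :
    ∀ᶠ k in atTop, (∫ z in U, |g k z| * |wd α β z|) ≤ η ∧
      ∀ (F : ℂ → ℝ) (d : ℂ), (∀ z, |F z| ≤ 1) → ‖d‖ = 1 →
        |∫ z in U, F z * (d.re * wd (g k) β z - d.im * wd (g k) α z)| ≤ η := by
  have hJ := wd_integrableOn hα.en hβ.en
  have t1 : Tendsto (fun k => ∫ z in U, |g k z| * |wd α β z|) atTop (𝓝 (∫ _ in U, (0 : ℝ))) := by
    refine tendsto_integral_of_dominated_convergence (fun z => 4 * |wd α β z|) (fun k => ?_)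
      (hJ.abs.const_mul 4) (fun k => ?_) ?_
    · exact ((hg k).lip.continuousOn.abs.aestronglyMeasurable hU.measurableSet).mul
        hJ.abs.aestronglyMeasurable
    · filter_upwards [ae_restrict_mem hU.measurableSet] with z hz
      rw [Real.norm_of_nonneg (by positivity)]
      exact mul_le_mul_of_nonneg_right (hb k z hz) (abs_nonneg _)
    · filter_upwards [ae_restrict_mem hU.measurableSet, ae_restrict_of_ae ha] with z hz h
      simpa using (h hz).abs.mul_const |wd α β z|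
  rw [integral_zero] at t1
  have t2 : Tendsto (fun k => Real.sqrt (En U (g k)).toReal * Real.sqrt (En U β).toReal +
      Real.sqrt (En U (g k)).toReal * Real.sqrt (En U α).toReal) atTop (𝓝 0) := by
    have h1 : Tendsto (fun k => Real.sqrt (En U (g k)).toReal) atTop (𝓝 0) := by
      simpa using ((ENNReal.tendsto_toReal ENNReal.zero_ne_top).comp he).sqrt
    simpa using (h1.mul_const _).add (h1.mul_const _)
  filter_upwards [t1.eventually (ge_mem_nhds hη), t2.eventually (ge_mem_nhds hη)] with k h1 h2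
  refine ⟨h1, fun F d hF hd => le_trans ?_ h2⟩
  have i1 := (wd_integrableOn (hg k).en hβ.en).abs
  have i2 := (wd_integrableOn (hg k).en hα.en).abs
  refine le_trans ?_ (add_le_add (h5_int_abs_wd (hg k).en hβ.en) (h5_int_abs_wd (hg k).en hα.en))
  rw [← integral_add i1 i2]
  rw [← Real.norm_eq_abs]
  refine norm_integral_le_of_norm_le (i1.add i2) (Eventually.of_forall fun z => ?_)
  have a1 : |d.re| ≤ 1 := hd ▸ Complex.abs_re_le_norm d
  have a2 : |d.im| ≤ 1 := hd ▸ Complex.abs_im_le_norm d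
  rw [Real.norm_eq_abs, abs_mul]
  refine (mul_le_of_le_one_left (abs_nonneg _) (hF z)).trans ((abs_sub _ _).trans ?_)
  rw [abs_mul, abs_mul]
  exact add_le_add (mul_le_of_le_one_left (abs_nonneg _) a1)
    (mul_le_of_le_one_left (abs_nonneg _) a2)

theorem h43_dv_two {θ : ℂ → ℝ} {c y : ℂ} (h : ∀ᶠ w in 𝓝 y, θ w = 1) :
    dv (fun w => (w - c).re * θ w) (fun w => (w - c).im * θ w) y = 2 := by
  have h1 : (fun w : ℂ => (w - c).re * θ w) =ᶠ[𝓝 y] fun w => Complex.reCLM w - c.re := by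
    filter_upwards [h] with w hw
    simp [hw]
  have h2 : (fun w : ℂ => (w - c).im * θ w) =ᶠ[𝓝 y] fun w => Complex.imCLM w - c.im := by
    filter_upwards [h] with w hw
    simp [hw]
  unfold dv
  rw [h1.fderiv_eq, h2.fderiv_eq, fderiv_sub_const, fderiv_sub_const,
    ContinuousLinearMap.fderiv, ContinuousLinearMap.fderiv]
  simp
  norm_num

/-- The image of a lump leaves a fixed disc around a point off the disc of `p`.  Otherwise take
`Ψ₀ = (y - c p) lam` with `lam = 1` near the disc of `p` and `0` on the disc around `y₀`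
(`exists_disc_cut`), and the cut-off of `exists_Ind` (zero off `W n p`): the test pair vanishes on
`U`, but `Rep` gives the limit `-2π ρ² ≠ 0` (`dv = 2` on the disc). -/
theorem leaves (hc : Ctx Λ M) (hp : EPic Λ M f ξ c ρ) {p : Λ.E} (hρ : 0 < ρ p) {y₀ : ℂ}
    (hy : y₀ ∉ closedBall (c p) (ρ p)) : ∃ δ₁ > 0, ∀ n, ∃ z ∈ Λ.W n p, δ₁ ≤ ‖f z - y₀‖ := by
  by_contra hcon
  push Not at hcon
  rw [mem_closedBall_iff_norm, not_le] at hy
  set η := (‖y₀ - c p‖ - ρ p) / 3 with hη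
  have hη0 : 0 < η := by rw [hη]; linarith
  obtain ⟨θ, hθ, hθc, -, hθ1, hθ0⟩ :=
    exists_disc_cut (c p) (r := ρ p + η) (η := η) (by linarith) hη0
  have hre : ContDiff ℝ 1 fun w : ℂ => (w - c p).re :=
    Complex.reCLM.contDiff.comp (contDiff_id.sub contDiff_const)
  have him : ContDiff ℝ 1 fun w : ℂ => (w - c p).im :=
    Complex.imCLM.contDiff.comp (contDiff_id.sub contDiff_const)
  have h₁ : LC1 fun w => (w - c p).re * θ w := LC1.of_cpt (hre.mul hθ) hθc.mul_left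
  have h₂ : LC1 fun w => (w - c p).im * θ w := LC1.of_cpt (him.mul hθ) hθc.mul_left
  have hpi : 0 < Real.pi * ρ p ^ 2 := by positivity
  obtain ⟨N, hN⟩ := hp.rep p _ _ h₁ h₂ _ hpi
  obtain ⟨n, hn⟩ := hcon η hη0
  obtain ⟨χ, hχ, -, -, hoff, -⟩ := exists_Ind hc.op Λ (max n N) p
  have hanti : Antitone fun k => Λ.W k p := antitone_nat_of_succ_le fun k => Λ.anti k p
  have hz : ∀ z, θ ⟨reC ξ f z, imC ξ f z⟩ * χ z = 0 := by
    intro z
    by_cases hzW : z ∈ Λ.W (max n N) p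
    · have hzn : z ∈ Λ.W n p := hanti (le_max_left n N) hzW
      have h1 : ξ z = 1 := hp.cut.lump hzn
      have h2 : (⟨reC ξ f z, imC ξ f z⟩ : ℂ) = f z := by
        simp [reC, imC, h1]
      have h3 := hn z hzn
      have h4 : ‖y₀ - c p‖ ≤ ‖f z - c p‖ + ‖f z - y₀‖ := by
        have := norm_sub_le (f z - c p) (f z - y₀)
        rwa [show f z - c p - (f z - y₀) = y₀ - c p by ring] at this
      rw [h2, hθ0 _ (by rw [hη] at h3 ⊢; linarith), zero_mul]
    · rw [hoff z hzW, mul_zero]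
  have key := hN (max n N) (le_max_right n N) χ hχ
  have e1 : (fun z => cp (fun w => (w - c p).re * θ w) (reC ξ f) (imC ξ f) z * χ z) =
      fun _ => 0 := by
    funext z
    simp only [cp]
    rw [mul_assoc, hz z, mul_zero]
  have e2 : (fun z => cp (fun w => (w - c p).im * θ w) (reC ξ f) (imC ξ f) z * χ z) =
      fun _ => 0 := by
    funext z
    simp only [cp]
    rw [mul_assoc, hz z, mul_zero]
  have e3 : ell U (reC ξ f) (imC ξ f) (fun _ => 0) (fun _ => 0) = 0 := by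
    simp [ell, om, wd]
  have e4 : ∫ y, (closedBall (c p) (ρ p)).indicator (1 : ℂ → ℝ) y *
      dv (fun w => (w - c p).re * θ w) (fun w => (w - c p).im * θ w) y =
        2 * (Real.pi * ρ p ^ 2) := by
    have : (fun y => (closedBall (c p) (ρ p)).indicator (1 : ℂ → ℝ) y *
        dv (fun w => (w - c p).re * θ w) (fun w => (w - c p).im * θ w) y) =
        (closedBall (c p) (ρ p)).indicator fun _ => (2 : ℝ) := by
      funext y
      by_cases hy' : y ∈ closedBall (c p) (ρ p)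
      · rw [indicator_of_mem hy', indicator_of_mem hy', Pi.one_apply, one_mul]
        apply h43_dv_two
        have : ball (c p) (ρ p + η) ∈ 𝓝 y :=
          isOpen_ball.mem_nhds (closedBall_subset_ball (by linarith) hy')
        filter_upwards [this] with w hw
        exact hθ1 w (mem_ball_iff_norm.1 hw).le
      · rw [indicator_of_notMem hy', indicator_of_notMem hy', zero_mul]
    rw [this, integral_indicator_const _ measurableSet_closedBall, Measure.real,
      Complex.volume_closedBall]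
    simp [ENNReal.toReal_ofReal hρ.le]
    ring
  rw [e1, e2, e3, e4, zero_add, abs_of_pos (by positivity)] at key
  linarith

end Crest.Agent.R105.End
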