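import Crest.Agent.R105.E3Wh

/-! Row 105, block END, stage 3: no whiskers. -/

set_option autoImplicit false

open MeasureTheory Set Filter Topology Metric
open scoped ENNReal

namespace Crest.Agent.R105.End

variable {U : Set ℂ} {Λ : Lumps U} {M : Set (ℂ → ℝ)} {f : ℂ → ℂ} {ξ : ℂ → ℝ} {c : Λ.E → ℂ}
  {ρ : Λ.E → ℝ}

/-- The inequality for one approximant.  `T = hgt e y₀`, `v = T(u₁,u₂)` (`rt_cp`, `RT.bt`,
`inBall_cp` with `Ψ₂ = 0`, `L = 1`), `g = v - T(α,β)`.  `ell_loc` for `g`; `ell_sub` splits the left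
side into the part of `v` (`bv`) and the part of `T(α,β) ψ(α,β)` (`tot` with `χ = 1`,
`LC1.mul`, `LC1.const`); `main_term`, `disc_term`. -/
theorem wh_step (hc : Ctx Λ M) (hp : EPic Λ M f ξ c ρ) (hg : Geo Λ f c ρ) {u₁ u₂ : ℂ → ℝ}
    {c' : Λ.E → ℂ} {r : Λ.E → ℝ} (h₁ : RT Λ M u₁) (h₂ : RT Λ M u₂) (hr : L2w r)
    (hb : ∀ q, InBall Λ u₁ u₂ q (c' q) (r q)) {e y₀ d : ℂ} (he : ‖e‖ = 1) (hd : ‖d‖ = 1)
    {ψ h₁' h₀ θ : ℂ → ℝ} {C δ s γ η : ℝ} {O : Set ℂ} (hδ : 0 < δ) (hs : 0 ≤ s) (hγ : 0 ≤ γ)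
    (ht : Test C y₀ δ O d ψ h₁' h₀) (hO : O ⊆ f '' U) (hθ : LC1 θ)
    (h0 : ∀ y, 0 ≤ θ y ∧ θ y ≤ 1) (h1 : ∀ y, ‖y - y₀‖ ≤ 2 * δ → θ y = 1)
    (hR : ∀ z ∈ U, ‖f z - y₀‖ ≤ 3 * δ → ‖z‖ < Λ.R)
    (hsm : ∀ q, (closedBall (c q) (ρ q) ∩ closedBall y₀ (3 * δ)).Nonempty → ρ q ≤ s)
    (hneg : ∀ z ∈ U, f z ∈ O →
      cp (hgt e y₀) u₁ u₂ z - cp (hgt e y₀) (reC ξ f) (imC ξ f) z ≤ -γ)
    (herr : |∫ z in U, ψ (f z) *
      (d.re * wd (fun z => cp (hgt e y₀) u₁ u₂ z - cp (hgt e y₀) (reC ξ f) (imC ξ f) z)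
          (imC ξ f) z -
        d.im * wd (fun z => cp (hgt e y₀) u₁ u₂ z - cp (hgt e y₀) (reC ξ f) (imC ξ f) z)
          (reC ξ f) z)| ≤ η) :
    γ * (δ / 8) ≤ η + C / δ * (∫ z in U,
        |cp (hgt e y₀) u₁ u₂ z - cp (hgt e y₀) (reC ξ f) (imC ξ f) z| *
          |wd (reC ξ f) (imC ξ f) z|) +
      (4 * Real.pi * (δ ^ 2 + s * C * δ) +
        C / δ * ∑' q, min ‖c' q - c q‖ 4 * (Real.pi * ρ q ^ 2)) +
      ∑' q, 2 * r q * kap (c q) (ρ q) θ := by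
  obtain ⟨hT, hT1, hT2, hT3⟩ := hgt_props he y₀
  have hU := hc.op
  have hα := hp.elb.xa
  have hβ := hp.elb.xb
  have hψ := ht.lc1.1
  have hbd : ∀ {Ψ : ℂ → ℝ}, LC1 Ψ → ∀ a b : ℂ → ℝ, Bdd U (cp Ψ a b) := fun h a b => by
    obtain ⟨B, hB⟩ := h.bd
    exact ⟨B, fun z _ => hB _⟩
  have hv := rt_cp hc hT h₁ h₂
  have hw := xx_cp hU hT hα hβ
  have hx := xx_cp hU hψ hα hβ
  have hgx := hv.reg.xx.sub hU hw
  have hgb : Bdd U fun z => cp (hgt e y₀) u₁ u₂ z - cp (hgt e y₀) (reC ξ f) (imC ξ f) z :=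
    ⟨4, fun z _ => (abs_sub _ _).trans (by
      linarith [show |cp (hgt e y₀) u₁ u₂ z| ≤ 2 from hT2 _,
        show |cp (hgt e y₀) (reC ξ f) (imC ξ f) z| ≤ 2 from hT2 _])⟩
  have a1 := ell_loc hU hp.cut hp.hol hα hβ hgx hgb hψ hδ (fun y hy => (ht.supp y hy).1) hR d
  have a2 := main_term hU hp.cut hp.hol hg.inj hα hβ hgx hgb hδ hγ ht hO hR hneg
  have a3 := disc_term hp.elb.l2 hg hδ hs hd ht hO hT hT1 hT2 hT3 hsm c'
  have a4 := bv hc hp.elb hp.rep (RT.bt hc hv) (m := fun q => hgt e y₀ (c' q))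
    (V := fun q => 2 * r q) (hr.smul zero_le_two).1 (fun q => by
      have := inBall_cp (Ψ₂ := fun _ => 0) (L := 1) (hb q) hT.sm contDiff_const hT1 (by simp)
      rw [mul_one] at this
      exact this) hψ hθ h0 (fun y => by
      by_cases hy : ‖y - y₀‖ ≤ 2 * δ
      · rw [h1 y hy]; exact ht.bd y
      · rw [(ht.supp y (not_le.1 hy)).1, abs_zero]; exact (h0 y).1) hd
  have a5 := tot hc hp.elb hp.rep (A0.const (U := U) 1)
    ((LC1.const d.re).mul (hT.mul hψ)) ((LC1.const d.im).mul (hT.mul hψ))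
  have a6 : ∀ q, Λ.val (fun _ => (1 : ℝ)) q = 1 := fun q =>
    (val_eq Λ ⟨1, fun _ _ => by simp⟩ (n := 0) fun _ _ => rfl).1
  simp only [a6, one_mul, mul_one] at a5
  have hvx := hv.reg.xx.mul hU hx (hbd hT _ _) (hbd hψ _ _)
  have hwx := hw.mul hU hx (hbd hT _ _) (hbd hψ _ _)
  have a7 := ell_sub hU hα hβ (hvx.smul d.re) (hvx.smul d.im) (hwx.smul d.re) (hwx.smul d.im)
  simp only [← mul_sub, ← sub_mul] at a7
  have a8 : ell U (reC ξ f) (imC ξ f)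
      (fun z => d.re * (cp (hgt e y₀) (reC ξ f) (imC ξ f) z * cp ψ (reC ξ f) (imC ξ f) z))
      (fun z => d.im * (cp (hgt e y₀) (reC ξ f) (imC ξ f) z * cp ψ (reC ξ f) (imC ξ f) z)) =
      -∑' q, ∫ y in closedBall (c q) (ρ q), dv (fun y => d.re * (hgt e y₀ y * ψ y))
        (fun y => d.im * (hgt e y₀ y * ψ y)) y := a5
  have b1 := (abs_le.1 a3).2
  have b2 := (abs_le.1 a4).1
  have b3 := (abs_le.1 herr).2
  linarith

/-- Let `γ' = arctan (3γ/2) - arctan (γ/2) > 0`, `C`, `C'` the constants of `exists_test`,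
`exists_theta`.  Choose `s`, then `δ ≤ min δ₁ (γ/2)` (`clus_far`, `small_discs`) with
`4π(δ + s C) + 18π(2δ + s C') < γ'/16`.  For a good large `k` (`error_terms` with
`en_cp_tendsto`, `centre_term`, `sum_kap_le`) take `n` with `‖u k - ck p‖ ≤ rk p + γ/2` on
`W n p`, `O = f '' W n p ∩ ball y₀ δ` (`isOpen_image`), `exists_piece`, `exists_test`; `hneg` by
injectivity, `wd_reC`, `hgt_gap`; `wh_step` gives `γ' δ / 8 < γ' δ / 8`. -/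
theorem wh_core (hc : Ctx Λ M) (hp : EPic Λ M f ξ c ρ) (hg : Geo Λ f c ρ)
    {u₁ u₂ : ℕ → ℂ → ℝ} {ck : ℕ → Λ.E → ℂ} {rk : ℕ → Λ.E → ℝ}
    (ha : Appr Λ M (reC ξ f) (imC ξ f) u₁ u₂ ck rk ρ)
    (hck : ∀ q, 0 < ρ q → Tendsto (fun k => ck k q) atTop (𝓝 (c q))) {p : Λ.E} {y₀ e : ℂ}
    (hy : y₀ ∈ clus Λ f p) (hyp : 0 < ρ p → y₀ ∉ closedBall (c p) (ρ p)) (he : ‖e‖ = 1)
    {δ₁ γ : ℝ} (hδ₁ : 0 < δ₁) (hγ : 0 < γ) (hl : ∀ n, ∃ z ∈ Λ.W n p, δ₁ ≤ ‖f z - y₀‖)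
    (hfr : ∃ᶠ k in atTop,
      e.re * (ck k p - y₀).re + e.im * (ck k p - y₀).im + rk k p + 2 * γ ≤ 0) : False := by
  obtain ⟨γ', hγe⟩ : ∃ γ', γ' = Real.arctan (3 * γ / 2) - Real.arctan (γ / 2) := ⟨_, rfl⟩
  have hγ' : 0 < γ' := hγe ▸ sub_pos.2 (Real.arctan_strictMono (by linarith))
  obtain ⟨C, hC0, hC⟩ := exists_test
  obtain ⟨C', hC0', hC'⟩ := exists_theta
  have hρ := hp.elb.l2
  obtain ⟨s, hs, hs'⟩ := exists_pos_mul_lt (a := γ' / 64) (by positivity)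
    (Real.pi * (4 * C + 18 * C'))
  obtain ⟨δ₂, hδ₂, hδ₂'⟩ := exists_pos_mul_lt (a := γ' / 64) (by positivity) (40 * Real.pi)
  obtain ⟨-, δ₃, hδ₃, hfar⟩ := clus_far hc.op hp.hol hg.inj hp.inf hy
  obtain ⟨δ₄, hδ₄, hsmall⟩ := small_discs hρ hg hy hyp hs
  obtain ⟨δ, hδ, d1, d2, d3, d4, d5⟩ : ∃ δ : ℝ, 0 < δ ∧ δ ≤ δ₁ ∧ δ ≤ γ / 2 ∧ δ ≤ δ₂ ∧
      δ ≤ δ₃ / 3 ∧ δ ≤ δ₄ / 3 := by
    refine ⟨min δ₁ (min (γ / 2) (min δ₂ (min (δ₃ / 3) (δ₄ / 3)))), by positivity, ?_⟩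
    simp only [← le_min_iff, le_refl]
  have hR : ∀ z ∈ U, ‖f z - y₀‖ ≤ 3 * δ → ‖z‖ < Λ.R := fun z hz h => hfar z hz (by linarith)
  have hsm : ∀ q, (closedBall (c q) (ρ q) ∩ closedBall y₀ (3 * δ)).Nonempty → ρ q ≤ s :=
    fun q h => hsmall q (h.mono (inter_subset_inter_right _ (closedBall_subset_closedBall
      (by linarith))))
  obtain ⟨θ, t1, t2, t3, t4, t5⟩ := hC' y₀ δ hδ
  obtain ⟨η, hη, hη'⟩ := exists_pos_mul_lt (a := δ * γ' / 32) (by positivity) (2 + 2 * (C / δ))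
  obtain ⟨T1, -, T3, -⟩ := hgt_props he y₀
  have e1 := error_terms hc.op hp.elb.xa hp.elb.xb
    (g := fun k z => cp (hgt e y₀) (u₁ k) (u₂ k) z - cp (hgt e y₀) (reC ξ f) (imC ξ f) z)
    (fun k => (xx_cp hc.op T1 (ha.rt₁ k).reg.xx (ha.rt₂ k).reg.xx).sub hc.op
      (xx_cp hc.op T1 hp.elb.xa hp.elb.xb))
    (fun k z _ => (abs_sub _ _).trans ((add_le_add (T3 _) (T3 _)).trans (by norm_num)))
    (en_cp_tendsto hc.op T1 hp.elb.xa hp.elb.xb (fun k => (ha.rt₁ k).reg.xx)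
      (fun k => (ha.rt₂ k).reg.xx) ha.ae₁ ha.ae₂ ha.en₁ ha.en₂)
    (by
      filter_upwards [ha.ae₁, ha.ae₂] with z h1 h2 hz
      exact tendsto_sub_nhds_zero_iff.2 ((T1.sm.continuous.tendsto _).comp
        ((Complex.equivRealProdCLM.symm.continuous.tendsto _).comp
          ((h1 hz).prodMk_nhds (h2 hz))))) hη
  have e2 := (centre_term hρ hck).eventually (eventually_le_nhds hη)
  have e3 := sum_kap_le hρ hg.disj hδ hs.le t1.sm t2 t4 t5 hsm ha.l2 ha.lim hη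
  obtain ⟨k, hk, ⟨k1, k2⟩, k3, k4⟩ := (hfr.and_eventually (e1.and (e2.and e3))).exists
  obtain ⟨n, hn⟩ := ha.ball k p (γ / 2) (by positivity)
  have hWU : Λ.W n p ⊆ U := fun z hz => (Λ.sub n p hz).1
  have hV := isOpen_image hc.op hp.hol hg.inj (Λ.op n p) hWU
  obtain ⟨z₃, hz₃, hz₃'⟩ := hl n
  obtain ⟨Γ, y₁, y₂, g1, g2, g3, g4, g5⟩ := exists_piece hV
    ((Λ.conn n p).isPreconnected.image f (hp.hol.continuousOn.mono hWU)) hδ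
    (mem_iInter.1 hy n) (mem_image_of_mem f hz₃) (d1.trans hz₃')
  obtain ⟨d, ψ, h₁, h₀, hd, ht⟩ := hC y₀ δ _ Γ y₁ y₂ hδ (hV.inter isOpen_ball) inter_subset_right
    g1 g2 g3 g4 g5
  have key := wh_step hc hp hg (ha.rt₁ k) (ha.rt₂ k) (ha.l2 k) (ha.ball k) he hd hδ hs.le hγ'.le
    ht (inter_subset_left.trans (image_mono hWU)) t1 t2 t3 hR hsm (fun z hz hfz => by
      obtain ⟨⟨z', hz', e'⟩, hb⟩ := hfz
      obtain rfl : z' = z := hg.inj (hWU hz') hz e'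
      rw [cp, cp, (wd_reC hc.op hp.cut hp.hol hz (mem_ball_zero_iff.1 (Λ.sub n p hz').2)).1, hγe]
      exact hgt_gap he hγ hk (hn z' hz') ((mem_ball_iff_norm.1 hb).le.trans d2))
    (k2 (fun z => ψ (f z)) d (fun z => ht.bd _) hd)
  have hCδ : 0 ≤ C / δ := by positivity
  have m1 := mul_le_mul_of_nonneg_left k1 hCδ
  have m2 := mul_le_mul_of_nonneg_left k3 hCδ
  have m3 := mul_le_mul_of_nonneg_left hs'.le hδ.le
  have m4 := mul_le_mul_of_nonneg_left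
    ((mul_le_mul_of_nonneg_left d3 (by positivity : 0 ≤ 40 * Real.pi)).trans hδ₂'.le) hδ.le
  have m5 := mul_pos hδ hγ'
  nlinarith [key, m1, m2, m3, m4, m5, k4, hη']

theorem h96_unit {w : ℂ} (hw : w ≠ 0) :
    ∃ e : ℂ, ‖e‖ = 1 ∧ e.re * w.re + e.im * w.im = ‖w‖ := by
  have h0 : 0 < ‖w‖ := norm_pos_iff.2 hw
  refine ⟨((‖w‖⁻¹ : ℝ) : ℂ) * w, ?_, ?_⟩
  · rw [norm_mul, Complex.norm_real, Real.norm_eq_abs, abs_of_pos (inv_pos.2 h0),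
      inv_mul_cancel₀ h0.ne']
  · have h1 : w.re * w.re + w.im * w.im = ‖w‖ ^ 2 := by
      rw [Complex.sq_norm, Complex.normSq_apply]
    rw [Complex.re_ofReal_mul, Complex.im_ofReal_mul, mul_assoc, mul_assoc, ← mul_add, h1]
    field_simp

theorem h96_far {p : Λ.E} {y₀ y₁ : ℂ} (h0 : y₀ ∈ clus Λ f p) (hne : y₀ ≠ y₁) (n : ℕ) :
    ∃ z ∈ Λ.W n p, ‖y₁ - y₀‖ / 2 ≤ ‖f z - y₁‖ := by
  have hD : 0 < ‖y₁ - y₀‖ := norm_pos_iff.2 (sub_ne_zero.2 hne.symm)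
  obtain ⟨_, ⟨z, hz, rfl⟩, hd⟩ :=
    Metric.mem_closure_iff.1 (mem_iInter.1 h0 n) (‖y₁ - y₀‖ / 2) (half_pos hD)
  refine ⟨z, hz, ?_⟩
  rw [dist_eq_norm] at hd
  have h1 := norm_sub_le_norm_sub_add_norm_sub y₀ (f z) y₁
  rw [norm_sub_rev y₀ y₁] at h1
  linarith

/-- `ρ p > 0`: `e = (y₀ - c p)/‖y₀ - c p‖`, `3γ = ‖y₀ - c p‖ - ρ p`, `leaves`, `rk k p → ρ p`
(`tsum_tendsto`).  `ρ p = 0`, two points `y₀ ≠ y₁` of the cluster set at distance `D`,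
`e = (y₁ - y₀)/D`, `γ = D/8`: frequently `e·(ck - y₁) ≤ -D/2` (use `y₁`, `e`) or frequently
`-e·(ck - y₀) ≤ -D/2` (use `y₀`, `-e`); `hl` since the other point is in the closure of
`f '' W n p`. -/
theorem whisker (hc : Ctx Λ M) (hp : EPic Λ M f ξ c ρ) (hg : Geo Λ f c ρ) (p : Λ.E) :
    (0 < ρ p → clus Λ f p ⊆ closedBall (c p) (ρ p)) ∧
      (ρ p = 0 → (clus Λ f p).Subsingleton) := by
  obtain ⟨u₁, u₂, ck, rk, ha, hck⟩ := hp.appr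
  have hr : Tendsto (fun k => rk k p) atTop (𝓝 (ρ p)) :=
    (tsum_tendsto (g := fun _ => 0) (C := 0) hp.elb.l2 hp.elb.l2 ha.l2 (fun _ => by simp)
      ha.lim).2 p
  refine ⟨fun hρ y₀ hy => ?_, fun hρ y₀ h0 y₁ h1 => ?_⟩
  · by_contra hn
    have hD : ρ p < ‖y₀ - c p‖ := by
      rw [mem_closedBall, dist_eq_norm, not_le] at hn
      exact hn
    obtain ⟨e, he, hw⟩ := h96_unit (w := y₀ - c p) (norm_pos_iff.1 (hρ.trans hD))
    obtain ⟨δ₁, hδ₁, hl⟩ := leaves hc hp hρ hn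
    refine wh_core hc hp hg ha hck hy (fun _ => hn) he hδ₁
      (γ := (‖y₀ - c p‖ - ρ p) / 3) (by linarith) hl (Eventually.frequently ?_)
    have t0 : Tendsto (fun k => ck k p - y₀) atTop (𝓝 (c p - y₀)) := (hck p hρ).sub_const _
    have t1 := ((((Complex.continuous_re.tendsto _).comp t0).const_mul e.re).add
      (((Complex.continuous_im.tendsto _).comp t0).const_mul e.im)).add hr
    refine (t1.add_const (2 * ((‖y₀ - c p‖ - ρ p) / 3))).eventually (eventually_le_nhds ?_)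
    simp only [Complex.sub_re, Complex.sub_im] at hw ⊢
    linarith
  · by_contra hne
    have hD : 0 < ‖y₁ - y₀‖ := norm_pos_iff.2 (sub_ne_zero.2 (Ne.symm hne))
    obtain ⟨e, he, hw⟩ := h96_unit (w := y₁ - y₀) (norm_pos_iff.1 hD)
    have hsm : ∀ᶠ k in atTop, rk k p ≤ ‖y₁ - y₀‖ / 4 :=
      hr.eventually (eventually_le_nhds (by rw [hρ]; linarith))
    have hno : ∀ y, 0 < ρ p → y ∉ closedBall (c p) (ρ p) := fun y h => absurd hρ h.ne'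
    by_cases hf : ∃ᶠ k in atTop,
        e.re * (ck k p - y₁).re + e.im * (ck k p - y₁).im ≤ -(‖y₁ - y₀‖ / 2)
    · refine wh_core hc hp hg ha hck h1 (hno _) he (half_pos hD) (γ := ‖y₁ - y₀‖ / 8)
        (by linarith) (h96_far h0 hne) ((hf.and_eventually hsm).mono fun k hk => ?_)
      linarith [hk.1, hk.2]
    · have hD' : 0 < ‖y₀ - y₁‖ := by rwa [norm_sub_rev]
      refine wh_core hc hp hg ha hck h0 (hno _) (e := -e) (by rwa [norm_neg]) (half_pos hD')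
        (γ := ‖y₁ - y₀‖ / 8) (by linarith) (h96_far h1 (Ne.symm hne))
        (Eventually.frequently ?_)
      filter_upwards [not_frequently.1 hf, hsm] with k k1 k2
      simp only [Complex.sub_re, Complex.sub_im, Complex.neg_re, Complex.neg_im] at hw k1 ⊢
      linarith [not_le.1 k1]

end Crest.Agent.R105.End
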