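import Crest.Agent.R105.NAdm

/-! Row 105, block END: interfaces between the three stages. -/

set_option autoImplicit false

open MeasureTheory Set Filter Topology
open scoped ENNReal

namespace Crest.Agent.R105.End

noncomputable section

variable {U : Set ℂ}

/-- standing hypotheses of the block -/
structure Ctx (Λ : Lumps U) (M : Set (ℂ → ℝ)) : Prop where
  op : IsOpen U
  conn : IsPreconnected U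
  fam : Fam Λ M
  ch : CH Λ M
  main : MAIN Λ M

/-- bounded `C¹` functions with bounded derivative on the target plane -/
structure LC1 (Ψ : ℂ → ℝ) : Prop where
  sm : ContDiff ℝ 1 Ψ
  bd : ∃ B : ℝ, ∀ y, |Ψ y| ≤ B
  lip : ∃ L : ℝ, ∀ y, ‖fderiv ℝ Ψ y‖ ≤ L

/-- `Ψ(a,b)` -/
def cp (Ψ : ℂ → ℝ) (a b : ℂ → ℝ) (z : ℂ) : ℝ := Ψ ⟨a z, b z⟩

/-- divergence of the field `(Ψ₁,Ψ₂)` -/
def dv (Ψ₁ Ψ₂ : ℂ → ℝ) (y : ℂ) : ℝ := fderiv ℝ Ψ₁ y 1 + fderiv ℝ Ψ₂ y Complex.I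

/-- the first variation `l(φ) = ω(φ₁,β) - ω(φ₂,α)` -/
def ell (U : Set ℂ) (α β φ₁ φ₂ : ℂ → ℝ) : ℝ := om U φ₁ β - om U φ₂ α

/-- bounded elements of `T` with an admissible weight -/
structure BT (Λ : Lumps U) (M : Set (ℂ → ℝ)) (u : ℂ → ℝ) (n : Λ.E → ℝ) : Prop where
  xx : XX U u
  bdd : Bdd U u
  adm : Adm Λ M ∅ u n

/-- regular elements of `T` -/
structure RT (Λ : Lumps U) (M : Set (ℂ → ℝ)) (u : ℂ → ℝ) : Prop where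
  reg : Reg Λ u
  tt : TT Λ M u

/-- a cut-off equal to one on the disc containing all lumps -/
structure Cut (Λ : Lumps U) (ξ : ℂ → ℝ) : Prop where
  sm : ContDiff ℝ (⊤ : ℕ∞) ξ
  cs : HasCompactSupport ξ
  one : ∀ z : ℂ, ‖z‖ ≤ Λ.R → ξ z = 1

/-- `ξ Re h` -/
def reC (ξ : ℂ → ℝ) (h : ℂ → ℂ) (z : ℂ) : ℝ := ξ z * (h z).re

/-- `ξ Im h` -/
def imC (ξ : ℂ → ℝ) (h : ℂ → ℂ) (z : ℂ) : ℝ := ξ z * (h z).im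

/-- the Euler-Lagrange bound for the conjugate pair `(α,β)` -/
structure ELB (Λ : Lumps U) (M : Set (ℂ → ℝ)) (α β : ℂ → ℝ) (ρ : Λ.E → ℝ) : Prop where
  xa : XX U α
  xb : XX U β
  l2 : L2w ρ
  le : ∀ (φ₁ φ₂ : ℂ → ℝ) (c : Λ.E → ℂ) (r : Λ.E → ℝ), RT Λ M φ₁ → RT Λ M φ₂ → L2w r →
    (∀ q, InBall Λ φ₁ φ₂ q (c q) (r q)) →
    |ell U α β φ₁ φ₂| ≤ 2 * Real.pi * ∑' q, ρ q * r q

/-- regular approximants of the pair `(a,b)` whose cluster sets lie in discs with radii tending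
to `ρ` -/
structure Appr (Λ : Lumps U) (M : Set (ℂ → ℝ)) (a b : ℂ → ℝ) (u₁ u₂ : ℕ → ℂ → ℝ)
    (c : ℕ → Λ.E → ℂ) (r : ℕ → Λ.E → ℝ) (ρ : Λ.E → ℝ) : Prop where
  rt₁ : ∀ k, RT Λ M (u₁ k)
  rt₂ : ∀ k, RT Λ M (u₂ k)
  l2 : ∀ k, L2w (r k)
  ball : ∀ k q, InBall Λ (u₁ k) (u₂ k) q (c k q) (r k q)
  en₁ : Tendsto (fun k => En U (fun z => u₁ k z - a z)) atTop (𝓝 0)
  en₂ : Tendsto (fun k => En U (fun z => u₂ k z - b z)) atTop (𝓝 0)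
  ae₁ : ∀ᵐ z, z ∈ U → Tendsto (fun k => u₁ k z) atTop (𝓝 (a z))
  ae₂ : ∀ᵐ z, z ∈ U → Tendsto (fun k => u₂ k z) atTop (𝓝 (b z))
  lim : Tendsto (fun k => nrm (fun q => r k q - ρ q)) atTop (𝓝 0)

/-- output of stage 1 (minimisation): `h₁ = a + i b~`, `h₂ = a~ + i b` -/
structure ELD (Λ : Lumps U) (M : Set (ℂ → ℝ)) (h₁ h₂ : ℂ → ℂ) (ξ : ℂ → ℝ) (ρ : Λ.E → ℝ) :
    Prop where
  cut : Cut Λ ξ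
  hol₁ : DifferentiableOn ℂ h₁ U
  hol₂ : DifferentiableOn ℂ h₂ U
  inf₁ : ∃ b : ℂ, Tendsto (fun z => h₁ z - z) (cocompact ℂ) (𝓝 b)
  xx₁ : XX U (reC ξ h₁)
  xx₂ : XX U (imC ξ h₂)
  elb : ELB Λ M (reC ξ h₂) (imC ξ h₁) ρ
  appr : ∃ u₁ u₂ c r, Appr Λ M (reC ξ h₁) (imC ξ h₂) u₁ u₂ c r ρ
  int : IntegrableOn (fun z => ‖deriv h₁ z - deriv h₂ z‖ ^ 2) U
  gap : ∫ z in U, ‖deriv h₁ z - deriv h₂ z‖ ^ 2 ≤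
    -2 * om U (reC ξ h₂) (imC ξ h₁) - 2 * Real.pi * ∑' q, ρ q ^ 2

/-- the node function `m` of the end `q` represents the limit of `l(χ Ψ(α,β))` -/
def Rep (Λ : Lumps U) (α β : ℂ → ℝ) (q : Λ.E) (m : ℂ → ℝ) : Prop :=
  ∀ Ψ₁ Ψ₂, LC1 Ψ₁ → LC1 Ψ₂ → ∀ η > 0, ∃ N, ∀ n ≥ N, ∀ χ, Ind Λ n q χ →
    |ell U α β (fun z => cp Ψ₁ α β z * χ z) (fun z => cp Ψ₂ α β z * χ z) +
      ∫ y, m y * dv Ψ₁ Ψ₂ y| ≤ η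

/-- the node functions of a pair satisfying the Euler-Lagrange bound -/
structure Node (Λ : Lumps U) (α β : ℂ → ℝ) (ρ : Λ.E → ℝ) (m : Λ.E → ℂ → ℝ) : Prop where
  int : ∀ q, Integrable (m q)
  z : ∀ q y, ∃ k : ℤ, m q y = k
  l1 : ∀ q, ∫ y, |m q y| ≤ 4 * Real.pi ^ 2 * ρ q ^ 2
  rep : ∀ q, Rep Λ α β q (m q)
  area : om U α β = -∑' q, ∫ y, m q y

/-- output of stage 2: a holomorphic map whose node functions are indicators of discs -/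
structure EPic (Λ : Lumps U) (M : Set (ℂ → ℝ)) (f : ℂ → ℂ) (ξ : ℂ → ℝ) (c : Λ.E → ℂ)
    (ρ : Λ.E → ℝ) : Prop where
  cut : Cut Λ ξ
  hol : DifferentiableOn ℂ f U
  inf : ∃ b : ℂ, Tendsto (fun z => f z - z) (cocompact ℂ) (𝓝 b)
  elb : ELB Λ M (reC ξ f) (imC ξ f) ρ
  appr : ∃ u₁ u₂ ck rk, Appr Λ M (reC ξ f) (imC ξ f) u₁ u₂ ck rk ρ ∧
    ∀ q, 0 < ρ q → Tendsto (fun k => ck k q) atTop (𝓝 (c q))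
  area : om U (reC ξ f) (imC ξ f) = -(Real.pi * ∑' q, ρ q ^ 2)
  rep : ∀ q, Rep Λ (reC ξ f) (imC ξ f) q ((Metric.closedBall (c q) (ρ q)).indicator 1)

/-- stage 1 -/
def St1 : Prop := ∀ (U : Set ℂ) (Λ : Lumps U) (M : Set (ℂ → ℝ)), Ctx Λ M → ISO Λ M →
  ∃ h₁ h₂ ξ ρ, ELD Λ M h₁ h₂ ξ ρ

/-- stage 2 -/
def St2 : Prop := ∀ (U : Set ℂ) (Λ : Lumps U) (M : Set (ℂ → ℝ)) (h₁ h₂ : ℂ → ℂ) (ξ : ℂ → ℝ)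
  (ρ : Λ.E → ℝ), Ctx Λ M → ELD Λ M h₁ h₂ ξ ρ → ∃ f c, EPic Λ M f ξ c ρ

/-- stage 3 -/
def St3 : Prop := ∀ (U : Set ℂ) (Λ : Lumps U) (M : Set (ℂ → ℝ)) (f : ℂ → ℂ) (ξ : ℂ → ℝ)
  (c : Λ.E → ℂ) (ρ : Λ.E → ℝ), Ctx Λ M → EPic Λ M f ξ c ρ → ∃ c', EndOut Λ M f c' ρ

/-- the lower bound for the energy of competitors (`E ≥ 0`), with `ζ = 1 - ξ`,
`w = (v₁ + ζ x, v₂ + ζ y)`: `∫ (|Dw|² - 2 J_w) + 2 ω(v₁,v₂) + 2π Σ r² ≥ 0`. -/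
def Pos : Prop := ∀ (U : Set ℂ) (Λ : Lumps U) (M : Set (ℂ → ℝ)) (ξ v₁ v₂ a b : ℂ → ℝ)
  (c : Λ.E → ℂ) (r : Λ.E → ℝ), Ctx Λ M → ISO Λ M → Cut Λ ξ → RT Λ M v₁ → RT Λ M v₂ → L2w r →
  (∀ q, InBall Λ v₁ v₂ q (c q) (r q)) →
  (∀ z, a z = v₁ z + (1 - ξ z) * z.re) → (∀ z, b z = v₂ z + (1 - ξ z) * z.im) →
  0 ≤ (∫ z in U, ((fderiv ℝ a z 1 - fderiv ℝ b z Complex.I) ^ 2 +
      (fderiv ℝ a z Complex.I + fderiv ℝ b z 1) ^ 2)) + 2 * om U v₁ v₂ +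
    2 * Real.pi * ∑' q, r q ^ 2

theorem end_of (h1 : St1) (h2 : St2) (h3 : St3) (U : Set ℂ)
    (hU : Crest.AnalysisR.IsExteriorDomain U) (Λ : Lumps U) (M : Set (ℂ → ℝ)) (hF : Fam Λ M)
    (hC : CH Λ M) (hM : MAIN Λ M) (hI : ISO Λ M) : ∃ f c ρ, EndOut Λ M f c ρ := by
  have hc : Ctx Λ M := ⟨hU.1, hU.2.1.isPreconnected, hF, hC, hM⟩
  obtain ⟨h₁, h₂, ξ, ρ, hd⟩ := h1 U Λ M hc hI
  obtain ⟨f, c, hp⟩ := h2 U Λ M h₁ h₂ ξ ρ hc hd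
  obtain ⟨c', ho⟩ := h3 U Λ M f ξ c ρ hc hp
  exact ⟨f, c', ρ, ho⟩

end

end Crest.Agent.R105.End
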