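import Crest.Agent.R105.E1
import Crest.Agent.R105.E2Main
import Crest.Agent.R105.E3C
import Crest.Agent.R105.E3Wm

/-! Row 105, block END: the final theorem. -/

set_option autoImplicit false

open MeasureTheory Set Filter Topology

namespace Crest.Agent.R105.End

theorem geo_of {U : Set ℂ} {Λ : Lumps U} {M : Set (ℂ → ℝ)} {f : ℂ → ℂ} {ξ : ℂ → ℝ}
    {c : Λ.E → ℂ} {ρ : Λ.E → ℝ} (hc : Ctx Λ M) (hp : EPic Λ M f ξ c ρ) : Geo Λ f c ρ := by
  refine ⟨e3_inj hc hp, fun q q' h => e3_null hc hp h, fun q => ?_, fun p q hpq hq => ?_⟩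
  · rcases (hp.elb.l2.1 q).eq_or_lt with h0 | h0
    · refine measure_mono_null inter_subset_left ?_
      rw [← h0, Metric.closedBall_zero]
      exact measure_singleton _
    · rw [(e3_out hc hp h0).inter_eq]
      exact measure_empty
  · exact disjoint_left.2 fun y h1 h2 =>
      hpq (att_unique hc hp (Or.inr ⟨hq, h2⟩) (Or.inl h1))

theorem st3 : St3 := fun _ _ _ _ _ _ _ hc hp =>
  endOut_of hc hp (whisker hc hp (geo_of hc hp))

end Crest.Agent.R105.End

namespace Crest.Agent.R105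

/-- block END -/
theorem end_thm (U : Set ℂ) (hU : Crest.AnalysisR.IsExteriorDomain U) (Λ : Lumps U)
    (M : Set (ℂ → ℝ)) (hF : Fam Λ M) (hC : CH Λ M) (hM : MAIN Λ M) (hI : ISO Λ M) :
    ∃ f c ρ, EndOut Λ M f c ρ :=
  End.end_of (End.st1 End.pos) End.st2 End.st3 U hU Λ M hF hC hM hI

end Crest.Agent.R105
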