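import Mathlib

/-! Row 105, block HB: small energy on a connected open set forces a.e. convergence modulo
constants. -/

set_option autoImplicit false

namespace Crest.Agent.R105

open MeasureTheory Filter Topology Set Metric
open scoped ENNReal

theorem h79_scale {F : ℂ → ℝ≥0∞} (hF : Measurable F) (a : ℂ) {t : ℝ}
    (ht : 1 / 2 ≤ t) : ∫⁻ y, F (a + t • y) ≤ 4 * ∫⁻ y, F y := by
  have ht0 : 0 < t := by linarith
  have hm : Measurable fun z => F (a + z) := hF.comp (measurable_const_add a)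
  have h1 : ∫⁻ y, F (a + t • y) = ∫⁻ z, F (a + z) ∂(Measure.map (t • ·) volume) :=
    (lintegral_map hm (measurable_const_smul t)).symm
  rw [h1, Measure.map_addHaar_smul volume ht0.ne', lintegral_smul_measure,
    lintegral_add_left_eq_self, smul_eq_mul]
  gcongr
  rw [Complex.finrank_real_complex, abs_of_pos (by positivity), ← ENNReal.ofReal_ofNat]
  refine ENNReal.ofReal_le_ofReal ?_
  rw [inv_le_comm₀ (by positivity) (by norm_num)]
  nlinarith

theorem h79_segment {g : ℂ → ℝ} {C : NNReal} (hg : LipschitzWith C g) {p : ℂ} {r : ℝ}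
    {F : ℂ → ℝ≥0∞} (hF : ∀ z ∈ ball p r, DifferentiableAt ℝ g z → ‖fderiv ℝ g z‖ₑ ≤ F z)
    (hF' : ∀ z ∈ ball p r, ¬ DifferentiableAt ℝ g z → F z = ⊤) {x y : ℂ} (hx : x ∈ ball p r)
    (hy : y ∈ ball p r) : ‖g x - g y‖ₑ ≤
      ENNReal.ofReal (2 * r) * ∫⁻ t in Ioc (0 : ℝ) 1, F ((1 - t) • x + t • y) := by
  have hr : 0 < r := pos_of_mem_ball hx
  have hd : ∀ t : ℝ, HasDerivAt (fun t : ℝ => (1 - t) • x + t • y) (y - x) t := by
    intro t
    have := (((hasDerivAt_id t).const_sub 1).smul_const x).add ((hasDerivAt_id t).smul_const y)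
    rw [one_smul, neg_one_smul, neg_add_eq_sub] at this
    exact this
  have hl : LipschitzWith ‖y - x‖₊ fun t : ℝ => (1 - t) • x + t • y :=
    lipschitzWith_of_nnnorm_deriv_le (fun t => (hd t).differentiableAt) fun t => by
      rw [(hd t).deriv]
  have h1 := ((hg.comp hl).lipschitzOnWith (s := uIcc (0 : ℝ) 1)).absolutelyContinuousOnInterval
    |>.integral_deriv_eq_sub
  simp only [Function.comp_apply, sub_self, zero_smul, one_smul, zero_add, sub_zero,
    add_zero] at h1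
  rw [enorm_sub_rev, ← h1, intervalIntegral.integral_of_le zero_le_one,
    ← lintegral_const_mul' _ _ ENNReal.ofReal_ne_top]
  refine (enorm_integral_le_lintegral_enorm _).trans
    (setLIntegral_mono' measurableSet_Ioc fun t ht => ?_)
  have hmem : (1 - t) • x + t • y ∈ ball p r :=
    convex_ball p r hx hy (by linarith [ht.2]) ht.1.le (by ring)
  by_cases h : DifferentiableAt ℝ g ((1 - t) • x + t • y)
  · rw [(h.hasFDerivAt.comp_hasDerivAt t (hd t)).deriv, mul_comm]
    refine (ContinuousLinearMap.le_opENorm _ _).trans (mul_le_mul' (hF _ hmem h) ?_)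
    rw [← ofReal_norm]
    refine ENNReal.ofReal_le_ofReal ?_
    have h2 := dist_triangle_right y x p
    rw [dist_eq_norm] at h2
    linarith [mem_ball.1 hx, mem_ball.1 hy]
  · rw [hF' _ hmem h, ENNReal.mul_top (by simpa using hr)]
    exact le_top

/-- `L¹` Poincaré inequality on a ball for a Lipschitz function.  Proof: for a.e. `(x, y)` the
Lipschitz function `t ↦ g ((1-t) x + t y)` has derivative `fderiv g (..) (y - x)` for a.e. `t`
(Rademacher `LipschitzWith.ae_differentiableAt`; the set of `(x,y,t)` with `(1-t)x+ty` in a null set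
is null), `AbsolutelyContinuousOnInterval.integral_deriv_eq_sub`; then Tonelli and the substitution
of `R236/Poinc.lean` (`poinc_scale`, `poincare`: for `t ≥ 1/2` substitute in `y`, else in `x`).
Alternative: apply the bound with the measurable majorant
`F = indicator (ball) ‖fderiv g‖ₑ + ∞ · indicator (non differentiability set)`. -/
theorem hb_poinc_ball {g : ℂ → ℝ} {C : NNReal} (hg : LipschitzWith C g) (p : ℂ) (r : ℝ) :
    ∫⁻ x in ball p r, ∫⁻ y in ball p r, ‖g x - g y‖ₑ ≤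
      ENNReal.ofReal (8 * r) * volume (ball p r) * ∫⁻ z in ball p r, ‖fderiv ℝ g z‖ₑ := by
  classical
  set F : ℂ → ℝ≥0∞ := (ball p r).indicator fun z =>
    if DifferentiableAt ℝ g z then ‖fderiv ℝ g z‖ₑ else ⊤ with hFdef
  have hF : Measurable F :=
    (Measurable.ite (measurableSet_of_differentiableAt ℝ g) (measurable_fderiv ℝ g).enorm
      measurable_const).indicator measurableSet_ball
  have hI : ∫⁻ z, F z = ∫⁻ z in ball p r, ‖fderiv ℝ g z‖ₑ := by
    rw [hFdef, lintegral_indicator measurableSet_ball]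
    refine lintegral_congr_ae (ae_restrict_of_ae ?_)
    filter_upwards [hg.ae_differentiableAt (μ := volume)] with z hz
    rw [if_pos hz]
  have hG : Measurable fun q : (ℂ × ℂ) × ℝ => F ((1 - q.2) • q.1.1 + q.2 • q.1.2) :=
    hF.comp (by fun_prop)
  have h1 : ∀ t : ℝ, ∫⁻ q : ℂ × ℂ, F ((1 - t) • q.1 + t • q.2)
      ∂((volume.restrict (ball p r)).prod (volume.restrict (ball p r))) ≤
        4 * (∫⁻ y, F y) * volume (ball p r) := by
    intro t
    have hGt : Measurable fun q : ℂ × ℂ => F ((1 - t) • q.1 + t • q.2) :=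
      hF.comp (by fun_prop)
    rcases le_total (1 / 2) t with ht | ht
    · rw [lintegral_prod _ hGt.aemeasurable]
      refine (lintegral_mono fun x => (setLIntegral_le_lintegral _ _).trans
        (h79_scale hF ((1 - t) • x) ht)).trans ?_
      rw [setLIntegral_const]
    · rw [lintegral_prod_symm _ hGt.aemeasurable]
      simp only [add_comm ((1 - t) • _)]
      refine (lintegral_mono fun y => (setLIntegral_le_lintegral _ _).trans
        (h79_scale hF (t • y) (t := 1 - t) (by linarith))).trans ?_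
      rw [setLIntegral_const]
  have hm : Measurable fun q : ℂ × ℂ => ‖g q.1 - g q.2‖ₑ :=
    ((hg.continuous.comp continuous_fst).sub (hg.continuous.comp continuous_snd)).measurable.enorm
  calc ∫⁻ x in ball p r, ∫⁻ y in ball p r, ‖g x - g y‖ₑ
      = ∫⁻ q : ℂ × ℂ, ‖g q.1 - g q.2‖ₑ
          ∂((volume.restrict (ball p r)).prod (volume.restrict (ball p r))) :=
        (lintegral_prod _ hm.aemeasurable).symm
    _ ≤ ∫⁻ q : ℂ × ℂ, ENNReal.ofReal (2 * r) * ∫⁻ t in Ioc (0 : ℝ) 1,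
          F ((1 - t) • q.1 + t • q.2) ∂volume
          ∂((volume.restrict (ball p r)).prod (volume.restrict (ball p r))) := by
        rw [Measure.prod_restrict]
        refine setLIntegral_mono' (measurableSet_ball.prod measurableSet_ball) fun q hq =>
          h79_segment hg (fun z hz h => ?_) (fun z hz h => ?_) hq.1 hq.2
        · rw [hFdef, indicator_of_mem hz, if_pos h]
        · rw [hFdef, indicator_of_mem hz, if_neg h]
    _ = ENNReal.ofReal (2 * r) * ∫⁻ t in Ioc (0 : ℝ) 1, ∫⁻ q : ℂ × ℂ, F ((1 - t) • q.1 + t • q.2)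
          ∂((volume.restrict (ball p r)).prod (volume.restrict (ball p r))) := by
        rw [lintegral_const_mul' _ _ ENNReal.ofReal_ne_top, lintegral_lintegral_swap hG.aemeasurable]
    _ ≤ ENNReal.ofReal (2 * r) * (4 * (∫⁻ y, F y) * volume (ball p r)) := by
        gcongr
        refine (lintegral_mono h1).trans ?_
        rw [setLIntegral_const, Real.volume_Ioc, sub_zero, ENNReal.ofReal_one, mul_one]
    _ = _ := by
        rw [hI, show 8 * r = 4 * (2 * r) by ring, ENNReal.ofReal_mul (by norm_num : (0 : ℝ) ≤ 4),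
          ENNReal.ofReal_ofNat]
        ring

theorem hbp_le_add_sq {a ε η : ℝ≥0∞} (h : ε * η = 1) : a ≤ ε + η * a ^ 2 := by
  rcases le_total a ε with h1 | h1
  · exact h1.trans le_self_add
  · calc a = a * (ε * η) := by rw [h, mul_one]
      _ ≤ a * (a * η) := by gcongr
      _ = η * a ^ 2 := by ring
      _ ≤ ε + η * a ^ 2 := le_add_self

theorem hbp_ball {U : Set ℂ} {v : ℕ → ℂ → ℝ} (hv : ∀ n, LocallyLipschitzOn U (v n))
    (hE : ∀ n, ∫⁻ z in U, ‖fderiv ℝ (v n) z‖ₑ ^ 2 ≤ (2⁻¹ ^ n) ^ 2) {p : ℂ} {r : ℝ} (hr : 0 < r)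
    (hB : closedBall p r ⊆ U) :
    ∃ y : ℂ, ∀ᵐ x, x ∈ ball p r → Tendsto (fun n => v n x - v n y) atTop (𝓝 0) := by
  have h1 : ∀ n, ∃ (g : ℂ → ℝ) (K : NNReal), LipschitzWith K g ∧ EqOn (v n) g (closedBall p r) := by
    intro n
    obtain ⟨K, hK⟩ := ((hv n).mono hB).exists_lipschitzOnWith_of_compact (isCompact_closedBall p r)
    obtain ⟨g, hg, he⟩ := hK.extend_real
    exact ⟨g, K, hg, he⟩
  choose g K hg he using h1
  have hBU : ball p r ⊆ U := ball_subset_closedBall.trans hB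
  have hfin : volume (ball p r) ≠ ∞ := measure_ball_lt_top.ne
  have hpos : volume (ball p r) ≠ 0 := (measure_ball_pos volume p hr).ne'
  have h2 : ∀ n, ∫⁻ z in ball p r, ‖fderiv ℝ (g n) z‖ₑ ≤ (volume (ball p r) + 1) * 2⁻¹ ^ n := by
    intro n
    have e1 : ((2 : ℝ≥0∞)⁻¹ ^ n) * 2 ^ n = 1 := by
      rw [← mul_pow, ENNReal.inv_mul_cancel (by norm_num) (by norm_num), one_pow]
    calc ∫⁻ z in ball p r, ‖fderiv ℝ (g n) z‖ₑ
        = ∫⁻ z in ball p r, ‖fderiv ℝ (v n) z‖ₑ := by
          refine setLIntegral_congr_fun measurableSet_ball fun z hz => ?_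
          have : v n =ᶠ[𝓝 z] g n := by
            filter_upwards [isOpen_ball.mem_nhds hz] with w hw
            exact he n (ball_subset_closedBall hw)
          simp only [this.fderiv_eq]
      _ ≤ ∫⁻ z in ball p r, (2⁻¹ ^ n + 2 ^ n * ‖fderiv ℝ (v n) z‖ₑ ^ 2) :=
          lintegral_mono fun z => hbp_le_add_sq e1
      _ = 2⁻¹ ^ n * volume (ball p r) + 2 ^ n * ∫⁻ z in ball p r, ‖fderiv ℝ (v n) z‖ₑ ^ 2 := by
          rw [lintegral_add_left measurable_const, lintegral_const_mul' _ _ (by simp),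
            setLIntegral_const]
      _ ≤ 2⁻¹ ^ n * volume (ball p r) + 2 ^ n * (2⁻¹ ^ n) ^ 2 := by
          gcongr
          exact (lintegral_mono_set hBU).trans (hE n)
      _ = (volume (ball p r) + 1) * 2⁻¹ ^ n := by
          rw [sq, ← mul_assoc, mul_comm (2 ^ n), e1]; ring
  have hm : ∀ n, Measurable fun q : ℂ × ℂ => ‖g n q.1 - g n q.2‖ₑ := fun n =>
    (((hg n).continuous.comp continuous_fst).sub
      ((hg n).continuous.comp continuous_snd)).measurable.enorm
  have hm2 : ∀ n, Measurable fun x : ℂ => ∫⁻ y in ball p r, ‖g n x - g n y‖ₑ := fun n =>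
    (hm n).lintegral_prod_right'
  have h3 : ∫⁻ x in ball p r, ∑' n, ∫⁻ y in ball p r, ‖g n x - g n y‖ₑ ≠ ∞ := by
    rw [lintegral_tsum fun n => (hm2 n).aemeasurable]
    refine ne_top_of_le_ne_top ?_ (ENNReal.tsum_le_tsum fun n =>
      (hb_poinc_ball (hg n) p r).trans (mul_le_mul_right (h2 n) _))
    rw [ENNReal.tsum_mul_left, ENNReal.tsum_mul_left, ENNReal.tsum_geometric]
    refine ENNReal.mul_ne_top (ENNReal.mul_ne_top ENNReal.ofReal_ne_top hfin)
      (ENNReal.mul_ne_top (ENNReal.add_ne_top.2 ⟨hfin, ENNReal.one_ne_top⟩) ?_)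
    simp
  have h4 := ae_lt_top' (AEMeasurable.tsum fun n => (hm2 n).aemeasurable) h3
  have h5 := (h4.and (ae_restrict_mem measurableSet_ball))
  have : (ae (volume.restrict (ball p r))).NeBot := by
    rw [ae_neBot, Ne, Measure.restrict_eq_zero]
    exact hpos
  obtain ⟨y, hy, hyB⟩ := h5.exists
  refine ⟨y, ?_⟩
  have hm3 : ∀ n, Measurable fun x : ℂ => ‖g n y - g n x‖ₑ := fun n =>
    (continuous_const.sub (hg n).continuous).measurable.enorm
  rw [← lintegral_tsum fun n => (hm3 n).aemeasurable] at hy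
  have h6 := ae_lt_top' (AEMeasurable.tsum fun n => (hm3 n).aemeasurable) hy.ne
  rw [ae_restrict_iff' measurableSet_ball] at h6
  filter_upwards [h6] with x hx hxB
  have h7 := ENNReal.tendsto_atTop_zero_of_tsum_ne_top (hx hxB).ne
  rw [tendsto_zero_iff_enorm_tendsto_zero]
  refine h7.congr fun n => ?_
  rw [he n (ball_subset_closedBall hxB), he n (ball_subset_closedBall hyB), enorm_sub_rev]

/-- Choose a subsequence with `∑ ‖∇uₙ‖₂ < ∞`.  On a ball `B` with `closedBall ⊆ U` each `uₙ` agrees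
with a globally Lipschitz function (`LocallyLipschitzOn.exists_lipschitzOnWith_of_compact`,
`LipschitzOnWith.extend_real`), so by `hb_poinc_ball` and Cauchy-Schwarz
`∑ₙ ∫∫_{B×B} |uₙ x - uₙ y| < ∞`, hence `x ~ y :⇔ uₙ x - uₙ y → 0` (an equivalence relation) holds for
a.e. `(x, y) ∈ B × B`; so some `y_B` has `x ~ y_B` for a.e. `x ∈ B`.  Fix `y₀ = y_{B₀}`; the set of
`z ∈ U` with `x ~ y₀` for a.e. `x` near `z` is open, closed in `U`, nonempty;
`measure_null_of_locally_null`; `c n = u (φ n) y₀`. -/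
theorem hb_poinc {U : Set ℂ} (hU : IsOpen U) (hc : IsPreconnected U) {u : ℕ → ℂ → ℝ}
    (hu : ∀ n, LocallyLipschitzOn U (u n))
    (hl : Tendsto (fun n => ∫⁻ z in U, ‖fderiv ℝ (u n) z‖ₑ ^ 2) atTop (𝓝 0)) :
    ∃ (φ : ℕ → ℕ) (c : ℕ → ℝ), StrictMono φ ∧
      ∀ᵐ z, z ∈ U → Tendsto (fun n => u (φ n) z - c n) atTop (𝓝 0) := by
  rcases U.eq_empty_or_nonempty with rfl | ⟨z₀, hz₀⟩
  · exact ⟨id, fun _ => 0, strictMono_id, Eventually.of_forall fun z hz => hz.elim⟩
  obtain ⟨φ, hφ, hE⟩ := extraction_forall_of_eventually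
    (P := fun n k => ∫⁻ z in U, ‖fderiv ℝ (u k) z‖ₑ ^ 2 ≤ (2⁻¹ ^ n) ^ 2) fun n =>
      (hl.eventually (gt_mem_nhds (show (0 : ℝ≥0∞) < (2⁻¹ ^ n) ^ 2 by
        refine ENNReal.pow_pos (ENNReal.pow_pos ?_ _) _
        simp))).mono fun k hk => hk.le
  have h1 : ∀ z ∈ U, ∃ (r : ℝ) (y : ℂ), 0 < r ∧ ∀ᵐ x, x ∈ ball z r →
      Tendsto (fun n => u (φ n) x - u (φ n) y) atTop (𝓝 0) := by
    intro z hz
    obtain ⟨r, hr, hB⟩ := nhds_basis_closedBall.mem_iff.1 (hU.mem_nhds hz)
    obtain ⟨y, hy⟩ := hbp_ball (v := fun n => u (φ n)) (fun n => hu (φ n)) hE hr hB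
    exact ⟨r, y, hr, hy⟩
  choose! r Y hr hY using h1
  have htr : ∀ a b e : ℂ, Tendsto (fun n => u (φ n) a - u (φ n) b) atTop (𝓝 0) →
      Tendsto (fun n => u (φ n) b - u (φ n) e) atTop (𝓝 0) →
      Tendsto (fun n => u (φ n) a - u (φ n) e) atTop (𝓝 0) := by
    intro a b e h1 h2
    simpa using h1.add h2
  have hsy : ∀ a b : ℂ, Tendsto (fun n => u (φ n) a - u (φ n) b) atTop (𝓝 0) →
      Tendsto (fun n => u (φ n) b - u (φ n) a) atTop (𝓝 0) := by
    intro a b h1
    simpa using h1.neg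
  have h2 : ∀ z ∈ U, Tendsto (fun n => u (φ n) (Y z) - u (φ n) (Y z₀)) atTop (𝓝 0) := by
    intro z hz
    refine hc.induction₂
      (fun a b => Tendsto (fun n => u (φ n) (Y a) - u (φ n) (Y b)) atTop (𝓝 0)) ?_
      (fun a b e _ _ _ => htr _ _ _) (fun a b _ _ => hsy _ _) hz hz₀
    intro a ha
    filter_upwards [self_mem_nhdsWithin, mem_nhdsWithin_of_mem_nhds (ball_mem_nhds a (hr a ha))]
      with b hb hab
    have hO : IsOpen (ball a (r a) ∩ ball b (r b)) := isOpen_ball.inter isOpen_ball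
    have hne : (ball a (r a) ∩ ball b (r b)).Nonempty := ⟨b, hab, mem_ball_self (hr b hb)⟩
    obtain ⟨x, hx, hxa, hxb⟩ := Measure.exists_mem_of_measure_ne_zero_of_ae
      (hO.measure_ne_zero volume hne) (ae_restrict_of_ae ((hY a ha).and (hY b hb)))
    exact htr _ _ _ (hsy _ _ (hxa hx.1)) (hxb hx.2)
  refine ⟨φ, fun n => u (φ n) (Y z₀), hφ, ?_⟩
  rw [ae_iff]
  refine measure_null_of_locally_null _ fun z hz => ?_
  have hzU : z ∈ U := by
    by_contra h
    exact hz fun h' => absurd h' h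
  refine ⟨_, inter_mem self_mem_nhdsWithin
    (mem_nhdsWithin_of_mem_nhds (ball_mem_nhds z (hr z hzU))), ?_⟩
  refine measure_mono_null ?_ (ae_iff.1 (hY z hzU))
  rintro x ⟨hx, hxB⟩ h
  exact hx fun _ => htr _ _ _ (h hxB) (h2 z hzU)

end Crest.Agent.R105
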