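import Crest.Agent.R105.EDefs
import Crest.Agent.R105.HPoinc

/-! Row 105, block END: toolkit (closure properties of `T`, discs, cut-offs). -/

set_option autoImplicit false

open MeasureTheory Set Filter Topology
open scoped ENNReal

namespace Crest.Agent.R105.End

variable {U : Set ℂ} {Λ : Lumps U} {M : Set (ℂ → ℝ)}

/-! ### admissible weights -/

/-- `CH` with `G s t = s + t` -/
theorem adm_add (hc : Ctx Λ M) {u v : ℂ → ℝ} {e e' : Λ.E → ℝ} (hu : XX U u) (hv : XX U v)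
    (h : Adm Λ M ∅ u e) (h' : Adm Λ M ∅ v e') :
    Adm Λ M ∅ (fun z => u z + v z) (fun q => e q + e' q) := by
  have := hc.ch ∅ u v e e' (fun s t => s + t) 1 1 0 hu hv h h' zero_le_one zero_le_one le_rfl
    (fun s t s' t' => by
      rw [one_mul, one_mul, show s + t - (s' + t') = (s - s') + (t - t') by ring]
      exact abs_add_le _ _) (Or.inl rfl)
  simpa using this

/-- `CH.lip` -/
theorem adm_smul (hc : Ctx Λ M) {u : ℂ → ℝ} {e : Λ.E → ℝ} (a : ℝ) (hu : XX U u)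
    (h : Adm Λ M ∅ u e) : Adm Λ M ∅ (fun z => a * u z) (fun q => |a| * e q) := by
  exact hc.ch.lip hu h (T := fun s => a * s) (abs_nonneg a)
    fun s s' => by rw [← mul_sub, abs_mul]

theorem h2_val_bdd (Λ : Lumps U) {χ : ℂ → ℝ} (hχ : A0 U χ) : ∃ B, ∀ q, |Λ.val χ q| ≤ B := by
  obtain ⟨B, hB⟩ := hχ.bdd Λ
  obtain ⟨N, hN⟩ := hχ.eq_val Λ
  refine ⟨B, fun q => ?_⟩
  obtain ⟨z, hz⟩ := (Λ.conn N q).nonempty
  rw [← hN N le_rfl q z hz]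
  exact hB z (Λ.sub N q hz).1

/-- from the definition with the test cut-off `χ * χ'` (`A0.mul`); the weight is square summable
since `val χ` is bounded (`A0.bdd`, `A0.eq_val`) -/
theorem adm_mul_A0 (hc : Ctx Λ M) {u χ : ℂ → ℝ} {e : Λ.E → ℝ} (hχ : A0 U χ)
    (h : Adm Λ M ∅ u e) : Adm Λ M ∅ (fun z => u z * χ z) (fun q => |Λ.val χ q| * e q) := by
  obtain ⟨B, hB⟩ := h2_val_bdd Λ hχ
  refine ⟨((h.l2.smul (abs_nonneg B)).1.of_le
    (fun q => mul_nonneg (abs_nonneg _) (h.l2.1 q)) fun q =>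
      mul_le_mul_of_nonneg_right ((hB q).trans (le_abs_self B)) (h.l2.1 q)).1,
    fun r hr H hH ψ hψ _ => ?_⟩
  obtain ⟨h1, h2⟩ := hχ.mul hc.op Λ hψ
  have := h.le r hr H hH _ h1 (by simp)
  simp only [mul_assoc]
  refine this.trans (le_of_eq (tsum_congr fun q => ?_))
  simp only [wt, h2, abs_mul]
  ring

/-- `om_skew`, `om_A0`, `A0.mul` -/
theorem adm_A0 (hc : Ctx Λ M) {χ : ℂ → ℝ} (hχ : A0 U χ) : Adm Λ M ∅ χ (fun _ => 0) := by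
  refine ⟨⟨fun _ => le_rfl, by simpa using summable_zero⟩, fun r hr H hH ψ hψ _ => ?_⟩
  have hr' := hc.fam.reg r hr
  rw [om_skew, om_A0 hc.op (XX.comp_C1 hc.op hH hr'.xx hr'.bdd).lip (hχ.mul hc.op Λ hψ).1]
  simp

theorem adm_congr (hc : Ctx Λ M) {u v : ℂ → ℝ} {e : Λ.E → ℝ} (huv : EqOn u v U)
    (h : Adm Λ M ∅ u e) : Adm Λ M ∅ v e := by
  refine ⟨h.l2, fun r hr H hH ψ hψ h0 => ?_⟩
  rw [← om_congr hc.op (u := fun z => u z * ψ z) (fun z hz => by simp only [huv hz])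
    (fun _ _ => rfl)]
  exact h.le r hr H hH ψ hψ h0

/-- `om_vanish` for `(u' - u) χ` -/
theorem adm_vanish (hc : Ctx Λ M) {u u' : ℂ → ℝ} {e : Λ.E → ℝ} (hu : XX U u) (hu' : XX U u')
    (hv : ∀ q, ∀ η > 0, ∃ n, ∀ z ∈ Λ.W n q, |u' z - u z| ≤ η) (h : Adm Λ M ∅ u e) :
    Adm Λ M ∅ u' e := by
  refine ⟨h.l2, fun r hr H hH ψ hψ h0 => ?_⟩
  have hr' := hc.fam.reg r hr
  have hx := XX.comp_C1 hc.op hH hr'.xx hr'.bdd
  have h1 := (hu'.sub hc.op hu).mul_A0 hc.op Λ hψ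
  obtain ⟨B, hB⟩ := hψ.bdd Λ
  have h2 : om U (fun z => (u' z - u z) * ψ z) (fun z => H (r z)) = 0 := by
    refine om_vanish hc.op Λ h1 hx fun q η hη => ?_
    obtain ⟨n, hn⟩ := hv q (η / (|B| + 1)) (by positivity)
    refine ⟨n, fun z hz => ?_⟩
    have h3 := (hB z (Λ.sub n q hz).1).trans (le_abs_self B)
    have h4 := hn z hz
    rw [le_div_iff₀ (by positivity)] at h4
    rw [abs_mul]
    exact (mul_le_mul_of_nonneg_left (by linarith) (abs_nonneg _)).trans h4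
  have h3 := om_add_left hc.op h1 (hu.mul_A0 hc.op Λ hψ) hx
  rw [h2, zero_add] at h3
  have e : (fun z => u' z * ψ z) = fun z => (u' z - u z) * ψ z + u z * ψ z := by
    funext z; ring
  rw [e, h3]
  exact h.le r hr H hH ψ hψ h0

/-- mean value inequality, `‖⟨s,t⟩ - ⟨s',t'⟩‖ ≤ |s - s'| + |t - t'|` -/
theorem lip_of_fderiv {Ψ : ℂ → ℝ} (hΨ : ContDiff ℝ 1 Ψ) {L : ℝ} (hL : ∀ y, ‖fderiv ℝ Ψ y‖ ≤ L) :
    (∀ y y', |Ψ y - Ψ y'| ≤ L * ‖y - y'‖) ∧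
      ∀ s t s' t' : ℝ, |Ψ ⟨s, t⟩ - Ψ ⟨s', t'⟩| ≤ L * |s - s'| + L * |t - t'| := by
  have hL0 : 0 ≤ L := (norm_nonneg _).trans (hL 0)
  have h1 : ∀ y y', |Ψ y - Ψ y'| ≤ L * ‖y - y'‖ := fun y y' => by
    have := convex_univ.norm_image_sub_le_of_norm_fderiv_le (𝕜 := ℝ) (f := Ψ) (C := L)
      (fun x _ => (hΨ.differentiable one_ne_zero) x) (fun x _ => hL x) (mem_univ y') (mem_univ y)
    rwa [Real.norm_eq_abs] at this
  refine ⟨h1, fun s t s' t' => (h1 _ _).trans ?_⟩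
  have h2 := Complex.norm_le_abs_re_add_abs_im ((⟨s, t⟩ : ℂ) - ⟨s', t'⟩)
  simp only [Complex.sub_re, Complex.sub_im] at h2
  have h3 := mul_le_mul_of_nonneg_left h2 hL0
  linarith

theorem xx_cp (hU : IsOpen U) {Ψ a b : ℂ → ℝ} (hΨ : LC1 Ψ) (ha : XX U a) (hb : XX U b) :
    XX U (cp Ψ a b) := by
  obtain ⟨L, hL⟩ := hΨ.lip
  exact XX.comp2 hU (G := fun s t => Ψ ⟨s, t⟩) (lip_of_fderiv hΨ.sm hL).2 ha hb

theorem LC1.of_cpt {Ψ : ℂ → ℝ} (h : ContDiff ℝ 1 Ψ) (hs : HasCompactSupport Ψ) : LC1 Ψ := by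
  refine ⟨h, ?_, ?_⟩
  · obtain ⟨B, hB⟩ := h.continuous.bounded_above_of_compact_support hs
    exact ⟨B, fun y => by simpa only [Real.norm_eq_abs] using hB y⟩
  · exact (h.continuous_fderiv one_ne_zero).bounded_above_of_compact_support (hs.fderiv ℝ)

theorem LC1.dv_meas {Ψ₁ Ψ₂ : ℂ → ℝ} (h₁ : LC1 Ψ₁) (h₂ : LC1 Ψ₂) :
    Continuous (dv Ψ₁ Ψ₂) ∧ ∃ C : ℝ, ∀ y, |dv Ψ₁ Ψ₂ y| ≤ C := by
  have c₁ := h₁.sm.continuous_fderiv one_ne_zero
  have c₂ := h₂.sm.continuous_fderiv one_ne_zero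
  refine ⟨(c₁.clm_apply continuous_const).add (c₂.clm_apply continuous_const), ?_⟩
  obtain ⟨L₁, hL₁⟩ := h₁.lip
  obtain ⟨L₂, hL₂⟩ := h₂.lip
  refine ⟨L₁ + L₂, fun y => ?_⟩
  have a₁ := (fderiv ℝ Ψ₁ y).le_opNorm 1
  have a₂ := (fderiv ℝ Ψ₂ y).le_opNorm Complex.I
  rw [norm_one, mul_one, Real.norm_eq_abs] at a₁
  rw [Complex.norm_I, mul_one, Real.norm_eq_abs] at a₂
  have a₃ := abs_add_le (fderiv ℝ Ψ₁ y 1) (fderiv ℝ Ψ₂ y Complex.I)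
  unfold dv
  linarith [hL₁ y, hL₂ y]

/-! ### bounded and regular elements -/

theorem BT.tt {u : ℂ → ℝ} {n : Λ.E → ℝ} (h : BT Λ M u n) : TT Λ M u := ⟨h.xx, n, h.adm⟩

theorem h70_bdd_add {u v : ℂ → ℝ} (hu : Bdd U u) (hv : Bdd U v) :
    Bdd U (fun z => u z + v z) := by
  obtain ⟨A, hA⟩ := hu
  obtain ⟨B, hB⟩ := hv
  exact ⟨A + B, fun z hz => (abs_add_le _ _).trans (add_le_add (hA z hz) (hB z hz))⟩

theorem h70_bdd_mul {u v : ℂ → ℝ} (hu : Bdd U u) (hv : Bdd U v) :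
    Bdd U (fun z => u z * v z) := by
  obtain ⟨A, hA⟩ := hu
  obtain ⟨B, hB⟩ := hv
  refine ⟨A * B, fun z hz => ?_⟩
  rw [abs_mul]
  exact mul_le_mul (hA z hz) (hB z hz) (abs_nonneg _) ((abs_nonneg _).trans (hA z hz))

theorem h70_clamp_mul {C : ℝ} (hC : 0 ≤ C) (s t s' t' : ℝ) :
    |max (-C) (min s C) * max (-C) (min t C) - max (-C) (min s' C) * max (-C) (min t' C)| ≤
      C * |s - s'| + C * |t - t'| := by
  have h1 := h18_clamp C s s'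
  have h2 := h18_clamp C t t'
  have h3 : |max (-C) (min t C)| ≤ C := abs_le.2 (h18_clamp_mem hC t)
  have h4 : |max (-C) (min s' C)| ≤ C := abs_le.2 (h18_clamp_mem hC s')
  set a := max (-C) (min s C)
  set a' := max (-C) (min s' C)
  set b := max (-C) (min t C)
  set b' := max (-C) (min t' C)
  have e : a * b - a' * b' = b * (a - a') + a' * (b - b') := by ring
  rw [e]
  refine (abs_add_le _ _).trans (add_le_add ?_ ?_)
  · rw [abs_mul]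
    exact mul_le_mul h3 h1 (abs_nonneg _) hC
  · rw [abs_mul]
    exact mul_le_mul h4 h2 (abs_nonneg _) hC

theorem bt_add (hc : Ctx Λ M) {u v : ℂ → ℝ} {e e' : Λ.E → ℝ} (h : BT Λ M u e)
    (h' : BT Λ M v e') : BT Λ M (fun z => u z + v z) (fun q => e q + e' q) := by
  exact ⟨XX.add hc.op h.xx h'.xx, h70_bdd_add h.bdd h'.bdd, adm_add hc h.xx h'.xx h.adm h'.adm⟩

theorem bt_smul (hc : Ctx Λ M) {u : ℂ → ℝ} {e : Λ.E → ℝ} (a : ℝ) (h : BT Λ M u e) :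
    BT Λ M (fun z => a * u z) (fun q => |a| * e q) := by
  exact ⟨XX.smul a h.xx, h70_bdd_mul (u := fun _ => a) ⟨|a|, fun _ _ => le_rfl⟩ h.bdd,
    adm_smul hc a h.xx h.adm⟩

theorem bt_sub (hc : Ctx Λ M) {u v : ℂ → ℝ} {e e' : Λ.E → ℝ} (h : BT Λ M u e)
    (h' : BT Λ M v e') : BT Λ M (fun z => u z - v z) (fun q => e q + e' q) := by
  have := bt_add hc h (bt_smul hc (-1) h')
  simpa [sub_eq_add_neg] using this

theorem bt_A0 (hc : Ctx Λ M) {χ : ℂ → ℝ} (hχ : A0 U χ) : BT Λ M χ (fun _ => 0) := by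
  exact ⟨hχ.xx, A0.bdd Λ hχ, adm_A0 hc hχ⟩

theorem bt_mul_A0 (hc : Ctx Λ M) {u χ : ℂ → ℝ} {e : Λ.E → ℝ} (h : BT Λ M u e) (hχ : A0 U χ) :
    BT Λ M (fun z => u z * χ z) (fun q => |Λ.val χ q| * e q) := by
  exact ⟨XX.mul_A0 hc.op Λ h.xx hχ, h70_bdd_mul h.bdd (A0.bdd Λ hχ), adm_mul_A0 hc hχ h.adm⟩

/-- `CH` with `G s t = Ψ ⟨s,t⟩`; the inner functions need not be bounded -/
theorem bt_cp (hc : Ctx Λ M) {Ψ a b : ℂ → ℝ} {e e' : Λ.E → ℝ} (hΨ : LC1 Ψ) {L : ℝ}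
    (hL : ∀ y, ‖fderiv ℝ Ψ y‖ ≤ L) (ha : XX U a) (hb : XX U b) (h : Adm Λ M ∅ a e)
    (h' : Adm Λ M ∅ b e') : BT Λ M (cp Ψ a b) (fun q => L * (e q + e' q)) := by
  have hL0 : 0 ≤ L := (norm_nonneg _).trans (hL 0)
  refine ⟨xx_cp hc.op hΨ ha hb, ?_, ?_⟩
  · obtain ⟨B, hB⟩ := hΨ.bd
    exact ⟨B, fun z _ => hB _⟩
  · have := hc.ch ∅ a b e e' (fun s t => Ψ ⟨s, t⟩) L L 0 ha hb h h' hL0 hL0 le_rfl
      (lip_of_fderiv hΨ.sm hL).2 (Or.inl rfl)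
    simp only [Finset.notMem_empty, if_false, ← mul_add] at this
    exact this

/-- `CH` with `G s t = clamp s * clamp t`, `adm_congr` -/
theorem bt_mul (hc : Ctx Λ M) {u v : ℂ → ℝ} {e e' : Λ.E → ℝ} (h : BT Λ M u e)
    (h' : BT Λ M v e') : ∃ C : ℝ, 0 ≤ C ∧
      BT Λ M (fun z => u z * v z) (fun q => C * (e q + e' q)) := by
  classical
  obtain ⟨A, hA⟩ := h.bdd
  obtain ⟨B, hB⟩ := h'.bdd
  have hC : (0 : ℝ) ≤ max 0 (max A B) := le_max_left _ _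
  set C : ℝ := max 0 (max A B) with hCdef
  have hAC : A ≤ C := (le_max_left _ _).trans (le_max_right _ _)
  have hBC : B ≤ C := (le_max_right _ _).trans (le_max_right _ _)
  refine ⟨C, hC, XX.mul hc.op h.xx h'.xx h.bdd h'.bdd, h70_bdd_mul h.bdd h'.bdd, ?_⟩
  have key := hc.ch ∅ u v e e' (fun s t => max (-C) (min s C) * max (-C) (min t C)) C C 0
    h.xx h'.xx h.adm h'.adm hC hC le_rfl (h70_clamp_mul hC) (Or.inl rfl)
  have e1 : (fun q : Λ.E => C * (e q + e' q)) = fun q => C * e q + C * e' q := by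
    funext q; ring
  rw [e1]
  refine adm_congr hc (u := fun z => max (-C) (min (u z) C) * max (-C) (min (v z) C)) ?_ ?_
  · intro z hz
    show max (-C) (min (u z) C) * max (-C) (min (v z) C) = u z * v z
    rw [h18_clamp_eq ((hA z hz).trans hAC), h18_clamp_eq ((hB z hz).trans hBC)]
  · simpa using key

/-- `Adm.osc` -/
theorem RT.bt (hc : Ctx Λ M) {u : ℂ → ℝ} (h : RT Λ M u) : BT Λ M u (Λ.osc u) := by
  exact ⟨h.reg.xx, h.reg.bdd, Adm.osc hc.op hc.fam.reg hc.ch h.reg h.tt⟩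

private theorem h1_rt {u : ℂ → ℝ} {n : Λ.E → ℝ} (h : BT Λ M u n) (hn : ∀ q, Λ.osc u q ≤ n q) :
    RT Λ M u :=
  ⟨⟨h.xx, h.bdd, (L2w.of_le h.adm.l2 (Λ.osc_nonneg h.bdd) hn).1.2⟩, h.tt⟩

private theorem h1_osc_smul {u : ℂ → ℝ} (hu : Bdd U u) (a : ℝ) (q : Λ.E) :
    Λ.osc (fun z => a * u z) q ≤ |a| * Λ.osc u q := by
  have h := Λ.osc_comp2_le hu hu (G := fun s _ => a * s) (L₁ := |a|) (L₂ := 0) (abs_nonneg a)
    le_rfl (fun s t s' t' => by rw [← mul_sub, abs_mul, zero_mul, add_zero]) q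
  rwa [zero_mul, add_zero] at h

private theorem h1_osc_congr {u v : ℂ → ℝ} (hu : Bdd U u) (hv : Bdd U v) {q : Λ.E}
    (h : ∀ η > 0, ∃ n, ∀ z ∈ Λ.W n q, |u z - v z| ≤ η) : Λ.osc u q = Λ.osc v q := by
  obtain ⟨h1, h2⟩ := Λ.lo_congr hu hv h
  rw [Lumps.osc, Lumps.osc, h1, h2]

/-- `Lumps.osc_comp2_le` with `G s t = s + t` -/
theorem rt_add (hc : Ctx Λ M) {u v : ℂ → ℝ} (h : RT Λ M u) (h' : RT Λ M v) :
    RT Λ M (fun z => u z + v z) := by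
  refine h1_rt (bt_add hc (h.bt hc) (h'.bt hc)) fun q => ?_
  have h1 := Λ.osc_comp2_le h.reg.bdd h'.reg.bdd (G := fun s t => s + t) (L₁ := 1) (L₂ := 1)
    zero_le_one zero_le_one (fun s t s' t' => by
      rw [one_mul, one_mul, add_sub_add_comm]; exact abs_add_le _ _) q
  rwa [one_mul, one_mul] at h1

theorem rt_smul (hc : Ctx Λ M) {u : ℂ → ℝ} (a : ℝ) (h : RT Λ M u) :
    RT Λ M (fun z => a * u z) := by
  exact h1_rt (bt_smul hc a (h.bt hc)) (h1_osc_smul h.reg.bdd a)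

/-- `val_eq`: the oscillation vanishes -/
theorem rt_A0 (hc : Ctx Λ M) {χ : ℂ → ℝ} (hχ : A0 U χ) :
    RT Λ M χ ∧ ∀ q, Λ.osc χ q = 0 := by
  have h : ∀ q, Λ.osc χ q = 0 := fun q => by
    obtain ⟨N, hN⟩ := hχ.eq_val Λ
    exact sub_eq_zero.2 (val_eq Λ (hχ.bdd Λ) (hN N le_rfl q)).2
  exact ⟨h1_rt (bt_A0 hc hχ) fun q => (h q).le, h⟩

/-- on deep lumps `u χ = val χ q * u` (`A0.eq_val`, `Lumps.lo_congr`, `osc_comp2_le`) -/
theorem rt_mul_A0 (hc : Ctx Λ M) {u χ : ℂ → ℝ} (h : RT Λ M u) (hχ : A0 U χ) :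
    RT Λ M (fun z => u z * χ z) ∧
      ∀ q, Λ.osc (fun z => u z * χ z) q ≤ |Λ.val χ q| * Λ.osc u q := by
  have hb := bt_mul_A0 hc (h.bt hc) hχ
  have h1 : ∀ q, Λ.osc (fun z => u z * χ z) q ≤ |Λ.val χ q| * Λ.osc u q := fun q => by
    obtain ⟨N, hN⟩ := hχ.eq_val Λ
    rw [h1_osc_congr hb.bdd (bt_smul hc (Λ.val χ q) (h.bt hc)).bdd fun η hη =>
      ⟨N, fun z hz => by rw [hN N le_rfl q z hz, mul_comm, sub_self, abs_zero]; exact hη.le⟩]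
    exact h1_osc_smul h.reg.bdd _ q
  exact ⟨h1_rt hb h1, h1⟩

theorem rt_cp (hc : Ctx Λ M) {Ψ a b : ℂ → ℝ} (hΨ : LC1 Ψ) (ha : RT Λ M a) (hb : RT Λ M b) :
    RT Λ M (cp Ψ a b) := by
  obtain ⟨L, hL⟩ := hΨ.lip
  have hL0 : 0 ≤ L := (norm_nonneg _).trans (hL 0)
  obtain ⟨e, he⟩ := ha.tt.2
  obtain ⟨e', he'⟩ := hb.tt.2
  have hbt := bt_cp hc hΨ hL ha.reg.xx hb.reg.xx he he'
  refine ⟨⟨hbt.xx, hbt.bdd, ?_⟩, hbt.tt⟩
  have l1 : L2w (Λ.osc a) := ⟨Λ.osc_nonneg ha.reg.bdd, ha.reg.sq⟩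
  have l2 : L2w (Λ.osc b) := ⟨Λ.osc_nonneg hb.reg.bdd, hb.reg.sq⟩
  exact (L2w.of_le ((l1.smul hL0).1.add (l2.smul hL0).1).1 (Λ.osc_nonneg hbt.bdd) fun q =>
    Λ.osc_comp2_le ha.reg.bdd hb.reg.bdd (G := fun s t => Ψ ⟨s, t⟩) hL0 hL0
      (lip_of_fderiv hΨ.sm hL).2 q).1.2

/-- one-variable Lipschitz composition -/
theorem rt_lip (hc : Ctx Λ M) {u : ℂ → ℝ} {T : ℝ → ℝ} {L : ℝ} (hL : 0 ≤ L)
    (hT : ∀ s s', |T s - T s'| ≤ L * |s - s'|) (h : RT Λ M u) : RT Λ M (fun z => T (u z)) := by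
  obtain ⟨e, he⟩ := h.tt.2
  have hx : XX U (fun z => T (u z)) := XX.comp_lip hc.op hT h.reg.xx
  have hb : Bdd U (fun z => T (u z)) := by
    obtain ⟨B, hB⟩ := h.reg.bdd
    refine ⟨|T 0| + L * B, fun z hz => ?_⟩
    have h1 := hT (u z) 0
    rw [sub_zero] at h1
    have h2 := abs_sub_abs_le_abs_sub (T (u z)) (T 0)
    have h3 := mul_le_mul_of_nonneg_left (hB z hz) hL
    linarith
  refine ⟨⟨hx, hb, ?_⟩, hx, _, hc.ch.lip h.reg.xx he hL hT⟩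
  have l1 : L2w (Λ.osc u) := ⟨Λ.osc_nonneg h.reg.bdd, h.reg.sq⟩
  refine (L2w.of_le (l1.smul hL).1 (Λ.osc_nonneg hb) fun q => ?_).1.2
  have := Λ.osc_comp2_le h.reg.bdd h.reg.bdd (G := fun s _ => T s) hL le_rfl
    (fun s t s' t' => by simpa using hT s s') q
  simpa using this

/-- generators: `H ∘ r = T ∘ r` on `U` with `T = H ∘ clamp` Lipschitz; `osc_comp_C1_le` -/
theorem rt_gen (hc : Ctx Λ M) {r χ : ℂ → ℝ} (hr : r ∈ M) {H : ℝ → ℝ} (hH : ContDiff ℝ 1 H)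
    (hχ : A0 U χ) : RT Λ M (fun z => H (r z) * χ z) ∧
      ∀ q, Λ.osc (fun z => H (r z) * χ z) q ≤ wt Λ r H χ q := by
  have hreg := hc.fam.reg r hr
  have hrt : RT Λ M r := ⟨hreg, hreg.xx, _, hc.fam.compat r hr⟩
  obtain ⟨B, hB⟩ := hreg.bdd
  obtain ⟨K, hK⟩ := (hH.contDiffOn (s := Icc (-|B|) |B|)).exists_lipschitzOnWith one_ne_zero
    (convex_Icc _ _) isCompact_Icc
  have h1 := rt_lip hc (T := fun s => H (max (-|B|) (min s |B|))) (L := K) K.2 (fun s s' => by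
    have := hK.dist_le_mul _ (h18_clamp_mem (abs_nonneg B) s) _ (h18_clamp_mem (abs_nonneg B) s')
    rw [Real.dist_eq, Real.dist_eq] at this
    exact this.trans (mul_le_mul_of_nonneg_left (h18_clamp _ s s') K.2)) hrt
  have he : EqOn (fun z => H (max (-|B|) (min (r z) |B|))) (fun z => H (r z)) U := fun z hz => by
    simp only [h18_clamp_eq ((hB z hz).trans (le_abs_self B))]
  have hb : Bdd U fun z => H (r z) := h1.reg.bdd.imp fun C hC z hz => by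
    rw [← he hz]
    exact hC z hz
  have h2 : RT Λ M fun z => H (r z) :=
    h1_rt ⟨hreg.xx.comp_C1 hc.op hH hreg.bdd, hb, adm_congr hc he (h1.bt hc).adm⟩ fun q =>
      (h1_osc_congr hb h1.reg.bdd fun η hη => ⟨0, fun z hz => by
        rw [show H (max (-|B|) (min (r z) |B|)) = H (r z) from he (Λ.sub 0 q hz).1, sub_self,
          abs_zero]
        exact hη.le⟩).le
  obtain ⟨h3, h4⟩ := rt_mul_A0 hc h2 hχ
  exact ⟨h3, fun q => (h4 q).trans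
    (mul_le_mul_of_nonneg_left (Λ.osc_comp_C1_le hreg.bdd hH q) (abs_nonneg _))⟩

/-- `exists_smooth`, `adm_vanish`, `Lumps.lo_congr` -/
theorem rt_smooth (hc : Ctx Λ M) {u : ℂ → ℝ} (h : RT Λ M u) {ε : ℝ} (hε : 0 < ε) :
    ∃ u', RT Λ M u' ∧ ContDiffOn ℝ (⊤ : ℕ∞) u' U ∧
      En U (fun z => u' z - u z) ≤ ENNReal.ofReal ε ∧
      ∀ q, ∀ η > 0, ∃ n, ∀ z ∈ Λ.W n q, |u' z - u z| ≤ η := by
  obtain ⟨u', h1, h2, h3, h4, h5⟩ := exists_smooth hc.op Λ h.reg.xx hε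
  have hb : Bdd U u' := by
    obtain ⟨B, hB⟩ := h.reg.bdd
    refine ⟨B + ε, fun z hz => ?_⟩
    have a1 := abs_le.1 (hB z hz)
    have a2 := abs_le.1 (h3 z hz)
    exact abs_le.2 ⟨by linarith [a1.1, a2.1], by linarith [a1.2, a2.2]⟩
  exact ⟨u', h1_rt ⟨h1, hb, adm_vanish hc h.reg.xx h1 h5 (h.bt hc).adm⟩
    fun q => (h1_osc_congr hb h.reg.bdd (h5 q)).le, h2, h4, h5⟩

/-! ### discs containing cluster sets -/

/-- `Lumps.near` -/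
theorem inBall_osc {a b : ℂ → ℝ} (ha : Bdd U a) (hb : Bdd U b) (q : Λ.E) :
    InBall Λ a b q ⟨Λ.lo a q, Λ.lo b q⟩ (Λ.osc a q + Λ.osc b q) := by
  intro η hη
  obtain ⟨n, hn⟩ := Λ.near ha q (half_pos hη)
  obtain ⟨m, hm⟩ := Λ.near hb q (half_pos hη)
  refine ⟨max n m, fun z hz => ?_⟩
  have h1 := hn z (Λ.W_mono (le_max_left _ _) q hz)
  have h2 := hm z (Λ.W_mono (le_max_right _ _) q hz)
  have h3 := Λ.lo_le_hi ha q
  have h4 := Λ.lo_le_hi hb q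
  refine (Complex.norm_le_abs_re_add_abs_im _).trans ?_
  have h5 : |a z - Λ.lo a q| ≤ Λ.osc a q + η / 2 := by
    unfold Lumps.osc; rw [abs_le]; constructor <;> linarith [h1.1, h1.2]
  have h6 : |b z - Λ.lo b q| ≤ Λ.osc b q + η / 2 := by
    unfold Lumps.osc; rw [abs_le]; constructor <;> linarith [h2.1, h2.2]
  simp only [Complex.sub_re, Complex.sub_im]
  linarith

theorem inBall_mono {a b : ℂ → ℝ} {q : Λ.E} {c : ℂ} {r r' : ℝ} (h : InBall Λ a b q c r)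
    (hr : r ≤ r') : InBall Λ a b q c r' := by
  intro η hη
  obtain ⟨n, hn⟩ := h η hη
  exact ⟨n, fun z hz => (hn z hz).trans (by linarith)⟩

theorem inBall_nonneg {a b : ℂ → ℝ} {q : Λ.E} {c : ℂ} {r : ℝ} (h : InBall Λ a b q c r) :
    0 ≤ r := by
  refine le_of_forall_pos_le_add fun η hη => ?_
  obtain ⟨n, hn⟩ := h η hη
  obtain ⟨z, hz⟩ := (Λ.conn n q).nonempty
  exact (norm_nonneg _).trans (hn z hz)

theorem inBall_add {a b a' b' : ℂ → ℝ} {q : Λ.E} {c c' : ℂ} {r r' : ℝ} (h : InBall Λ a b q c r)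
    (h' : InBall Λ a' b' q c' r') :
    InBall Λ (fun z => a z + a' z) (fun z => b z + b' z) q (c + c') (r + r') := by
  intro η hη
  obtain ⟨n, hn⟩ := h _ (half_pos hη)
  obtain ⟨m, hm⟩ := h' _ (half_pos hη)
  refine ⟨max n m, fun z hz => ?_⟩
  have h1 := hn z (Λ.W_mono (le_max_left _ _) q hz)
  have h2 := hm z (Λ.W_mono (le_max_right _ _) q hz)
  have e : (⟨a z + a' z, b z + b' z⟩ : ℂ) - (c + c') =
      ((⟨a z, b z⟩ : ℂ) - c) + ((⟨a' z, b' z⟩ : ℂ) - c') := by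
    apply Complex.ext <;> simp <;> ring
  rw [e]
  linarith [norm_add_le ((⟨a z, b z⟩ : ℂ) - c) ((⟨a' z, b' z⟩ : ℂ) - c')]

theorem inBall_smul {a b : ℂ → ℝ} {q : Λ.E} {c : ℂ} {r : ℝ} (t : ℝ) (h : InBall Λ a b q c r) :
    InBall Λ (fun z => t * a z) (fun z => t * b z) q ((t : ℂ) * c) (|t| * r) := by
  intro η hη
  have ht : 0 < |t| + 1 := by positivity
  obtain ⟨n, hn⟩ := h (η / (|t| + 1)) (by positivity)
  refine ⟨n, fun z hz => ?_⟩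
  have e : (⟨t * a z, t * b z⟩ : ℂ) - (t : ℂ) * c = (t : ℂ) * ((⟨a z, b z⟩ : ℂ) - c) := by
    apply Complex.ext <;> simp <;> ring
  rw [e, norm_mul, Complex.norm_real, Real.norm_eq_abs]
  have h1 := mul_le_mul_of_nonneg_left (hn z hz) (abs_nonneg t)
  have h2 : |t| * (η / (|t| + 1)) ≤ η := by
    rw [← mul_div_assoc, div_le_iff₀ ht]; nlinarith
  linarith

theorem inBall_near {a b a' b' : ℂ → ℝ} {q : Λ.E} {c : ℂ} {r : ℝ} (h : InBall Λ a b q c r)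
    (ha : ∀ η > 0, ∃ n, ∀ z ∈ Λ.W n q, |a' z - a z| ≤ η)
    (hb : ∀ η > 0, ∃ n, ∀ z ∈ Λ.W n q, |b' z - b z| ≤ η) : InBall Λ a' b' q c r := by
  intro η hη
  obtain ⟨n, hn⟩ := h (η / 3) (by positivity)
  obtain ⟨m, hm⟩ := ha (η / 3) (by positivity)
  obtain ⟨k, hk⟩ := hb (η / 3) (by positivity)
  refine ⟨max n (max m k), fun z hz => ?_⟩
  have h1 := hn z (Λ.W_mono (le_max_left _ _) q hz)
  have h2 := hm z (Λ.W_mono ((le_max_left _ _).trans (le_max_right _ _)) q hz)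
  have h3 := hk z (Λ.W_mono ((le_max_right _ _).trans (le_max_right _ _)) q hz)
  have e : (⟨a' z, b' z⟩ : ℂ) - c =
      ((⟨a z, b z⟩ : ℂ) - c) + (⟨a' z - a z, b' z - b z⟩ : ℂ) := by
    apply Complex.ext <;> simp
  have h4 : ‖(⟨a' z - a z, b' z - b z⟩ : ℂ)‖ ≤ |a' z - a z| + |b' z - b z| :=
    Complex.norm_le_abs_re_add_abs_im _
  rw [e]
  linarith [norm_add_le ((⟨a z, b z⟩ : ℂ) - c) (⟨a' z - a z, b' z - b z⟩ : ℂ)]

theorem inBall_mul_A0 {a b χ : ℂ → ℝ} {q : Λ.E} {c : ℂ} {r : ℝ} (h : InBall Λ a b q c r)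
    (hχ : A0 U χ) : InBall Λ (fun z => a z * χ z) (fun z => b z * χ z) q
      ((Λ.val χ q : ℂ) * c) (|Λ.val χ q| * r) := by
  intro η hη
  obtain ⟨n, hn⟩ := h (η / (|Λ.val χ q| + 1)) (by positivity)
  obtain ⟨N, hN⟩ := A0.eq_val Λ hχ
  refine ⟨max n N, fun z hz => ?_⟩
  have h1 := hn z (Λ.W_mono (le_max_left _ _) q hz)
  have e : (⟨a z * χ z, b z * χ z⟩ : ℂ) - (Λ.val χ q : ℂ) * c =
      (Λ.val χ q : ℂ) * ((⟨a z, b z⟩ : ℂ) - c) := by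
    rw [hN _ (le_max_right _ _) q z hz]
    apply Complex.ext <;> simp <;> ring
  have h2 : |Λ.val χ q| * (η / (|Λ.val χ q| + 1)) ≤ η := by
    rw [← mul_div_assoc, div_le_iff₀ (by positivity)]
    nlinarith [abs_nonneg (Λ.val χ q)]
  have h3 := mul_le_mul_of_nonneg_left h1 (abs_nonneg (Λ.val χ q))
  change ‖(⟨a z * χ z, b z * χ z⟩ : ℂ) - (Λ.val χ q : ℂ) * c‖ ≤ _
  rw [e, norm_mul, Complex.norm_real, Real.norm_eq_abs]
  linarith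

theorem inBall_cp {a b Ψ₁ Ψ₂ : ℂ → ℝ} {q : Λ.E} {c : ℂ} {r L : ℝ} (h : InBall Λ a b q c r)
    (h₁ : ContDiff ℝ 1 Ψ₁) (h₂ : ContDiff ℝ 1 Ψ₂) (hL₁ : ∀ y, ‖fderiv ℝ Ψ₁ y‖ ≤ L)
    (hL₂ : ∀ y, ‖fderiv ℝ Ψ₂ y‖ ≤ L) :
    InBall Λ (cp Ψ₁ a b) (cp Ψ₂ a b) q ⟨Ψ₁ c, Ψ₂ c⟩ (2 * L * r) := by
  intro η hη
  have hL : 0 ≤ L := (norm_nonneg _).trans (hL₁ 0)
  obtain ⟨n, hn⟩ := h (η / (2 * L + 1)) (by positivity)
  refine ⟨n, fun z hz => ?_⟩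
  have h1 := mul_le_mul_of_nonneg_left (hn z hz) hL
  have h2 := (lip_of_fderiv h₁ hL₁).1 ⟨a z, b z⟩ c
  have h3 := (lip_of_fderiv h₂ hL₂).1 ⟨a z, b z⟩ c
  have h4 : 2 * L * (η / (2 * L + 1)) ≤ η := by
    rw [← mul_div_assoc, div_le_iff₀ (by positivity)]
    nlinarith
  refine (Complex.norm_le_abs_re_add_abs_im _).trans ?_
  simp only [Complex.sub_re, Complex.sub_im, cp]
  linarith

/-- `Lumps.osc_le` -/
theorem osc_le_of_inBall {a b : ℂ → ℝ} {q : Λ.E} {c : ℂ} {r : ℝ} (h : InBall Λ a b q c r) :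
    (Bdd U a → Λ.osc a q ≤ 2 * r) ∧ (Bdd U b → Λ.osc b q ≤ 2 * r) := by
  constructor
  · intro hb
    refine Λ.osc_le hb fun η hη => ?_
    obtain ⟨n, hn⟩ := h (η / 2) (by positivity)
    refine ⟨n, fun z hz z' hz' => ?_⟩
    have h1 := abs_le.1 ((Complex.abs_re_le_norm _).trans (hn z hz))
    have h2 := abs_le.1 ((Complex.abs_re_le_norm _).trans (hn z' hz'))
    simp only [Complex.sub_re] at h1 h2
    linarith [h1.2, h2.1]
  · intro hb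
    refine Λ.osc_le hb fun η hη => ?_
    obtain ⟨n, hn⟩ := h (η / 2) (by positivity)
    refine ⟨n, fun z hz z' hz' => ?_⟩
    have h1 := abs_le.1 ((Complex.abs_im_le_norm _).trans (hn z hz))
    have h2 := abs_le.1 ((Complex.abs_im_le_norm _).trans (hn z' hz'))
    simp only [Complex.sub_im] at h1 h2
    linarith [h1.2, h2.1]

/-! ### cut-offs and lumps -/

theorem exists_cut (Λ : Lumps U) : ∃ ξ, Cut Λ ξ := by
  let f : ContDiffBump (0 : ℂ) := ⟨|Λ.R| + 1, |Λ.R| + 2, by positivity, by linarith⟩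
  refine ⟨f, f.contDiff, f.hasCompactSupport, fun z hz => f.one_of_mem_closedBall ?_⟩
  rw [mem_closedBall_zero_iff]
  change ‖z‖ ≤ |Λ.R| + 1
  linarith [le_abs_self Λ.R]

theorem Cut.lump {ξ : ℂ → ℝ} (h : Cut Λ ξ) {n : ℕ} {q : Λ.E} {z : ℂ} (hz : z ∈ Λ.W n q) :
    ξ z = 1 := by
  exact h.one z (mem_ball_zero_iff.1 (Λ.sub n q hz).2).le

/-- `A0.of_smooth`: the derivative vanishes on the open disc of radius `Λ.R` -/
theorem Cut.a0 (hU : IsOpen U) {ξ : ℂ → ℝ} (h : Cut Λ ξ) : A0 U ξ ∧ ∀ q, Λ.val ξ q = 1 := by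
  have hA : A0 U ξ := by
    refine A0.of_smooth hU (h.sm.of_le (by simp)) h.cs ?_
    have hc : IsClosed {z : ℂ | Λ.R ≤ ‖z‖} := isClosed_le continuous_const continuous_norm
    refine (closure_minimal (fun z hz => ?_) hc).trans fun z hz => Λ.far z hz
    by_contra hlt
    have hz' : z ∈ Metric.ball (0 : ℂ) Λ.R := mem_ball_zero_iff.2 (not_le.1 hlt)
    have e : ξ =ᶠ[𝓝 z] fun _ => 1 := by
      filter_upwards [Metric.isOpen_ball.mem_nhds hz'] with w hw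
      exact h.one w (mem_ball_zero_iff.1 hw).le
    exact hz (by rw [e.fderiv_eq, fderiv_const_apply])
  exact ⟨hA, fun q => (val_eq Λ (A0.bdd Λ hA) (n := 0) fun z hz => h.lump hz).1⟩

theorem h83_sep (Λ : Lumps U) (Q : Finset Λ.E) : ∃ N, ∀ n ≥ N, ∀ p ∈ Q, ∀ q ∈ Q, p ≠ q →
    Λ.W n p ≠ Λ.W n q := by
  obtain ⟨N, hN⟩ := Λ.exists_reps_of Q
  refine ⟨N, fun n hn p hp q hq hne e => ?_⟩
  obtain ⟨Q', h1, -, h2⟩ := hN n hn
  have h3 := h2 p (h1 hp) q (h1 hq) hne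
  rw [e, disjoint_self] at h3
  exact (Λ.conn n q).nonempty.ne_empty h3

open Classical in
/-- the other ends in a deep lump carry little of a summable weight (finite set carrying all but
`η`, `Lumps.sep`, `W_mono`) -/
theorem tail_lump {f : Λ.E → ℝ} (h0 : ∀ q, 0 ≤ f q) (hf : Summable f) (q : Λ.E) {η : ℝ}
    (hη : 0 < η) : ∃ N, ∀ n ≥ N,
      ∑' q', (if Λ.W n q' = Λ.W n q ∧ q' ≠ q then f q' else 0) ≤ η := by
  obtain ⟨Y, hY⟩ := ((tendsto_tsum_compl_atTop_zero f).eventually (ge_mem_nhds hη)).exists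
  obtain ⟨N, hN⟩ := h83_sep Λ (insert q Y)
  refine ⟨N, fun n hn => le_trans ?_ ((tsum_subtype {q | q ∉ Y} f).symm.trans_le hY)⟩
  have h1 : ∀ q', (if Λ.W n q' = Λ.W n q ∧ q' ≠ q then f q' else 0) ≤
      indicator {q | q ∉ Y} f q' := fun q' => by
    split_ifs with h
    · exact (indicator_of_mem (s := {q | q ∉ Y}) (fun hq => hN n hn q' (Finset.mem_insert_of_mem hq)
        q (Finset.mem_insert_self _ _) h.2 h.1) f).ge
    · exact indicator_nonneg (fun _ _ => h0 _) _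
  have h2 := hf.indicator {q | q ∉ Y}
  exact (h2.of_nonneg_of_le (fun q' => by split_ifs; exacts [h0 _, le_rfl]) h1).tsum_le_tsum h1 h2

/-- finitely many ends lie in different deep lumps -/
theorem sep_lumps (Λ : Lumps U) (Q : Finset Λ.E) : ∃ N, ∀ n ≥ N, ∀ p ∈ Q, ∀ q ∈ Q, p ≠ q →
    Λ.W n p ≠ Λ.W n q := by
  exact h83_sep Λ Q

theorem ind_val {n : ℕ} {q : Λ.E} {χ : ℂ → ℝ} (h : Ind Λ n q χ) :
    Λ.val χ q = 1 ∧ ∀ q', Λ.val χ q' = 0 ∨ Λ.val χ q' = 1 := by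
  refine ⟨by rw [h.2, if_pos rfl], fun q' => ?_⟩
  rw [h.2]
  split_ifs
  exacts [Or.inr rfl, Or.inl rfl]

end Crest.Agent.R105.End
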