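import Crest.Agent.R105.GDefs

/-! Row 105, block GR: the Dirichlet distance, limits of locally finite modifications. -/

set_option autoImplicit false

open MeasureTheory Set Filter Topology
open scoped ENNReal

namespace Crest.Agent.R105

variable {U : Set ℂ}

theorem Cl.refl (u : ℂ → ℝ) (η : ℝ) : Cl U u u η := by
  have e : ‖(0 : ℂ →L[ℝ] ℝ)‖ₑ = 0 := by rw [← ofReal_norm, norm_zero, ENNReal.ofReal_zero]
  simp [Cl, En, e]

theorem Cl.symm {u v : ℂ → ℝ} {η : ℝ} (h : Cl U u v η) : Cl U v u η := by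
  have e : (fun z => v z - u z) = fun z => -(u z - v z) := funext fun z => (neg_sub _ _).symm
  unfold Cl En at *
  rw [e]
  simpa only [fderiv_fun_neg, enorm_neg] using h

theorem Cl.mono {u v : ℂ → ℝ} {a b : ℝ} (h : Cl U u v a) (ha : 0 ≤ a) (hab : a ≤ b) :
    Cl U u v b :=
  le_trans h (ENNReal.ofReal_le_ofReal (pow_le_pow_left₀ ha hab 2))

/-- `En_add_le` -/
theorem Cl.trans (hU : IsOpen U) {u v w : ℂ → ℝ} (hu : XX U u) (hv : XX U v) (hw : XX U w)
    {a b : ℝ} (ha : 0 ≤ a) (hb : 0 ≤ b) (h₁ : Cl U u v a) (h₂ : Cl U v w b) :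
    Cl U u w (a + b) := by
  have e : (fun z => u z - w z) = fun z => (u z - v z) + (v z - w z) :=
    funext fun z => (sub_add_sub_cancel _ _ _).symm
  have k1 := XX.sub hU hu hv
  have k2 := XX.sub hU hv hw
  have h3 := sqrt_En_add_le hU k1 k2
  have h4 : Real.sqrt (En U fun z => u z - v z).toReal ≤ a :=
    Real.sqrt_le_iff.2 ⟨ha, ENNReal.toReal_le_of_le_ofReal (sq_nonneg _) h₁⟩
  have h5 : Real.sqrt (En U fun z => v z - w z).toReal ≤ b :=
    Real.sqrt_le_iff.2 ⟨hb, ENNReal.toReal_le_of_le_ofReal (sq_nonneg _) h₂⟩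
  unfold Cl
  rw [e, ENNReal.le_ofReal_iff_toReal_le (XX.add hU k1 k2).en.ne (sq_nonneg _)]
  exact (Real.sqrt_le_iff.1 (h3.trans (add_le_add h4 h5))).2

theorem Cl.tendsto {u : ℕ → ℂ → ℝ} {v : ℂ → ℝ} {t : ℕ → ℝ} (ht : Tendsto t atTop (𝓝 0))
    (h : ∀ k, Cl U (u k) v (t k)) :
    Tendsto (fun k => En U (fun z => u k z - v z)) atTop (𝓝 0) := by
  have h1 : Tendsto (fun k => ENNReal.ofReal (t k ^ 2)) atTop (𝓝 0) := by
    simpa using ENNReal.tendsto_ofReal (ht.pow 2)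
  exact tendsto_of_tendsto_of_tendsto_of_le_of_le tendsto_const_nhds h1 (fun _ => zero_le) h

theorem Nr.refl (Λ : Lumps U) (n : ℕ) {η : ℝ} (hη : 0 ≤ η) (f : ℂ → ℝ) : Nr Λ n η f f :=
  ⟨fun _ _ => rfl, fun _ _ => by simpa using hη, Cl.refl f η⟩

theorem Nr.mono {Λ : Lumps U} {n m : ℕ} {a b : ℝ} {f g : ℂ → ℝ} (h : Nr Λ m a f g) (hn : n ≤ m)
    (ha : 0 ≤ a) (hab : a ≤ b) : Nr Λ n b f g :=
  ⟨fun z hz => h.off z fun q hq => hz q (Λ.W_mono hn q hq), fun z hz => (h.sup z hz).trans hab,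
    h.cl.mono ha hab⟩

theorem Nr.trans (hU : IsOpen U) {Λ : Lumps U} {n : ℕ} {a b : ℝ} {f g h : ℂ → ℝ} (hf : XX U f)
    (hg : XX U g) (hh : XX U h) (ha : 0 ≤ a) (hb : 0 ≤ b) (h₁ : Nr Λ n a f g)
    (h₂ : Nr Λ n b g h) : Nr Λ n (a + b) f h := by
  refine ⟨fun z hz => (h₂.off z hz).trans (h₁.off z hz), fun z hz => ?_, ?_⟩
  · have := abs_sub_le (h z) (g z) (f z)
    linarith [h₁.sup z hz, h₂.sup z hz]
  · rw [add_comm]
    exact Cl.trans hU hh hg hf hb ha h₂.cl h₁.cl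

/-- the energy on the lumps of level `n` tends to zero (the unions `⋃ q, W n q` are open,
decrease, and have empty intersection by `exh`; `tendsto_setLIntegral_zero` or dominated
convergence) -/
theorem En_lump_small (Λ : Lumps U) {u : ℂ → ℝ} (hu : En U u < ⊤) {ε : ℝ} (hε : 0 < ε) :
    ∃ N, ∀ n ≥ N, ∀ q, En (Λ.W n q) u ≤ ENNReal.ofReal ε := by
  have hop : ∀ n, IsOpen (⋃ q, Λ.W n q) := fun n => isOpen_iUnion (Λ.op n)
  have h1 := tendsto_measure_iInter_atTop (μ := (volume : Measure ℂ).restrict U)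
    (s := fun n => ⋃ q, Λ.W n q) (fun n => (hop n).measurableSet.nullMeasurableSet)
    (fun n m h => iUnion_mono fun q => Λ.W_mono h q)
    ⟨0, ((measure_mono (iUnion_subset fun q => (Λ.sub 0 q).trans inter_subset_right)).trans_lt
      ((Measure.restrict_le_self _).trans_lt measure_ball_lt_top)).ne⟩
  have h2 : (⋂ n, ⋃ q, Λ.W n q) = ∅ := by
    refine eq_empty_of_forall_notMem fun z hz => ?_
    obtain ⟨q, hq⟩ := mem_iUnion.1 (mem_iInter.1 hz 0)
    obtain ⟨n, hn⟩ := Λ.exh {z} isCompact_singleton (singleton_subset_iff.2 (Λ.sub 0 q hq).1)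
    obtain ⟨q', hq'⟩ := mem_iUnion.1 (mem_iInter.1 hz n)
    exact disjoint_left.1 (hn q') hq' rfl
  rw [h2, measure_empty] at h1
  have h3 := (tendsto_setLIntegral_zero hu.ne h1).eventually
    (ge_mem_nhds (ENNReal.ofReal_pos.2 hε))
  obtain ⟨N, hN⟩ := eventually_atTop.1 h3
  refine ⟨N, fun n hn q => le_trans ?_ (hN n hn)⟩
  rw [Measure.restrict_restrict_of_subset
    (iUnion_subset fun q => (Λ.sub n q).trans inter_subset_left)]
  exact lintegral_mono_set (subset_iUnion (Λ.W n) q)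

/-- every point of `U` has a neighbourhood that misses all lumps of high level -/
theorem Lumps.loc_fin (hU : IsOpen U) (Λ : Lumps U) {z : ℂ} (hz : z ∈ U) :
    ∃ N, ∀ᶠ w in 𝓝 z, ∀ n ≥ N, ∀ q, w ∉ Λ.W n q := by
  obtain ⟨K, hK, hzK, hKU⟩ := exists_compact_subset hU hz
  obtain ⟨N, hN⟩ := Λ.exh K hK hKU
  refine ⟨N, ?_⟩
  filter_upwards [mem_interior_iff_mem_nhds.1 hzK] with w hw n hn q hq
  exact disjoint_left.1 (hN q) (Λ.W_mono hn q hq) hw

/-- Limit of a sequence of modifications in lumps of increasing level.  The sequence is locally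
eventually constant on `U` (`Lumps.loc_fin`) and constant off `U`; the energy bound is Fatou's
lemma (`lintegral_liminf_le`) applied to `Cl U (u m) (u k) (t k)`, `m → ∞`. -/
theorem g_lim (hU : IsOpen U) (Λ : Lumps U) {u : ℕ → ℂ → ℝ} (hu : ∀ k, Good U (u k)) {B : ℝ}
    (hB : ∀ k, ∀ z ∈ U, |u k z| ≤ B)
    (hoff : ∀ k z, (∀ q, z ∉ Λ.W k q) → u (k + 1) z = u k z) {t : ℕ → ℝ} (h0 : ∀ k, 0 ≤ t k)
    (ht : ∀ k, t (k + 1) ≤ t k) (hcl : ∀ k, Cl U (u (k + 1)) (u k) (t k - t (k + 1))) :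
    ∃ v, Good U v ∧ (∀ z, ∀ᶠ k in atTop, u k z = v z) ∧
      (∀ k z, (∀ q, z ∉ Λ.W k q) → v z = u k z) ∧ ∀ k, Cl U v (u k) (t k) := by
  have stab : ∀ k z, (∀ q, z ∉ Λ.W k q) → ∀ m, k ≤ m → u m z = u k z := by
    intro k z hz m hm
    induction m, hm using Nat.le_induction with
    | base => rfl
    | succ m hm ih => rw [hoff m z fun q hq => hz q (Λ.W_mono hm q hq), ih]
  have hN : ∀ z, ∃ N, ∀ q, z ∉ Λ.W N q := by
    intro z
    by_cases hz : z ∈ U
    · obtain ⟨N, hN⟩ := Λ.loc_fin hU hz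
      exact ⟨N, hN.self_of_nhds N le_rfl⟩
    · exact ⟨0, fun q hq => hz (Λ.sub 0 q hq).1⟩
  choose N hN using hN
  obtain ⟨v, hvd⟩ : ∃ v : ℂ → ℝ, ∀ z, v z = u (N z) z := ⟨_, fun _ => rfl⟩
  have hv : ∀ k z, (∀ q, z ∉ Λ.W k q) → v z = u k z := by
    intro k z hz
    rw [hvd, ← stab k z hz _ (le_max_left k (N z)), ← stab _ z (hN z) _ (le_max_right k (N z))]
  have hloc : ∀ z ∈ U, ∃ M, ∀ m ≥ M, v =ᶠ[𝓝 z] u m := by
    intro z hz
    obtain ⟨M, hM⟩ := Λ.loc_fin hU hz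
    exact ⟨M, fun m hm => hM.mono fun w hw => hv m w (hw m hm)⟩
  have tanti : Antitone t := antitone_nat_of_succ_le ht
  have hcl2 : ∀ k m, k ≤ m → Cl U (u m) (u k) (t k - t m) := by
    intro k m hm
    induction m, hm using Nat.le_induction with
    | base => exact Cl.refl _ _
    | succ m hm ih =>
      have := Cl.trans hU (hu (m + 1)).xx (hu m).xx (hu k).xx (sub_nonneg.2 (ht m))
        (sub_nonneg.2 (tanti hm)) (hcl m) ih
      convert this using 1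
      ring
  have hcl3 : ∀ k, Cl U v (u k) (t k) := by
    intro k
    have h1 : En U (fun z => v z - u k z) =
        ∫⁻ z in U, liminf (fun m => ‖fderiv ℝ (fun z => u m z - u k z) z‖ₑ ^ 2) atTop := by
      refine setLIntegral_congr_fun hU.measurableSet fun z hz => ?_
      obtain ⟨M, hM⟩ := hloc z hz
      have h2 : (fun m => ‖fderiv ℝ (fun z => u m z - u k z) z‖ₑ ^ 2) =ᶠ[atTop]
          fun _ => ‖fderiv ℝ (fun z => v z - u k z) z‖ₑ ^ 2 := by
        filter_upwards [eventually_ge_atTop M] with m hm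
        have h3 : (fun z => u m z - u k z) =ᶠ[𝓝 z] fun z => v z - u k z :=
          (hM m hm).mono fun w hw => by simp only [hw]
        rw [h3.fderiv_eq]
      simp only [liminf_congr h2, liminf_const]
    unfold Cl
    rw [h1]
    refine (lintegral_liminf_le' fun m => (h99_meas U _).pow_const 2).trans ?_
    refine liminf_le_of_frequently_le' (Eventually.frequently ?_)
    filter_upwards [eventually_ge_atTop k] with m hm
    exact (hcl2 k m hm).mono (sub_nonneg.2 (tanti hm)) (sub_le_self _ (h0 m))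
  have hlip : LocallyLipschitzOn U v := by
    intro x hx
    obtain ⟨M, hM⟩ := hloc x hx
    obtain ⟨K, s, hs, hK⟩ := (hu M).xx.lip hx
    refine ⟨K, s ∩ {w | v w = u M w}, inter_mem hs (mem_nhdsWithin_of_mem_nhds (hM M le_rfl)), ?_⟩
    intro y hy z hz
    rw [show v y = u M y from hy.2, show v z = u M z from hz.2]
    exact hK hy.1 hz.1
  have hfar : ∀ z : ℂ, Λ.R ≤ ‖z‖ → v z = u 0 z := fun z hz => hv 0 z fun q hq => by
    have := mem_ball_zero_iff.1 (Λ.sub 0 q hq).2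
    linarith
  have hx1 : XX U (fun z => v z - u 0 z) :=
    ⟨hlip.sub (hu 0).xx.lip, ⟨Λ.R, 0, fun z hz => by simp only [hfar z hz, sub_self]⟩,
      lt_of_le_of_lt (hcl3 0) ENNReal.ofReal_lt_top⟩
  have hx2 : XX U v := by
    have := XX.add hU hx1 (hu 0).xx
    simpa only [sub_add_cancel] using this
  refine ⟨v, ⟨hx2, ⟨B, fun z hz => by rw [hvd]; exact hB _ z hz⟩, fun x hx => ?_⟩,
    fun z => ?_, hv, hcl3⟩
  · obtain ⟨M, hM⟩ := hloc x hx
    exact (((hu M).c1.contDiffAt (hU.mem_nhds hx)).congr_of_eventuallyEq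
      (hM M le_rfl)).contDiffWithinAt
  · filter_upwards [eventually_ge_atTop (N z)] with m hm
    rw [hvd, stab _ z (hN z) m hm]

/-- limit of continuous functions: `g_lim`, telescoping for the sup bound, `Lumps.osc_le` -/
theorem g_lim_cts (hU : IsOpen U) (Λ : Lumps U) {u : ℕ → ℂ → ℝ} (hu : ∀ k, Cts Λ (u k))
    {t : ℕ → ℝ} (h0 : ∀ k, 0 ≤ t k) (ht : ∀ k, t (k + 1) ≤ t k) (hl : Tendsto t atTop (𝓝 0))
    (hn : ∀ k, Nr Λ k (t k - t (k + 1)) (u k) (u (k + 1))) :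
    ∃ v, Cts Λ v ∧ ∀ k, Nr Λ k (t k) (u k) v := by
  have tel : ∀ k m, ∀ z ∈ U, |u (k + m) z - u k z| ≤ t k - t (k + m) := by
    intro k m z hz
    induction m with
    | zero => simp
    | succ m ih =>
      have h1 := (hn (k + m)).sup z hz
      have h2 := abs_sub_le (u (k + m + 1) z) (u (k + m) z) (u k z)
      rw [← add_assoc]
      linarith
  obtain ⟨B, hB⟩ := (hu 0).good.bdd
  obtain ⟨v, hv, h1, h2, h3⟩ := g_lim hU Λ (fun k => (hu k).good) (B := B + t 0)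
    (fun k z hz => by
      have h1 := tel 0 k z hz
      rw [zero_add] at h1
      have h2 := abs_sub_abs_le_abs_sub (u k z) (u 0 z)
      linarith [hB z hz, h0 k])
    (fun k => (hn k).off) h0 ht fun k => (hn k).cl
  have hsup : ∀ k, ∀ z ∈ U, |v z - u k z| ≤ t k := by
    intro k z hz
    obtain ⟨m, hm, hkm⟩ := ((h1 z).and (eventually_ge_atTop k)).exists
    obtain ⟨d, rfl⟩ := Nat.exists_eq_add_of_le hkm
    rw [← hm]
    linarith [tel k d z hz, h0 (k + d)]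
  refine ⟨v, ⟨hv, fun q => le_antisymm (Λ.osc_le hv.bdd fun η hη => ?_) (Λ.osc_nonneg hv.bdd q)⟩,
    fun k => ⟨h2 k, hsup k, h3 k⟩⟩
  obtain ⟨k, hk⟩ := (hl.eventually (ge_mem_nhds (show (0 : ℝ) < η / 4 by positivity))).exists
  obtain ⟨n, hn'⟩ := Λ.near (hu k).good.bdd q (show (0 : ℝ) < η / 4 by positivity)
  refine ⟨n, fun z hz z' hz' => ?_⟩
  have h4 : Λ.hi (u k) q - Λ.lo (u k) q = 0 := (hu k).osc q
  have h5 := abs_le.1 (hsup k z (Λ.sub n q hz).1)
  have h6 := abs_le.1 (hsup k z' (Λ.sub n q hz').1)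
  linarith [(hn' z hz).2, (hn' z' hz').1, h5.2, h6.1]

theorem h45_eLp (U : Set ℂ) (g : ℂ → (ℂ →L[ℝ] ℝ)) :
    eLpNorm g 2 (volume.restrict U) = (∫⁻ z in U, ‖g z‖ₑ ^ 2) ^ (1 / 2 : ℝ) := by
  rw [eLpNorm_eq_lintegral_rpow_enorm_toReal (by norm_num) (by norm_num)]
  simp only [ENNReal.toReal_ofNat, ENNReal.rpow_two]

theorem h45_memLp {u : ℂ → ℝ} (hu : XX U u) : MemLp (fderiv ℝ u) 2 (volume.restrict U) := by
  refine ⟨(measurable_fderiv ℝ u).aestronglyMeasurable, ?_⟩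
  rw [h45_eLp]
  exact ENNReal.rpow_lt_top_of_nonneg (by norm_num) hu.en.ne

/-- `X` is separable for the Dirichlet distance (`Lp` is second countable) -/
theorem g_sep (hU : IsOpen U) : ∃ d : ℕ → ℂ → ℝ, (∀ k, XX U (d k)) ∧
    ∀ u, XX U u → ∀ δ > 0, ∃ k, Cl U u (d k) δ := by
  have : Fact ((2 : ℝ≥0∞) ≠ ⊤) := ⟨by norm_num⟩
  let T : {u : ℂ → ℝ // XX U u} → Lp (ℂ →L[ℝ] ℝ) 2 (volume.restrict U) :=
    fun u => (h45_memLp u.2).toLp _
  have : Nonempty (Set.range T) := ⟨⟨T ⟨_, XX.const 0⟩, mem_range_self _⟩⟩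
  obtain ⟨s, hs⟩ := TopologicalSpace.exists_dense_seq (Set.range T)
  choose d hd using fun k => (s k).2
  refine ⟨fun k => (d k).1, fun k => (d k).2, fun u hu δ hδ => ?_⟩
  obtain ⟨k, hk⟩ := hs.exists_dist_lt ⟨T ⟨u, hu⟩, mem_range_self _⟩ hδ
  refine ⟨k, ?_⟩
  rw [Subtype.dist_eq, ← hd k] at hk
  have h1 : edist (T ⟨u, hu⟩) (T (d k)) ≤ ENNReal.ofReal δ := by
    rw [edist_dist]
    exact ENNReal.ofReal_le_ofReal hk.le
  have h2 : edist (T ⟨u, hu⟩) (T (d k)) =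
      eLpNorm (fderiv ℝ u - fderiv ℝ (d k).1) 2 (volume.restrict U) :=
    Lp.edist_toLp_toLp _ _ _ _
  have h3 : En U (fun z => u z - (d k).1 z) =
      ∫⁻ z in U, ‖(fderiv ℝ u - fderiv ℝ (d k).1) z‖ₑ ^ 2 := by
    refine setLIntegral_congr_fun_ae hU.measurableSet ?_
    filter_upwards [ae_diff hU hu.lip, ae_diff hU (d k).2.lip] with z a b hz
    rw [fderiv_fun_sub (a hz) (b hz), Pi.sub_apply]
  rw [h2, h45_eLp, ← h3] at h1
  unfold Cl
  have h4 := ENNReal.rpow_le_rpow h1 (show (0 : ℝ) ≤ 2 by norm_num)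
  rw [← ENNReal.rpow_mul, show (1 / 2 : ℝ) * 2 = 1 by norm_num, ENNReal.rpow_one,
    ENNReal.rpow_two, ← ENNReal.ofReal_pow hδ.le] at h4
  exact h4

end Crest.Agent.R105
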