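import Crest.Agent.R105.GIs

/-! Row 105, block GR: making a continuous function constant near one end. -/

set_option autoImplicit false

open MeasureTheory Set Filter Topology
open scoped ENNReal

namespace Crest.Agent.R105

variable {U : Set ℂ}

/-- `g s = b s * s` for a bump `b` equal to one on `[-1, 1]` -/
theorem exists_col_fn : ∃ (g : ℝ → ℝ) (A : ℝ), 0 < A ∧ ContDiff ℝ 1 g ∧ (∀ s, |g s| ≤ A) ∧
    (∀ s, |deriv g s| ≤ A) ∧ ∀ s, |s| ≤ 1 → g s = s := by
  let b : ContDiffBump (0 : ℝ) := ⟨1, 2, one_pos, one_lt_two⟩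
  have hd : ContDiff ℝ 1 (fun s : ℝ => b s * s) := b.contDiff.mul contDiff_id
  have hc : HasCompactSupport (fun s : ℝ => b s * s) := b.hasCompactSupport.mul_right
  obtain ⟨A₁, h1⟩ := hd.continuous.bounded_above_of_compact_support hc
  obtain ⟨A₂, h2⟩ := (hd.continuous_deriv le_rfl).bounded_above_of_compact_support hc.deriv
  refine ⟨fun s => b s * s, max 1 (max A₁ A₂), lt_max_of_lt_left one_pos, hd, fun s => ?_,
    fun s => ?_, fun s hs => ?_⟩
  · exact (h1 s).trans ((le_max_left _ _).trans (le_max_right _ _))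
  · exact (h2 s).trans ((le_max_right _ _).trans (le_max_right _ _))
  · have : b s = 1 := b.one_of_mem_closedBall (by simpa [b] using hs)
    simp only [this, one_mul]

/-- energy of `χ * h` when `χ` vanishes off `W`:
`∇(χ h) = h ∇χ + χ ∇h`, and both terms vanish off `W` a.e. or are bounded as stated. -/
theorem En_cut_le (hU : IsOpen U) {χ h : ℂ → ℝ} (hχ : ContDiffOn ℝ 1 χ U)
    (hh : ContDiffOn ℝ 1 h U) {W : Set ℂ} (hW : IsOpen W) (hWU : W ⊆ U)
    (h01 : ∀ z ∈ U, |χ z| ≤ 1) (h0 : ∀ z, z ∉ W → χ z = 0) {S : ℝ} (hS : ∀ z ∈ U, |h z| ≤ S) :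
    En U (fun z => χ z * h z) ≤ 2 * (ENNReal.ofReal (S ^ 2) * En U χ) + 2 * En W h := by
  have hm : AEMeasurable (fun z => 2 * (ENNReal.ofReal (S ^ 2) * ‖fderiv ℝ χ z‖ₑ ^ 2))
      (volume.restrict U) :=
    ((((measurable_fderiv ℝ χ).enorm.pow_const 2).const_mul _).const_mul 2).aemeasurable
  have hle : En U (fun z => χ z * h z) ≤
      ∫⁻ z in U, (2 * (ENNReal.ofReal (S ^ 2) * ‖fderiv ℝ χ z‖ₑ ^ 2) +
        2 * W.indicator (fun z => ‖fderiv ℝ h z‖ₑ ^ 2) z) := by
    refine setLIntegral_mono' hU.measurableSet fun z hz => ?_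
    have d1 : DifferentiableAt ℝ χ z :=
      (hχ.contDiffAt (hU.mem_nhds hz)).differentiableAt one_ne_zero
    have d2 : DifferentiableAt ℝ h z :=
      (hh.contDiffAt (hU.mem_nhds hz)).differentiableAt one_ne_zero
    have hS0 : 0 ≤ S := (abs_nonneg _).trans (hS z hz)
    have hn : ‖fderiv ℝ (fun z => χ z * h z) z‖ ≤
        S * ‖fderiv ℝ χ z‖ + |χ z| * ‖fderiv ℝ h z‖ := by
      rw [fderiv_fun_mul d1 d2, add_comm]
      refine (norm_add_le _ _).trans (add_le_add ?_ ?_)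
      · rw [norm_smul, Real.norm_eq_abs]
        exact mul_le_mul_of_nonneg_right (hS z hz) (norm_nonneg _)
      · rw [norm_smul, Real.norm_eq_abs]
    refine (h67_enorm_sq_le hn).trans (add_le_add (le_of_eq ?_) ?_)
    · rw [ENNReal.ofReal_mul (by norm_num), mul_assoc]
      simp
    · by_cases hzW : z ∈ W
      · rw [indicator_of_mem hzW]
        refine mul_le_mul_left ?_ _
        have h1 : |χ z| ^ 2 ≤ 1 := pow_le_one₀ (abs_nonneg _) (h01 z hz)
        calc ENNReal.ofReal (2 * |χ z| ^ 2) ≤ ENNReal.ofReal 2 :=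
              ENNReal.ofReal_le_ofReal (by linarith)
          _ = 2 := by simp
      · simp [h0 z hzW]
  refine hle.trans (le_of_eq ?_)
  rw [lintegral_add_left' hm, lintegral_const_mul' _ _ (by norm_num),
    lintegral_const_mul' _ _ ENNReal.ofReal_ne_top, lintegral_const_mul' _ _ (by norm_num),
    lintegral_indicator hW.measurableSet, Measure.restrict_restrict hW.measurableSet,
    inter_eq_left.2 hWU]
  rfl

/-- Choose `n ≥ n₀` with tiny `En (W n q) f` (`En_lump_small`), `χ` from `exists_Ind`, then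
`δ` tiny, `v = lo f q`, `T t = t - δ g ((t - v) / δ)`, `f' = f + χ (T f - f)`. -/
theorem g_collapse (hU : IsOpen U) (Λ : Lumps U) {f : ℂ → ℝ} (hf : Cts Λ f) (q : Λ.E) (n₀ : ℕ)
    {η : ℝ} (hη : 0 < η) : ∃ f', Cts Λ f' ∧ Nr Λ n₀ η f f' ∧ (∃ m a, ∀ z ∈ Λ.W m q, f' z = a) ∧
      ∀ g, XX U g → Bdd U g → Isot U f g → Isot U f' g := by
  obtain ⟨g, A, hA, hg1, hg2, hg3, hg4⟩ := exists_col_fn
  obtain ⟨⟨hx, hb, hc⟩, ho⟩ := hf
  obtain ⟨N, hN⟩ := En_lump_small Λ hx.en (ε := η ^ 2 / (4 * A ^ 2)) (by positivity)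
  set n := max N n₀ with hn
  obtain ⟨χ, hI, hχ1, hχ2, hχ3, -⟩ := exists_Ind hU Λ n q
  have hχc : ContDiffOn ℝ 1 χ U := hχ1.of_le (by simp)
  set e := (En U χ).toReal with he
  have he0 : 0 ≤ e := ENNReal.toReal_nonneg
  set δ := η / (2 * A * (e + 1)) with hδ
  have hδ0 : 0 < δ := by positivity
  have hδA : δ * A = η / (2 * (e + 1)) := by rw [hδ]; field_simp
  have hδ1 : δ * A ≤ η := by
    rw [hδA]; exact div_le_self hη.le (by linarith)
  set v := Λ.lo f q with hv
  set T : ℝ → ℝ := fun t => t - δ * g ((t - v) / δ) with hT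
  have hT1 : ContDiff ℝ 1 T :=
    contDiff_id.sub (contDiff_const.mul (hg1.comp ((contDiff_id.sub contDiff_const).div_const δ)))
  have hD1 : ContDiff ℝ 1 fun t => T t - t := hT1.sub contDiff_id
  have hgl : ∀ s s', |g s - g s'| ≤ A * |s - s'| := fun s s' => by
    have := Convex.norm_image_sub_le_of_norm_deriv_le (s := univ)
      (fun x _ => hg1.differentiable one_ne_zero x) (fun x _ => hg3 x) convex_univ
      (mem_univ s') (mem_univ s)
    simpa using this
  have hD2 : ∀ s s', |(T s - s) - (T s' - s')| ≤ A * |s - s'| := fun s s' => by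
    have h1 := hgl ((s - v) / δ) ((s' - v) / δ)
    rw [show (s - v) / δ - (s' - v) / δ = (s - s') / δ by ring, abs_div, abs_of_pos hδ0] at h1
    rw [show (T s - s) - (T s' - s') = -(δ * (g ((s - v) / δ) - g ((s' - v) / δ))) by
      simp only [hT]; ring, abs_neg, abs_mul, abs_of_pos hδ0]
    calc _ ≤ δ * (A * (|s - s'| / δ)) := by gcongr
      _ = _ := by field_simp
  have hD3 : ∀ s, |T s - s| ≤ δ * A := fun s => by
    rw [show T s - s = -(δ * g ((s - v) / δ)) by simp only [hT]; ring, abs_neg, abs_mul,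
      abs_of_pos hδ0]
    exact mul_le_mul_of_nonneg_left (hg2 _) hδ0.le
  have hχa : ∀ z, |χ z| ≤ 1 := fun z => by rw [abs_of_nonneg (hχ2 z).1]; exact (hχ2 z).2
  have hP : ∀ z, |χ z * (T (f z) - f z)| ≤ δ * A := fun z => by
    rw [abs_mul]
    exact (mul_le_of_le_one_left (abs_nonneg _) (hχa z)).trans (hD3 _)
  have hxD : XX U fun z => T (f z) - f z := hx.comp_lip hU (T := fun t => T t - t) hD2
  have hb' : Bdd U fun z => f z + χ z * (T (f z) - f z) := by
    obtain ⟨B, hB⟩ := hb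
    exact ⟨B + δ * A, fun z hz => (abs_add_le _ _).trans (add_le_add (hB z hz) (hP z))⟩
  obtain ⟨N₁, hN₁⟩ := hI.1.eq_val Λ
  refine ⟨fun z => f z + χ z * (T (f z) - f z), ⟨⟨?_, hb', ?_⟩, fun p => ?_⟩, ⟨?_, ?_, ?_⟩, ?_,
    fun k hk hkb h => Isot.collapse hU Λ hx hb hk hkb hI hT1 h⟩
  · exact hx.add hU (hI.1.xx.mul hU hxD (hI.1.bdd Λ) ⟨_, fun z _ => hD3 _⟩)
  · exact hc.add (hχc.mul (hD1.comp_contDiffOn hc))
  · refine le_antisymm (Λ.osc_le hb' fun ε hε => ?_) (Λ.osc_nonneg hb' p)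
    obtain ⟨m, hm⟩ := Λ.near hb p (η := ε / (2 * (1 + A))) (by positivity)
    refine ⟨max m N₁, fun z hz z' hz' => ?_⟩
    have h1 := hm z (Λ.W_mono (le_max_left _ _) p hz)
    have h2 := hm z' (Λ.W_mono (le_max_left _ _) p hz')
    have h3 : Λ.hi f p = Λ.lo f p := sub_eq_zero.1 (ho p)
    have h4 : |f z - f z'| ≤ 2 * (ε / (2 * (1 + A))) := by
      rw [abs_le]; constructor <;> linarith [h1.1, h1.2, h2.1, h2.2]
    have h5 : χ z' = χ z := by
      rw [hN₁ _ (le_max_right _ _) p z hz, hN₁ _ (le_max_right _ _) p z' hz']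
    have h6 : |χ z * ((T (f z) - f z) - (T (f z') - f z'))| ≤ A * |f z - f z'| := by
      rw [abs_mul]
      exact (mul_le_of_le_one_left (abs_nonneg _) (hχa z)).trans (hD2 _ _)
    have h7 : (1 + A) * |f z - f z'| ≤ ε := by
      calc _ ≤ (1 + A) * (2 * (ε / (2 * (1 + A)))) := by gcongr
        _ = ε := by field_simp
    rw [h5]
    nlinarith [le_abs_self (f z - f z'), le_abs_self (χ z * ((T (f z) - f z) - (T (f z') - f z')))]
  · intro z hz
    rw [hχ3 z fun h => hz q (Λ.W_mono (le_max_right _ _) q h)]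
    simp
  · intro z _
    rw [add_sub_cancel_left]
    exact (hP z).trans hδ1
  · simp only [Cl, add_sub_cancel_left]
    have hW := (Λ.sub n q).trans inter_subset_left
    refine (En_cut_le hU hχc (hD1.comp_contDiffOn hc) (Λ.op n q) hW (fun z _ => hχa z) hχ3
      (fun z _ => hD3 _)).trans ?_
    have h1 := (En_comp_lip_le (Λ.op n q) (T := fun t => T t - t) hA.le hD2
      (hx.lip.mono hW)).trans (mul_le_mul_right (hN n (le_max_left _ _) q) _)
    rw [← ENNReal.ofReal_mul (by positivity)] at h1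
    have h2 : En U χ = ENNReal.ofReal e := (ENNReal.ofReal_toReal hI.1.xx.en.ne).symm
    rw [h2, ← ENNReal.ofReal_mul (by positivity)]
    calc _ ≤ 2 * ENNReal.ofReal ((δ * A) ^ 2 * e) +
          2 * ENNReal.ofReal (A ^ 2 * (η ^ 2 / (4 * A ^ 2))) := by gcongr; exact h1
      _ = ENNReal.ofReal (2 * ((δ * A) ^ 2 * e) + 2 * (A ^ 2 * (η ^ 2 / (4 * A ^ 2)))) := by
        rw [ENNReal.ofReal_add (by positivity) (by positivity), ENNReal.ofReal_mul (p := 2) (by norm_num),
          ENNReal.ofReal_mul (p := 2) (by norm_num)]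
        simp
      _ ≤ _ := by
        refine ENNReal.ofReal_le_ofReal ?_
        have h3 : A ^ 2 * (η ^ 2 / (4 * A ^ 2)) = η ^ 2 / 4 := by field_simp
        have h4 : (δ * A) ^ 2 * e ≤ η ^ 2 / 4 := by
          rw [hδA, div_pow, div_mul_eq_mul_div, div_le_div_iff₀ (by positivity) (by norm_num)]
          nlinarith [mul_nonneg (sq_nonneg η) he0, mul_nonneg (sq_nonneg η) (sq_nonneg e),
            sq_nonneg η]
        linarith
  · obtain ⟨m, hm⟩ := Λ.near hb q hδ0
    refine ⟨max m N₁, v, fun z hz => ?_⟩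
    have h1 := hm z (Λ.W_mono (le_max_left _ _) q hz)
    have h3 : Λ.hi f q = Λ.lo f q := sub_eq_zero.1 (ho q)
    have h4 : |(f z - v) / δ| ≤ 1 := by
      rw [abs_div, abs_of_pos hδ0, div_le_one hδ0, abs_le]
      constructor <;> linarith [h1.1, h1.2]
    beta_reduce
    rw [hN₁ _ (le_max_right _ _) q z hz, hI.2 q, if_pos rfl]
    simp only [hT, hg4 _ h4]
    field_simp
    ring

end Crest.Agent.R105
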