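import Crest.Agent.R105.NT3

/-! Row 105, block GR (greedy family of continuous generators): definitions. -/

set_option autoImplicit false

open MeasureTheory Set Filter Topology
open scoped ENNReal

namespace Crest.Agent.R105

variable {U : Set ℂ}

/-- every end shrinks to a point outside `U` -/
def Dust (Λ : Lumps U) : Prop :=
  ∀ q, ∃ p : ℂ, p ∉ U ∧ ∀ η > 0, ∃ n, Λ.W n q ⊆ Metric.ball p η

/-- bounded `C¹` elements of `X` -/
structure Good (U : Set ℂ) (f : ℂ → ℝ) : Prop where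
  xx : XX U f
  bdd : Bdd U f
  c1 : ContDiffOn ℝ 1 f U

/-- good functions continuous at all ends -/
structure Cts (Λ : Lumps U) (f : ℂ → ℝ) : Prop where
  good : Good U f
  osc : ∀ q, Λ.osc f q = 0

/-- the calculus algebras of `f` and `g` are `ω`-orthogonal -/
def Isot (U : Set ℂ) (f g : ℂ → ℝ) : Prop :=
  ∀ G H : ℝ → ℝ, ContDiff ℝ 1 G → ContDiff ℝ 1 H → ∀ χ, A0 U χ →
    om U (fun z => G (f z) * χ z) (fun z => H (g z)) = 0

/-- Dirichlet distance at most `η` -/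
def Cl (U : Set ℂ) (u v : ℂ → ℝ) (η : ℝ) : Prop :=
  En U (fun z => u z - v z) ≤ ENNReal.ofReal (η ^ 2)

/-- `f'` is a modification of `f` inside the lumps of level `n`, of cost at most `η` -/
structure Nr (Λ : Lumps U) (n : ℕ) (η : ℝ) (f f' : ℂ → ℝ) : Prop where
  off : ∀ z, (∀ q, z ∉ Λ.W n q) → f' z = f z
  sup : ∀ z ∈ U, |f' z - f z| ≤ η
  cl : Cl U f' f η

/-- `β'` arises from `β` by killing the oscillation at `q` inside the lump `W m q` -/
structure Nd (Λ : Lumps U) (q : Λ.E) (m : ℕ) (η : ℝ) (β β' : ℂ → ℝ) : Prop where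
  off : ∀ z, z ∉ Λ.W m q → β' z = β z
  cl : Cl U β' β η
  rng : ∀ a b : ℝ, (∀ z ∈ Λ.W m q, β z ∈ Icc a b) → ∀ z ∈ Λ.W m q, β' z ∈ Icc a b
  small : ∀ z ∈ Λ.W m q, ∀ z' ∈ Λ.W m q, β z - β z' ≤ Λ.osc β q + η
  zero : Λ.osc β' q = 0
  le : ∀ q', Λ.osc β' q' ≤ Λ.osc β q'

end Crest.Agent.R105
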