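import Crest.Agent.R105.GCl

/-! Row 105, block GR: isotropic pairs. -/

set_option autoImplicit false

open MeasureTheory Set Filter Topology
open scoped ENNReal

namespace Crest.Agent.R105

variable {U : Set ℂ}

/-- `om_mul_swap`, `om_skew` -/
theorem Isot.symm (hU : IsOpen U) (Λ : Lumps U) {f g : ℂ → ℝ} (hf : XX U f) (hfb : Bdd U f)
    (hg : XX U g) (hgb : Bdd U g) (h : Isot U f g) : Isot U g f := by
  intro G H hG hH χ hχ
  rw [om_mul_swap hU Λ (hg.comp_C1 hU hG hgb) (hf.comp_C1 hU hH hfb) hχ, om_skew,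
    h H G hH hG χ hχ, neg_zero]

theorem Isot.self (hU : IsOpen U) (Λ : Lumps U) {f : ℂ → ℝ} (hf : XX U f) (hfb : Bdd U f) :
    Isot U f f := by
  exact fun G H hG hH χ hχ => om_self hU Λ hf hfb hχ hG hH

theorem Isot.const (f : ℂ → ℝ) (a : ℝ) : Isot U f (fun _ => a) := by
  intro G H _ _ χ _
  simp [om, wd]

/-- `G (u k) * χ → G u * χ` in energy: replace `(s, t) ↦ G s * t` by a `C¹` function with
bounded gradient that agrees with it on a large square (multiply by a `ContDiffBump`), then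
`En_comp_tendsto`. -/
theorem En_comp_mul_tendsto (hU : IsOpen U) {u χ : ℂ → ℝ} {uk : ℕ → ℂ → ℝ} (hu : XX U u)
    (huk : ∀ k, XX U (uk k)) (hχ : XX U χ) (hχb : Bdd U χ) {B : ℝ}
    (hB : ∀ k, ∀ z ∈ U, |uk k z| ≤ B)
    (h1 : ∀ z ∈ U, Tendsto (fun k => uk k z) atTop (𝓝 (u z)))
    (e1 : Tendsto (fun k => En U (fun z => uk k z - u z)) atTop (𝓝 0)) {G : ℝ → ℝ}
    (hG : ContDiff ℝ 1 G) :
    Tendsto (fun k => En U (fun z => G (uk k z) * χ z - G (u z) * χ z)) atTop (𝓝 0) := by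
  obtain ⟨B', hB'⟩ := hχb
  set S : ℝ := max (max B B') 1 with hS
  have hS0 : 0 < S := lt_of_lt_of_le one_pos (le_max_right _ _)
  let φ : ContDiffBump (0 : ℝ × ℝ) := ⟨S, S + 1, hS0, by linarith⟩
  set G' : ℝ × ℝ → ℝ := fun p => φ p * (G p.1 * p.2) with hG'
  have hG'c : ContDiff ℝ 1 G' :=
    φ.contDiff.mul ((hG.comp contDiff_fst).mul contDiff_snd)
  have hG's : HasCompactSupport G' := φ.hasCompactSupport.mul_right
  obtain ⟨L, hL⟩ := (hG'c.continuous_fderiv one_ne_zero).bounded_above_of_compact_support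
    (hG's.fderiv (𝕜 := ℝ))
  have hone : ∀ s t : ℝ, |s| ≤ B → |t| ≤ B' → G' (s, t) = G s * t := by
    intro s t hs ht
    have : φ (s, t) = 1 := φ.one_of_mem_closedBall (by
      rw [mem_closedBall_zero_iff, Prod.norm_def]
      exact max_le (hs.trans ((le_max_left _ _).trans (le_max_left _ _)))
        (ht.trans ((le_max_right _ _).trans (le_max_left _ _))))
    simp only [hG', this, one_mul]
  have hu' : ∀ z ∈ U, |u z| ≤ B := fun z hz =>
    le_of_tendsto' (h1 z hz).abs fun k => hB k z hz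
  have key := En_comp_tendsto hU hu hχ huk (vk := fun _ => χ) (fun _ => hχ) hG'c hL
    (Eventually.of_forall h1) (Eventually.of_forall fun z _ => tendsto_const_nhds) e1 (by
      have : En U (fun z => χ z - χ z) = 0 := by
        unfold En
        have : (fun z : ℂ => ‖fderiv ℝ (fun z : ℂ => χ z - χ z) z‖ₑ ^ 2) = fun _ => 0 := by
          funext z
          simp only [sub_self]
          rw [fderiv_fun_const, Pi.zero_apply, enorm_eq_nnnorm, nnnorm_zero]
          simp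
        rw [this, lintegral_zero]
      simp only [this]
      exact tendsto_const_nhds)
  refine key.congr fun k => En_congr hU fun z hz => ?_
  simp only [hone _ _ (hB k z hz) (hB' z hz), hone _ _ (hu' z hz) (hB' z hz)]

/-- `om` is continuous for the Dirichlet distance (`abs_om_le`) -/
theorem om_tendsto (hU : IsOpen U) {u c : ℂ → ℝ} {uk ck : ℕ → ℂ → ℝ} (hu : XX U u) (hc : XX U c)
    (huk : ∀ k, XX U (uk k)) (hck : ∀ k, XX U (ck k))
    (e1 : Tendsto (fun k => En U (fun z => uk k z - u z)) atTop (𝓝 0))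
    (e2 : Tendsto (fun k => En U (fun z => ck k z - c z)) atTop (𝓝 0)) :
    Tendsto (fun k => om U (uk k) (ck k)) atTop (𝓝 (om U u c)) := by
  have key : ∀ {e : ℕ → ℝ≥0∞}, Tendsto e atTop (𝓝 0) →
      Tendsto (fun k => Real.sqrt (e k).toReal) atTop (𝓝 0) := fun {e} he => by
    simpa using ((ENNReal.tendsto_toReal ENNReal.zero_ne_top).comp he).sqrt
  have ha := key e1
  have hb := key e2
  rw [tendsto_iff_norm_sub_tendsto_zero]
  have hl := ((ha.mul hb).add (ha.mul_const (Real.sqrt (En U c).toReal))).add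
    (hb.const_mul (Real.sqrt (En U u).toReal))
  simp only [zero_mul, mul_zero, add_zero] at hl
  refine squeeze_zero (fun _ => norm_nonneg _) (fun k => ?_) hl
  have hd := (huk k).sub hU hu
  have he := (hck k).sub hU hc
  have h1 := om_sub_left hU (huk k) hu (hck k)
  have h2 := om_sub_right hU hd (hck k) hc
  have h3 := om_sub_right hU hu (hck k) hc
  have h4 : om U (uk k) (ck k) - om U u c =
      om U (fun z => uk k z - u z) (fun z => ck k z - c z) + om U (fun z => uk k z - u z) c +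
        om U u (fun z => ck k z - c z) := by linarith
  rw [Real.norm_eq_abs, h4]
  refine (abs_add_three _ _ _).trans ?_
  gcongr
  · exact abs_om_le hd.en he.en
  · exact abs_om_le hd.en hc.en
  · exact abs_om_le hu.en he.en

theorem Isot.lim (hU : IsOpen U) (Λ : Lumps U) {f g : ℂ → ℝ} {fk gk : ℕ → ℂ → ℝ} (hf : XX U f)
    (hg : XX U g) (hfk : ∀ k, XX U (fk k)) (hgk : ∀ k, XX U (gk k)) {B : ℝ}
    (hB : ∀ k, ∀ z ∈ U, |fk k z| ≤ B) {B' : ℝ} (hB' : ∀ k, ∀ z ∈ U, |gk k z| ≤ B')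
    (h1 : ∀ z ∈ U, Tendsto (fun k => fk k z) atTop (𝓝 (f z)))
    (h2 : ∀ z ∈ U, Tendsto (fun k => gk k z) atTop (𝓝 (g z)))
    (e1 : Tendsto (fun k => En U (fun z => fk k z - f z)) atTop (𝓝 0))
    (e2 : Tendsto (fun k => En U (fun z => gk k z - g z)) atTop (𝓝 0))
    (h : ∀ᶠ k in atTop, Isot U (fk k) (gk k)) : Isot U f g := by
  intro G H hG hH χ hχ
  have hfb : Bdd U f := ⟨B, fun z hz => le_of_tendsto' (h1 z hz).abs fun k => hB k z hz⟩
  have hgb : Bdd U g := ⟨B', fun z hz => le_of_tendsto' (h2 z hz).abs fun k => hB' k z hz⟩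
  have t1 := En_comp_mul_tendsto hU hf hfk hχ.xx (hχ.bdd Λ) hB h1 e1 hG
  have t2 := En_comp_mul_tendsto hU hg hgk (XX.const (U := U) 1) ⟨1, fun _ _ => by simp⟩ hB' h2 e2 hH
  simp only [mul_one] at t2
  have t3 := om_tendsto hU (u := fun z => G (f z) * χ z) (c := fun z => H (g z))
    (uk := fun k z => G (fk k z) * χ z) (ck := fun k z => H (gk k z))
    ((XX.comp_C1 hU hG hf hfb).mul_A0 hU Λ hχ) (XX.comp_C1 hU hH hg hgb)
    (fun k => (XX.comp_C1 hU hG (hfk k) ⟨B, hB k⟩).mul_A0 hU Λ hχ)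
    (fun k => XX.comp_C1 hU hH (hgk k) ⟨B', hB' k⟩) t1 t2
  refine tendsto_nhds_unique t3 (tendsto_const_nhds.congr' ?_)
  filter_upwards [h] with k hk
  exact (hk G H hG hH χ hχ).symm

theorem h99_nr_lim (Λ : Lumps U) {f : ℂ → ℝ} {fk : ℕ → ℂ → ℝ} (hf : Bdd U f)
    {t : ℕ → ℝ} (ht : Tendsto t atTop (𝓝 0)) (h1 : ∀ k, Nr Λ k (t k) (fk k) f) :
    (∃ B, ∀ k, ∀ z ∈ U, |fk k z| ≤ B) ∧
      (∀ z ∈ U, Tendsto (fun k => fk k z) atTop (𝓝 (f z))) ∧
      Tendsto (fun k => En U (fun z => fk k z - f z)) atTop (𝓝 0) := by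
  obtain ⟨A, hA⟩ := hf
  obtain ⟨T, hT⟩ := ht.bddAbove_range
  have hT' : ∀ k, t k ≤ T := fun k => hT (mem_range_self k)
  refine ⟨⟨A + T, fun k z hz => ?_⟩, fun z hz => ?_, ?_⟩
  · have a1 := (h1 k).sup z hz
    rw [abs_sub_comm] at a1
    have a2 := abs_sub_abs_le_abs_sub (fk k z) (f z)
    linarith [hA z hz, hT' k]
  · rw [tendsto_iff_dist_tendsto_zero]
    refine squeeze_zero (fun _ => dist_nonneg) (fun k => ?_) ht
    rw [Real.dist_eq, abs_sub_comm]
    exact (h1 k).sup z hz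
  · have a1 : Tendsto (fun k => ENNReal.ofReal (t k ^ 2)) atTop (𝓝 0) := by
      have := ENNReal.tendsto_ofReal (ht.pow 2)
      simpa using this
    refine tendsto_of_tendsto_of_tendsto_of_le_of_le tendsto_const_nhds a1 (fun _ => zero_le) fun k => ?_
    have a2 : En U (fun z => fk k z - f z) = En U (fun z => f z - fk k z) := by
      unfold En
      refine lintegral_congr fun z => ?_
      have : (fun z => fk k z - f z) = fun z => -(f z - fk k z) := by funext z; ring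
      rw [this, fderiv_fun_neg, enorm_neg]
    rw [a2]
    exact (h1 k).cl

theorem Isot.lim_nr (hU : IsOpen U) (Λ : Lumps U) {f g : ℂ → ℝ} {fk gk : ℕ → ℂ → ℝ}
    (hf : Good U f) (hg : Good U g) (hfk : ∀ k, Good U (fk k)) (hgk : ∀ k, Good U (gk k))
    {t : ℕ → ℝ} (ht : Tendsto t atTop (𝓝 0)) (h1 : ∀ k, Nr Λ k (t k) (fk k) f)
    (h2 : ∀ k, Nr Λ k (t k) (gk k) g) (h : ∀ᶠ k in atTop, Isot U (fk k) (gk k)) :
    Isot U f g := by
  obtain ⟨⟨B, hB⟩, a1, a2⟩ := h99_nr_lim Λ hf.bdd ht h1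
  obtain ⟨⟨B', hB'⟩, b1, b2⟩ := h99_nr_lim Λ hg.bdd ht h2
  exact Isot.lim hU Λ hf.xx hg.xx (fun k => (hfk k).xx) (fun k => (hgk k).xx) hB hB' a1 b1 a2 b2 h

theorem h92_bdd_comp {f : ℂ → ℝ} (hf : Bdd U f) {T : ℝ → ℝ} (hT : Continuous T) :
    Bdd U fun z => T (f z) := by
  obtain ⟨B, hB⟩ := hf
  obtain ⟨C, hC⟩ := (isCompact_Icc (a := -B) (b := B)).exists_bound_of_continuousOn hT.continuousOn
  exact ⟨C, fun z hz => hC _ (abs_le.1 (hB z hz))⟩

/-- local composition: `G f' χ'` has the same germs at the ends as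
`G f (χ' (1 - χ)) + (G ∘ T) f (χ' χ)` (`A0.eq_val`, `om_germ_congr`) -/
theorem Isot.collapse (hU : IsOpen U) (Λ : Lumps U) {f g χ : ℂ → ℝ} (hf : XX U f) (hfb : Bdd U f)
    (hg : XX U g) (hgb : Bdd U g) {n : ℕ} {q : Λ.E} (hχ : Ind Λ n q χ) {T : ℝ → ℝ}
    (hT : ContDiff ℝ 1 T) (h : Isot U f g) :
    Isot U (fun z => f z + χ z * (T (f z) - f z)) g := by
  intro G H hG hH χ' hχ'
  have hT' : ContDiff ℝ 1 fun s => T s - s := hT.sub contDiff_id
  have x1 : XX U fun z => f z + χ z * (T (f z) - f z) := by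
    simpa only [mul_comm] using hf.add hU ((hf.comp_C1 hU hT' hfb).mul_A0 hU Λ hχ.1)
  have b1 : Bdd U fun z => f z + χ z * (T (f z) - f z) := by
    obtain ⟨B, hB⟩ := hfb
    obtain ⟨C, hC⟩ := h92_bdd_comp ⟨B, hB⟩ hT'.continuous
    obtain ⟨D, hD⟩ := hχ.1.bdd Λ
    refine ⟨B + D * C, fun z hz => (abs_add_le _ _).trans (add_le_add (hB z hz) ?_)⟩
    rw [abs_mul]
    exact mul_le_mul (hD z hz) (hC z hz) (abs_nonneg _) ((abs_nonneg _).trans (hD z hz))
  have a1 := (hχ'.mul hU Λ ((A0.const 1).sub hU Λ hχ.1).1).1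
  have a2 := (hχ'.mul hU Λ hχ.1).1
  have hGT : ContDiff ℝ 1 fun s => G (T s) := hG.comp hT
  have y1 := (hf.comp_C1 hU hG hfb).mul_A0 hU Λ a1
  have y2 := (hf.comp_C1 hU hGT hfb).mul_A0 hU Λ a2
  have hc := hg.comp_C1 hU hH hgb
  obtain ⟨N, hN⟩ := hχ.1.eq_val Λ
  rw [om_germ_congr hU Λ ((x1.comp_C1 hU hG b1).mul_A0 hU Λ hχ') (y1.add hU y2) hc hc fun q' =>
      ⟨N, 0, 0, fun z hz => ?_, fun z _ => (add_zero _).symm⟩,
    om_add_left hU y1 y2 hc, h G H hG hH _ a1, h _ H hGT hH _ a2, add_zero]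
  rw [hN N le_rfl q' z hz, hχ.2 q']
  split_ifs <;> simp

/-- changing `β` inside a lump on which `g` is constant (`om_germ` for
`G g * χ` and `H β' - H β`) -/
theorem Isot.node (hU : IsOpen U) (Λ : Lumps U) {g β β' : ℂ → ℝ} (hg : XX U g) (hgb : Bdd U g)
    (hβ : XX U β) (hβb : Bdd U β) (hβ' : XX U β') (hβb' : Bdd U β') {m : ℕ} {q : Λ.E} {a : ℝ}
    (ha : ∀ z ∈ Λ.W m q, g z = a) (hoff : ∀ z, z ∉ Λ.W m q → β' z = β z) (h : Isot U g β) :
    Isot U g β' := by
  intro G H hG hH χ hχ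
  have y := (hg.comp_C1 hU hG hgb).mul_A0 hU Λ hχ
  have c1 := hβ.comp_C1 hU hH hβb
  have c2 := hβ'.comp_C1 hU hH hβb'
  obtain ⟨N, hN⟩ := hχ.eq_val Λ
  have h1 := om_germ hU Λ y (c2.sub hU c1) fun q' => by
    rcases Λ.part m q' q with e | e
    · refine ⟨max m N, G a * Λ.val χ q', Or.inl fun z hz => ?_⟩
      rw [ha z (e ▸ Λ.W_mono (le_max_left _ _) q' hz), hN _ (le_max_right _ _) q' z hz]
    · refine ⟨m, 0, Or.inr fun z hz => ?_⟩
      rw [hoff z (disjoint_left.1 e hz), sub_self]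
  rw [om_sub_right hU y c2 c1, h G H hG hH χ hχ, sub_zero] at h1
  exact h1

theorem wt_zero (Λ : Lumps U) {c : ℂ → ℝ} (hc : ∀ q, Λ.osc c q = 0) (H : ℝ → ℝ) (χ : ℂ → ℝ)
    (q : Λ.E) : wt Λ c H χ q = 0 := by
  have : Λ.hi c q = Λ.lo c q := sub_eq_zero.1 (hc q)
  simp [wt, this]

/-- the chain lemma for `c` makes the whole calculus algebra of `β ∈ T` orthogonal to `c`:
apply `CH` with `u₁ = u₂ = β`, `(s, t) ↦ G (max (-B) (min s B))`, `L₂ = 0`. -/
theorem Isot.of_CH (hU : IsOpen U) (Λ : Lumps U) {c β : ℂ → ℝ} (hch : CH Λ {c})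
    (hc : ∀ q, Λ.osc c q = 0) (hβ : XX U β) (hβb : Bdd U β) {e : Λ.E → ℝ}
    (he : Adm Λ {c} ∅ β e) : Isot U β c := by
  intro G H hG hH χ hχ
  obtain ⟨B, hB⟩ := hβb
  obtain ⟨K, hK⟩ := (hG.contDiffOn (s := Icc (-|B|) |B|)).exists_lipschitzOnWith one_ne_zero
    (convex_Icc _ _) isCompact_Icc
  have h1 := hch ∅ β β e e (fun s _ => G (max (-|B|) (min s |B|))) K 0 0 hβ hβ he he K.2 le_rfl
    le_rfl (fun s t s' t' => by
      have := hK.dist_le_mul _ (h18_clamp_mem (abs_nonneg B) s) _ (h18_clamp_mem (abs_nonneg B) s')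
      rw [Real.dist_eq, Real.dist_eq] at this
      rw [zero_mul, add_zero]
      exact this.trans (mul_le_mul_of_nonneg_left (h18_clamp _ s s') K.2)) (Or.inl rfl)
  have h2 := h1.le c rfl H hH χ hχ (fun p hp => absurd hp (Finset.notMem_empty p))
  simp only [wt_zero Λ hc, mul_zero, tsum_zero] at h2
  have h3 : om U (fun z => G (β z) * χ z) (fun z => H (c z)) =
      om U (fun z => G (max (-|B|) (min (β z) |B|)) * χ z) (fun z => H (c z)) := by
    refine setIntegral_congr_fun hU.measurableSet fun z hz => ?_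
    have : (fun z => G (β z) * χ z) =ᶠ[𝓝 z] fun z => G (max (-|B|) (min (β z) |B|)) * χ z :=
      Filter.eventuallyEq_of_mem (hU.mem_nhds hz) fun w hw => by
        simp only [h18_clamp_eq ((hB w hw).trans (le_abs_self B))]
    simp only [wd, this.fderiv_eq]
  rw [h3]
  exact abs_nonpos_iff.1 h2

end Crest.Agent.R105
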