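import Crest.Agent.R105.GNode

/-! Row 105, block GR: killing all nodes of a regular function. -/

set_option autoImplicit false

open MeasureTheory Set Filter Topology
open scoped ENNReal

namespace Crest.Agent.R105

variable {U : Set ℂ}

/-- a finite isotropic list of continuous functions together with one more function -/
structure Lst (Λ : Lumps U) (N : ℕ) (l : ℕ → ℂ → ℝ) (β : ℂ → ℝ) : Prop where
  cts : ∀ j ≤ N, Cts Λ (l j)
  iso : ∀ i ≤ N, ∀ j ≤ N, Isot U (l i) (l j)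
  good : Good U β
  isob : ∀ j ≤ N, Isot U (l j) β

/-- collapse every `l j` at `q` (`g_collapse`), then kill the node of `β` inside a lump on
which all new `l j` are constant (`g_node`, `Isot.node`) -/
theorem kill_step (hU : IsOpen U) (Λ : Lumps U) (hd : Dust Λ) {N : ℕ} {l : ℕ → ℂ → ℝ}
    {β : ℂ → ℝ} (h : Lst Λ N l β) (q : Λ.E) (n : ℕ) {η : ℝ} (hη : 0 < η) :
    ∃ l' β' m, n ≤ m ∧ Lst Λ N l' β' ∧ (∀ j ≤ N, Nr Λ n η (l j) (l' j)) ∧ Nd Λ q m η β β' := by
  have h1 : ∀ j, ∃ (f' : ℂ → ℝ) (m : ℕ) (a : ℝ), j ≤ N → Cts Λ f' ∧ Nr Λ n η (l j) f' ∧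
      (∀ z ∈ Λ.W m q, f' z = a) ∧ ∀ g, XX U g → Bdd U g → Isot U (l j) g → Isot U f' g := by
    intro j
    by_cases hj : j ≤ N
    · obtain ⟨f', a1, a2, ⟨m, a, a3⟩, a4⟩ := g_collapse hU Λ (h.cts j hj) q n hη
      exact ⟨f', m, a, fun _ => ⟨a1, a2, a3, a4⟩⟩
    · exact ⟨l j, 0, 0, fun h => absurd h hj⟩
  choose l' ml a hl using h1
  obtain ⟨m, hm, β', hg, hN⟩ := g_node hU Λ hd h.good q
    (max n ((Finset.range (N + 1)).sup ml)) hη
  refine ⟨l', β', m, (le_max_left _ _).trans hm, ⟨fun j hj => (hl j hj).1, fun i hi j hj => ?_, hg,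
    fun j hj => ?_⟩, fun j hj => (hl j hj).2.1, hN⟩
  · have gi := (h.cts i hi).good
    have gj := (hl j hj).1.good
    exact (hl i hi).2.2.2 _ gj.xx gj.bdd (Isot.symm hU Λ gj.xx gj.bdd gi.xx gi.bdd
      ((hl j hj).2.2.2 _ gi.xx gi.bdd (h.iso j hj i hi)))
  · have gj := (hl j hj).1.good
    have hjm : ml j ≤ m := (Finset.le_sup (f := ml) (Finset.mem_range.2 (Nat.lt_succ_of_le hj))).trans
      ((le_max_right _ _).trans hm)
    exact Isot.node hU Λ gj.xx gj.bdd h.good.xx h.good.bdd hg.xx hg.bdd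
      (fun z hz => (hl j hj).2.2.1 z (Λ.W_mono hjm q hz)) hN.off
      ((hl j hj).2.2.2 _ h.good.xx h.good.bdd (h.isob j hj))

/-- ranges on a set `V` are kept by all steps whose lump is inside `V` or disjoint from it -/
theorem kill_rng {Λ : Lumps U} {β : ℕ → ℂ → ℝ} {q : ℕ → Λ.E} {m : ℕ → ℕ} {η : ℕ → ℝ}
    (h : ∀ k, Nd Λ (q k) (m k) (η k) (β k) (β (k + 1))) {V : Set ℂ} {k : ℕ}
    (hV : ∀ j ≥ k, Λ.W (m j) (q j) ⊆ V ∨ Disjoint (Λ.W (m j) (q j)) V) {a b : ℝ}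
    (hab : ∀ z ∈ V, β k z ∈ Icc a b) : ∀ j ≥ k, ∀ z ∈ V, β j z ∈ Icc a b := by
  intro j hj
  induction j, hj using Nat.le_induction with
  | base => exact hab
  | succ j hj ih =>
    intro z hz
    by_cases hw : z ∈ Λ.W (m j) (q j)
    · rcases hV j hj with h1 | h1
      · exact (h j).rng a b (fun w hw => ih w (h1 hw)) z hw
      · exact absurd hz (Set.disjoint_left.1 h1 hw)
    · rw [(h j).off z hw]
      exact ih z hz

/-- The limit is continuous at every end `p`.  First `osc (β j) (q j) → 0` (finitely many big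
ends, each is killed at some step and `osc` never increases).  If `W (m j) p = W (m j) (q j)`
for infinitely many `j`, use `kill_rng` on that lump and `Nd.small`.  Otherwise take `k`
beyond the last such `j` with `osc (β k) p = 0`, a lump `V` of `p` on which `β k` oscillates
little (`Lumps.near`), and `kill_rng`: a later lump has level `≥` that of `V` or is disjoint
from the lump of `p` of its own level. -/
theorem kill_osc {Λ : Lumps U} {β : ℕ → ℂ → ℝ} {q : ℕ → Λ.E} {m : ℕ → ℕ} {η : ℕ → ℝ}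
    (hb : ∀ k, Bdd U (β k)) (h : ∀ k, Nd Λ (q k) (m k) (η k) (β k) (β (k + 1)))
    (hm : Monotone m) (hη : Tendsto η atTop (𝓝 0))
    (hs : Summable fun p => Λ.osc (β 0) p ^ 2) (hq : ∀ p, Λ.osc (β 0) p ≠ 0 → p ∈ range q)
    {v : ℂ → ℝ} (hv : Bdd U v) (hl : ∀ z, ∀ᶠ k in atTop, β k z = v z) (p : Λ.E) :
    Λ.osc v p = 0 := by
  have anti : ∀ p', Antitone fun j => Λ.osc (β j) p' := fun p' =>
    antitone_nat_of_succ_le fun j => (h j).le p'
  have killed : ∀ p', ∀ᶠ j in atTop, Λ.osc (β j) p' = 0 := by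
    intro p'
    have key : ∀ k, Λ.osc (β k) p' = 0 → ∀ᶠ j in atTop, Λ.osc (β j) p' = 0 := fun k hk =>
      (eventually_ge_atTop k).mono fun j hj =>
        le_antisymm ((anti p' hj).trans hk.le) (Λ.osc_nonneg (hb j) p')
    by_cases h0 : Λ.osc (β 0) p' = 0
    · exact key 0 h0
    · obtain ⟨i, rfl⟩ := hq p' h0
      exact key (i + 1) (h i).zero
  have small : ∀ δ > 0, ∀ᶠ j in atTop, Λ.osc (β j) (q j) < δ := by
    intro δ hδ
    have hF := L2w.finite_big hs hδ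
    filter_upwards [(eventually_all_finite hF).2 fun p' _ => killed p'] with j hj
    by_cases hm' : δ ≤ |Λ.osc (β 0) (q j)|
    · rw [hj (q j) hm']; exact hδ
    · exact (anti (q j) (Nat.zero_le j)).trans_lt ((le_abs_self _).trans_lt (not_le.1 hm'))
  have pass : ∀ (V : Set ℂ) (k : ℕ) (a b : ℝ),
      (∀ j ≥ k, Λ.W (m j) (q j) ⊆ V ∨ Disjoint (Λ.W (m j) (q j)) V) →
      (∀ z ∈ V, β k z ∈ Icc a b) → ∀ z ∈ V, v z ∈ Icc a b := by
    intro V k a b hV hab z hz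
    obtain ⟨j, hj1, hj2⟩ := ((hl z).and (eventually_ge_atTop k)).exists
    rw [← hj1]
    exact kill_rng h hV hab j hj2 z hz
  have nest : ∀ n j, n ≤ m j → Λ.W (m j) (q j) ⊆ Λ.W n p ∨ Disjoint (Λ.W (m j) (q j)) (Λ.W n p) := by
    intro n j hn
    rcases Λ.part n (q j) p with e | e
    · exact Or.inl (e ▸ Λ.W_mono hn (q j))
    · exact Or.inr (e.mono_left (Λ.W_mono hn (q j)))
  refine le_antisymm (Λ.osc_le hv fun ε hε => ?_) (Λ.osc_nonneg hv p)
  by_cases hc : ∃ᶠ j in atTop, Λ.W (m j) p = Λ.W (m j) (q j)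
  · obtain ⟨j, e, h1, h2⟩ := (hc.and_eventually ((small (ε / 4) (by positivity)).and
      (hη.eventually (gt_mem_nhds (show (0 : ℝ) < ε / 4 by positivity))))).exists
    obtain ⟨z0, hz0⟩ := (Λ.conn (m j) p).nonempty
    have hr := pass (Λ.W (m j) p) j (β j z0 - ε / 2) (β j z0 + ε / 2)
      (fun i hi => nest (m j) i (hm hi)) (fun z hz => by
        have a1 := (h j).small z (e ▸ hz) z0 (e ▸ hz0)
        have a2 := (h j).small z0 (e ▸ hz0) z (e ▸ hz)
        constructor <;> linarith)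
    refine ⟨m j, fun z hz z' hz' => ?_⟩
    linarith [(hr z hz).2, (hr z' hz').1]
  · rw [not_frequently] at hc
    obtain ⟨k, hk⟩ := eventually_atTop.1 (hc.and (killed p))
    obtain ⟨n, hn⟩ := Λ.near (hb k) p (show (0 : ℝ) < ε / 2 by positivity)
    have h0 : Λ.hi (β k) p - Λ.lo (β k) p = 0 := (hk k le_rfl).2
    have hr := pass (Λ.W n p) k _ _ (fun j hj => by
      rcases le_total n (m j) with hle | hle
      · exact nest n j hle
      · exact Or.inr (((Λ.part (m j) p (q j)).resolve_left (hk j hj).1).symm.mono_right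
          (Λ.W_mono hle p))) hn
    refine ⟨n, fun z hz z' hz' => ?_⟩
    linarith [(hr z hz).2, (hr z' hz').1]

/-- iterate `kill_step` along an enumeration of the nodes of `β`, cost `η / 2 ^ (k + 1)`,
levels strictly increasing; limits by `g_lim_cts`, `g_lim`, `Isot.lim`, `kill_osc` -/
theorem g_kill (hU : IsOpen U) (Λ : Lumps U) (hd : Dust Λ) {N : ℕ} {l : ℕ → ℂ → ℝ} {β : ℂ → ℝ}
    (h : Lst Λ N l β) (hs : Summable fun p => Λ.osc β p ^ 2) (n : ℕ) {η : ℝ} (hη : 0 < η) :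
    ∃ l' β', Lst Λ N l' β' ∧ (∀ j ≤ N, Nr Λ n η (l j) (l' j)) ∧ (∀ p, Λ.osc β' p = 0) ∧
      Cl U β' β η := by
  rcases isEmpty_or_nonempty Λ.E with hE | hE
  · exact ⟨l, β, h, fun j _ => Nr.refl Λ n hη.le _, fun p => hE.elim p, Cl.refl _ _⟩
  obtain ⟨q, hq⟩ : ∃ q : ℕ → Λ.E, ∀ p, Λ.osc β p ≠ 0 → p ∈ range q := by
    obtain ⟨p₀⟩ := hE
    obtain ⟨q, hq⟩ := (hs.countable_support.insert p₀).exists_eq_range (insert_nonempty _ _)
    exact ⟨q, fun p hp => hq ▸ mem_insert_of_mem _ (pow_ne_zero 2 hp)⟩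
  have step : ∀ (k : ℕ) (s : {s : (ℕ → ℂ → ℝ) × (ℂ → ℝ) × ℕ // Lst Λ N s.1 s.2.1}),
      ∃ s' : {s : (ℕ → ℂ → ℝ) × (ℂ → ℝ) × ℕ // Lst Λ N s.1 s.2.1}, ∃ m, s.1.2.2 ≤ m ∧
        s'.1.2.2 = m + 1 ∧ (∀ j ≤ N, Nr Λ s.1.2.2 (η / 2 ^ (k + 1)) (s.1.1 j) (s'.1.1 j)) ∧
        Nd Λ (q k) m (η / 2 ^ (k + 1)) s.1.2.1 s'.1.2.1 := by
    intro k s
    obtain ⟨l', β', m, h1, h2, h3, h4⟩ := kill_step hU Λ hd s.2 (q k) s.1.2.2
      (η := η / 2 ^ (k + 1)) (by positivity)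
    exact ⟨⟨(l', β', m + 1), h2⟩, m, h1, rfl, h3, h4⟩
  choose F m h1 h2 h3 h4 using step
  let s : ℕ → {s : (ℕ → ℂ → ℝ) × (ℂ → ℝ) × ℕ // Lst Λ N s.1 s.2.1} :=
    fun k => Nat.rec ⟨(l, β, n), h⟩ F k
  have hlev : ∀ k, n + k ≤ (s k).1.2.2 := by
    intro k
    induction k with
    | zero => exact le_rfl
    | succ k ih =>
      have e : (s (k + 1)).1.2.2 = m k (s k) + 1 := h2 k (s k)
      have := h1 k (s k)
      omega
  have hm : Monotone fun k => m k (s k) := by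
    refine monotone_nat_of_le_succ fun k => ?_
    have e : (s (k + 1)).1.2.2 = m k (s k) + 1 := h2 k (s k)
    have := h1 (k + 1) (s (k + 1))
    omega
  have t0 : ∀ k : ℕ, 0 ≤ η / 2 ^ k := fun k => by positivity
  have td : ∀ k : ℕ, η / 2 ^ k - η / 2 ^ (k + 1) = η / 2 ^ (k + 1) := fun k => by ring
  have t1 : ∀ k : ℕ, η / 2 ^ (k + 1) ≤ η / 2 ^ k := fun k => by linarith [td k, t0 (k + 1)]
  have t2 : ∀ k : ℕ, η / 2 ^ k ≤ η := fun k => div_le_self hη.le (one_le_pow₀ one_le_two)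
  have tl : Tendsto (fun k : ℕ => η / 2 ^ k) atTop (𝓝 0) :=
    tendsto_const_nhds.div_atTop (tendsto_pow_atTop_atTop_of_one_lt one_lt_two)
  have hN : ∀ k, ∀ j ≤ N, Nr Λ (n + k) (η / 2 ^ (k + 1)) ((s k).1.1 j) ((s (k + 1)).1.1 j) :=
    fun k j hj => (h3 k (s k) j hj).mono (hlev k) (t0 _) le_rfl
  have hD : ∀ k, Nd Λ (q k) (m k (s k)) (η / 2 ^ (k + 1)) (s k).1.2.1 (s (k + 1)).1.2.1 :=
    fun k => h4 k (s k)
  have hl : ∀ j ≤ N, ∃ v, Cts Λ v ∧ ∀ k, Nr Λ k (η / 2 ^ k) ((s k).1.1 j) v := fun j hj =>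
    g_lim_cts hU Λ (u := fun k => (s k).1.1 j) (fun k => (s k).2.cts j hj) t0 t1 tl fun k => by
      rw [td]
      exact (hN k j hj).mono (Nat.le_add_left _ _) (t0 _) le_rfl
  choose! l' hl1 hl2 using hl
  obtain ⟨B, hB⟩ := h.good.bdd
  have hBk : ∀ k, ∀ z ∈ U, |(s k).1.2.1 z| ≤ B := fun k z hz =>
    abs_le.2 (kill_rng (β := fun k => (s k).1.2.1) hD (V := U) (k := 0)
      (fun j _ => Or.inl ((Λ.sub _ _).trans inter_subset_left))
      (fun z hz => abs_le.1 (hB z hz)) k (Nat.zero_le k) z hz)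
  obtain ⟨β', hb1, hb2, -, hb4⟩ := g_lim hU Λ (u := fun k => (s k).1.2.1)
    (fun k => (s k).2.good) hBk
    (fun k z hz => (hD k).off z fun hz' => hz _ (Λ.W_mono
      (((Nat.le_add_left k n).trans (hlev k)).trans (h1 k (s k))) _ hz')) t0 t1
    fun k => by rw [td]; exact (hD k).cl
  have hpt : ∀ j ≤ N, ∀ z ∈ U, Tendsto (fun k => (s k).1.1 j z) atTop (𝓝 (l' j z)) := by
    intro j hj z hz
    rw [tendsto_iff_dist_tendsto_zero]
    refine squeeze_zero (fun _ => dist_nonneg) (fun k => ?_) tl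
    rw [dist_comm, Real.dist_eq]
    exact (hl2 j hj k).sup z hz
  refine ⟨l', β', ⟨hl1, fun i hi j hj => ?_, hb1, fun j hj => ?_⟩, fun j hj => ?_,
    kill_osc (β := fun k => (s k).1.2.1) (fun k => (s k).2.good.bdd) hD hm
      (tl.comp (tendsto_add_atTop_nat 1)) hs hq hb1.bdd hb2, ?_⟩
  · exact Isot.lim_nr hU Λ (hl1 i hi).good (hl1 j hj).good (fun k => ((s k).2.cts i hi).good)
      (fun k => ((s k).2.cts j hj).good) tl (hl2 i hi) (hl2 j hj)
      (Eventually.of_forall fun k => (s k).2.iso i hi j hj)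
  · obtain ⟨A, hA⟩ := (hl1 j hj).good.bdd
    refine Isot.lim hU Λ (hl1 j hj).good.xx hb1.xx (fun k => ((s k).2.cts j hj).good.xx)
      (fun k => (s k).2.good.xx) (B := A + η) (fun k z hz => ?_) hBk (hpt j hj)
      (fun z _ => tendsto_const_nhds.congr' ((hb2 z).mono fun k hk => hk.symm))
      (Cl.tendsto tl fun k => (hl2 j hj k).cl.symm) (Cl.tendsto tl fun k => (hb4 k).symm)
      (Eventually.of_forall fun k => (s k).2.isob j hj)
    have e1 := abs_le.1 ((hl2 j hj k).sup z hz)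
    have e2 := abs_le.1 (hA z hz)
    have e3 := t2 k
    exact abs_le.2 ⟨by linarith [e1.2, e2.1], by linarith [e1.1, e2.2]⟩
  · have h0 : Nr Λ 0 η (l j) (l' j) := (hl2 j hj 0).mono le_rfl (t0 0) (t2 0)
    refine ⟨fun z hz => ?_, h0.sup, h0.cl⟩
    by_cases hzU : z ∈ U
    · have hc : ∀ k, (s k).1.1 j z = l j z := by
        intro k
        induction k with
        | zero => rfl
        | succ k ih =>
          rw [← ih]
          exact (hN k j hj).off z fun p hp => hz p (Λ.W_mono (Nat.le_add_right n k) p hp)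
      have := hpt j hj z hzU
      simp only [hc] at this
      exact tendsto_nhds_unique this tendsto_const_nhds |>.symm ▸ rfl
    · exact h0.off z fun p hp => hzU (Λ.sub _ _ hp).1
  · exact (hb4 0).mono (t0 0) (t2 0)

end Crest.Agent.R105
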