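import Crest.Agent.R105.GCol
import Crest.Agent.R105.HLog

/-! Row 105, block GR: killing the oscillation at one end by a logarithmic cut-off. -/

set_option autoImplicit false

open MeasureTheory Set Filter Topology
open scoped ENNReal

namespace Crest.Agent.R105

variable {U : Set ℂ}

/-- `ψ = indicator (W m q) ψ₀` with `ψ₀` from `hb_log_pt` at the point `p` of the end `q`,
supported in a ball that misses `C m`.  Near a point of `U` it equals `ψ₀` or `0`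
(`Lumps.bd`); on deep lumps of `q'` it is `0` or close to `ψ₀ p'`. -/
theorem exists_node_cut (hU : IsOpen U) (Λ : Lumps U) (hd : Dust Λ) (q : Λ.E) (m : ℕ) {ε : ℝ}
    (hε : 0 < ε) : ∃ ψ : ℂ → ℝ, ContDiffOn ℝ 1 ψ U ∧ (∀ z, 0 ≤ ψ z ∧ ψ z ≤ 1) ∧
      (∀ z, z ∉ Λ.W m q → ψ z = 0) ∧ En U ψ ≤ ENNReal.ofReal ε ∧
      (∃ n, ∀ z ∈ Λ.W n q, ψ z = 1) ∧
      ∀ q', ∃ s, ∀ η > 0, ∃ n, ∀ z ∈ Λ.W n q', |ψ z - s| ≤ η := by
  obtain ⟨p, hp, hpW⟩ := hd q
  obtain ⟨r, hr, hrC⟩ := Metric.isOpen_iff.1 (Λ.cpt m).isClosed.isOpen_compl p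
    fun h => hp (Λ.csub m h)
  obtain ⟨ψ, h1, -, h3, h4, ⟨s, hs, h5⟩, h6, h7⟩ := hb_log_pt hε p hr
  have loc : ∀ z ∈ U, (Λ.W m q).indicator ψ =ᶠ[𝓝 z] ψ ∨ (Λ.W m q).indicator ψ =ᶠ[𝓝 z] 0 := by
    intro z hz
    by_cases hW : z ∈ Λ.W m q
    · left
      filter_upwards [(Λ.op m q).mem_nhds hW] with w hw using indicator_of_mem hw _
    right
    by_cases hc : z ∈ closure (Λ.W m q)
    · have h8 : z ∉ tsupport ψ := fun h => hrC (h6 h) ((Λ.bd m q z hz hc).resolve_left hW)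
      filter_upwards [notMem_tsupport_iff_eventuallyEq.1 h8] with w hw
      exact indicator_apply_eq_zero.2 fun _ => hw
    · filter_upwards [isClosed_closure.isOpen_compl.mem_nhds hc] with w hw
      exact indicator_of_notMem (fun h => hw (subset_closure h)) _
  refine ⟨(Λ.W m q).indicator ψ, fun z hz => ContDiffAt.contDiffWithinAt ?_, fun z => ?_,
    fun z hz => indicator_of_notMem hz _, ?_, ?_, fun q' => ?_⟩
  · rcases loc z hz with h | h
    · exact (h1.of_le (by norm_cast)).contDiffAt.congr_of_eventuallyEq h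
    · exact contDiffAt_const.congr_of_eventuallyEq h
  · by_cases hW : z ∈ Λ.W m q
    · rw [indicator_of_mem hW]
      exact ⟨h3 z, h4 z⟩
    · rw [indicator_of_notMem hW]
      exact ⟨le_rfl, zero_le_one⟩
  · refine le_trans ((setLIntegral_mono' hU.measurableSet fun z hz => ?_).trans
      (setLIntegral_le_lintegral U _)) h7
    rcases loc z hz with h | h
    · rw [h.fderiv_eq]
    · rw [h.fderiv_eq, fderiv_zero, Pi.zero_apply, ← ofReal_norm, norm_zero, ENNReal.ofReal_zero,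
        zero_pow two_ne_zero]
      exact zero_le
  · obtain ⟨n, hn⟩ := hpW s hs
    refine ⟨max n m, fun z hz => ?_⟩
    rw [indicator_of_mem (Λ.W_mono (le_max_right n m) q hz)]
    exact h5 z (Metric.ball_subset_closedBall (hn (Λ.W_mono (le_max_left n m) q hz)))
  · rcases Λ.part m q q' with e | e
    · obtain ⟨p', -, hp'⟩ := hd q'
      refine ⟨ψ p', fun η hη => ?_⟩
      obtain ⟨δ, hδ, h8⟩ := Metric.continuousAt_iff.1 (h1.continuous.continuousAt (x := p')) η hη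
      obtain ⟨n, hn⟩ := hp' δ hδ
      refine ⟨max n m, fun z hz => ?_⟩
      rw [e, indicator_of_mem (Λ.W_mono (le_max_right n m) q' hz)]
      exact (h8 (hn (Λ.W_mono (le_max_left n m) q' hz))).le
    · refine ⟨0, fun η hη => ⟨m, fun z hz => ?_⟩⟩
      rw [indicator_of_notMem (disjoint_right.1 e hz)]
      simpa using hη.le

/-- a `C¹` function of finite energy that vanishes off a lump is in `X` -/
theorem XX.of_c1 (hU : IsOpen U) (Λ : Lumps U) {ψ : ℂ → ℝ} (h : ContDiffOn ℝ 1 ψ U)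
    (he : En U ψ < ⊤) {m : ℕ} {q : Λ.E} (h0 : ∀ z, z ∉ Λ.W m q → ψ z = 0) : XX U ψ := by
  refine ⟨fun z hz => ?_, ⟨Λ.R, 0, fun z hz => h0 z fun h1 => ?_⟩, he⟩
  · obtain ⟨K, t, ht, hK⟩ := (h.contDiffAt (hU.mem_nhds hz)).exists_lipschitzOnWith
    exact ⟨K, t, mem_nhdsWithin_of_mem_nhds ht, hK⟩
  · exact absurd (mem_ball_zero_iff.1 (Λ.sub m q h1).2) (not_lt.2 hz)

/-- `β' = β + ψ (c - β)`, `c = β z₀`, `z₀ ∈ W m q`; `m` so large that `En (W m q) β` is tiny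
and `Lumps.near` holds; energy by `En_cut_le`. -/
theorem g_node (hU : IsOpen U) (Λ : Lumps U) (hd : Dust Λ) {β : ℂ → ℝ} (hβ : Good U β) (q : Λ.E)
    (m₀ : ℕ) {η : ℝ} (hη : 0 < η) : ∃ m ≥ m₀, ∃ β', Good U β' ∧ Nd Λ q m η β β' := by
  obtain ⟨B, hB⟩ := hβ.bdd
  obtain ⟨N, hN⟩ := En_lump_small Λ hβ.xx.en (ε := η ^ 2 / 4) (by positivity)
  obtain ⟨n₁, hn₁⟩ := Λ.near hβ.bdd q (half_pos hη)
  obtain ⟨m, hm0, hmN, hm1⟩ : ∃ m, m₀ ≤ m ∧ N ≤ m ∧ n₁ ≤ m :=
    ⟨max m₀ (max N n₁), le_max_left _ _, (le_max_left _ _).trans (le_max_right _ _),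
      (le_max_right _ _).trans (le_max_right _ _)⟩
  obtain ⟨z₀, hz₀⟩ := (Λ.conn m q).nonempty
  have hWU : ∀ n q', Λ.W n q' ⊆ U := fun n q' z hz => (Λ.sub n q' hz).1
  have hB0 : 0 ≤ B := (abs_nonneg _).trans (hB z₀ (hWU m q hz₀))
  have hS : ∀ z ∈ U, |β z₀ - β z| ≤ 2 * B := fun z hz => by
    have h1 := abs_le.1 (hB z hz)
    have h2 := abs_le.1 (hB z₀ (hWU m q hz₀))
    rw [abs_le]; constructor <;> linarith [h1.1, h1.2, h2.1, h2.2]
  obtain ⟨ψ, hψ1, hψ01, hψ0, hψE, ⟨n, hn⟩, hlim⟩ :=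
    exists_node_cut hU Λ hd q m (ε := η ^ 2 / (4 * ((2 * B) ^ 2 + 1))) (by positivity)
  have hψa : ∀ z ∈ U, |ψ z| ≤ 1 := fun z _ => abs_le.2 ⟨by linarith [(hψ01 z).1], (hψ01 z).2⟩
  have hψX : XX U ψ := XX.of_c1 hU Λ hψ1 (hψE.trans_lt ENNReal.ofReal_lt_top) hψ0
  have hh1 : ContDiffOn ℝ 1 (fun z => β z₀ - β z) U := contDiffOn_const.sub hβ.c1
  have hbd : Bdd U (fun z => β z + ψ z * (β z₀ - β z)) := ⟨B + 1 * (2 * B), fun z hz => by
    refine (abs_add_le _ _).trans (add_le_add (hB z hz) ?_)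
    rw [abs_mul]
    exact mul_le_mul (hψa z hz) (hS z hz) (abs_nonneg _) zero_le_one⟩
  refine ⟨m, hm0, fun z => β z + ψ z * (β z₀ - β z),
    ⟨hβ.xx.add hU (hψX.mul hU ((XX.const _).sub hU hβ.xx) ⟨1, hψa⟩ ⟨_, hS⟩), hbd,
      hβ.c1.add (hψ1.mul hh1)⟩, ?_, ?_, ?_, ?_, ?_, ?_⟩
  · intro z hz
    rw [hψ0 z hz, zero_mul, add_zero]
  · have e : (fun z => β z + ψ z * (β z₀ - β z) - β z) = fun z => ψ z * (β z₀ - β z) := by
      funext z; ring
    unfold Cl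
    rw [e]
    refine (En_cut_le hU hψ1 hh1 (Λ.op m q) (hWU m q) hψa hψ0 hS).trans ?_
    have e2 : En (Λ.W m q) (fun z => β z₀ - β z) = En (Λ.W m q) β := by
      unfold En
      simp only [fderiv_const_sub, enorm_neg]
    have h1 : ENNReal.ofReal ((2 * B) ^ 2) * En U ψ ≤ ENNReal.ofReal (η ^ 2 / 4) := by
      refine (mul_le_mul_right hψE _).trans ?_
      rw [← ENNReal.ofReal_mul (by positivity)]
      apply ENNReal.ofReal_le_ofReal
      rw [← mul_div_assoc, div_le_div_iff₀ (by positivity) (by norm_num)]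
      nlinarith [sq_nonneg η]
    have h2 := hN m hmN q
    rw [e2]
    refine (add_le_add (mul_le_mul_right h1 2) (mul_le_mul_right h2 2)).trans (le_of_eq ?_)
    rw [← ENNReal.ofReal_ofNat 2, ← ENNReal.ofReal_mul (by norm_num),
      ← ENNReal.ofReal_add (by positivity) (by positivity)]
    congr 1; ring
  · intro a b hab z hz
    have h1 := hab z hz
    have h2 := hab z₀ hz₀
    have h3 := hψ01 z
    constructor
    · show a ≤ β z + ψ z * (β z₀ - β z)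
      nlinarith [mul_nonneg h3.1 (sub_nonneg.2 h2.1),
        mul_nonneg (sub_nonneg.2 h3.2) (sub_nonneg.2 h1.1)]
    · show β z + ψ z * (β z₀ - β z) ≤ b
      nlinarith [mul_nonneg h3.1 (sub_nonneg.2 h2.2),
        mul_nonneg (sub_nonneg.2 h3.2) (sub_nonneg.2 h1.2)]
  · intro z hz z' hz'
    have h1 := hn₁ z (Λ.W_mono hm1 q hz)
    have h2 := hn₁ z' (Λ.W_mono hm1 q hz')
    unfold Lumps.osc
    linarith [h1.2, h2.1]
  · obtain ⟨h1, h2⟩ := val_eq Λ hbd (q := q) (n := n) (a := β z₀) fun z hz => by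
      rw [hn z hz]; ring
    unfold Lumps.osc
    rw [h2, show Λ.lo _ q = β z₀ from h1, sub_self]
  · intro q'
    obtain ⟨s, hs⟩ := hlim q'
    have hs01 : 0 ≤ s ∧ s ≤ 1 := by
      constructor
      · refine le_of_forall_pos_le_add fun δ hδ => ?_
        obtain ⟨k, hk⟩ := hs δ hδ
        obtain ⟨z, hz⟩ := (Λ.conn k q').nonempty
        linarith [(abs_le.1 (hk z hz)).2, (hψ01 z).1]
      · refine le_of_forall_pos_le_add fun δ hδ => ?_
        obtain ⟨k, hk⟩ := hs δ hδ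
        obtain ⟨z, hz⟩ := (Λ.conn k q').nonempty
        linarith [(abs_le.1 (hk z hz)).1, (hψ01 z).2]
    refine Λ.osc_le hbd fun δ hδ => ?_
    obtain ⟨k₁, hk₁⟩ := Λ.near hβ.bdd q' (show 0 < δ / 4 by positivity)
    obtain ⟨k₂, hk₂⟩ := hs (δ / (4 * (2 * B + 1))) (by positivity)
    refine ⟨max k₁ k₂, fun z hz z' hz' => ?_⟩
    have key : ∀ w ∈ Λ.W (max k₁ k₂) q', |(ψ w - s) * (β z₀ - β w)| ≤ δ / 4 := by
      intro w hw
      rw [abs_mul]
      refine (mul_le_mul (hk₂ w (Λ.W_mono (le_max_right _ _) q' hw)) (hS w (hWU _ _ hw))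
        (abs_nonneg _) (by positivity)).trans ?_
      rw [div_mul_eq_mul_div, div_le_div_iff₀ (by positivity) (by norm_num)]
      nlinarith
    have h1 := hk₁ z (Λ.W_mono (le_max_left _ _) q' hz)
    have h2 := hk₁ z' (Λ.W_mono (le_max_left _ _) q' hz')
    have h3 := abs_le.1 (key z hz)
    have h4 := abs_le.1 (key z' hz')
    have h5 := Λ.osc_nonneg hβ.bdd q'
    have h6 : β z - β z' ≤ Λ.osc β q' + δ / 2 := by
      unfold Lumps.osc; linarith [h1.2, h2.1]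
    have h7 : (1 - s) * (β z - β z') ≤ (1 - s) * (Λ.osc β q' + δ / 2) :=
      mul_le_mul_of_nonneg_left h6 (by linarith [hs01.2])
    have h8 : 0 ≤ s * (Λ.osc β q' + δ / 2) := mul_nonneg hs01.1 (by linarith)
    show β z + ψ z * (β z₀ - β z) - (β z' + ψ z' * (β z₀ - β z')) ≤ _
    nlinarith [h3.2, h4.1]

end Crest.Agent.R105
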