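import Crest.Agent.R105.NAdm

/-! Row 105, block HB: algebra of admissible weights. -/

set_option autoImplicit false

open MeasureTheory Set Filter Topology
open scoped ENNReal

namespace Crest.Agent.R105

variable {U : Set ℂ} {Λ : Lumps U} {M : Set (ℂ → ℝ)}

/-- `om_add_left`, `XX.mul_A0`, `XX.comp_C1`, `wt_l2`, `L2w.summable_mul` -/
theorem Adm.add (hU : IsOpen U) (hM : ∀ r ∈ M, Reg Λ r) {F : Finset Λ.E} {u v : ℂ → ℝ}
    {e e' : Λ.E → ℝ} (hu : XX U u) (hv : XX U v) (h : Adm Λ M F u e) (h' : Adm Λ M F v e') :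
    Adm Λ M F (fun z => u z + v z) (fun q => e q + e' q) := by
  refine ⟨(h.l2.add h'.l2).1, fun r hr H hH χ hχ h0 => ?_⟩
  have hc : XX U fun z => H (r z) := XX.comp_C1 hU hH (hM r hr).xx (hM r hr).bdd
  have hw := wt_l2 Λ (hM r hr) hH hχ
  simp only [add_mul]
  rw [om_add_left hU (hu.mul_A0 hU Λ hχ) (hv.mul_A0 hU Λ hχ) hc,
    (h.l2.summable_mul hw).1.tsum_add (h'.l2.summable_mul hw).1]
  exact (abs_add_le _ _).trans (add_le_add (h.le r hr H hH χ hχ h0) (h'.le r hr H hH χ hχ h0))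

theorem Adm.smul {F : Finset Λ.E} {u : ℂ → ℝ} {e : Λ.E → ℝ} (h : Adm Λ M F u e) (a : ℝ) :
    Adm Λ M F (fun z => a * u z) (fun q => |a| * e q) := by
  refine ⟨(h.l2.smul (abs_nonneg a)).1, fun r hr H hH χ hχ h0 => ?_⟩
  simp only [mul_assoc]
  rw [om_smul_left, abs_mul, tsum_mul_left]
  exact mul_le_mul_of_nonneg_left (h.le r hr H hH χ hχ h0) (abs_nonneg a)

theorem Adm.neg {F : Finset Λ.E} {u : ℂ → ℝ} {e : Λ.E → ℝ} (h : Adm Λ M F u e) :
    Adm Λ M F (fun z => - u z) e := by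
  simpa using h.smul (-1)

theorem Adm.sub (hU : IsOpen U) (hM : ∀ r ∈ M, Reg Λ r) {F : Finset Λ.E} {u v : ℂ → ℝ}
    {e e' : Λ.E → ℝ} (hu : XX U u) (hv : XX U v) (h : Adm Λ M F u e) (h' : Adm Λ M F v e') :
    Adm Λ M F (fun z => u z - v z) (fun q => e q + e' q) := by
  simpa only [sub_eq_add_neg] using Adm.add hU hM hu hv.neg h h'.neg

theorem Adm.congr (hU : IsOpen U) {F : Finset Λ.E} {u v : ℂ → ℝ} {e : Λ.E → ℝ}
    (h : Adm Λ M F u e) (he : EqOn u v U) : Adm Λ M F v e := by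
  refine ⟨h.l2, fun r hr H hH ψ hψ h0 => ?_⟩
  rw [← om_congr hU (u := fun z => u z * ψ z) (fun z hz => by simp only [he hz])
    (fun _ _ => rfl)]
  exact h.le r hr H hH ψ hψ h0

/-- `om_skew`, `om_A0` for the product `a χ ∈ A₀` -/
theorem Adm.of_A0 (hU : IsOpen U) (hM : ∀ r ∈ M, Reg Λ r) (F : Finset Λ.E) {a : ℂ → ℝ}
    (ha : A0 U a) : Adm Λ M F a (fun _ => 0) := by
  refine ⟨⟨fun _ => le_rfl, by simpa using summable_zero⟩, fun r hr H hH ψ hψ _ => ?_⟩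
  rw [om_skew, om_A0 hU (XX.comp_C1 hU hH (hM r hr).xx (hM r hr).bdd).lip (ha.mul hU Λ hψ).1]
  simp

/-- test with `ψ χ ∈ A₀` (`A0.mul`): `wt (ψ χ) = |val ψ| wt χ`; `val ψ` is bounded (`A0.bdd`) -/
theorem Adm.mul_A0 (hU : IsOpen U) {F : Finset Λ.E} {u ψ : ℂ → ℝ} {e : Λ.E → ℝ}
    (h : Adm Λ M F u e) (hψ : A0 U ψ) :
    Adm Λ M F (fun z => u z * ψ z) (fun q => |Λ.val ψ q| * e q) := by
  obtain ⟨B, hB⟩ := hψ.bdd Λ
  obtain ⟨N, hN⟩ := hψ.eq_val Λ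
  have hB' : ∀ q, |Λ.val ψ q| ≤ |B| := fun q => by
    obtain ⟨z, hz⟩ := (Λ.conn N q).nonempty
    rw [← hN N le_rfl q z hz]
    exact (hB z (Λ.sub N q hz).1).trans (le_abs_self B)
  refine ⟨((h.l2.smul (abs_nonneg B)).1.of_le
    (fun q => mul_nonneg (abs_nonneg _) (h.l2.1 q)) fun q =>
      mul_le_mul_of_nonneg_right (hB' q) (h.l2.1 q)).1,
    fun r hr H hH χ hχ h0 => ?_⟩
  obtain ⟨h1, h2⟩ := hψ.mul hU Λ hχ
  have := h.le r hr H hH _ h1 fun p hp => by rw [h2, h0 p hp, mul_zero]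
  simp only [mul_assoc]
  refine this.trans (le_of_eq (tsum_congr fun q => ?_))
  simp only [wt, h2, abs_mul]
  ring

theorem Adm.sum (hU : IsOpen U) (hM : ∀ r ∈ M, Reg Λ r) {F : Finset Λ.E} {ι : Type*}
    (s : Finset ι) {u : ι → ℂ → ℝ} {e : ι → Λ.E → ℝ} (hu : ∀ i ∈ s, XX U (u i))
    (h : ∀ i ∈ s, Adm Λ M F (u i) (e i)) :
    Adm Λ M F (fun z => ∑ i ∈ s, u i z) (fun q => ∑ i ∈ s, e i q) := by
  classical
  induction s using Finset.induction_on with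
  | empty => simpa using Adm.of_A0 hU hM F (A0.const 0)
  | insert i s hi ih =>
    simp only [Finset.sum_insert hi]
    exact Adm.add hU hM (hu i (Finset.mem_insert_self _ _))
      (XX.sum hU s fun j hj => hu j (Finset.mem_insert_of_mem hj))
      (h i (Finset.mem_insert_self _ _))
      (ih (fun j hj => hu j (Finset.mem_insert_of_mem hj))
        fun j hj => h j (Finset.mem_insert_of_mem hj))

/-- The weight only depends on the germs at the ends, lump by lump: `om_le_of_lumps` at level `n`;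
for the lump of `p` choose `g` from `h p`; `om (u ψ) = om (g ψ)` by `om_germ_congr` (at ends of
other lumps `ψ = 0` on deep lumps, `A0.eq_val`; inside the lump use the level given by `h`). -/
theorem Adm.glue (hU : IsOpen U) (hM : ∀ r ∈ M, Reg Λ r) {u : ℂ → ℝ} {e : Λ.E → ℝ} (hu : XX U u)
    (he : L2w e) (n : ℕ)
    (h : ∀ p, ∃ g e', XX U g ∧ Adm Λ M ∅ g e' ∧ ∀ q, Λ.W n q = Λ.W n p →
      e' q ≤ e q ∧ ∃ m, ∀ z ∈ Λ.W m q, u z = g z) : Adm Λ M ∅ u e := by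
  classical
  refine ⟨he, fun r hr H hH χ hχ _ => ?_⟩
  have hc : XX U (fun z => H (r z)) := XX.comp_C1 hU hH (hM r hr).xx (hM r hr).bdd
  refine om_le_of_lumps hU (hM r hr) hH hu hχ he n fun p ψ hψ hval => ?_
  obtain ⟨N', hN'⟩ := A0.eq_val Λ hψ
  obtain ⟨g, e', hg, hA, hq⟩ := h p
  have hw := wt_l2 Λ (hM r hr) hH hψ
  rw [om_germ_congr hU Λ (XX.mul_A0 hU Λ hu hψ) (XX.mul_A0 hU Λ hg hψ) hc hc fun q => ?_]
  · refine (hA.le r hr H hH ψ hψ (by simp)).trans (Summable.tsum_le_tsum (fun q => ?_)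
      (hA.l2.summable_mul hw).1 (he.summable_mul hw).1)
    by_cases hqp : Λ.W n q = Λ.W n p
    · exact mul_le_mul_of_nonneg_right (hq q hqp).1 (hw.1 q)
    · have h0 : wt Λ r H ψ q = 0 := by
        rw [wt, hval q, if_neg hqp, abs_zero, zero_mul]
      rw [h0, mul_zero, mul_zero]
  · by_cases hqp : Λ.W n q = Λ.W n p
    · obtain ⟨m, hm⟩ := (hq q hqp).2
      exact ⟨m, 0, 0, fun z hz => by rw [hm z hz, add_zero], fun z _ => (add_zero _).symm⟩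
    · refine ⟨N', 0, 0, fun z hz => ?_, fun z _ => (add_zero _).symm⟩
      rw [hN' N' le_rfl q z hz, hval, if_neg hqp]
      simp

/-- limits in energy keep a common weight: `om (u χ) (H r) = om u (H r * χ)` (`om_mul_swap`),
`om_sub_left`, `abs_om_le`. -/
theorem Adm.limit_En (hU : IsOpen U) (hM : ∀ r ∈ M, Reg Λ r) {F : Finset Λ.E} {u : ℂ → ℝ}
    {uk : ℕ → ℂ → ℝ} {e : Λ.E → ℝ} (hu : XX U u) (huk : ∀ k, XX U (uk k))
    (hl : Tendsto (fun k => En U (fun z => uk k z - u z)) atTop (𝓝 0))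
    (h : ∀ k, Adm Λ M F (uk k) e) : Adm Λ M F u e := by
  refine ⟨(h 0).l2, fun r hr H hH χ hχ h0 => ?_⟩
  have hc : XX U fun z => H (r z) := XX.comp_C1 hU hH (hM r hr).xx (hM r hr).bdd
  have hc' := XX.mul_A0 hU Λ hc hχ
  have h2 : Tendsto (fun k => Real.sqrt (En U (fun z => uk k z - u z)).toReal *
      Real.sqrt (En U (fun z => H (r z) * χ z)).toReal) atTop (𝓝 0) := by
    have h3 := ((ENNReal.tendsto_toReal ENNReal.zero_ne_top).comp hl).sqrt.mul_const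
      (Real.sqrt (En U (fun z => H (r z) * χ z)).toReal)
    simpa using h3
  have h1 : Tendsto (fun k => om U (uk k) (fun z => H (r z) * χ z)) atTop
      (𝓝 (om U u (fun z => H (r z) * χ z))) := by
    rw [tendsto_iff_norm_sub_tendsto_zero]
    refine squeeze_zero (fun _ => norm_nonneg _) (fun k => ?_) h2
    rw [Real.norm_eq_abs, ← om_sub_left hU (huk k) hu hc']
    exact abs_om_le ((huk k).sub hU hu).en hc'.en
  rw [om_mul_swap hU Λ hu hc hχ]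
  refine le_of_tendsto' h1.abs fun k => ?_
  rw [← om_mul_swap hU Λ (huk k) hc hχ]
  exact (h k).le r hr H hH χ hχ h0

theorem TT.add (hU : IsOpen U) (hM : ∀ r ∈ M, Reg Λ r) {u v : ℂ → ℝ} (hu : TT Λ M u)
    (hv : TT Λ M v) : TT Λ M (fun z => u z + v z) :=
  ⟨hu.1.add hU hv.1, _, hu.2.choose_spec.add hU hM hu.1 hv.1 hv.2.choose_spec⟩

theorem TT.smul {u : ℂ → ℝ} (hu : TT Λ M u) (a : ℝ) : TT Λ M (fun z => a * u z) :=
  ⟨hu.1.smul a, _, hu.2.choose_spec.smul a⟩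

theorem TT.mul_A0 (hU : IsOpen U) {u ψ : ℂ → ℝ} (hu : TT Λ M u) (hψ : A0 U ψ) :
    TT Λ M (fun z => u z * ψ z) :=
  ⟨hu.1.mul_A0 hU Λ hψ, _, hu.2.choose_spec.mul_A0 hU hψ⟩

theorem TT.of_A0 (hU : IsOpen U) (hM : ∀ r ∈ M, Reg Λ r) {a : ℂ → ℝ} (ha : A0 U a) : TT Λ M a :=
  ⟨ha.xx, _, Adm.of_A0 hU hM ∅ ha⟩

theorem TT.sum (hU : IsOpen U) (hM : ∀ r ∈ M, Reg Λ r) {ι : Type*} (s : Finset ι)
    {u : ι → ℂ → ℝ} (hu : ∀ i ∈ s, TT Λ M (u i)) : TT Λ M (fun z => ∑ i ∈ s, u i z) := by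
  classical
  choose! e he using fun i hi => (hu i hi).2
  exact ⟨XX.sum hU s fun i hi => (hu i hi).1, _, Adm.sum hU hM s (fun i hi => (hu i hi).1) he⟩

theorem h25_W_iff {n m : ℕ} (h : n ≤ m) {q q' : Λ.E} (e : Λ.W n q = Λ.W m q') (p : Λ.E) :
    Λ.W n p = Λ.W n q ↔ Λ.W m p = Λ.W m q' := by
  refine ⟨fun e' => (Λ.part m p q').resolve_right fun hd => ?_,
    fun e' => Λ.W_eq_of_subset h (e'.trans e.symm).subset⟩
  obtain ⟨z, hz⟩ := (Λ.conn m p).nonempty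
  exact Set.disjoint_left.1 hd hz (e ▸ e' ▸ Λ.W_mono h p hz)

/-- `Ind` only depends on the lump as a set (`Lumps.W_eq_of_le`, `Lumps.W_eq_of_subset`). -/
theorem Ind.of_eq {n m : ℕ} {q q' : Λ.E} {χ : ℂ → ℝ} (h : Ind Λ n q χ)
    (e : Λ.W n q = Λ.W m q') : Ind Λ m q' χ := by
  refine ⟨h.1, fun p => (h.2 p).trans (if_congr ?_ rfl rfl)⟩
  rcases le_total n m with hl | hl
  · exact h25_W_iff hl e p
  · exact (h25_W_iff hl e.symm p).symm

/-- two indicators of the same lump give the same pairing (`om_germ_congr`, `A0.eq_val`) -/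
theorem Ind.om_eq (hU : IsOpen U) {n : ℕ} {q : Λ.E} {χ χ' u c : ℂ → ℝ} (h : Ind Λ n q χ)
    (h' : Ind Λ n q χ') (hu : XX U u) (hc : XX U c) :
    om U (fun z => u z * χ z) c = om U (fun z => u z * χ' z) c := by
  obtain ⟨N, hN⟩ := h.1.eq_val Λ
  obtain ⟨N', hN'⟩ := h'.1.eq_val Λ
  refine om_germ_congr hU Λ (hu.mul_A0 hU Λ h.1) (hu.mul_A0 hU Λ h'.1) hc hc fun p =>
    ⟨max N N', 0, 0, fun z hz => ?_, fun z _ => (add_zero _).symm⟩
  rw [hN _ (le_max_left _ _) p z hz, hN' _ (le_max_right _ _) p z hz, h.2, h'.2, add_zero]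

/-- splitting a pairing into the lumps of one level (`om_germ_congr`, `om_sum_left`) -/
theorem om_eq_sum_lumps (hU : IsOpen U) {n : ℕ} {Q : Finset Λ.E}
    (hQ : ∀ q, ∃ p ∈ Q, Λ.W n q = Λ.W n p)
    (hd : ∀ p ∈ Q, ∀ p' ∈ Q, p ≠ p' → Disjoint (Λ.W n p) (Λ.W n p')) {χ : Λ.E → ℂ → ℝ}
    (hχ : ∀ p ∈ Q, Ind Λ n p (χ p)) {u c : ℂ → ℝ} (hu : XX U u) (hc : XX U c) :
    om U u c = ∑ p ∈ Q, om U (fun z => u z * χ p z) c := by
  have hX : ∀ p ∈ Q, XX U fun z => u z * χ p z := fun p hp => hu.mul_A0 hU Λ (hχ p hp).1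
  rw [← om_sum_left hU Q hX hc]
  obtain ⟨hA, hv⟩ := A0.sum hU Λ Q (fun _ => 1) fun p hp => (hχ p hp).1
  obtain ⟨N, hN⟩ := hA.eq_val Λ
  refine om_germ_congr hU Λ hu (XX.sum hU Q hX) hc hc fun q =>
    ⟨N, 0, 0, fun z hz => ?_, fun z _ => (add_zero _).symm⟩
  have h1 := (hN N le_rfl q z hz).trans (hv q)
  simp only [one_mul] at h1
  obtain ⟨p, hp, e⟩ := hQ q
  rw [add_zero, ← Finset.mul_sum, h1, Finset.sum_eq_single_of_mem p hp, (hχ p hp).2, if_pos e,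
    mul_one]
  intro p' hp' hne
  rw [(hχ p' hp').2, if_neg]
  intro e'
  have := hd p' hp' p hp hne
  rw [← e', ← e, disjoint_self] at this
  exact (Λ.conn n q).nonempty.ne_empty this

/-- subadditivity and homogeneity of the oscillation (`Lumps.osc_comp2_le`) -/
theorem Lumps.osc_lin_le (Λ : Lumps U) {u v : ℂ → ℝ} (hu : Bdd U u) (hv : Bdd U v) (a b : ℝ)
    (q : Λ.E) : Λ.osc (fun z => a * u z + b * v z) q ≤ |a| * Λ.osc u q + |b| * Λ.osc v q := by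
  refine Λ.osc_comp2_le hu hv (G := fun s t => a * s + b * t) (abs_nonneg a) (abs_nonneg b)
    (fun s t s' t' => ?_) q
  rw [← abs_mul, ← abs_mul, show a * s + b * t - (a * s' + b * t') = a * (s - s') + b * (t - t') by
    ring]
  exact abs_add_le _ _

theorem A0.osc_eq (Λ : Lumps U) {a : ℂ → ℝ} (ha : A0 U a) (q : Λ.E) : Λ.osc a q = 0 := by
  obtain ⟨N, hN⟩ := ha.eq_val Λ
  exact sub_eq_zero.2 (val_eq Λ (ha.bdd Λ) (hN N le_rfl q)).2

end Crest.Agent.R105
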