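import Crest.Agent.R105.NAdm
import Crest.Agent.R105.HWeyl
import Crest.Agent.R105.HPrim

/-! Row 105, block HB: nearest points in `L²(U) ⊕ ℓ²(E)` and conjugate functions. -/

set_option autoImplicit false

open MeasureTheory Set Filter Topology
open scoped ENNReal

namespace Crest.Agent.R105

noncomputable section

variable {U : Set ℂ}

/-- the gradient as a complex number -/
def grd (u : ℂ → ℝ) (z : ℂ) : ℂ := ⟨fderiv ℝ u z 1, fderiv ℝ u z Complex.I⟩

/-- the Dirichlet inner product -/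
def ip (U : Set ℂ) (u v : ℂ → ℝ) : ℝ :=
  ∫ z in U, (fderiv ℝ u z 1 * fderiv ℝ v z 1 + fderiv ℝ u z Complex.I * fderiv ℝ v z Complex.I)

/-- operator norm of a real functional on `ℂ` = Euclidean norm of its gradient
(`h99_clm_apply`, Cauchy-Schwarz, test on the gradient itself as in `abs_wd_le`). -/
theorem norm_grd (u : ℂ → ℝ) (z : ℂ) : ‖grd u z‖ = ‖fderiv ℝ u z‖ := by
  unfold grd
  set a := fderiv ℝ u z
  set w : ℂ := ⟨a 1, a Complex.I⟩ with hw
  have ha : ∀ v : ℂ, a v = (v * (starRingEnd ℂ) w).re := fun v => by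
    conv_lhs => rw [← Complex.re_add_im v, h99_clm_apply]
    simp [hw]
  refine le_antisymm ?_ (a.opNorm_le_bound (norm_nonneg _) fun v => ?_)
  · have h1 : a w = ‖w‖ ^ 2 := by
      rw [ha, Complex.mul_conj, Complex.ofReal_re, Complex.sq_norm]
    have h2 := a.le_opNorm w
    rw [h1, Real.norm_eq_abs, abs_of_nonneg (sq_nonneg _), sq] at h2
    rcases (norm_nonneg w).eq_or_lt with h0 | h0
    · rw [← h0]; exact norm_nonneg _
    · exact le_of_mul_le_mul_right h2 h0
  · rw [ha, Real.norm_eq_abs]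
    refine (Complex.abs_re_le_norm _).trans ?_
    rw [norm_mul, Complex.norm_conj, mul_comm]

theorem measurable_grd (u : ℂ → ℝ) : Measurable (grd u) := by
  have : grd u = fun z => ((fderiv ℝ u z 1 : ℝ) : ℂ) + ((fderiv ℝ u z Complex.I : ℝ) : ℂ) * Complex.I := by
    funext z
    apply Complex.ext <;> simp [grd]
  rw [this]
  exact (Complex.measurable_ofReal.comp (measurable_fderiv_apply_const ℝ u 1)).add
    ((Complex.measurable_ofReal.comp (measurable_fderiv_apply_const ℝ u Complex.I)).mul_const _)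

theorem memLp_grd {u : ℂ → ℝ} (hu : En U u < ⊤) : MemLp (grd u) 2 (volume.restrict U) := by
  refine (memLp_two_iff_integrable_sq_norm (measurable_grd u).aestronglyMeasurable).2
    ⟨((measurable_grd u).norm.pow_const 2).aestronglyMeasurable, ?_⟩
  unfold En at hu
  unfold HasFiniteIntegral
  refine lt_of_eq_of_lt (lintegral_congr fun z => ?_) hu
  rw [enorm_pow, norm_grd, enorm_norm]

theorem int_grd_sq {u : ℂ → ℝ} (hu : En U u < ⊤) :
    ∫ z in U, ‖grd u z‖ ^ 2 = (En U u).toReal := by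
  have _ := hu
  rw [integral_eq_lintegral_of_nonneg_ae (Eventually.of_forall fun z => sq_nonneg _)
    ((measurable_grd u).norm.pow_const 2).aestronglyMeasurable]
  unfold En
  congr 1
  refine lintegral_congr fun z => ?_
  rw [ENNReal.ofReal_pow (norm_nonneg _), norm_grd, ofReal_norm_eq_enorm]

/-- An `L²` field `G` that is orthogonal to the gradients and to the rotated gradients of all
`a ∈ A₀` is the conjugate of the derivative of a holomorphic function: `hb_weyl` for `conj G`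
(test functions are in `A₀` by `A0.of_smooth`), `hb_prim` for the holomorphic representative. -/
theorem hb_conj (hU : IsOpen U) (hc : IsPreconnected U) {G : ℂ → ℂ}
    (hG : MemLp G 2 (volume.restrict U))
    (h1 : ∀ a, A0 U a →
      ∫ z in U, ((G z).re * fderiv ℝ a z 1 + (G z).im * fderiv ℝ a z Complex.I) = 0)
    (h2 : ∀ a, A0 U a →
      ∫ z in U, ((G z).re * fderiv ℝ a z Complex.I - (G z).im * fderiv ℝ a z 1) = 0) :
    ∃ F : ℂ → ℂ, DifferentiableOn ℂ F U ∧
      G =ᵐ[volume.restrict U] grd (fun z => (F z).re) := by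
  have hG' : MemLp (fun z => (starRingEnd ℂ) (G z)) 2 (volume.restrict U) :=
    Complex.conjCLE.toContinuousLinearMap.comp_memLp' hG
  have key : ∀ a, A0 U a → ∫ z in U, (starRingEnd ℂ) (G z) *
      (((fderiv ℝ a z 1 : ℝ) : ℂ) + Complex.I * ((fderiv ℝ a z Complex.I : ℝ) : ℂ)) = 0 := by
    intro a ha
    have hi : Integrable (fun z => (starRingEnd ℂ) (G z) *
        (((fderiv ℝ a z 1 : ℝ) : ℂ) + Complex.I * ((fderiv ℝ a z Complex.I : ℝ) : ℂ)))
        (volume.restrict U) := by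
      refine (hG'.integrable_mul (memLp_grd ha.xx.en)).congr (Eventually.of_forall fun z => ?_)
      simp only [Pi.mul_apply]
      congr 1
      apply Complex.ext <;> simp [grd]
    apply Complex.ext
    · have := integral_re hi
      simp only [RCLike.re_to_complex] at this
      rw [← this, Complex.zero_re, ← h1 a ha]
      refine integral_congr_ae (Eventually.of_forall fun z => ?_)
      simp
    · have := integral_im hi
      simp only [RCLike.im_to_complex] at this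
      rw [← this, Complex.zero_im, ← h2 a ha]
      refine integral_congr_ae (Eventually.of_forall fun z => ?_)
      simp [sub_eq_add_neg]
  obtain ⟨h, hh, hae⟩ := hb_weyl hU hG' fun φ hφ hφc hφs =>
    key φ (A0.of_smooth hU (hφ.of_le (by exact_mod_cast le_top)) hφc
      ((tsupport_fderiv_subset ℝ).trans hφs))
  obtain ⟨F, hF⟩ := hb_prim hU hc hh fun a ha hac has => by
    rw [← key a (A0.of_smooth hU (ha.of_le (by exact_mod_cast le_top)) hac has)]
    refine integral_congr_ae ?_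
    filter_upwards [hae] with z hz
    rw [← hz]
  refine ⟨F, fun z hz => (hF z hz).differentiableAt.differentiableWithinAt, ?_⟩
  filter_upwards [hae, ae_restrict_mem hU.measurableSet] with z hz hzU
  have hd : HasFDerivAt (fun z => (F z).re)
      (Complex.reCLM.comp ((ContinuousLinearMap.toSpanSingleton ℂ (h z)).restrictScalars ℝ)) z :=
    Complex.reCLM.hasFDerivAt.comp z ((hF z hzU).hasFDerivAt.restrictScalars ℝ)
  unfold grd
  rw [hd.fderiv, ← hz]
  apply Complex.ext <;> simp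

private theorem h1_fd {F : ℂ → ℂ} {z : ℂ} (hF : DifferentiableAt ℂ F z) (L : ℂ →L[ℝ] ℝ) (w : ℂ) :
    fderiv ℝ (fun z => L (F z)) z w = L (w * deriv F z) := by
  have h := (L.hasFDerivAt.comp z (hF.hasDerivAt.hasFDerivAt.restrictScalars ℝ)).fderiv
  exact congrArg (fun A : ℂ →L[ℝ] ℝ => A w) h

private theorem h1_lip (hU : IsOpen U) {f : ℂ → ℝ} (hf : ContDiffOn ℝ (⊤ : ℕ∞) f U) :
    LocallyLipschitzOn U f := fun z hz => by
  obtain ⟨K, t, ht, h⟩ := ((hf.contDiffAt (hU.mem_nhds hz)).of_le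
    (m := 1) (by exact_mod_cast le_top)).exists_lipschitzOnWith
  exact ⟨K, t, mem_nhdsWithin_of_mem_nhds ht, h⟩

/-- Cutting the conjugate function off near infinity.  Take a smooth `ξ` with compact support equal
to `1` on `closedBall 0 (R+1)` (`ContDiffBump`), `c = ξ * Im F`.  `c ∈ XX` (the gradient of `ξ` lives
in a compact subset of `U` by `Λ.far`; `‖∇ Im F‖ = ‖∇ Re F‖` by Cauchy-Riemann).  Pointwise
`wd w (Im F) = ∇w · ∇ Re F` on `U`.  For `w ∈ XX` with value `w∞` at infinity and a smooth `ξ'` equal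
to `1` on `closedBall 0 R` and supported in `ball 0 (R+1)`: `d = (1 - ξ) Im F` has finite energy,
`wd (ξ' (w - w∞)) d = 0` pointwise, and `(1 - ξ') (w - w∞)` vanishes off a compact subset of `U`
(`om_cpt`); so `∫ wd w d = 0`. -/
theorem hb_cut (hU : IsOpen U) (Λ : Lumps U) {F : ℂ → ℂ} (hF : DifferentiableOn ℂ F U)
    (hE : En U (fun z => (F z).re) < ⊤) :
    ∃ c, XX U c ∧ ContDiffOn ℝ (⊤ : ℕ∞) c U ∧ (∀ z, ‖z‖ ≤ Λ.R → c z = (F z).im) ∧
      ∀ w, XX U w → om U w c = ip U w (fun z => (F z).re) := by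
  obtain ⟨R, hR0, hR⟩ : ∃ R : ℝ, 0 ≤ R ∧ Λ.R ≤ R := ⟨|Λ.R|, abs_nonneg _, le_abs_self _⟩
  have hfar : ∀ z : ℂ, R ≤ ‖z‖ → z ∈ U := fun z hz => Λ.far z (hR.trans hz)
  let ξ : ContDiffBump (0 : ℂ) := ⟨R + 3, R + 4, by linarith, by linarith⟩
  let ξ' : ContDiffBump (0 : ℂ) := ⟨R + 1, R + 2, by linarith, by linarith⟩
  have x1 : ∀ z : ℂ, ‖z‖ ≤ R + 3 → ξ z = 1 := fun z hz =>
    ξ.one_of_mem_closedBall (mem_closedBall_zero_iff.2 hz)
  have x0 : ∀ z : ℂ, R + 4 ≤ ‖z‖ → ξ z = 0 := fun z hz =>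
    ξ.zero_of_le_dist (by rwa [dist_zero_right])
  have y1 : ∀ z : ℂ, ‖z‖ ≤ R + 1 → ξ' z = 1 := fun z hz =>
    ξ'.one_of_mem_closedBall (mem_closedBall_zero_iff.2 hz)
  have y0 : ∀ z : ℂ, R + 2 ≤ ‖z‖ → ξ' z = 0 := fun z hz =>
    ξ'.zero_of_le_dist (by rwa [dist_zero_right])
  have hlt : ∀ (z : ℂ) (a : ℝ), ‖z‖ < a → ∀ᶠ w in 𝓝 z, ‖w‖ < a := fun z a h =>
    continuous_norm.continuousAt.eventually_lt_const h
  have hgt : ∀ (z : ℂ) (a : ℝ), a < ‖z‖ → ∀ᶠ w in 𝓝 z, a < ‖w‖ := fun z a h =>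
    continuous_norm.continuousAt.eventually_const_lt h
  have hd : ∀ z ∈ U, DifferentiableAt ℂ F z := fun z hz => hF.differentiableAt (hU.mem_nhds hz)
  have r1 : ∀ z ∈ U, fderiv ℝ (fun z => (F z).re) z 1 = (deriv F z).re := fun z hz =>
    (h1_fd (hd z hz) Complex.reCLM 1).trans (by simp)
  have r2 : ∀ z ∈ U, fderiv ℝ (fun z => (F z).re) z Complex.I = -(deriv F z).im := fun z hz =>
    (h1_fd (hd z hz) Complex.reCLM Complex.I).trans (by simp)
  have i1 : ∀ z ∈ U, fderiv ℝ (fun z => (F z).im) z 1 = (deriv F z).im := fun z hz =>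
    (h1_fd (hd z hz) Complex.imCLM 1).trans (by simp)
  have i2 : ∀ z ∈ U, fderiv ℝ (fun z => (F z).im) z Complex.I = (deriv F z).re := fun z hz =>
    (h1_fd (hd z hz) Complex.imCLM Complex.I).trans (by simp)
  have hv : ContDiffOn ℝ (⊤ : ℕ∞) (fun z => (F z).im) U :=
    Complex.imCLM.contDiff.comp_contDiffOn ((hF.contDiffOn hU).restrict_scalars ℝ)
  have hEv : En U (fun z => (F z).im) < ⊤ := by
    refine lt_of_eq_of_lt (setLIntegral_congr_fun hU.measurableSet fun z hz => ?_) hE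
    have h : ‖fderiv ℝ (fun z => (F z).im) z‖ = ‖fderiv ℝ (fun z => (F z).re) z‖ := by
      rw [← norm_grd, ← norm_grd, grd, grd, r1 z hz, r2 z hz, i1 z hz, i2 z hz,
        Complex.norm_eq_sqrt_sq_add_sq, Complex.norm_eq_sqrt_sq_add_sq]
      simp only [neg_sq, add_comm]
    simp only [← ofReal_norm, h]
  have hc : ContDiffOn ℝ (⊤ : ℕ∞) (fun z => ξ z * (F z).im) U := ξ.contDiff.contDiffOn.mul hv
  have hA : ∀ a b : ℝ, IsCompact {z : ℂ | a ≤ ‖z‖ ∧ ‖z‖ ≤ b} := fun a b =>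
    (isCompact_closedBall (0 : ℂ) b).of_isClosed_subset
      ((isClosed_le continuous_const continuous_norm).inter
        (isClosed_le continuous_norm continuous_const))
      fun z hz => mem_closedBall_zero_iff.2 hz.2
  have hEc : En U (fun z => ξ z * (F z).im) < ⊤ := by
    obtain ⟨C, hC⟩ := (hA (R + 3) (R + 4)).exists_bound_of_continuousOn
      ((hc.continuousOn_fderiv_of_isOpen hU (by exact_mod_cast le_top)).mono
        fun z hz => hfar z (by linarith [hz.1]))
    have hm := (hA (R + 3) (R + 4)).measurableSet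
    calc En U (fun z => ξ z * (F z).im)
        ≤ ∫⁻ z in U, (‖fderiv ℝ (fun z => (F z).im) z‖ₑ ^ 2 +
            {z : ℂ | R + 3 ≤ ‖z‖ ∧ ‖z‖ ≤ R + 4}.indicator (fun _ => ENNReal.ofReal C ^ 2) z) := by
          refine lintegral_mono fun z => ?_
          by_cases h1 : ‖z‖ < R + 3
          · have h : (fun z => ξ z * (F z).im) =ᶠ[𝓝 z] fun z => (F z).im := by
              filter_upwards [hlt z _ h1] with w hw
              rw [x1 w hw.le, one_mul]
            rw [h.fderiv_eq]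
            exact le_self_add
          by_cases h2 : R + 4 < ‖z‖
          · have h : (fun z => ξ z * (F z).im) =ᶠ[𝓝 z] fun _ => 0 := by
              filter_upwards [hgt z _ h2] with w hw
              rw [x0 w hw.le, zero_mul]
            rw [h.fderiv_eq, ← ofReal_norm]
            simp
          have hz : z ∈ {z : ℂ | R + 3 ≤ ‖z‖ ∧ ‖z‖ ≤ R + 4} := ⟨not_lt.1 h1, not_lt.1 h2⟩
          rw [indicator_of_mem hz]
          refine le_trans ?_ le_add_self
          rw [← ofReal_norm]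
          exact pow_le_pow_left' (ENNReal.ofReal_le_ofReal (hC z hz)) 2
      _ < ⊤ := by
          rw [lintegral_add_right _ (measurable_const.indicator hm)]
          refine ENNReal.add_lt_top.2 ⟨hEv, lt_of_le_of_lt (setLIntegral_le_lintegral _ _) ?_⟩
          rw [lintegral_indicator_const hm]
          exact ENNReal.mul_lt_top (ENNReal.pow_lt_top ENNReal.ofReal_lt_top)
            (hA _ _).measure_lt_top
  refine ⟨fun z => ξ z * (F z).im, ⟨h1_lip hU hc, ⟨R + 4, 0, fun z hz => ?_⟩, hEc⟩, hc,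
    fun z hz => ?_, fun w hw => ?_⟩
  · rw [x0 z hz, zero_mul]
  · simp only [x1 z (by linarith), one_mul]
  obtain ⟨S, a, hS⟩ := hw.inf
  have hw' : LocallyLipschitzOn U fun z => (1 - ξ' z) * (w z - a) :=
    h90_lip_mul (h1_lip hU (contDiff_const.sub ξ'.contDiff).contDiffOn)
      (hw.sub hU (XX.const a)).lip
  have h0 := om_cpt hU hw' (h1_lip hU (hv.sub hc)) (hA (R + 1) S)
    (fun z hz => hfar z (by linarith [hz.1])) fun z _ hz => by
      rcases not_and_or.1 hz with h | h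
      · rw [y1 z (not_le.1 h).le, sub_self, zero_mul]
      · rw [hS z (not_le.1 h).le, sub_self, mul_zero]
  have h1 : om U (fun z => (1 - ξ' z) * (w z - a)) (fun z => (F z).im - ξ z * (F z).im) =
      om U w (fun z => (F z).im) - om U w (fun z => ξ z * (F z).im) := by
    rw [om, om, om, ← integral_sub (wd_integrableOn hw.en hEv) (wd_integrableOn hw.en hEc)]
    refine setIntegral_congr_fun hU.measurableSet fun z hz => ?_
    by_cases h : ‖z‖ < R + 3
    · have e1 : (fun z => ξ z * (F z).im) =ᶠ[𝓝 z] fun z => (F z).im := by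
        filter_upwards [hlt z _ h] with w hw
        rw [x1 w hw.le, one_mul]
      have e2 : (fun z => (F z).im - ξ z * (F z).im) =ᶠ[𝓝 z] fun _ => 0 := by
        filter_upwards [e1] with w hw
        rw [hw, sub_self]
      simp [wd, e1.fderiv_eq, e2.fderiv_eq]
    · have e1 : (fun z => (1 - ξ' z) * (w z - a)) =ᶠ[𝓝 z] fun z => w z - a := by
        filter_upwards [hgt z (R + 2) (by linarith [not_lt.1 h])] with y hy
        rw [y0 y hy.le, sub_zero, one_mul]
      have d1 := (hv.contDiffAt (hU.mem_nhds hz)).differentiableAt (by simp)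
      have d2 := (hc.contDiffAt (hU.mem_nhds hz)).differentiableAt (by simp)
      simp only [wd, e1.fderiv_eq, fderiv_sub_const, fderiv_fun_sub d1 d2, sub_apply]
      ring
  rw [h0, eq_comm, sub_eq_zero] at h1
  rw [← h1]
  refine setIntegral_congr_fun hU.measurableSet fun z hz => ?_
  simp only [wd, r1 z hz, r2 z hz, i1 z hz, i2 z hz]
  ring

theorem h70_near {H : Type*} [NormedAddCommGroup H] [InnerProductSpace ℝ H] [CompleteSpace H]
    (S : Set H) (hne : S.Nonempty) (hc : Convex ℝ S) :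
    ∃ v ∈ closure S, ∀ w ∈ S, ‖v‖ ^ 2 ≤ inner ℝ v w := by
  obtain ⟨v, hv, h⟩ := exists_norm_eq_iInf_of_complete_convex hne.closure
    isClosed_closure.isComplete hc.closure 0
  refine ⟨v, hv, fun w hw => ?_⟩
  have := (norm_eq_iInf_iff_real_inner_le_zero hc.closure hv).1 h w (subset_closure hw)
  rw [zero_sub, inner_neg_left, inner_sub_right, real_inner_self_eq_norm_sq] at this
  linarith

theorem h70_L2_inner (μ : Measure ℂ) (f g : Lp ℂ 2 μ) :
    inner ℝ f g = ∫ z, ((g z).re * (f z).re + (g z).im * (f z).im) ∂μ := by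
  rw [L2.inner_def]
  refine integral_congr_ae (Eventually.of_forall fun z => ?_)
  simp [Complex.inner]

theorem h70_L2_norm (μ : Measure ℂ) (f : Lp ℂ 2 μ) : ‖f‖ ^ 2 = ∫ z, ‖f z‖ ^ 2 ∂μ := by
  rw [← real_inner_self_eq_norm_sq, L2.inner_def]
  refine integral_congr_ae (Eventually.of_forall fun z => ?_)
  exact real_inner_self_eq_norm_sq _

theorem h70_lp_inner {E : Type} (f g : lp (fun _ : E => ℝ) 2) :
    inner ℝ f g = ∑' q, f q * g q := by
  rw [lp.inner_eq_tsum]
  refine tsum_congr fun q => ?_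
  simp [mul_comm]

theorem h70_lp_norm {E : Type} (f : lp (fun _ : E => ℝ) 2) :
    (Summable fun q => f q ^ 2) ∧ nrm f = ‖f‖ := by
  constructor
  · have := lp.summable_inner (𝕜 := ℝ) f f
    refine this.congr fun q => ?_
    simp
  · unfold nrm
    have : ∑' q, f q ^ 2 = ‖f‖ ^ 2 := by
      rw [← real_inner_self_eq_norm_sq, h70_lp_inner]
      exact tsum_congr fun q => sq _
    rw [this, Real.sqrt_sq (norm_nonneg _)]

theorem h70_memlp {E : Type} {e : E → ℝ} (h : Summable fun q => e q ^ 2) :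
    Memℓp (E := fun _ : E => ℝ) e 2 := by
  apply memℓp_gen
  refine h.congr fun q => ?_
  simp

/-- Nearest point in `L²(μ; ℂ) ⊕ ℓ²(E)`, stated for plain functions.  Map `K` into the real Hilbert
space `WithLp 2 (Lp ℂ 2 μ × lp (fun _ : E => ℝ) 2)`, take the closure (closed convex),
`exists_norm_eq_iInf_of_complete_convex` with `u = 0`, `norm_eq_iInf_iff_real_inner_le_zero`.
Coordinates are continuous on `lp` (`lp.norm_apply_le_norm`), which gives `t ≥ 0` and the zeros. -/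
theorem hb_near0 {E : Type} (μ : Measure ℂ) (K : Set ((ℂ → ℂ) × (E → ℝ))) (hne : K.Nonempty)
    (hX : ∀ x ∈ K, MemLp x.1 2 μ ∧ L2w x.2)
    (conv : ∀ x ∈ K, ∀ y ∈ K, ∀ θ : ℝ, 0 ≤ θ → θ ≤ 1 → ∃ w ∈ K,
      (w.1 =ᵐ[μ] fun z => (θ : ℂ) * x.1 z + ((1 - θ : ℝ) : ℂ) * y.1 z) ∧
        w.2 = fun q => θ * x.2 q + (1 - θ) * y.2 q) :
    ∃ (G : ℂ → ℂ) (t : E → ℝ), MemLp G 2 μ ∧ L2w t ∧ (∀ q, (∀ x ∈ K, x.2 q = 0) → t q = 0) ∧
      (∀ x ∈ K, (∫ z, ‖G z‖ ^ 2 ∂μ) + nrm t ^ 2 ≤
        (∫ z, ((x.1 z).re * (G z).re + (x.1 z).im * (G z).im) ∂μ) + ∑' q, t q * x.2 q) ∧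
      ∀ η > 0, ∃ x ∈ K, ∫ z, ‖x.1 z - G z‖ ^ 2 ∂μ ≤ η ∧ nrm (fun q => x.2 q - t q) ≤ η := by
  let S : Set (WithLp 2 (Lp ℂ 2 μ × lp (fun _ : E => ℝ) 2)) :=
    {p | ∃ x ∈ K, (p.fst : ℂ → ℂ) =ᵐ[μ] x.1 ∧ (p.snd : E → ℝ) = x.2}
  have hlift : ∀ x ∈ K, ∃ p ∈ S, (p.fst : ℂ → ℂ) =ᵐ[μ] x.1 ∧ (p.snd : E → ℝ) = x.2 := by
    intro x hx
    have h1 : ((WithLp.toLp 2 ((hX x hx).1.toLp x.1,
        (⟨x.2, h70_memlp (hX x hx).2.2⟩ : lp (fun _ : E => ℝ) 2))).fst : ℂ → ℂ) =ᵐ[μ] x.1 :=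
      MemLp.coeFn_toLp (hX x hx).1
    exact ⟨_, ⟨x, hx, h1, rfl⟩, h1, rfl⟩
  have hSne : S.Nonempty := by
    obtain ⟨x, hx⟩ := hne
    obtain ⟨p, hp, -⟩ := hlift x hx
    exact ⟨p, hp⟩
  have hSc : Convex ℝ S := by
    rintro p ⟨x, hx, hp1, hp2⟩ p' ⟨y, hy, hq1, hq2⟩ a b ha hb hab
    obtain ⟨w, hw, hw1, hw2⟩ := conv x hx y hy a ha (by linarith)
    have eb : b = 1 - a := by linarith
    refine ⟨w, hw, ?_, ?_⟩
    · rw [WithLp.add_fst, WithLp.smul_fst, WithLp.smul_fst]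
      filter_upwards [Lp.coeFn_add (a • p.fst) (b • p'.fst), Lp.coeFn_smul a p.fst,
        Lp.coeFn_smul b p'.fst, hp1, hq1, hw1] with z e1 e2 e3 e4 e5 e6
      rw [e1, Pi.add_apply, e2, e3, Pi.smul_apply, Pi.smul_apply, e4, e5, e6, eb]
      simp
    · rw [WithLp.add_snd, WithLp.smul_snd, WithLp.smul_snd, lp.coeFn_add, lp.coeFn_smul,
        lp.coeFn_smul, hp2, hq2, hw2, eb]
      funext q
      simp
  obtain ⟨v, hv, hmin⟩ := h70_near S hSne hSc
  have happ : ∀ η > 0, ∃ x ∈ K, ∫ z, ‖x.1 z - v.fst z‖ ^ 2 ∂μ ≤ η ^ 2 ∧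
      nrm (fun q => x.2 q - v.snd q) ≤ η ∧ ∀ q, |x.2 q - v.snd q| ≤ η := by
    intro η hη
    obtain ⟨p, ⟨x, hx, hp1, hp2⟩, hd⟩ := Metric.mem_closure_iff.1 hv η hη
    rw [dist_comm, dist_eq_norm] at hd
    have n1 : ‖p.fst - v.fst‖ ≤ η := by
      rw [← WithLp.sub_fst]
      exact (WithLp.norm_fst_le _ _).trans hd.le
    have n2 : ‖p.snd - v.snd‖ ≤ η := by
      rw [← WithLp.sub_snd]
      exact (WithLp.norm_snd_le _ _).trans hd.le
    have e2 : (fun q => x.2 q - v.snd q) = ((p.snd - v.snd : lp (fun _ : E => ℝ) 2) : E → ℝ) := by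
      rw [lp.coeFn_sub, hp2]
      rfl
    refine ⟨x, hx, ?_, ?_, fun q => ?_⟩
    · have e1 : ∫ z, ‖x.1 z - v.fst z‖ ^ 2 ∂μ = ‖p.fst - v.fst‖ ^ 2 := by
        rw [h70_L2_norm]
        refine integral_congr_ae ?_
        filter_upwards [Lp.coeFn_sub p.fst v.fst, hp1] with z e1 e2
        rw [e1, Pi.sub_apply, e2]
      rw [e1]
      exact pow_le_pow_left₀ (norm_nonneg _) n1 2
    · rw [e2, (h70_lp_norm _).2]
      exact n2
    · have := lp.norm_apply_le_norm (p := 2) (by norm_num) (p.snd - v.snd) q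
      rw [← e2] at this
      exact (le_of_eq (Real.norm_eq_abs _).symm).trans (this.trans n2)
  refine ⟨v.fst, v.snd, Lp.memLp _, ⟨fun q => ?_, (h70_lp_norm _).1⟩, fun q hq => ?_,
    fun x hx => ?_, fun η hη => ?_⟩
  · refine le_of_forall_pos_le_add fun η hη => ?_
    obtain ⟨x, hx, -, -, h⟩ := happ η hη
    have h1 := (hX x hx).2.1 q
    have h2 := (abs_le.1 (h q)).2
    linarith
  · have : |v.snd q| ≤ 0 := by
      refine le_of_forall_pos_le_add fun η hη => ?_
      obtain ⟨x, hx, -, -, h⟩ := happ η hη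
      have h2 := h q
      rw [hq x hx, zero_sub, abs_neg] at h2
      linarith
    exact abs_nonpos_iff.1 this
  · obtain ⟨p, hp, hp1, hp2⟩ := hlift x hx
    have h := hmin p hp
    rw [WithLp.prod_norm_sq_eq_of_L2, WithLp.prod_inner_apply, h70_L2_norm, h70_L2_inner,
      h70_lp_inner, ← (h70_lp_norm _).2] at h
    have e1 : ∫ z, ((x.1 z).re * (v.fst z).re + (x.1 z).im * (v.fst z).im) ∂μ =
        ∫ z, ((p.fst z).re * (v.fst z).re + (p.fst z).im * (v.fst z).im) ∂μ := by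
      refine integral_congr_ae ?_
      filter_upwards [hp1] with z e
      rw [e]
    rw [e1, ← hp2]
    exact h
  · obtain ⟨x, hx, h1, h2, -⟩ := happ (min η 1) (lt_min hη one_pos)
    have a1 := min_le_left η 1
    have a2 := min_le_right η 1
    have a3 : 0 < min η 1 := lt_min hη one_pos
    exact ⟨x, hx, h1.trans (by nlinarith), h2.trans a1⟩

theorem h93_grd_add {u v : ℂ → ℝ} {z : ℂ} (hu : DifferentiableAt ℝ u z)
    (hv : DifferentiableAt ℝ v z) : grd (fun z => u z + v z) z = grd u z + grd v z := by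
  apply Complex.ext <;> simp [grd, fderiv_fun_add hu hv]

theorem h93_grd_sub {u v : ℂ → ℝ} {z : ℂ} (hu : DifferentiableAt ℝ u z)
    (hv : DifferentiableAt ℝ v z) : grd (fun z => u z - v z) z = grd u z - grd v z := by
  apply Complex.ext <;> simp [grd, fderiv_fun_sub hu hv]

theorem h93_grd_smul {u : ℂ → ℝ} {z : ℂ} (hu : DifferentiableAt ℝ u z) (a : ℝ) :
    grd (fun z => a * u z) z = (a : ℂ) * grd u z := by
  apply Complex.ext <;> simp [grd, fderiv_const_mul hu]

theorem h93_int_mul {μ : Measure ℂ} {g G : ℂ → ℝ} (hg : MemLp g 2 μ) (hG : MemLp G 2 μ) :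
    Integrable (fun z => g z * G z) μ := hg.integrable_mul hG

theorem h93_re {μ : Measure ℂ} {g : ℂ → ℂ} (hg : MemLp g 2 μ) : MemLp (fun z => (g z).re) 2 μ :=
  hg.re

theorem h93_im {μ : Measure ℂ} {g : ℂ → ℂ} (hg : MemLp g 2 μ) : MemLp (fun z => (g z).im) 2 μ :=
  hg.im

theorem h93_En {u : ℂ → ℝ} {g : ℂ → ℂ} (hg : MemLp g 2 (volume.restrict U))
    (e : g =ᵐ[volume.restrict U] grd u) :
    En U u < ⊤ ∧ (En U u).toReal = ∫ z in U, ‖g z‖ ^ 2 := by
  have i1 := (memLp_two_iff_integrable_sq_norm hg.1).1 hg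
  have h1 : En U u < ⊤ := by
    refine lt_of_le_of_lt (le_of_eq ?_) i1.2
    unfold En
    refine lintegral_congr_ae ?_
    filter_upwards [e] with z hz
    rw [hz, norm_grd, enorm_pow, enorm_norm]
  refine ⟨h1, ?_⟩
  rw [← int_grd_sq h1]
  refine integral_congr_ae ?_
  filter_upwards [e] with z hz
  rw [hz]

theorem h93_amgm (p q r s : ℝ) {δ : ℝ} (hδ : 0 < δ) :
    |p * s - q * r| ≤ δ⁻¹ * (p ^ 2 + q ^ 2) + δ * (r ^ 2 + s ^ 2) := by
  have e : δ⁻¹ * (p ^ 2 + q ^ 2) + δ * (r ^ 2 + s ^ 2) =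
      δ⁻¹ * (p ^ 2 + q ^ 2 + δ ^ 2 * (r ^ 2 + s ^ 2)) := by field_simp
  rw [e, le_inv_mul_iff₀ hδ, ← abs_of_pos hδ, ← abs_mul, abs_of_pos hδ, abs_le]
  constructor
  · nlinarith [sq_nonneg (p + δ * s), sq_nonneg (q - δ * r), sq_nonneg p, sq_nonneg q,
      sq_nonneg (δ * r), sq_nonneg (δ * s)]
  · nlinarith [sq_nonneg (p - δ * s), sq_nonneg (q + δ * r), sq_nonneg p, sq_nonneg q,
      sq_nonneg (δ * r), sq_nonneg (δ * s)]

theorem h93_nsq (w : ℂ) : ‖w‖ ^ 2 = w.re ^ 2 + w.im ^ 2 := by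
  rw [Complex.sq_norm, Complex.normSq_apply]; ring

/-- The nearest point of a convex set of pairs (function, weight) that is invariant under `A₀`.
`hb_near0` for the image of `K` under `grd`.  `G` is orthogonal to `∇A₀` (apply the inequality to
`x + s a`, `s → ±∞`), and to the rotated gradients because it is an `L²` limit of gradients
(`om_A0`, Cauchy-Schwarz); `hb_conj`, `hb_cut`. -/
theorem hb_nearest (hU : IsOpen U) (hc : IsPreconnected U) (Λ : Lumps U)
    (K : Set ((ℂ → ℝ) × (Λ.E → ℝ))) (hne : K.Nonempty) (hX : ∀ x ∈ K, XX U x.1 ∧ L2w x.2)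
    (conv : ∀ x ∈ K, ∀ y ∈ K, ∀ θ : ℝ, 0 ≤ θ → θ ≤ 1 →
      ((fun z => θ * x.1 z + (1 - θ) * y.1 z), fun q => θ * x.2 q + (1 - θ) * y.2 q) ∈ K)
    (hA : ∀ x ∈ K, ∀ a, A0 U a → ((fun z => x.1 z + a z), x.2) ∈ K) :
    ∃ (F : ℂ → ℂ) (c : ℂ → ℝ) (t : Λ.E → ℝ), DifferentiableOn ℂ F U ∧
      En U (fun z => (F z).re) < ⊤ ∧ XX U c ∧ ContDiffOn ℝ (⊤ : ℕ∞) c U ∧
      (∀ z, ‖z‖ ≤ Λ.R → c z = (F z).im) ∧
      (∀ w, XX U w → om U w c = ip U w (fun z => (F z).re)) ∧
      L2w t ∧ (∀ q, (∀ x ∈ K, x.2 q = 0) → t q = 0) ∧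
      (∀ x ∈ K, (En U (fun z => (F z).re)).toReal + nrm t ^ 2 ≤
        om U x.1 c + ∑' q, t q * x.2 q) ∧
      ∀ η > 0, ∃ x ∈ K, En U (fun z => x.1 z - (F z).re) ≤ ENNReal.ofReal η ∧
        nrm (fun q => x.2 q - t q) ≤ η := by
  have hm : MeasurableSet U := hU.measurableSet
  have aeD : ∀ {u : ℂ → ℝ}, XX U u → ∀ᵐ z ∂(volume.restrict U), DifferentiableAt ℝ u z :=
    fun hu => (ae_restrict_iff' hm).2 (ae_diff hU hu.lip)
  obtain ⟨G, t, hG, ht, h0, hineq, happ⟩ := hb_near0 (volume.restrict U)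
    ((fun x : (ℂ → ℝ) × (Λ.E → ℝ) => (grd x.1, x.2)) '' K) (hne.image _)
    (by
      rintro _ ⟨x, hx, rfl⟩
      exact ⟨memLp_grd (hX x hx).1.en, (hX x hx).2⟩)
    (by
      rintro _ ⟨x, hx, rfl⟩ _ ⟨y, hy, rfl⟩ θ h0 h1
      refine ⟨_, ⟨_, conv x hx y hy θ h0 h1, rfl⟩, ?_, rfl⟩
      filter_upwards [aeD (hX x hx).1, aeD (hX y hy).1] with z d1 d2
      show grd (fun z => θ * x.1 z + (1 - θ) * y.1 z) z = _
      rw [h93_grd_add (d1.const_mul θ) (d2.const_mul _), h93_grd_smul d1, h93_grd_smul d2])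
  have iP : ∀ {g : ℂ → ℂ}, MemLp g 2 (volume.restrict U) →
      Integrable (fun z => (g z).re * (G z).re + (g z).im * (G z).im) (volume.restrict U) :=
    fun hg => (h93_int_mul (h93_re hg) (h93_re hG)).add (h93_int_mul (h93_im hg) (h93_im hG))
  have h1 : ∀ a, A0 U a →
      ∫ z in U, ((G z).re * fderiv ℝ a z 1 + (G z).im * fderiv ℝ a z Complex.I) = 0 := by
    intro a ha
    obtain ⟨x, hx⟩ := hne
    set p : ℝ := ∫ z in U, ((grd a z).re * (G z).re + (grd a z).im * (G z).im) with hp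
    have key : ∀ s : ℝ, (∫ z in U, ‖G z‖ ^ 2) + nrm t ^ 2 ≤
        ((∫ z in U, ((grd x.1 z).re * (G z).re + (grd x.1 z).im * (G z).im)) + s * p) +
          ∑' q, t q * x.2 q := by
      intro s
      have hsa : A0 U (fun z => s * a z) := by
        obtain ⟨C, c1, c2, c3⟩ := ha.loc
        refine ⟨ha.xx.smul s, C, c1, c2, fun z hz hzC => ?_⟩
        filter_upwards [c3 z hz hzC] with w hw
        rw [hw]
      have := hineq _ ⟨_, hA x hx _ hsa, rfl⟩
      refine this.trans (le_of_eq ?_)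
      congr 1
      rw [hp, ← integral_const_mul, ← integral_add (iP (memLp_grd (hX x hx).1.en))
        ((iP (memLp_grd ha.xx.en)).const_mul s)]
      refine integral_congr_ae ?_
      filter_upwards [aeD (hX x hx).1, aeD ha.xx] with z d1 d2
      have e : grd (fun z => x.1 z + s * a z) z = grd x.1 z + (s : ℂ) * grd a z := by
        rw [h93_grd_add d1 (d2.const_mul s), h93_grd_smul d2]
      simp only [e, Complex.add_re, Complex.add_im, Complex.re_ofReal_mul, Complex.im_ofReal_mul]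
      ring
    have hp0 : p = 0 := by
      by_contra hne0
      set A := (∫ z in U, ‖G z‖ ^ 2) + nrm t ^ 2
      set B := (∫ z in U, ((grd x.1 z).re * (G z).re + (grd x.1 z).im * (G z).im))
      set T := ∑' q, t q * x.2 q
      have := key ((A - B - T - 1) / p)
      rw [div_mul_cancel₀ _ hne0] at this
      linarith
    rw [← hp0, hp]
    refine integral_congr_ae (Eventually.of_forall fun z => ?_)
    simp only [grd]
    ring
  have h2 : ∀ a, A0 U a →
      ∫ z in U, ((G z).re * fderiv ℝ a z Complex.I - (G z).im * fderiv ℝ a z 1) = 0 := by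
    intro a ha
    have ma := memLp_grd ha.xx.en
    have iQ : ∀ {g : ℂ → ℂ}, MemLp g 2 (volume.restrict U) →
        Integrable (fun z => (g z).re * (grd a z).im - (g z).im * (grd a z).re)
          (volume.restrict U) :=
      fun hg => (h93_int_mul (h93_re hg) (h93_im ma)).sub (h93_int_mul (h93_im hg) (h93_re ma))
    set Q : ℝ := ∫ z in U, ((G z).re * (grd a z).im - (G z).im * (grd a z).re) with hQ
    set E : ℝ := ∫ z in U, ‖grd a z‖ ^ 2 with hE
    have hE0 : 0 ≤ E := integral_nonneg fun z => sq_nonneg _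
    have key : ∀ δ > 0, |Q| ≤ δ * (1 + E) := by
      intro δ hδ
      obtain ⟨_, ⟨x, hx, rfl⟩, b1, -⟩ := happ (δ ^ 2) (by positivity)
      have mx := memLp_grd (hX x hx).1.en
      have md : MemLp (fun z => grd x.1 z - G z) 2 (volume.restrict U) := mx.sub hG
      have z0 : ∫ z in U, ((grd x.1 z).re * (grd a z).im - (grd x.1 z).im * (grd a z).re) = 0 :=
        om_A0 hU (hX x hx).1.lip ha
      have e : Q = -∫ z in U, ((grd x.1 z - G z).re * (grd a z).im -
          (grd x.1 z - G z).im * (grd a z).re) := by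
        rw [hQ, ← integral_neg, ← sub_zero (∫ z in U, ((G z).re * (grd a z).im -
          (G z).im * (grd a z).re)), ← z0, ← integral_sub (iQ hG) (iQ mx)]
        refine integral_congr_ae (Eventually.of_forall fun z => ?_)
        simp only [Complex.sub_re, Complex.sub_im]
        ring
      have j1 := (memLp_two_iff_integrable_sq_norm md.1).1 md
      have j2 := (memLp_two_iff_integrable_sq_norm ma.1).1 ma
      rw [e, abs_neg]
      refine (abs_integral_le_integral_abs).trans ?_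
      have b2 : ∫ z in U, |(grd x.1 z - G z).re * (grd a z).im -
          (grd x.1 z - G z).im * (grd a z).re| ≤
          ∫ z in U, (δ⁻¹ * ‖grd x.1 z - G z‖ ^ 2 + δ * ‖grd a z‖ ^ 2) := by
        refine integral_mono (iQ md).abs ((j1.const_mul _).add (j2.const_mul _)) fun z => ?_
        simp only [h93_nsq]
        exact h93_amgm _ _ _ _ hδ
      refine b2.trans ?_
      rw [integral_add (j1.const_mul _) (j2.const_mul _), integral_const_mul, integral_const_mul]
      have b3 : δ⁻¹ * ∫ z in U, ‖grd x.1 z - G z‖ ^ 2 ≤ δ⁻¹ * δ ^ 2 :=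
        mul_le_mul_of_nonneg_left b1 (inv_nonneg.2 hδ.le)
      have b4 : δ⁻¹ * δ ^ 2 = δ := by field_simp
      rw [b4] at b3
      linarith
    have hQ0 : Q = 0 := by
      by_contra hne0
      have hpos : 0 < |Q| := abs_pos.2 hne0
      have := key (|Q| / (2 * (1 + E))) (by positivity)
      have e : |Q| / (2 * (1 + E)) * (1 + E) = |Q| / 2 := by field_simp
      rw [e] at this
      linarith
    exact hQ0
  obtain ⟨F, hF, hGF⟩ := hb_conj hU hc hG h1 h2
  obtain ⟨hE, hEq⟩ := h93_En hG hGF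
  obtain ⟨c, c1, c2, c3, c4⟩ := hb_cut hU Λ hF hE
  refine ⟨F, c, t, hF, hE, c1, c2, c3, c4, ht, fun q hq => h0 q ?_, fun x hx => ?_,
    fun η hη => ?_⟩
  · rintro _ ⟨x, hx, rfl⟩
    exact hq x hx
  · rw [hEq, c4 _ (hX x hx).1]
    refine (hineq _ ⟨x, hx, rfl⟩).trans (le_of_eq ?_)
    congr 1
    unfold ip
    refine integral_congr_ae ?_
    filter_upwards [hGF] with z hz
    rw [hz]
    rfl
  · obtain ⟨_, ⟨x, hx, rfl⟩, b1, b2⟩ := happ η hη
    refine ⟨x, hx, ?_, b2⟩
    have md : MemLp (fun z => grd x.1 z - G z) 2 (volume.restrict U) :=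
      (memLp_grd (hX x hx).1.en).sub hG
    have e : (fun z => grd x.1 z - G z) =ᵐ[volume.restrict U]
        grd (fun z => x.1 z - (F z).re) := by
      filter_upwards [hGF, aeD (hX x hx).1, ae_restrict_mem hm] with z hz d1 hzU
      have d2 : DifferentiableAt ℝ (fun z => (F z).re) z :=
        Complex.reCLM.differentiableAt.comp z
          ((hF.differentiableAt (hU.mem_nhds hzU)).restrictScalars ℝ)
      rw [h93_grd_sub d1 d2, hz]
    obtain ⟨f1, f2⟩ := h93_En md e
    rw [← ENNReal.ofReal_toReal f1.ne, f2]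
    exact ENNReal.ofReal_le_ofReal b1

end

end Crest.Agent.R105
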