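import Crest.Agent.R105.HGr
import Crest.Agent.R105.HAdm

/-! Row 105, block HB: the Hahn-Banach step (9). -/

set_option autoImplicit false

open MeasureTheory Set Filter Topology
open scoped ENNReal

namespace Crest.Agent.R105

noncomputable section

variable {U : Set ℂ}

open Classical in
/-- restriction of a weight to the lump `W N p` -/
def onL (Λ : Lumps U) (N : ℕ) (p : Λ.E) (e : Λ.E → ℝ) (q : Λ.E) : ℝ :=
  if Λ.W N q = Λ.W N p then e q else 0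

open Classical in
/-- restriction of a weight to the complement of a finite set -/
def offY {E : Type} (Y : Finset E) (e : E → ℝ) (q : E) : ℝ := if q ∈ Y then 0 else e q

/-- The consequence of II and MAX that the Hahn-Banach step uses. -/
def IIM (Λ : Lumps U) (M : Set (ℂ → ℝ)) (C : ℝ) : Prop :=
  ∀ c ν t Y, Cls Λ M c ν t Y → (∀ n q, 0 ≤ ν (Λ.W n q)) →
    ∀ u n, XX U u → Bdd U u → Adm Λ M ∅ u n → ∀ N p χ S, Ind Λ N p χ → 0 ≤ S →
      (∀ q, Λ.W N q = Λ.W N p → n q ≤ S) →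
      |om U (fun z => u z * χ z) c| ≤
        ν (Λ.W N p) * S + C * nrm (onL Λ N p t) * nrm (onL Λ N p (offY Y n))

/-- competitors: oscillation at most `a p` at `p ∈ Y` and at most `δ` off `V` -/
structure BP (Λ : Lumps U) (M : Set (ℂ → ℝ)) (Y : Finset Λ.E) (V : Set Λ.E) (a : Λ.E → ℝ) (δ : ℝ)
    (b : ℂ → ℝ) : Prop where
  tt : TT Λ M b
  bdd : Bdd U b
  big : ∀ p ∈ Y, Λ.osc b p ≤ a p
  small : ∀ q, q ∉ V → Λ.osc b q ≤ δ

/-- dual certificate -/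
structure Cert (Λ : Lumps U) (M : Set (ℂ → ℝ)) (Y : Finset Λ.E) (V : Set Λ.E) (a : Λ.E → ℝ)
    (δ : ℝ) (c : ℂ → ℝ) (t : Λ.E → ℝ) (Γ : ℝ) : Prop where
  xx : XX U c
  l2 : L2w t
  zero : ∀ p ∈ Y, t p = 0
  le : ∀ b e, BP Λ M Y V a δ b → Adm Λ M Y b e → om U b c - ∑' q, t q * e q ≤ Γ

/-- the values whose supremum defines `ν` -/
def nuSet (Λ : Lumps U) (M : Set (ℂ → ℝ)) (Y : Finset Λ.E) (c : ℂ → ℝ) (t : Λ.E → ℝ)
    (s : Set ℂ) : Set ℝ :=
  {x | ∃ n q χ v e, s = Λ.W n q ∧ Ind Λ n q χ ∧ TT Λ M v ∧ (∀ z ∈ U, |v z| ≤ 1 / 2) ∧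
    Adm Λ M Y (fun z => v z * χ z) e ∧ x = om U (fun z => v z * χ z) c - ∑' q', t q' * e q'}

/-- the set function of the certificate -/
def nuOf (Λ : Lumps U) (M : Set (ℂ → ℝ)) (Y : Finset Λ.E) (c : ℂ → ℝ) (t : Λ.E → ℝ)
    (s : Set ℂ) : ℝ := sSup (nuSet Λ M Y c t s)

variable {Λ : Lumps U} {M : Set (ℂ → ℝ)} {Y : Finset Λ.E} {V : Set Λ.E} {a : Λ.E → ℝ} {δ : ℝ}
  {c : ℂ → ℝ} {t : Λ.E → ℝ} {Γ : ℝ}

/-- functions with the same germs at the ends have the same weights: `v - u ∈ A₀`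
(`A0.of_lumps`), `Adm.of_A0`, `Adm.add`. -/
theorem Adm.germ (hU : IsOpen U) (hM : ∀ r ∈ M, Reg Λ r) {F : Finset Λ.E} {u v : ℂ → ℝ}
    {e : Λ.E → ℝ} (hu : XX U u) (hv : XX U v) (h : Adm Λ M F u e)
    (hg : ∀ q, ∃ n, ∀ z ∈ Λ.W n q, u z = v z) : Adm Λ M F v e := by
  have ha : A0 U fun z => v z - u z := A0.of_lumps hU Λ (hv.sub hU hu) fun q =>
    let ⟨n, hn⟩ := hg q
    ⟨n, 0, fun z hz => by rw [hn z hz, sub_self]⟩
  simpa only [add_sub_cancel, add_zero] using h.add hU hM hu ha.xx (Adm.of_A0 hU hM F ha)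

theorem h92_sum_sq {N : ℕ} {Q : Finset Λ.E}
    (hd : ∀ p ∈ Q, ∀ p' ∈ Q, p ≠ p' → Disjoint (Λ.W N p) (Λ.W N p')) {t : Λ.E → ℝ}
    (ht : L2w t) : ∑ p ∈ Q, nrm (onL Λ N p t) ^ 2 ≤ nrm t ^ 2 := by
  have hs : ∀ p, Summable fun q => onL Λ N p t q ^ 2 := fun p =>
    Summable.of_nonneg_of_le (fun _ => sq_nonneg _) (fun q => by
      unfold onL
      split_ifs
      · exact le_rfl
      · simpa using sq_nonneg (t q)) ht.2
  simp only [L2w.nrm_sq]
  rw [← Summable.tsum_finsetSum fun p _ => hs p]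
  refine (summable_sum fun p _ => hs p).tsum_le_tsum (fun q => ?_) ht.2
  by_cases h : ∃ p ∈ Q, Λ.W N q = Λ.W N p
  · obtain ⟨p, hp, e⟩ := h
    rw [Finset.sum_eq_single_of_mem p hp fun p' hp' hne => ?_, onL, if_pos e]
    rw [onL, if_neg, zero_pow two_ne_zero]
    intro e'
    have := hd p' hp' p hp hne
    rw [← e, ← e', disjoint_self] at this
    exact (Λ.conn N q).nonempty.ne_empty this
  · rw [Finset.sum_eq_zero fun p hp => by
      rw [onL, if_neg fun e => h ⟨p, hp, e⟩, zero_pow two_ne_zero]]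
    exact sq_nonneg _

/-- Cauchy-Schwarz over the lumps of one level:
`∑_p nrm (onL p t) ^ 2 ≤ nrm t ^ 2` since the lumps are disjoint (`Summable.tsum_finsetSum`). -/
theorem sum_nrm_onL {N : ℕ} {Q : Finset Λ.E}
    (hd : ∀ p ∈ Q, ∀ p' ∈ Q, p ≠ p' → Disjoint (Λ.W N p) (Λ.W N p')) {t m : Λ.E → ℝ}
    (ht : L2w t) (hm : L2w m) :
    ∑ p ∈ Q, nrm (onL Λ N p t) * nrm (onL Λ N p m) ≤ nrm t * nrm m := by
  refine (le_abs_self _).trans (abs_le_of_sq_le_sq ?_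
    (mul_nonneg (L2w.nrm_nonneg _) (L2w.nrm_nonneg _)))
  refine (Finset.sum_mul_sq_le_sq_mul_sq _ _ _).trans ?_
  rw [mul_pow]
  exact mul_le_mul (h92_sum_sq hd ht) (h92_sum_sq hd hm)
    (Finset.sum_nonneg fun _ _ => sq_nonneg _) (sq_nonneg _)

/-- `v = 0`, `e = 0`, `χ` from `exists_Ind` -/
theorem zero_mem_nuSet (hU : IsOpen U) (hM : ∀ r ∈ M, Reg Λ r) (n : ℕ) (q : Λ.E) :
    (0 : ℝ) ∈ nuSet Λ M Y c t (Λ.W n q) := by
  obtain ⟨χ, hχ, -⟩ := exists_Ind hU Λ n q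
  refine ⟨n, q, χ, fun _ => 0, fun _ => 0, rfl, hχ, TT.of_A0 hU hM (A0.const 0),
    fun _ _ => by norm_num, Adm.of_A0 hU hM Y ((A0.const 0).mul hU Λ hχ.1).1, ?_⟩
  rw [om_smul_left]
  simp

/-- With `0 < l ≤ δ`, `l ≤ a p` on `Y`, the function `l v χ` is a competitor (near an end `χ` is
`0` or `1`, `A0.eq_val`, so the oscillation of `v χ` is at most `1`, `Lumps.osc_le`), with weight
`l e` (`Adm.smul`); hence `l x ≤ Γ`. -/
theorem Cert.bddAbove (hU : IsOpen U) (hM : ∀ r ∈ M, Reg Λ r) (h : Cert Λ M Y V a δ c t Γ)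
    (hδ : 0 < δ) (ha : ∀ p ∈ Y, 0 < a p) (s : Set ℂ) : BddAbove (nuSet Λ M Y c t s) := by
  obtain ⟨l, hl0, hlδ, hla⟩ : ∃ l : ℝ, 0 < l ∧ l ≤ δ ∧ ∀ p ∈ Y, l ≤ a p := by
    rcases Y.eq_empty_or_nonempty with hY | hY
    · exact ⟨δ, hδ, le_rfl, fun p hp => by simp [hY] at hp⟩
    · obtain ⟨p₀, hp₀, hmin⟩ := Y.exists_min_image a hY
      exact ⟨min δ (a p₀), lt_min hδ (ha p₀ hp₀), min_le_left _ _,
        fun p hp => (min_le_right _ _).trans (hmin p hp)⟩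
  refine ⟨Γ / l, ?_⟩
  rintro x ⟨n, q, χ, v, e, -, hχ, hv, hvb, he, rfl⟩
  obtain ⟨B, hB⟩ := hχ.1.bdd Λ
  obtain ⟨N, hN⟩ := hχ.1.eq_val Λ
  have hb : Bdd U fun z => l * (v z * χ z) := by
    refine ⟨l * (1 / 2 * B), fun z hz => ?_⟩
    rw [abs_mul, abs_mul, abs_of_pos hl0]
    exact mul_le_mul_of_nonneg_left
      (mul_le_mul (hvb z hz) (hB z hz) (abs_nonneg _) (by norm_num)) hl0.le
  have hosc : ∀ p, Λ.osc (fun z => l * (v z * χ z)) p ≤ l := by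
    intro p
    refine Λ.osc_le hb fun η hη => ⟨N, fun z hz z' hz' => ?_⟩
    rw [hN N le_rfl p z hz, hN N le_rfl p z' hz', hχ.2 p]
    have h1 := abs_le.1 (hvb z (Λ.sub N p hz).1)
    have h2 := abs_le.1 (hvb z' (Λ.sub N p hz').1)
    split_ifs
    · nlinarith [h1.2, h2.1]
    · simp only [mul_zero, sub_zero]; linarith
  have h1 := h.le _ _ ⟨(hv.mul_A0 hU hχ.1).smul l, hb, fun p hp => (hosc p).trans (hla p hp),
    fun p _ => (hosc p).trans hlδ⟩ (he.smul l)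
  have h2 : ∑' q', t q' * (|l| * e q') = l * ∑' q', t q' * e q' := by
    rw [← tsum_mul_left, abs_of_pos hl0]
    exact tsum_congr fun q' => by ring
  rw [om_smul_left, h2] at h1
  rw [le_div_iff₀ hl0]
  linarith

/-- Normal form of the elements of `nuSet`: the cut-off can be replaced by any other indicator of
the lump (`Ind.of_eq`, `Ind.om_eq`, `Adm.germ`). -/
theorem nuSet_normal (hU : IsOpen U) (hM : ∀ r ∈ M, Reg Λ r) (hc : XX U c) {n : ℕ} {q : Λ.E}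
    {χ : ℂ → ℝ} (hχ : Ind Λ n q χ) {x : ℝ} (hx : x ∈ nuSet Λ M Y c t (Λ.W n q)) :
    ∃ v e, TT Λ M v ∧ (∀ z ∈ U, |v z| ≤ 1 / 2) ∧ Adm Λ M Y (fun z => v z * χ z) e ∧
      x = om U (fun z => v z * χ z) c - ∑' q', t q' * e q' := by
  obtain ⟨n', q', χ', v, e, hs, hχ', hv, hb, ha, rfl⟩ := hx
  have h1 : Ind Λ n q χ' := hχ'.of_eq hs.symm
  obtain ⟨N, hN⟩ := hχ.1.eq_val Λ
  obtain ⟨N', hN'⟩ := h1.1.eq_val Λ
  refine ⟨v, e, hv, hb, Adm.germ hU hM (hv.1.mul_A0 hU Λ h1.1) (hv.1.mul_A0 hU Λ hχ.1) ha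
    fun p => ⟨max N N', fun z hz => ?_⟩, by rw [h1.om_eq hU hχ hv.1 hc]⟩
  rw [hN _ (le_max_left _ _) p z hz, hN' _ (le_max_right _ _) p z hz, hχ.2 p, h1.2 p]

/-- Superadditivity.  For `η > 0` take near optimal `(v q, e q)` for the normalised cut-offs `χ q`
of `exists_Ind` (values in `[0,1]`, zero off the lump); `w = ∑ v q * χ q ∈ T`, `|w| ≤ 1/2` because
the lumps are disjoint; for an indicator `ψ` of `W n p`, `w ψ` has the same germs as `w`
(`Adm.germ`, `Adm.sum`, `om_germ_congr`, `om_sum_left`). -/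
theorem Cert.super (hU : IsOpen U) (hM : ∀ r ∈ M, Reg Λ r) (h : Cert Λ M Y V a δ c t Γ)
    (hδ : 0 < δ) (ha : ∀ p ∈ Y, 0 < a p) : Super Λ (nuOf Λ M Y c t) := by
  intro n m p Q _ hsub hdis
  choose χ hχ _ h01 hz _ using fun q => exists_Ind hU Λ m q
  obtain ⟨ψ, hψ, -⟩ := exists_Ind hU Λ n p
  have key : ∀ x : Λ.E → ℝ, (∀ q ∈ Q, x q ∈ nuSet Λ M Y c t (Λ.W m q)) →
      ∑ q ∈ Q, x q ∈ nuSet Λ M Y c t (Λ.W n p) := fun x hx => by
    have hex : ∀ q, ∃ (v : ℂ → ℝ) (e : Λ.E → ℝ), q ∈ Q → TT Λ M v ∧ (∀ z ∈ U, |v z| ≤ 1 / 2) ∧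
        Adm Λ M Y (fun z => v z * χ q z) e ∧
        x q = om U (fun z => v z * χ q z) c - ∑' q', t q' * e q' := fun q => by
      by_cases hq : q ∈ Q
      · obtain ⟨v, e, H⟩ := nuSet_normal hU hM h.xx (hχ q) (hx q hq)
        exact ⟨v, e, fun _ => H⟩
      · exact ⟨0, 0, fun h' => absurd h' hq⟩
    choose v e H using hex
    have hT : ∀ q ∈ Q, TT Λ M (fun z => v q z * χ q z) := fun q hq =>
      (H q hq).1.mul_A0 hU (hχ q).1
    have hw : TT Λ M (fun z => ∑ q ∈ Q, v q z * χ q z) := TT.sum hU hM Q hT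
    have hwψ := hw.1.mul_A0 hU Λ hψ.1
    have hg : ∀ q', ∃ k, ∀ z ∈ Λ.W k q',
        ∑ q ∈ Q, v q z * χ q z = (∑ q ∈ Q, v q z * χ q z) * ψ z := fun q' => by
      obtain ⟨N, hN⟩ := hψ.1.eq_val Λ
      refine ⟨max N n, fun z hz' => ?_⟩
      rw [hN _ (le_max_left _ _) q' z hz', hψ.2 q']
      split_ifs with e
      · rw [mul_one]
      · rw [mul_zero]
        refine Finset.sum_eq_zero fun q hq => ?_
        rw [hz q z fun hzq => Set.disjoint_left.1 ((Λ.part n q' p).resolve_left e)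
          (Λ.W_mono (le_max_right _ _) q' hz') (hsub q hq hzq), mul_zero]
    refine ⟨n, p, ψ, fun z => ∑ q ∈ Q, v q z * χ q z, fun q' => ∑ q ∈ Q, e q q', rfl, hψ, hw,
      fun z hzU => ?_, Adm.germ hU hM hw.1 hwψ
        (Adm.sum hU hM Q (fun q hq => (hT q hq).1) fun q hq => (H q hq).2.2.1) hg, ?_⟩
    · beta_reduce
      by_cases hq : ∃ q ∈ Q, z ∈ Λ.W m q
      · obtain ⟨q, hq, hzq⟩ := hq
        rw [Finset.sum_eq_single_of_mem (f := fun q => v q z * χ q z) q hq fun q' hq' hne => by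
          rw [hz q' z fun h' => Set.disjoint_left.1 (hdis q' hq' q hq hne) h' hzq, mul_zero],
          abs_mul, abs_of_nonneg (h01 q z).1]
        exact (mul_le_of_le_one_right (abs_nonneg _) (h01 q z).2).trans ((H q hq).2.1 z hzU)
      · rw [Finset.sum_eq_zero (f := fun q => v q z * χ q z) fun q hq' => by
          rw [hz q z fun h' => hq ⟨q, hq', h'⟩, mul_zero]]
        norm_num
    · rw [← om_germ_congr hU Λ hw.1 hwψ h.xx h.xx fun q' => by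
        obtain ⟨k, hk⟩ := hg q'
        exact ⟨k, 0, 0, fun z hz' => by rw [add_zero]; exact hk z hz', fun z _ => (add_zero _).symm⟩,
        om_sum_left hU Q (fun q hq => (hT q hq).1) h.xx]
      simp only [Finset.mul_sum]
      rw [Summable.tsum_finsetSum fun q hq => (h.l2.summable_mul (H q hq).2.2.1.l2).1,
        ← Finset.sum_sub_distrib]
      exact Finset.sum_congr rfl fun q hq => (H q hq).2.2.2
  refine le_of_forall_pos_le_add fun η hη => ?_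
  have hη' : 0 < η / (Q.card + 1) := by positivity
  have hx : ∀ q, ∃ x ∈ nuSet Λ M Y c t (Λ.W m q),
      nuOf Λ M Y c t (Λ.W m q) - η / (Q.card + 1) < x := fun q =>
    exists_lt_of_lt_csSup ⟨0, zero_mem_nuSet hU hM m q⟩ (sub_lt_self _ hη')
  choose x hx hlt using hx
  have h1 : ∑ q ∈ Q, x q ≤ nuOf Λ M Y c t (Λ.W n p) :=
    le_csSup (h.bddAbove hU hM hδ ha _) (key x fun q _ => hx q)
  have h2 : ∑ q ∈ Q, nuOf Λ M Y c t (Λ.W m q) ≤ ∑ q ∈ Q, (x q + η / (Q.card + 1)) :=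
    Finset.sum_le_sum fun q _ => by linarith [hlt q]
  rw [Finset.sum_add_distrib, Finset.sum_const, nsmul_eq_mul] at h2
  have h3 : (Q.card : ℝ) * (η / (Q.card + 1)) ≤ η := by
    rw [← mul_div_assoc, div_le_iff₀ (by positivity)]
    nlinarith
  linarith

/-- The certificate is in the class `S(ν,t,Y)`.  `B ≥ 0` since the lump is nonempty.  If `B = 0`
then `v = 0` on `U` (`om_congr`).  Otherwise apply `le_csSup` to `± v / B`, whose product with `χ`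
has the weight `B⁻¹ |val χ| e` (`Adm.mul_A0`, `Adm.smul`). -/
theorem Cert.cls (hU : IsOpen U) (hM : ∀ r ∈ M, Reg Λ r) (h : Cert Λ M Y V a δ c t Γ)
    (hδ : 0 < δ) (ha : ∀ p ∈ Y, 0 < a p) : Cls Λ M c (nuOf Λ M Y c t) t Y := by
  classical
  refine ⟨h.xx, h.super hU hM hδ ha, h.l2, h.zero, fun n q χ hχ v e B hv hB he => ?_⟩
  have hB0 : 0 ≤ B := by
    obtain ⟨z, hz⟩ := (Λ.conn n q).nonempty
    linarith [(abs_nonneg _).trans (hB z (Λ.sub n q hz).1)]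
  rcases hB0.eq_or_lt with rfl | hB1
  · have e1 : om U (fun z => v z * χ z) c = om U (fun z => 0 * χ z) c :=
      om_congr hU (fun z hz => by
        have : v z = 0 := abs_nonpos_iff.1 (by simpa using hB z hz)
        simp only [this]) (fun _ _ => rfl)
    rw [e1, om_smul_left, zero_mul, abs_zero, mul_zero, zero_add]
    refine tsum_nonneg fun q' => ?_
    split_ifs
    · exact mul_nonneg (h.l2.1 q') (he.l2.1 q')
    · exact le_rfl
  · have key : ∀ σ : ℝ, |σ| = 1 → σ * om U (fun z => v z * χ z) c ≤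
        nuOf Λ M Y c t (Λ.W n q) * B +
          ∑' q', if Λ.W n q' = Λ.W n q then t q' * e q' else 0 := by
      intro σ hσ
      have hab : |σ / B| = B⁻¹ := by rw [abs_div, hσ, abs_of_pos hB1, one_div]
      have h1 := le_csSup (h.bddAbove hU hM hδ ha (Λ.W n q))
        ⟨n, q, χ, fun z => σ / B * v z, _, rfl, hχ, hv.smul _, fun z hz => by
          rw [abs_mul, hab, inv_mul_le_iff₀ hB1]
          linarith [hB z hz], (he.smul (σ / B)).mul_A0 hU hχ.1, rfl⟩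
      have h2 : (fun z => σ / B * v z * χ z) = fun z => σ / B * (v z * χ z) := by
        funext z; ring
      have h3 : ∑' q', t q' * (|Λ.val χ q'| * (|σ / B| * e q')) =
          B⁻¹ * ∑' q', if Λ.W n q' = Λ.W n q then t q' * e q' else 0 := by
        rw [← tsum_mul_left, hab]
        refine tsum_congr fun q' => ?_
        rw [hχ.2 q']
        split_ifs
        · rw [abs_one]; ring
        · simp
      rw [h2, om_smul_left, h3] at h1
      have h4 := mul_le_mul_of_nonneg_right h1 hB1.le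
      have h5 : ∀ x y : ℝ, (σ / B * x - B⁻¹ * y) * B = σ * x - y := fun x y => by
        field_simp
      rw [h5] at h4
      unfold nuOf
      linarith
    have k1 := key 1 abs_one
    have k2 := key (-1) (by simp)
    rw [abs_le]
    constructor <;> linarith

theorem h64_budget_core (hU : IsOpen U) (hM : ∀ r ∈ M, Reg Λ r) (h : Cert Λ M Y V a δ c t Γ)
    (hδ : 0 < δ) (ha : ∀ p ∈ Y, 0 < a p) {N : ℕ} {Q : Finset Λ.E}
    (hd : ∀ p ∈ Q, ∀ p' ∈ Q, p ≠ p' → Disjoint (Λ.W N p) (Λ.W N p')) {κ : Λ.E → ℝ}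
    (h0 : ∀ p ∈ Q, 0 ≤ κ p)
    (h1 : ∀ p ∈ Q, ∀ q, Λ.W N q = Λ.W N p → (q ∈ Y → κ p ≤ a q) ∧ (q ∉ V → κ p ≤ δ))
    {x : Λ.E → ℝ} (hx : ∀ p, x p ∈ nuSet Λ M Y c t (Λ.W N p)) :
    ∑ p ∈ Q, κ p * x p ≤ Γ := by
  classical
  have hx' : ∀ p, ∃ χ v e, Ind Λ N p χ ∧ TT Λ M v ∧ (∀ z ∈ U, |v z| ≤ 1 / 2) ∧
      Adm Λ M Y (fun z => v z * χ z) e ∧
      x p = om U (fun z => v z * χ z) c - ∑' q', t q' * e q' := by
    intro p
    obtain ⟨n, q, χ, v, e, hs, hχ, hv, hb, he, hxe⟩ := hx p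
    exact ⟨χ, v, e, hχ.of_eq hs.symm, hv, hb, he, hxe⟩
  choose χ v e hχ hv hb he hxe using hx'
  have hTT : ∀ p, TT Λ M (fun z => κ p * (v p z * χ p z)) := fun p =>
    ((hv p).mul_A0 hU (hχ p).1).smul (κ p)
  have hbT : TT Λ M (fun z => ∑ p ∈ Q, κ p * (v p z * χ p z)) :=
    TT.sum hU hM Q (u := fun p z => κ p * (v p z * χ p z)) fun p _ => hTT p
  have hbB : Bdd U (fun z => ∑ p ∈ Q, κ p * (v p z * χ p z)) := by
    have hB : ∀ p, ∃ B : ℝ, ∀ z ∈ U, |χ p z| ≤ B := fun p => A0.bdd Λ (hχ p).1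
    choose B hB using hB
    refine ⟨∑ p ∈ Q, |κ p| * (1 / 2 * B p), fun z hz => ?_⟩
    refine (Finset.abs_sum_le_sum_abs _ _).trans (Finset.sum_le_sum fun p _ => ?_)
    rw [abs_mul, abs_mul]
    exact mul_le_mul_of_nonneg_left
      (mul_le_mul (hb p z hz) (hB p z hz) (abs_nonneg _) (by norm_num)) (abs_nonneg _)
  have hosc : ∀ q (β : ℝ), 0 ≤ β → (∀ p ∈ Q, Λ.W N q = Λ.W N p → κ p ≤ β) →
      Λ.osc (fun z => ∑ p ∈ Q, κ p * (v p z * χ p z)) q ≤ β := by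
    intro q β hβ hκ
    have hN : ∀ p, ∃ n₀, ∀ n ≥ n₀, ∀ q, ∀ z ∈ Λ.W n q, χ p z = Λ.val (χ p) q := fun p =>
      A0.eq_val Λ (hχ p).1
    choose n₀ hn₀ using hN
    refine Λ.osc_le hbB fun η hη => ⟨Q.sup n₀, fun z hz z' hz' => ?_⟩
    have hzU : z ∈ U := (Λ.sub _ _ hz).1
    have hzU' : z' ∈ U := (Λ.sub _ _ hz').1
    have hs : ∑ p ∈ Q, κ p * (v p z * χ p z) - ∑ p ∈ Q, κ p * (v p z' * χ p z') ≤
        ∑ p ∈ Q, if Λ.W N q = Λ.W N p then κ p else 0 := by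
      rw [← Finset.sum_sub_distrib]
      refine Finset.sum_le_sum fun p hp => ?_
      rw [hn₀ p _ (Finset.le_sup hp) q z hz, hn₀ p _ (Finset.le_sup hp) q z' hz', (hχ p).2 q]
      split_ifs with hq
      · have h2 := abs_le.mp (hb p z hzU)
        have h3 := abs_le.mp (hb p z' hzU')
        have h4 := h0 p hp
        nlinarith [h2.1, h2.2, h3.1, h3.2]
      · simp
    have hs2 : (∑ p ∈ Q, if Λ.W N q = Λ.W N p then κ p else 0) ≤ β := by
      by_cases hex : ∃ p ∈ Q, Λ.W N q = Λ.W N p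
      · obtain ⟨p, hp, hqp⟩ := hex
        rw [Finset.sum_eq_single p, if_pos hqp]
        · exact hκ p hp hqp
        · intro p' hp' hne
          rw [if_neg]
          intro hqp'
          have hdis := hd p' hp' p hp hne
          rw [← hqp', ← hqp, disjoint_self] at hdis
          exact (Λ.conn N q).nonempty.ne_empty hdis
        · intro hp'
          exact absurd hp hp'
      · rw [Finset.sum_eq_zero]
        · exact hβ
        · intro p hp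
          exact if_neg fun hqp => hex ⟨p, hp, hqp⟩
    linarith
  have hBP : BP Λ M Y V a δ (fun z => ∑ p ∈ Q, κ p * (v p z * χ p z)) :=
    ⟨hbT, hbB, fun q hq => hosc q _ (ha q hq).le fun p hp hqp => (h1 p hp q hqp).1 hq,
      fun q hq => hosc q _ hδ.le fun p hp hqp => (h1 p hp q hqp).2 hq⟩
  have hAdm : Adm Λ M Y (fun z => ∑ p ∈ Q, κ p * (v p z * χ p z))
      (fun q => ∑ p ∈ Q, |κ p| * e p q) :=
    Adm.sum hU hM Q (u := fun p z => κ p * (v p z * χ p z)) (e := fun p q => |κ p| * e p q)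
      (fun p _ => (hTT p).1) fun p _ => (he p).smul (κ p)
  have hle := h.le _ _ hBP hAdm
  rw [om_sum_left hU Q (u := fun p z => κ p * (v p z * χ p z)) (fun p _ => (hTT p).1) h.xx] at hle
  have hts : ∑' q, t q * ∑ p ∈ Q, |κ p| * e p q = ∑ p ∈ Q, κ p * ∑' q, t q * e p q := by
    have hsm : ∀ p ∈ Q, Summable fun q => κ p * (t q * e p q) := fun p _ =>
      (L2w.summable_mul h.l2 (he p).l2).1.mul_left _
    rw [show (fun q => t q * ∑ p ∈ Q, |κ p| * e p q) =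
        fun q => ∑ p ∈ Q, κ p * (t q * e p q) from ?_, Summable.tsum_finsetSum hsm]
    · exact Finset.sum_congr rfl fun p _ => tsum_mul_left
    · funext q
      rw [Finset.mul_sum]
      refine Finset.sum_congr rfl fun p hp => ?_
      rw [abs_of_nonneg (h0 p hp)]
      ring
  rw [hts, ← Finset.sum_sub_distrib] at hle
  refine le_of_eq_of_le (Finset.sum_congr rfl fun p _ => ?_) hle
  rw [hxe p, om_smul_left (κ p) (fun z => v p z * χ p z) c]
  ring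

/-- The budget.  As in `Cert.super` take near optimal data on each lump of level `N`;
`b = ∑ κ p * (v p * χ p)` is a competitor: near an end `q` of the lump of `p ∈ Q` it equals
`κ p * v p`, near the other ends it vanishes (`A0.eq_val`, `Lumps.osc_le`); its weight is
`∑ κ p * e p`. -/
theorem Cert.budget (hU : IsOpen U) (hM : ∀ r ∈ M, Reg Λ r) (h : Cert Λ M Y V a δ c t Γ)
    (hδ : 0 < δ) (ha : ∀ p ∈ Y, 0 < a p) {N : ℕ} {Q : Finset Λ.E}
    (hd : ∀ p ∈ Q, ∀ p' ∈ Q, p ≠ p' → Disjoint (Λ.W N p) (Λ.W N p')) {κ : Λ.E → ℝ}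
    (h0 : ∀ p ∈ Q, 0 ≤ κ p)
    (h1 : ∀ p ∈ Q, ∀ q, Λ.W N q = Λ.W N p → (q ∈ Y → κ p ≤ a q) ∧ (q ∉ V → κ p ≤ δ)) :
    ∑ p ∈ Q, κ p * nuOf Λ M Y c t (Λ.W N p) ≤ Γ := by
  refine le_of_forall_pos_le_add fun ε hε => ?_
  have hS : 0 ≤ ∑ p ∈ Q, κ p := Finset.sum_nonneg h0
  have hη : 0 < ε / (∑ p ∈ Q, κ p + 1) := by positivity
  have hx : ∀ p, ∃ x ∈ nuSet Λ M Y c t (Λ.W N p),
      nuOf Λ M Y c t (Λ.W N p) - ε / (∑ p ∈ Q, κ p + 1) < x := fun p =>
    exists_lt_of_lt_csSup ⟨0, zero_mem_nuSet hU hM N p⟩ (by unfold nuOf; linarith)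
  choose x hx hlt using hx
  have h2 := h64_budget_core hU hM h hδ ha hd h0 h1 hx
  have h3 : ∑ p ∈ Q, κ p * nuOf Λ M Y c t (Λ.W N p) ≤
      ∑ p ∈ Q, κ p * x p + (∑ p ∈ Q, κ p) * (ε / (∑ p ∈ Q, κ p + 1)) := by
    rw [Finset.sum_mul, ← Finset.sum_add_distrib]
    refine Finset.sum_le_sum fun p hp => ?_
    have h4 := h0 p hp
    have h5 := hlt p
    nlinarith
  have h4 : (∑ p ∈ Q, κ p) * (ε / (∑ p ∈ Q, κ p + 1)) ≤ ε := by
    rw [mul_div_assoc', div_le_iff₀ (by positivity)]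
    nlinarith
  linarith

/-- Choice of the level and of the coefficients.  Let `l = min δ (min_Y a) > 0`; the set
`Z = Y ∪ {q | l ≤ n q}` is finite (`L2w.finite_big`); take a level `N ≥ N₀` and representatives
`Q ⊇ Z` (`exists_reps_of`).  `κ p = a p` if `p ∈ Y ∩ V`, `min (a p) δ` if `p ∈ Y \ V`, `nrm n` if
`p ∈ V \ Y`, `δ` otherwise.  A point of `Z` in the lump of `p ∈ Q` is `p`; the whole lump is in `V`
or off `V`. -/
theorem exists_kappa {n : Λ.E → ℝ} (hn : L2w n) (hδ : 0 < δ) (ha : ∀ p ∈ Y, n p < a p) {N₀ : ℕ}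
    (hV : ∀ q ∈ V, ∀ q', Λ.W N₀ q' = Λ.W N₀ q → q' ∈ V) (hnV : ∀ q, q ∉ V → n q ≤ δ) :
    ∃ (N : ℕ) (Q : Finset Λ.E) (κ : Λ.E → ℝ), (∀ q, ∃ p ∈ Q, Λ.W N q = Λ.W N p) ∧
      (∀ p ∈ Q, ∀ p' ∈ Q, p ≠ p' → Disjoint (Λ.W N p) (Λ.W N p')) ∧ (∀ p ∈ Q, 0 ≤ κ p) ∧
      ∀ p ∈ Q, ∀ q, Λ.W N q = Λ.W N p →
        n q ≤ κ p ∧ (q ∈ Y → κ p ≤ a q) ∧ (q ∉ V → κ p ≤ δ) := by
  classical
  have hZ : ((Y : Set Λ.E) ∪ ⋃ p ∈ (Y : Set Λ.E), {q | a p ≤ |n q|}).Finite :=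
    Y.finite_toSet.union (Y.finite_toSet.biUnion fun p hp =>
      L2w.finite_big hn.2 ((hn.1 p).trans_lt (ha p hp)))
  obtain ⟨N₁, hN₁⟩ := Λ.exists_reps_of hZ.toFinset
  obtain ⟨Q, hZQ, hQ, hd⟩ := hN₁ (max N₀ N₁) (le_max_right _ _)
  have heq : ∀ p ∈ Q, ∀ q ∈ Q, Λ.W (max N₀ N₁) q = Λ.W (max N₀ N₁) p → q = p := by
    intro p hp q hq e
    by_contra hne
    obtain ⟨z, hz⟩ := (Λ.conn (max N₀ N₁) q).nonempty
    exact Set.disjoint_left.1 (hd q hq p hp hne) hz (e ▸ hz)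
  have hle : ∀ p ∈ Q, ∀ q, Λ.W (max N₀ N₁) q = Λ.W (max N₀ N₁) p →
      n q ≤ min (if p ∈ Y then a p else nrm n) (if p ∈ V then nrm n else δ) := by
    intro p hp q e
    refine le_min ?_ ?_
    · split_ifs with h
      · by_contra hlt
        have hq : q ∈ Q := hZQ (hZ.mem_toFinset.2 (Or.inr (mem_biUnion (Finset.mem_coe.2 h)
          ((not_le.1 hlt).le.trans (le_abs_self _)))))
        rw [heq p hp q hq e] at hlt
        exact hlt (ha p h).le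
      · exact hn.le_nrm q
    · split_ifs with h
      · exact hn.le_nrm q
      · exact hnV q fun hq => h (hV q hq p (Λ.W_eq_of_le (le_max_left _ _) e.symm))
  refine ⟨max N₀ N₁, Q,
    fun p => min (if p ∈ Y then a p else nrm n) (if p ∈ V then nrm n else δ), hQ, hd,
    fun p hp => (hn.1 p).trans (hle p hp p rfl), fun p hp q e => ⟨hle p hp q e, fun hq => ?_,
      fun hq => ?_⟩⟩
  · have hqQ : q ∈ Q := hZQ (hZ.mem_toFinset.2 (Or.inl (Finset.mem_coe.2 hq)))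
    obtain rfl := heq p hp q hqQ e
    exact (min_le_left _ _).trans (by rw [if_pos hq])
  · have hp' : p ∉ V := fun h => hq (hV p h q (Λ.W_eq_of_le (le_max_left _ _) e))
    exact (min_le_right _ _).trans (by rw [if_neg hp'])

/-- `om_eq_sum_lumps`, `IIM` on every lump with `S = κ p`, `Cert.budget`, `sum_nrm_onL`. -/
theorem Cert.om_le (hU : IsOpen U) (hM : ∀ r ∈ M, Reg Λ r) {C : ℝ} (hC : 0 ≤ C) (hI : IIM Λ M C)
    (h : Cert Λ M Y V a δ c t Γ) {u : ℂ → ℝ} {n : Λ.E → ℝ} (hu : XX U u) (hb : Bdd U u)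
    (hn : Adm Λ M ∅ u n) (hδ : 0 < δ) (ha : ∀ p ∈ Y, n p < a p) {N₀ : ℕ}
    (hV : ∀ q ∈ V, ∀ q', Λ.W N₀ q' = Λ.W N₀ q → q' ∈ V) (hnV : ∀ q, q ∉ V → n q ≤ δ) :
    om U u c ≤ Γ + C * nrm t * nrm (offY Y n) := by
  classical
  have ha0 : ∀ p ∈ Y, 0 < a p := fun p hp => (hn.l2.1 p).trans_lt (ha p hp)
  obtain ⟨N, Q, κ, hQ, hd, h0, h1⟩ := exists_kappa (Λ := Λ) hn.l2 hδ ha hV hnV
  choose χ hχ using fun p => exists_Ind hU Λ N p
  have hν : ∀ n q, 0 ≤ nuOf Λ M Y c t (Λ.W n q) := fun n q =>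
    le_csSup (h.bddAbove hU hM hδ ha0 _) (zero_mem_nuSet hU hM n q)
  have hm : L2w (offY Y n) := (hn.l2.of_le (fun q => by
    unfold offY; split_ifs; exacts [le_rfl, hn.l2.1 q]) fun q => by
    unfold offY; split_ifs; exacts [hn.l2.1 q, le_rfl]).1
  rw [om_eq_sum_lumps hU hQ hd (fun p _ => (hχ p).1) hu h.xx]
  have hb1 := h.budget hU hM hδ ha0 hd h0 fun p hp q e => (h1 p hp q e).2
  have hb2 := mul_le_mul_of_nonneg_left (sum_nrm_onL hd h.l2 hm) hC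
  have hb3 : ∑ p ∈ Q, om U (fun z => u z * χ p z) c ≤
      ∑ p ∈ Q, (κ p * nuOf Λ M Y c t (Λ.W N p) +
        C * (nrm (onL Λ N p t) * nrm (onL Λ N p (offY Y n)))) := by
    refine Finset.sum_le_sum fun p hp => (le_abs_self _).trans ?_
    refine (hI c _ t Y (h.cls hU hM hδ ha0) hν u n hu hb hn N p (χ p) (κ p) (hχ p).1 (h0 p hp)
      fun q e => (h1 p hp q e).1).trans (le_of_eq ?_)
    ring
  rw [Finset.sum_add_distrib, ← Finset.mul_sum] at hb3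
  rw [mul_assoc]
  linarith

theorem h84_offY_l2 {E : Type} (Y : Finset E) {e : E → ℝ} (he : L2w e) :
    L2w (offY Y e) ∧ nrm (offY Y e) ≤ nrm e :=
  he.of_le (fun q => by unfold offY; split_ifs; exacts [le_rfl, he.1 q])
    fun q => by unfold offY; split_ifs; exacts [he.1 q, le_rfl]

theorem h84_adm_off (hM : ∀ r ∈ M, Reg Λ r) {F : Finset Λ.E} (hF : F ⊆ Y) {u : ℂ → ℝ}
    {e : Λ.E → ℝ} (h : Adm Λ M F u e) : Adm Λ M Y u (offY Y e) :=
  h.mono hM hF (h84_offY_l2 Y h.l2).1 fun q hq => by simp [offY, hq]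

theorem h84_BP_lin (hU : IsOpen U) (hM : ∀ r ∈ M, Reg Λ r) {b b' : ℂ → ℝ}
    (h : BP Λ M Y V a δ b) (h' : BP Λ M Y V a δ b') {θ : ℝ} (h0 : 0 ≤ θ) (h1 : θ ≤ 1) :
    BP Λ M Y V a δ fun z => θ * b z + (1 - θ) * b' z := by
  have h2 : 0 ≤ 1 - θ := by linarith
  have key : ∀ q x, Λ.osc b q ≤ x → Λ.osc b' q ≤ x →
      Λ.osc (fun z => θ * b z + (1 - θ) * b' z) q ≤ x := fun q x e1 e2 => by
    have := Λ.osc_lin_le h.bdd h'.bdd θ (1 - θ) q
    rw [abs_of_nonneg h0, abs_of_nonneg h2] at this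
    nlinarith [mul_le_mul_of_nonneg_left e1 h0, mul_le_mul_of_nonneg_left e2 h2]
  refine ⟨(h.tt.smul θ).add hU hM (h'.tt.smul _), ?_, fun p hp => key p _ (h.big p hp) (h'.big p hp),
    fun q hq => key q _ (h.small q hq) (h'.small q hq)⟩
  obtain ⟨B, hB⟩ := h.bdd
  obtain ⟨B', hB'⟩ := h'.bdd
  refine ⟨θ * B + (1 - θ) * B', fun z hz => (abs_add_le _ _).trans ?_⟩
  rw [abs_mul, abs_mul, abs_of_nonneg h0, abs_of_nonneg h2]
  exact add_le_add (mul_le_mul_of_nonneg_left (hB z hz) h0) (mul_le_mul_of_nonneg_left (hB' z hz) h2)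

theorem h84_BP_A0 (hU : IsOpen U) (hM : ∀ r ∈ M, Reg Λ r) {b ψ : ℂ → ℝ}
    (h : BP Λ M Y V a δ b) (hψ : A0 U ψ) : BP Λ M Y V a δ fun z => 1 * b z + (-1) * ψ z := by
  have key : ∀ q, Λ.osc (fun z => 1 * b z + (-1) * ψ z) q ≤ Λ.osc b q := fun q => by
    have := Λ.osc_lin_le h.bdd (hψ.bdd Λ) 1 (-1) q
    rw [hψ.osc_eq Λ q] at this
    simpa using this
  refine ⟨(h.tt.smul 1).add hU hM ((TT.of_A0 hU hM hψ).smul _), ?_,
    fun p hp => (key p).trans (h.big p hp), fun q hq => (key q).trans (h.small q hq)⟩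
  obtain ⟨B, hB⟩ := h.bdd
  obtain ⟨B', hB'⟩ := hψ.bdd Λ
  refine ⟨B + B', fun z hz => (abs_add_le _ _).trans ?_⟩
  rw [one_mul, neg_one_mul, abs_neg]
  exact add_le_add (hB z hz) (hB' z hz)

theorem h84_nrm_le {E : Type} {e t : E → ℝ} (he : L2w e) (ht : L2w t) :
    nrm e ≤ nrm t + nrm fun q => e q - t q := by
  have h1 : L2w fun q => |e q - t q| := ((he.add ht).1.of_le (fun q => abs_nonneg _) fun q =>
    abs_le.2 ⟨by linarith [he.1 q, ht.1 q], by linarith [he.1 q, ht.1 q]⟩).1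
  have h2 : nrm (fun q => |e q - t q|) = nrm fun q => e q - t q := by simp [nrm]
  rw [← h2]
  refine le_trans ?_ (ht.add h1).2
  exact ((ht.add h1).1.of_le he.1 fun q => by linarith [le_abs_self (e q - t q)]).2

/-- The Hahn-Banach step.  Apply `hb_nearest` to
`K = {(u - b, e) | b competitor, e admissible for u - b off Y, e = 0 on Y}` (nonempty: `b = 0`,
`e = offY Y n`; convex by `Adm.add`, `Adm.smul`, `osc_lin_le`; invariant under `A₀`).  With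
`Δ² = En (Re F) + nrm t ^ 2` and `Γ = om u c + ∑ t * offY Y n - Δ²` the data are a `Cert` (use
`(u - b, offY Y n + offY Y e) ∈ K`).  `Cert.om_le` gives `Δ² ≤ (1 + C) θ nrm t ≤ (1 + C) θ Δ`, so
`Δ ≤ (1 + C) θ`; finally take an approximant (`En_add_le`, triangle inequality for `nrm`). -/
theorem istep (hU : IsOpen U) (hc : IsPreconnected U) (hM : ∀ r ∈ M, Reg Λ r) {C : ℝ}
    (hC : 0 ≤ C) (hI : IIM Λ M C) {u : ℂ → ℝ} {n : Λ.E → ℝ} (hu : XX U u) (hb : Bdd U u)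
    (hn : Adm Λ M ∅ u n) (hδ : 0 < δ) (ha : ∀ p ∈ Y, n p < a p) {N₀ : ℕ}
    (hV : ∀ q ∈ V, ∀ q', Λ.W N₀ q' = Λ.W N₀ q → q' ∈ V) (hnV : ∀ q, q ∉ V → n q ≤ δ)
    {κ : ℝ} (hκ : (1 + C) * nrm (offY Y n) < κ) :
    ∃ b e, BP Λ M Y V a δ b ∧ Adm Λ M Y (fun z => u z - b z) e ∧
      En U (fun z => u z - b z) ≤ ENNReal.ofReal (κ ^ 2) ∧ nrm e ≤ κ := by
  classical
  have hnY : Adm Λ M Y u (offY Y n) := h84_adm_off hM (Finset.empty_subset Y) hn
  have hB0 : BP Λ M Y V a δ fun _ => 0 := by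
    have h0 := fun q => (A0.const (U := U) 0).osc_eq Λ q
    exact ⟨TT.of_A0 hU hM (A0.const 0), (A0.const 0).bdd Λ,
      fun p hp => by rw [h0]; linarith [ha p hp, hn.l2.1 p], fun q _ => by rw [h0]; exact hδ.le⟩
  set K : Set ((ℂ → ℝ) × (Λ.E → ℝ)) := {x | ∃ b, BP Λ M Y V a δ b ∧ (x.1 = fun z => u z - b z) ∧
    Adm Λ M Y x.1 x.2 ∧ ∀ p ∈ Y, x.2 p = 0} with hK
  have hX : ∀ x ∈ K, XX U x.1 ∧ L2w x.2 := by
    rintro x ⟨b, h1, h2, h3, -⟩
    exact ⟨h2 ▸ hu.sub hU h1.tt.1, h3.l2⟩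
  obtain ⟨F, c, t, hF, hFE, hcX, -, -, -, ht, htz, hineq, happ⟩ := hb_nearest hU hc Λ K
    ⟨(fun z => u z - 0, offY Y n), fun _ => 0, hB0, rfl, by simpa using hnY,
      fun p hp => by simp [offY, hp]⟩ hX
    (by
      rintro x hx y hy θ h0 h1
      have hx' := hX x hx
      have hy' := hX y hy
      obtain ⟨b, b1, b2, b3, b4⟩ := hx
      obtain ⟨b', c1, c2, c3, c4⟩ := hy
      refine ⟨_, h84_BP_lin hU hM b1 c1 h0 h1, ?_, ?_, fun p hp => by simp [b4 p hp, c4 p hp]⟩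
      · funext z
        simp only [b2, c2]
        ring
      · have := (b3.smul θ).add hU hM (hx'.1.smul θ) (hy'.1.smul (1 - θ)) (c3.smul (1 - θ))
        rwa [abs_of_nonneg h0, abs_of_nonneg (by linarith : 0 ≤ 1 - θ)] at this)
    (by
      rintro x hx ψ hψ
      have hx' := hX x hx
      obtain ⟨b, b1, b2, b3, b4⟩ := hx
      refine ⟨_, h84_BP_A0 hU hM b1 hψ, ?_, ?_, b4⟩
      · funext z
        simp only [b2]
        ring
      · simpa using b3.add hU hM hx'.1 hψ.xx (Adm.of_A0 hU hM Y hψ))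
  have ht0 : ∀ p ∈ Y, t p = 0 := fun p hp => htz p fun x hx => hx.choose_spec.2.2.2 p hp
  set D := (En U fun z => (F z).re).toReal with hD
  have hD0 : 0 ≤ D := ENNReal.toReal_nonneg
  set θ := nrm (offY Y n) with hθ
  have hθ0 : 0 ≤ θ := L2w.nrm_nonneg _
  have hcert : Cert Λ M Y V a δ c t (om U u c + (∑' q, t q * offY Y n q) - (D + nrm t ^ 2)) := by
    refine ⟨hcX, ht, ht0, fun b e h1 h2 => ?_⟩
    have h3 := h84_adm_off hM (Finset.Subset.refl Y) h2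
    have h4 := hineq (fun z => u z - b z, fun q => offY Y n q + offY Y e q)
      ⟨b, h1, rfl, hnY.sub hU hM hu h1.tt.1 h3, fun p hp => by simp [offY, hp]⟩
    have h5 : ∑' q, t q * (offY Y n q + offY Y e q) =
        (∑' q, t q * offY Y n q) + ∑' q, t q * e q := by
      rw [← (ht.summable_mul hnY.l2).1.tsum_add (ht.summable_mul h2.l2).1]
      refine tsum_congr fun q => ?_
      by_cases hq : q ∈ Y
      · simp [ht0 q hq]
      · simp [offY, hq, mul_add]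
    simp only [h5, om_sub_left hU hu h1.tt.1 hcX] at h4
    linarith
  have h6 := hcert.om_le hU hM hC hI hu hb hn hδ ha hV hnV
  have h7 := (ht.summable_mul hnY.l2).2
  have ht1 : 0 ≤ nrm t := L2w.nrm_nonneg _
  have h8 : D + nrm t ^ 2 ≤ (1 + C) * θ * nrm t := by nlinarith
  have hA : 0 ≤ (1 + C) * θ := by positivity
  have h9 : nrm t ≤ (1 + C) * θ := by
    by_contra h
    push Not at h
    nlinarith
  have h10 : Real.sqrt D ≤ (1 + C) * θ := by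
    refine Real.sqrt_le_iff.2 ⟨hA, ?_⟩
    nlinarith [sq_nonneg ((1 + C) * θ - nrm t)]
  obtain ⟨g, hg⟩ : ∃ g, g = κ - (1 + C) * θ := ⟨_, rfl⟩
  have hg0 : 0 < g := by linarith
  obtain ⟨x, hx, e1, e2⟩ := happ (min g (g ^ 2)) (by positivity)
  have hx' := hX x hx
  obtain ⟨b, b1, b2, b3, -⟩ := hx
  refine ⟨b, x.2, b1, b2 ▸ b3, ?_, ?_⟩
  · rw [← b2]
    have hl : LocallyLipschitzOn U fun z => (F z).re := by
      intro z hz
      have h1 : ContDiffAt ℝ 1 (fun z => (F z).re) z :=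
        Complex.reCLM.contDiff.contDiffAt.comp z
          (((hF.analyticAt (hU.mem_nhds hz)).contDiffAt (n := 1)).restrict_scalars ℝ)
      obtain ⟨L, s, hs, hL⟩ := h1.exists_lipschitzOnWith
      exact ⟨L, s, mem_nhdsWithin_of_mem_nhds hs, hL⟩
    have h1 := En_add_le hU (hx'.1.lip.sub hl) hl
    simp only [sub_add_cancel] at h1
    have h2 : En U (fun z => x.1 z - (F z).re) ^ (1 / 2 : ℝ) ≤ ENNReal.ofReal g := by
      refine (ENNReal.rpow_le_rpow (e1.trans (ENNReal.ofReal_le_ofReal (min_le_right _ _)))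
        (by norm_num)).trans_eq ?_
      rw [ENNReal.ofReal_rpow_of_nonneg (by positivity) (by norm_num), ← Real.sqrt_eq_rpow,
        Real.sqrt_sq hg0.le]
    have h3 : En U (fun z => (F z).re) ^ (1 / 2 : ℝ) ≤ ENNReal.ofReal ((1 + C) * θ) := by
      rw [← ENNReal.ofReal_toReal hFE.ne, ENNReal.ofReal_rpow_of_nonneg hD0 (by norm_num),
        ← Real.sqrt_eq_rpow]
      exact ENNReal.ofReal_le_ofReal h10
    have h4 : En U x.1 ^ (1 / 2 : ℝ) ≤ ENNReal.ofReal κ := by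
      refine h1.trans ((add_le_add h2 h3).trans_eq ?_)
      rw [← ENNReal.ofReal_add hg0.le hA, hg]
      congr 1
      ring
    have h5 := ENNReal.rpow_le_rpow h4 (show (0 : ℝ) ≤ 2 by norm_num)
    rw [← ENNReal.rpow_mul, show (1 / 2 : ℝ) * 2 = 1 by norm_num, ENNReal.rpow_one,
      ENNReal.ofReal_rpow_of_nonneg (by linarith) (by norm_num), Real.rpow_two] at h5
    exact h5
  · have := h84_nrm_le hx'.2 ht
    linarith [min_le_left g (g ^ 2)]

end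

end Crest.Agent.R105
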