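import Crest.Agent.R105.HAdm
import Crest.Agent.R105.HPoinc

/-! Row 105, block HB: clipping into the ranges on the lumps of one level, limits. -/

set_option autoImplicit false

open MeasureTheory Set Filter Topology
open scoped ENNReal

namespace Crest.Agent.R105

noncomputable section

variable {U : Set ℂ} {Λ : Lumps U} {M : Set (ℂ → ℝ)}

/-- the hard clip to `[α, β]` -/
def clp (α β s : ℝ) : ℝ := max α (min s β)

theorem clp_lip (α β s s' : ℝ) : |clp α β s - clp α β s'| ≤ 1 * |s - s'| := by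
  rw [one_mul]
  unfold clp
  refine (abs_max_sub_max_le_max _ _ _ _).trans (max_le (by simp) ?_)
  exact (abs_min_sub_min_le_max _ _ _ _).trans (max_le le_rfl (by simp))

theorem clp_mem {α β : ℝ} (h : α ≤ β) (s : ℝ) : clp α β s ∈ Icc α β := by
  exact ⟨le_max_left _ _, max_le h (min_le_right _ _)⟩

theorem clp_eq {α β s : ℝ} (h : s ∈ Icc α β) : clp α β s = s := by
  unfold clp
  rw [min_eq_left h.2, max_eq_right h.1]

/-- At a.e. point of `A`: `‖∇(clp b) - ∇u‖ ≤ ‖∇(b - u)‖ + 1_{b ∉ (α,β)} ‖∇u‖` (if `α < b z < β` then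
`clp b = b` near `z`; if `b z ∉ [α,β]` then `clp b` is locally constant; if `b z ∈ {α,β}` then
`∇b = 0` by `ae_fderiv_eq_zero_of_eq` and `∇(clp b) = 0` by `norm_fderiv_comp2_le`).  The last term
tends to `0` a.e. on `A` (where `α < u < β` the indicator vanishes eventually; where `u ∈ {α,β}`,
`∇u = 0` a.e.); dominated convergence (`tendsto_lintegral_of_dominated_convergence'`). -/
theorem En_clp_tendsto (hU : IsOpen U) {u : ℂ → ℝ} {b : ℕ → ℂ → ℝ} (hu : XX U u)
    (hb : ∀ k, XX U (b k)) {A : Set ℂ} (hA : MeasurableSet A) (hAU : A ⊆ U) {α β : ℝ}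
    (hr : ∀ z ∈ A, u z ∈ Icc α β)
    (h1 : ∀ᵐ z, z ∈ U → Tendsto (fun k => b k z) atTop (𝓝 (u z)))
    (h2 : Tendsto (fun k => En U (fun z => b k z - u z)) atTop (𝓝 0)) :
    Tendsto (fun k => ∫⁻ z in A, ‖fderiv ℝ (fun z => clp α β (b k z) - u z) z‖ₑ ^ 2) atTop
      (𝓝 0) := by
  have hc : ∀ k, XX U (fun z => clp α β (b k z)) := fun k =>
    XX.comp_lip hU (T := clp α β) (clp_lip α β) (hb k)
  have hend : ∀ s, s ∉ Icc α β → clp α β s = α ∨ clp α β s = β := by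
    intro s hs
    unfold clp
    rcases max_choice α (min s β) with h | h
    · exact Or.inl h
    · rcases le_total s β with h' | h'
      · left
        rw [min_eq_left h']
        exact max_eq_left (not_lt.1 fun h'' => hs ⟨h''.le, h'⟩)
      · right
        rw [h, min_eq_right h']
  set f : ℕ → ℂ → ℝ≥0∞ := fun k z => ‖fderiv ℝ (fun z => clp α β (b k z) - u z) z‖ₑ ^ 2 with hf
  set g : ℕ → ℂ → ℝ≥0∞ := fun k z => ‖fderiv ℝ (fun z => b k z - u z) z‖ₑ ^ 2 with hg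
  have mf : ∀ k, Measurable (f k) := fun k => (measurable_fderiv ℝ _).enorm.pow_const 2
  have mg : ∀ k, Measurable (g k) := fun k => (measurable_fderiv ℝ _).enorm.pow_const 2
  have key : ∀ᵐ z, ∀ k, z ∈ U → (b k z ∈ Icc α β → f k z = g k z) ∧
      (b k z ∉ Icc α β → f k z = ‖fderiv ℝ u z‖ₑ ^ 2) := by
    refine ae_all_iff.2 fun k => ?_
    filter_upwards [ae_diff hU hu.lip, ae_diff hU (hb k).lip, ae_diff hU (hc k).lip,
      ae_fderiv_eq_of_eq hU (hc k).lip (hb k).lip, ae_fderiv_eq_zero_of_eq hU (hc k).lip α,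
      ae_fderiv_eq_zero_of_eq hU (hc k).lip β] with z d1 d2 d3 e1 e2 e3 hz
    have ef : f k z = ‖fderiv ℝ (fun z => clp α β (b k z)) z - fderiv ℝ u z‖ₑ ^ 2 := by
      simp only [hf]
      rw [fderiv_fun_sub (d3 hz) (d1 hz)]
    refine ⟨fun h => ?_, fun h => ?_⟩
    · simp only [hg]
      rw [ef, fderiv_fun_sub (d2 hz) (d1 hz), e1 hz (clp_eq h)]
    · rw [ef, (hend _ h).elim (e2 hz) (e3 hz), zero_sub, enorm_neg]
  have bd : ∀ᵐ z, z ∈ U → ∀ k, f k z - g k z ≤ ‖fderiv ℝ u z‖ₑ ^ 2 := by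
    filter_upwards [key] with z hz hU' k
    by_cases h : b k z ∈ Icc α β
    · rw [(hz k hU').1 h, tsub_self]; exact zero_le
    · rw [(hz k hU').2 h]; exact tsub_le_self
  have lim : Tendsto (fun k => ∫⁻ z in A, (f k z - g k z)) atTop (𝓝 (∫⁻ _ in A, 0)) := by
    refine tendsto_lintegral_of_dominated_convergence (fun z => ‖fderiv ℝ u z‖ₑ ^ 2)
      (fun k => (mf k).sub (mg k)) (fun k => ?_) ?_ ?_
    · refine (ae_restrict_iff' hA).2 ?_
      filter_upwards [bd] with z hz hzA using hz (hAU hzA) k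
    · exact ((lintegral_mono_set hAU).trans_lt hu.en).ne
    · refine (ae_restrict_iff' hA).2 ?_
      filter_upwards [key, bd, h1, ae_fderiv_eq_zero_of_eq hU hu.lip α,
        ae_fderiv_eq_zero_of_eq hU hu.lip β] with z hz hb' ht e1 e2 hzA
      have hzU := hAU hzA
      by_cases h : u z ∈ Ioo α β
      · refine tendsto_const_nhds.congr' ?_
        filter_upwards [(ht hzU).eventually (isOpen_Ioo.mem_nhds h)] with k hk
        rw [(hz k hzU).1 (Ioo_subset_Icc_self hk), tsub_self]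
      · have h0 : fderiv ℝ u z = 0 := by
          rcases (hr z hzA).1.eq_or_lt with h' | h'
          · exact e1 hzU h'.symm
          · rcases (hr z hzA).2.eq_or_lt with h'' | h''
            · exact e2 hzU h''
            · exact absurd ⟨h', h''⟩ h
        refine tendsto_const_nhds.congr fun k => ?_
        have := hb' hzU k
        rw [h0, ← ofReal_norm, norm_zero, ENNReal.ofReal_zero, zero_pow two_ne_zero] at this
        exact (nonpos_iff_eq_zero.1 this).symm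
  rw [lintegral_zero] at lim
  have := lim.add h2
  rw [add_zero] at this
  refine tendsto_of_tendsto_of_tendsto_of_le_of_le tendsto_const_nhds this (fun k => zero_le)
    fun k => ?_
  calc ∫⁻ z in A, f k z ≤ ∫⁻ z in A, (f k z - g k z) + g k z :=
        lintegral_mono fun z => le_tsub_add
    _ = (∫⁻ z in A, (f k z - g k z)) + ∫⁻ z in A, g k z := lintegral_add_right _ (mg k)
    _ ≤ _ := add_le_add le_rfl (lintegral_mono_set hAU)

theorem h32_enorm_sq {x y : ℂ →L[ℝ] ℝ} {a : ℝ} (h : ‖x‖ ≤ |a| + ‖y‖) :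
    ‖x‖ₑ ^ 2 ≤ 2 * ‖y‖ₑ ^ 2 + ENNReal.ofReal (2 * a ^ 2) := by
  rw [← ofReal_norm, ← ofReal_norm, ← ENNReal.ofReal_pow (norm_nonneg _),
    ← ENNReal.ofReal_pow (norm_nonneg _), ← ENNReal.ofReal_ofNat 2,
    ← ENNReal.ofReal_mul (by positivity), ← ENNReal.ofReal_add (by positivity) (by positivity)]
  refine ENNReal.ofReal_le_ofReal ?_
  have h1 := pow_le_pow_left₀ (norm_nonneg _) h 2
  nlinarith [sq_nonneg (|a| - ‖y‖), sq_abs a]

/-- One lump.  Off `W` the product vanishes, so its gradient vanishes a.e. there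
(`ae_fderiv_eq_zero_of_eq`); on `W`: `‖∇(χ w)‖² ≤ 2 ‖∇w‖² + 2 L² w²`, `En_clp_tendsto`, and bounded
convergence on the bounded set `W` (`|w| ≤ β - α`, `w → 0` a.e.). -/
theorem En_patch_tendsto (hU : IsOpen U) {u χ : ℂ → ℝ} {b : ℕ → ℂ → ℝ} (hu : XX U u)
    (hb : ∀ k, XX U (b k)) {N : ℕ} {p : Λ.E} (hχ : A0 U χ) (h01 : ∀ z, 0 ≤ χ z ∧ χ z ≤ 1)
    (h0 : ∀ z, z ∉ Λ.W N p → χ z = 0) {L : ℝ} (hL : ∀ z ∈ U, ‖fderiv ℝ χ z‖ ≤ L) {α β : ℝ}
    (hr : ∀ z ∈ Λ.W N p, u z ∈ Icc α β)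
    (h1 : ∀ᵐ z, z ∈ U → Tendsto (fun k => b k z) atTop (𝓝 (u z)))
    (h2 : Tendsto (fun k => En U (fun z => b k z - u z)) atTop (𝓝 0)) :
    Tendsto (fun k => En U (fun z => (clp α β (b k z) - u z) * χ z)) atTop (𝓝 0) := by
  have hWm : MeasurableSet (Λ.W N p) := (Λ.op N p).measurableSet
  have hWU : Λ.W N p ⊆ U := fun z hz => (Λ.sub N p hz).1
  obtain ⟨z₀, hz₀⟩ := (Λ.conn N p).nonempty
  have hαβ : α ≤ β := (hr z₀ hz₀).1.trans (hr z₀ hz₀).2
  have hL0 : 0 ≤ L := (norm_nonneg _).trans (hL z₀ (hWU hz₀))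
  have hw : ∀ k, XX U fun z => clp α β (b k z) - u z := fun k =>
    (XX.comp_lip hU (clp_lip α β) (hb k)).sub hU hu
  have t1 := En_clp_tendsto hU hu hb hWm hWU hr h1 h2
  have t2 : Tendsto (fun k => ∫⁻ z in Λ.W N p,
      ENNReal.ofReal (2 * (L * (clp α β (b k z) - u z)) ^ 2)) atTop (𝓝 0) := by
    have h3 := tendsto_lintegral_of_dominated_convergence' (μ := volume.restrict (Λ.W N p))
      (F := fun k z => ENNReal.ofReal (2 * (L * (clp α β (b k z) - u z)) ^ 2)) (f := fun _ => 0)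
      (fun _ => ENNReal.ofReal (2 * (L * (β - α)) ^ 2)) (fun k => ?_) (fun k => ?_) ?_ ?_
    · simpa using h3
    · have h4 := ((hw k).lip.continuousOn.mono hWU).aemeasurable (μ := volume) hWm
      exact (((h4.const_mul L).pow_const 2).const_mul 2).ennreal_ofReal
    · filter_upwards [ae_restrict_mem hWm] with z hz
      refine ENNReal.ofReal_le_ofReal (mul_le_mul_of_nonneg_left ?_ zero_le_two)
      have h4 := clp_mem hαβ (b k z)
      have h5 := hr z hz
      rw [mul_pow, mul_pow]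
      exact mul_le_mul_of_nonneg_left
        (sq_le_sq' (by linarith [h4.1, h5.2]) (by linarith [h4.2, h5.1])) (sq_nonneg _)
    · rw [setLIntegral_const]
      exact ENNReal.mul_ne_top ENNReal.ofReal_ne_top
        ((measure_mono fun z hz => (Λ.sub N p hz).2).trans_lt measure_ball_lt_top).ne
    · filter_upwards [ae_restrict_mem hWm, ae_restrict_of_ae h1] with z hz h4
      have h5 : Continuous fun s => ENNReal.ofReal (2 * (L * (clp α β s - u z)) ^ 2) := by
        unfold clp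
        exact ENNReal.continuous_ofReal.comp (by fun_prop)
      have h6 := (h5.tendsto _).comp (h4 (hWU hz))
      simpa [clp_eq (hr z hz), Function.comp_def] using h6
  have t3 := (ENNReal.Tendsto.const_mul (a := 2) t1 (Or.inr ENNReal.ofNat_ne_top)).add t2
  rw [mul_zero, add_zero] at t3
  refine tendsto_of_tendsto_of_tendsto_of_le_of_le tendsto_const_nhds t3 (fun _ => zero_le)
    fun k => ?_
  have key : ∀ᵐ z ∂(volume.restrict U),
      ‖fderiv ℝ (fun z => (clp α β (b k z) - u z) * χ z) z‖ₑ ^ 2 ≤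
      (Λ.W N p).indicator (fun z => 2 * ‖fderiv ℝ (fun z => clp α β (b k z) - u z) z‖ₑ ^ 2 +
        ENNReal.ofReal (2 * (L * (clp α β (b k z) - u z)) ^ 2)) z := by
    rw [ae_restrict_iff' hU.measurableSet]
    filter_upwards [ae_diff hU (hw k).lip, ae_diff hU hχ.xx.lip,
      ae_fderiv_eq_zero_of_eq hU (h67_lip_mul (hw k).lip hχ.xx.lip) 0] with z h3 h4 h5 hz
    by_cases hzW : z ∈ Λ.W N p
    · rw [indicator_of_mem hzW]
      refine h32_enorm_sq ?_
      rw [fderiv_fun_mul (h3 hz) (h4 hz)]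
      refine (norm_add_le _ _).trans (add_le_add ?_ ?_)
      · rw [norm_smul, abs_mul, abs_of_nonneg hL0, mul_comm L]
        exact mul_le_mul_of_nonneg_left (hL z hz) (norm_nonneg _)
      · rw [norm_smul, Real.norm_of_nonneg (h01 z).1]
        exact mul_le_of_le_one_left (norm_nonneg _) (h01 z).2
    · rw [h5 hz (by rw [h0 z hzW, mul_zero]), h85_enorm0]
      simp
  refine (lintegral_mono_ae key).trans ((setLIntegral_le_lintegral _ _).trans (le_of_eq ?_))
  rw [lintegral_indicator hWm,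
    lintegral_add_left (((measurable_fderiv ℝ _).enorm.pow_const 2).const_mul _),
    lintegral_const_mul' _ _ ENNReal.ofNat_ne_top]

theorem h14_En_add (hU : IsOpen U) {f g : ℕ → ℂ → ℝ} (hf : ∀ k, XX U (f k)) (hg : ∀ k, XX U (g k))
    (a1 : Tendsto (fun k => En U (f k)) atTop (𝓝 0))
    (a2 : Tendsto (fun k => En U (g k)) atTop (𝓝 0)) :
    Tendsto (fun k => En U (fun z => f k z + g k z)) atTop (𝓝 0) := by
  have hp : ∀ p : ℝ, 0 < p → Tendsto (fun x : ℝ≥0∞ => x ^ p) (𝓝 0) (𝓝 0) := fun p hp => by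
    have := (ENNReal.continuous_rpow_const (y := p)).tendsto 0
    rwa [ENNReal.zero_rpow_of_pos hp] at this
  have a3 := ((hp (1 / 2) (by norm_num)).comp a1).add ((hp (1 / 2) (by norm_num)).comp a2)
  rw [add_zero] at a3
  have a4 := (hp 2 (by norm_num)).comp a3
  refine tendsto_of_tendsto_of_tendsto_of_le_of_le tendsto_const_nhds a4 (fun _ => zero_le)
    fun k => ?_
  have b := En_add_le hU (hf k).lip (hg k).lip
  have b2 := ENNReal.rpow_le_rpow b (z := 2) (by norm_num)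
  rw [← ENNReal.rpow_mul] at b2
  norm_num at b2
  simpa [Function.comp_def] using b2

theorem h14_En_sum (hU : IsOpen U) {ι : Type*} (s : Finset ι) {f : ι → ℕ → ℂ → ℝ}
    (hf : ∀ i k, XX U (f i k)) (h : ∀ i, Tendsto (fun k => En U (f i k)) atTop (𝓝 0)) :
    Tendsto (fun k => En U (fun z => ∑ i ∈ s, f i k z)) atTop (𝓝 0) := by
  classical
  induction s using Finset.induction_on with
  | empty =>
    have : ‖(0 : ℂ →L[ℝ] ℝ)‖ₑ = 0 := by rw [← ofReal_norm, norm_zero, ENNReal.ofReal_zero]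
    simp [En, this]
  | insert a s ha ih =>
    simp only [Finset.sum_insert ha]
    exact h14_En_add hU (hf a) (fun k => XX.sum hU s fun i _ => hf i k) (h a) ih

/-- Patching.  `hb_poinc` for `b k - u` gives a subsequence and constants; take representatives `Q`
of level `N`, cut-offs `χ p` (`exists_Ind`), `α p = sInf (u '' W N p)`, `β p = sSup (u '' W N p)` and
`u' = u + ∑_{p ∈ Q} (clp (α p) (β p) (b k - c) - u) * χ p`; `En_patch_tendsto`, `En_add_le`.  On
`W N p` only one term is present and `u'` is a convex combination of `u` and the clip; on deep lumps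
`χ p = 1` (`A0.eq_val`), `T s = clp (α p) (β p) (s - c)`. -/
theorem patch (hU : IsOpen U) (hc : IsPreconnected U) (Λ : Lumps U) {u : ℂ → ℝ} (hu : XX U u)
    (hbd : Bdd U u) (N : ℕ) {b : ℕ → ℂ → ℝ} (hb : ∀ k, XX U (b k))
    (h2 : Tendsto (fun k => En U (fun z => u z - b k z)) atTop (𝓝 0)) {η : ℝ} (hη : 0 < η) :
    ∃ k u', XX U u' ∧ En U (fun z => u' z - u z) ≤ ENNReal.ofReal (η ^ 2) ∧
      (∀ z, (∀ q, z ∉ Λ.W N q) → u' z = u z) ∧
      (∀ p α β, (∀ z ∈ Λ.W N p, u z ∈ Icc α β) → ∀ z ∈ Λ.W N p, u' z ∈ Icc α β) ∧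
      ∀ q, ∃ (m : ℕ) (T : ℝ → ℝ), (∀ s s', |T s - T s'| ≤ 1 * |s - s'|) ∧
        ∀ z ∈ Λ.W m q, u' z = T (b k z) := by
  classical
  obtain ⟨φ, c, hφ, hae⟩ := hb_poinc hU hc (u := fun k z => u z - b k z)
    (fun k => (XX.sub hU hu (hb k)).lip) h2
  have hb' : ∀ k, XX U (fun z => b (φ k) z + c k) := fun k => XX.add hU (hb _) (XX.const _)
  have a1 : ∀ᵐ z, z ∈ U → Tendsto (fun k => b (φ k) z + c k) atTop (𝓝 (u z)) := by
    filter_upwards [hae] with z hz hzU
    have := (hz hzU).const_sub (u z)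
    rw [sub_zero] at this
    exact this.congr fun k => by ring
  have a2 : Tendsto (fun k => En U (fun z => (b (φ k) z + c k) - u z)) atTop (𝓝 0) := by
    refine (h2.comp hφ.tendsto_atTop).congr fun k => ?_
    have : (fun z => (b (φ k) z + c k) - u z) = fun z => -(u z - b (φ k) z) + c k := by
      funext z; ring
    rw [this]
    simp only [Function.comp_def, En, fderiv_add_const, fderiv_fun_neg, enorm_neg]
  obtain ⟨Q, hQ1, hQ2⟩ := Λ.exists_reps N
  choose χ hχ _ h01 h0 L hL using fun p => exists_Ind hU Λ N p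
  obtain ⟨B, hB⟩ := hbd
  have hbb : ∀ p, BddBelow (u '' Λ.W N p) := fun p =>
    ⟨-B, by rintro _ ⟨z, hz, rfl⟩; exact (abs_le.1 (hB z (Λ.sub N p hz).1)).1⟩
  have hba : ∀ p, BddAbove (u '' Λ.W N p) := fun p =>
    ⟨B, by rintro _ ⟨z, hz, rfl⟩; exact (abs_le.1 (hB z (Λ.sub N p hz).1)).2⟩
  have hne : ∀ p, (u '' Λ.W N p).Nonempty := fun p => (Λ.conn N p).nonempty.image u
  have hr : ∀ p, ∀ z ∈ Λ.W N p, u z ∈ Icc (sInf (u '' Λ.W N p)) (sSup (u '' Λ.W N p)) :=
    fun p z hz => ⟨csInf_le (hbb p) ⟨z, hz, rfl⟩, le_csSup (hba p) ⟨z, hz, rfl⟩⟩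
  obtain ⟨w, hw⟩ : ∃ w : Λ.E → ℕ → ℂ → ℝ, w = fun p k z =>
      (clp (sInf (u '' Λ.W N p)) (sSup (u '' Λ.W N p)) (b (φ k) z + c k) - u z) * χ p z :=
    ⟨_, rfl⟩
  have hwx : ∀ p k, XX U (w p k) := fun p k => by
    rw [hw]
    exact XX.mul_A0 hU Λ (XX.sub hU (XX.comp_lip hU (clp_lip _ _) (hb' k)) hu) (hχ p).1
  have hwE : ∀ p, Tendsto (fun k => En U (w p k)) atTop (𝓝 0) := fun p => by
    rw [hw]
    exact En_patch_tendsto hU hu hb' (hχ p).1 (h01 p) (h0 p) (hL p) (hr p) a1 a2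
  have hS := h14_En_sum hU Q hwx hwE
  obtain ⟨k, hk⟩ := (hS.eventually (ge_mem_nhds
    (show (0 : ℝ≥0∞) < ENNReal.ofReal (η ^ 2) from ENNReal.ofReal_pos.2 (by positivity)))).exists
  have hw0 : ∀ p z, z ∉ Λ.W N p → w p k z = 0 := fun p z hz => by
    rw [hw]; simp only [h0 p z hz, mul_zero]
  have hone : ∀ p ∈ Q, ∀ z ∈ Λ.W N p, ∑ p' ∈ Q, w p' k z = w p k z := fun p hp z hz =>
    Finset.sum_eq_single_of_mem p hp fun p' hp' hne' =>
      hw0 p' z fun hz' => Set.disjoint_left.1 (hQ2 p' hp' p hp hne') hz' hz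
  refine ⟨φ k, fun z => u z + ∑ p ∈ Q, w p k z,
    XX.add hU hu (XX.sum hU Q fun p _ => hwx p k), ?_, fun z hz => ?_, fun p α β hαβ z hz => ?_,
    fun q => ?_⟩
  · simpa only [add_sub_cancel_left] using hk
  · simp only [Finset.sum_eq_zero fun p _ => hw0 p z (hz p), add_zero]
  · obtain ⟨p', hp', e⟩ := hQ1 p
    rw [e] at hαβ hz
    have m1 := clp_mem ((hr p' z hz).1.trans (hr p' z hz).2) (b (φ k) z + c k)
    have m2 : α ≤ sInf (u '' Λ.W N p') :=
      le_csInf (hne p') (by rintro _ ⟨y, hy, rfl⟩; exact (hαβ y hy).1)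
    have m3 : sSup (u '' Λ.W N p') ≤ β :=
      csSup_le (hne p') (by rintro _ ⟨y, hy, rfl⟩; exact (hαβ y hy).2)
    have m4 := hαβ z hz
    have m5 := h01 p' z
    show u z + ∑ p ∈ Q, w p k z ∈ Icc α β
    rw [hone p' hp' z hz, hw]
    constructor
    · nlinarith [mul_nonneg m5.1 (sub_nonneg.2 (m2.trans m1.1)),
        mul_nonneg (sub_nonneg.2 m5.2) (sub_nonneg.2 m4.1)]
    · nlinarith [mul_nonneg m5.1 (sub_nonneg.2 (m1.2.trans m3)),
        mul_nonneg (sub_nonneg.2 m5.2) (sub_nonneg.2 m4.2)]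
  · obtain ⟨p', hp', e⟩ := hQ1 q
    obtain ⟨N', hN'⟩ := A0.eq_val Λ (hχ p').1
    refine ⟨max N N', fun s => clp (sInf (u '' Λ.W N p')) (sSup (u '' Λ.W N p')) (s + c k),
      fun s s' => ?_, fun z hz => ?_⟩
    · have := clp_lip (sInf (u '' Λ.W N p')) (sSup (u '' Λ.W N p')) (s + c k) (s' + c k)
      rwa [add_sub_add_right_eq_sub] at this
    · have hz' : z ∈ Λ.W N p' := e ▸ Λ.W_mono (le_max_left N N') q hz
      have h1 : χ p' z = 1 := by
        rw [hN' _ (le_max_right N N') q z hz, (hχ p').2 q, if_pos e]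
      show u z + ∑ p ∈ Q, w p k z = _
      rw [hone p' hp' z hz', hw]
      simp only [h1]
      ring

/-- Weights of a function whose germs are contractions of `b`.  By `koenig'` (with
`P s := ∃ T 1-Lipschitz, ∀ z ∈ s, u' z = T (b z)`), `exists_reps_of` and `Lumps.near` there is a level
`m` that separates `Y`, on each of whose lumps `u' = T (b)`, and with `b ∈ [α, β]`, `β - α ≤ w p` on
`W m p` for `p ∈ Y`.  Use `Adm.glue`: on a lump with `b ∈ [α, β]` (for lumps without a point of `Y`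
any bounds of `b`) take `g = G (b) + T ((α+β)/2)`, `G s = T (clp α β s) - T ((α+β)/2)`,
`|G| ≤ (β-α)/2`, `CH` with exclusion `Y` and `B = β - α`, `Adm.of_A0` for the constant. -/
theorem Adm.of_germ (hU : IsOpen U) (hM : ∀ r ∈ M, Reg Λ r) (hC : CH Λ M) {Y : Finset Λ.E}
    {b u' : ℂ → ℝ} {e w : Λ.E → ℝ} (hb : XX U b) (hbd : Bdd U b) (he : Adm Λ M Y b e)
    (hu' : XX U u') (hw : L2w w) (h1 : ∀ q, q ∉ Y → e q ≤ w q) (h2 : ∀ p ∈ Y, Λ.osc b p < w p)
    (hg : ∀ q, ∃ (m : ℕ) (T : ℝ → ℝ), (∀ s s', |T s - T s'| ≤ 1 * |s - s'|) ∧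
      ∀ z ∈ Λ.W m q, u' z = T (b z)) : Adm Λ M ∅ u' w := by
  classical
  obtain ⟨N, hN⟩ := Λ.koenig' (fun s => ∃ (T : ℝ → ℝ) (α β : ℝ),
      (∀ s s', |T s - T s'| ≤ 1 * |s - s'|) ∧ α ≤ β ∧
      (∀ z ∈ s, u' z = T (b z) ∧ b z ∈ Icc α β) ∧
      ∀ p ∈ Y, (∃ k, Λ.W k p ⊆ s) → β - α ≤ w p)
    (by
      rintro s t hst ⟨T, α, β, a1, a2, a3, a4⟩
      exact ⟨T, α, β, a1, a2, fun z hz => a3 z (hst hz),
        fun p hp ⟨k, hk⟩ => a4 p hp ⟨k, hk.trans hst⟩⟩)
    (by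
      intro q
      obtain ⟨m, T, hT, hm⟩ := hg q
      obtain ⟨η, hη, hη'⟩ : ∃ η > 0, q ∈ Y → Λ.osc b q + 2 * η ≤ w q := by
        by_cases hq : q ∈ Y
        · exact ⟨(w q - Λ.osc b q) / 2, by linarith [h2 q hq], fun _ => by linarith⟩
        · exact ⟨1, one_pos, fun h => absurd h hq⟩
      obtain ⟨n, hn⟩ := Λ.near hbd q hη
      obtain ⟨k, hk⟩ := Λ.exists_reps_of (insert q Y)
      obtain ⟨Q, hQ, -, hd⟩ := hk k le_rfl
      refine ⟨max k (max m n), T, Λ.lo b q - η, Λ.hi b q + η, hT,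
        by linarith [Λ.lo_le_hi hbd q], fun z hz => ⟨hm z (Λ.W_mono (by omega) q hz),
          hn z (Λ.W_mono (by omega) q hz)⟩, fun p hp ⟨j, hj⟩ => ?_⟩
      by_cases e : p = q
      · subst e
        have := hη' hp
        rw [Lumps.osc] at this
        linarith
      · obtain ⟨z, hz⟩ := (Λ.conn (max j k) p).nonempty
        exact absurd (Λ.W_mono (le_max_left _ _) q (hj (Λ.W_mono (le_max_left _ _) p hz)))
          (Set.disjoint_left.1 (hd p (hQ (Finset.mem_insert_of_mem hp)) q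
            (hQ (Finset.mem_insert_self _ _)) e) (Λ.W_mono (le_max_right _ _) p hz)))
  refine Adm.glue hU hM hu' hw N fun p => ?_
  obtain ⟨T, α, β, hT, hab, h3, h4⟩ := hN N le_rfl p
  have hG : ∀ s t s' t' : ℝ, |(T (clp α β s) - T ((α + β) / 2)) -
      (T (clp α β s') - T ((α + β) / 2))| ≤ 1 * |s - s'| + 0 * |t - t'| := by
    intro s t s' t'
    have a1 := hT (clp α β s) (clp α β s')
    have a2 := clp_lip α β s s'
    rw [sub_sub_sub_cancel_right]
    linarith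
  have hx := XX.comp2 hU (G := fun s _ => T (clp α β s) - T ((α + β) / 2)) hG hb hb
  have hA := hC Y b b e e (fun s _ => T (clp α β s) - T ((α + β) / 2)) 1 0 (β - α) hb hb he he
    zero_le_one le_rfl (sub_nonneg.2 hab) hG (Or.inr fun s _ => by
      have a1 := clp_mem hab s
      refine (hT _ _).trans ?_
      rw [one_mul, abs_le]
      constructor <;> linarith [a1.1, a1.2])
  refine ⟨_, _, hx.add hU (XX.const (T ((α + β) / 2))),
    hA.add hU hM hx (XX.const _) (Adm.of_A0 hU hM ∅ (A0.const _)), fun q hq => ⟨?_, N, ?_⟩⟩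
  · by_cases hqY : q ∈ Y
    · rw [if_pos hqY, add_zero]
      exact h4 q hqY ⟨N, hq.subset⟩
    · rw [if_neg hqY]
      linarith [h1 q hqY]
  · intro z hz
    obtain ⟨a1, a2⟩ := h3 z (hq ▸ hz)
    rw [a1, clp_eq a2, sub_add_cancel]

/-- `Lumps.osc_le`, `Lumps.near` -/
theorem Lumps.osc_germ_le (Λ : Lumps U) {b u' : ℂ → ℝ} (hb : Bdd U b) (hu' : Bdd U u') {q : Λ.E}
    {m : ℕ} {T : ℝ → ℝ} (hT : ∀ s s', |T s - T s'| ≤ 1 * |s - s'|)
    (h : ∀ z ∈ Λ.W m q, u' z = T (b z)) : Λ.osc u' q ≤ Λ.osc b q := by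
  refine Λ.osc_le hu' fun η hη => ?_
  obtain ⟨n, hn⟩ := Λ.near hb q (half_pos hη)
  refine ⟨max m n, fun z hz z' hz' => ?_⟩
  have a1 := hn z (Λ.W_mono (le_max_right _ _) q hz)
  have a2 := hn z' (Λ.W_mono (le_max_right _ _) q hz')
  rw [h z (Λ.W_mono (le_max_left _ _) q hz), h z' (Λ.W_mono (le_max_left _ _) q hz'), Lumps.osc]
  refine (le_abs_self _).trans ((hT _ _).trans ?_)
  rw [one_mul, abs_le]
  constructor <;> linarith [a1.1, a1.2, a2.1, a2.2]

theorem h57_en_trans (hU : IsOpen U) {u v w : ℂ → ℝ} (hu : XX U u) (hv : XX U v) (hw : XX U w)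
    {a b : ℝ} (ha : 0 ≤ a) (hb : 0 ≤ b)
    (h₁ : En U (fun z => u z - v z) ≤ ENNReal.ofReal (a ^ 2))
    (h₂ : En U (fun z => v z - w z) ≤ ENNReal.ofReal (b ^ 2)) :
    En U (fun z => u z - w z) ≤ ENNReal.ofReal ((a + b) ^ 2) := by
  have e : (fun z => u z - w z) = fun z => (u z - v z) + (v z - w z) :=
    funext fun z => (sub_add_sub_cancel _ _ _).symm
  have k1 := XX.sub hU hu hv
  have k2 := XX.sub hU hv hw
  have h3 := sqrt_En_add_le hU k1 k2
  have h4 : Real.sqrt (En U fun z => u z - v z).toReal ≤ a :=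
    Real.sqrt_le_iff.2 ⟨ha, ENNReal.toReal_le_of_le_ofReal (sq_nonneg _) h₁⟩
  have h5 : Real.sqrt (En U fun z => v z - w z).toReal ≤ b :=
    Real.sqrt_le_iff.2 ⟨hb, ENNReal.toReal_le_of_le_ofReal (sq_nonneg _) h₂⟩
  rw [e, ENNReal.le_ofReal_iff_toReal_le (XX.add hU k1 k2).en.ne (sq_nonneg _)]
  exact (Real.sqrt_le_iff.1 (h3.trans (add_le_add h4 h5))).2

theorem h57_loc_fin (hU : IsOpen U) (Λ : Lumps U) {z : ℂ} (hz : z ∈ U) :
    ∃ N, ∀ᶠ w in 𝓝 z, ∀ n ≥ N, ∀ q, w ∉ Λ.W n q := by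
  obtain ⟨K, hK, hzK, hKU⟩ := exists_compact_subset hU hz
  obtain ⟨N, hN⟩ := Λ.exh K hK hKU
  refine ⟨N, ?_⟩
  filter_upwards [mem_interior_iff_mem_nhds.1 hzK] with w hw n hn q hq
  exact disjoint_left.1 (hN q) (Λ.W_mono hn q hq) hw

/-- Limit of modifications in lumps of increasing level: the proof of `g_lim` (R105/GCl.lean)
without the `C¹` part (copy it; `Lumps.loc_fin`, Fatou). -/
theorem x_lim (hU : IsOpen U) (Λ : Lumps U) {u : ℕ → ℂ → ℝ} (hu : ∀ k, XX U (u k)) {N : ℕ → ℕ}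
    (hN : StrictMono N) (hoff : ∀ k z, (∀ q, z ∉ Λ.W (N k) q) → u (k + 1) z = u k z) {t : ℕ → ℝ}
    (h0 : ∀ k, 0 ≤ t k) (ht : ∀ k, t (k + 1) ≤ t k)
    (hcl : ∀ k, En U (fun z => u (k + 1) z - u k z) ≤ ENNReal.ofReal ((t k - t (k + 1)) ^ 2)) :
    ∃ v, XX U v ∧ (∀ z, ∀ᶠ k in atTop, u k z = v z) ∧
      (∀ k z, (∀ q, z ∉ Λ.W (N k) q) → v z = u k z) ∧
      ∀ k, En U (fun z => v z - u k z) ≤ ENNReal.ofReal (t k ^ 2) := by
  have stab : ∀ k z, (∀ q, z ∉ Λ.W (N k) q) → ∀ m, k ≤ m → u m z = u k z := by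
    intro k z hz m hm
    induction m, hm using Nat.le_induction with
    | base => rfl
    | succ m hm ih => rw [hoff m z fun q hq => hz q (Λ.W_mono (hN.monotone hm) q hq), ih]
  have hJ : ∀ z, ∃ J, ∀ q, z ∉ Λ.W (N J) q := by
    intro z
    by_cases hz : z ∈ U
    · obtain ⟨J, hJ⟩ := h57_loc_fin hU Λ hz
      exact ⟨J, hJ.self_of_nhds (N J) (hN.id_le J)⟩
    · exact ⟨0, fun q hq => hz (Λ.sub _ q hq).1⟩
  choose J hJ using hJ
  obtain ⟨v, hvd⟩ : ∃ v : ℂ → ℝ, ∀ z, v z = u (J z) z := ⟨_, fun _ => rfl⟩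
  have hv : ∀ k z, (∀ q, z ∉ Λ.W (N k) q) → v z = u k z := by
    intro k z hz
    rw [hvd, ← stab k z hz _ (le_max_left k (J z)), ← stab _ z (hJ z) _ (le_max_right k (J z))]
  have hloc : ∀ z ∈ U, ∃ M, ∀ m ≥ M, v =ᶠ[𝓝 z] u m := by
    intro z hz
    obtain ⟨M, hM⟩ := h57_loc_fin hU Λ hz
    exact ⟨M, fun m hm => hM.mono fun w hw => hv m w (hw (N m) (le_trans hm (hN.id_le m)))⟩
  have tanti : Antitone t := antitone_nat_of_succ_le ht
  have hcl2 : ∀ k m, k ≤ m →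
      En U (fun z => u m z - u k z) ≤ ENNReal.ofReal ((t k - t m) ^ 2) := by
    intro k m hm
    induction m, hm using Nat.le_induction with
    | base =>
      have e : ‖(0 : ℂ →L[ℝ] ℝ)‖ₑ = 0 := by rw [← ofReal_norm, norm_zero, ENNReal.ofReal_zero]
      simp [En, e]
    | succ m hm ih =>
      have := h57_en_trans hU (hu (m + 1)) (hu m) (hu k) (sub_nonneg.2 (ht m))
        (sub_nonneg.2 (tanti hm)) (hcl m) ih
      convert this using 3
      ring
  have hcl3 : ∀ k, En U (fun z => v z - u k z) ≤ ENNReal.ofReal (t k ^ 2) := by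
    intro k
    have h1 : En U (fun z => v z - u k z) =
        ∫⁻ z in U, liminf (fun m => ‖fderiv ℝ (fun z => u m z - u k z) z‖ₑ ^ 2) atTop := by
      refine setLIntegral_congr_fun hU.measurableSet fun z hz => ?_
      obtain ⟨M, hM⟩ := hloc z hz
      have h2 : (fun m => ‖fderiv ℝ (fun z => u m z - u k z) z‖ₑ ^ 2) =ᶠ[atTop]
          fun _ => ‖fderiv ℝ (fun z => v z - u k z) z‖ₑ ^ 2 := by
        filter_upwards [eventually_ge_atTop M] with m hm
        have h3 : (fun z => u m z - u k z) =ᶠ[𝓝 z] fun z => v z - u k z :=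
          (hM m hm).mono fun w hw => by simp only [hw]
        rw [h3.fderiv_eq]
      simp only [liminf_congr h2, liminf_const]
    rw [h1]
    refine (lintegral_liminf_le' fun m => (h99_meas U _).pow_const 2).trans ?_
    refine liminf_le_of_frequently_le' (Eventually.frequently ?_)
    filter_upwards [eventually_ge_atTop k] with m hm
    exact (hcl2 k m hm).trans (ENNReal.ofReal_le_ofReal
      (pow_le_pow_left₀ (sub_nonneg.2 (tanti hm)) (sub_le_self _ (h0 m)) 2))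
  have hlip : LocallyLipschitzOn U v := by
    intro x hx
    obtain ⟨M, hM⟩ := hloc x hx
    obtain ⟨K, s, hs, hK⟩ := (hu M).lip hx
    refine ⟨K, s ∩ {w | v w = u M w}, inter_mem hs (mem_nhdsWithin_of_mem_nhds (hM M le_rfl)), ?_⟩
    intro y hy z hz
    rw [show v y = u M y from hy.2, show v z = u M z from hz.2]
    exact hK hy.1 hz.1
  have hfar : ∀ z : ℂ, Λ.R ≤ ‖z‖ → v z = u 0 z := fun z hz => hv 0 z fun q hq => by
    have := mem_ball_zero_iff.1 (Λ.sub _ q hq).2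
    linarith
  have hx1 : XX U (fun z => v z - u 0 z) :=
    ⟨hlip.sub (hu 0).lip, ⟨Λ.R, 0, fun z hz => by simp only [hfar z hz, sub_self]⟩,
      lt_of_le_of_lt (hcl3 0) ENNReal.ofReal_lt_top⟩
  have hx2 : XX U v := by
    have := XX.add hU hx1 (hu 0)
    simpa only [sub_add_cancel] using this
  refine ⟨v, hx2, fun z => ?_, hv, hcl3⟩
  filter_upwards [eventually_ge_atTop (J z)] with m hm
  rw [hvd, stab _ z (hJ z) m hm]

/-- An increasing sequence of weights with summable increments converges in `ℓ²`: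
`w q = ⨆ k, n k q`; bound finite partial sums and pass to the limit. -/
theorem L2w.lim {E : Type} {n : ℕ → E → ℝ} (hn : ∀ k, L2w (n k)) (hm : ∀ k q, n k q ≤ n (k + 1) q)
    {t : ℕ → ℝ} (h0 : ∀ k, 0 ≤ t k)
    (hcl : ∀ k, nrm (fun q => n (k + 1) q - n k q) ≤ t k - t (k + 1)) :
    ∃ w, L2w w ∧ (∀ k q, n k q ≤ w q) ∧ ∀ k, nrm (fun q => w q - n k q) ≤ t k := by
  have mono : ∀ q, Monotone fun k => n k q := fun q => monotone_nat_of_le_succ fun k => hm k q
  have hl : ∀ k m, k ≤ m → L2w (fun q => n m q - n k q) := fun k m h =>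
    ((hn m).of_le (fun q => sub_nonneg.2 (mono q h)) fun q => sub_le_self _ ((hn k).1 q)).1
  have hd : ∀ k m, k ≤ m → nrm (fun q => n m q - n k q) ≤ t k - t m := by
    intro k m h
    induction m, h using Nat.le_induction with
    | base => simp [nrm]
    | succ m h ih =>
      have h1 := ((hl m (m + 1) (Nat.le_succ m)).add (hl k m h)).2
      simp only [sub_add_sub_cancel] at h1
      linarith [hcl m]
  have hb : ∀ q, BddAbove (range fun k => n k q) := by
    intro q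
    refine ⟨n 0 q + t 0, ?_⟩
    rintro _ ⟨k, rfl⟩
    have h1 := (hl 0 k (Nat.zero_le k)).le_nrm q
    linarith [hd 0 k (Nat.zero_le k), h0 k]
  obtain ⟨w, hw⟩ : ∃ w : E → ℝ, ∀ q, w q = ⨆ k, n k q := ⟨_, fun _ => rfl⟩
  have hle : ∀ k q, n k q ≤ w q := fun k q => by rw [hw]; exact le_ciSup (hb q) k
  have hlim : ∀ q, Tendsto (fun k => n k q) atTop (𝓝 (w q)) := fun q => by
    rw [hw]; exact tendsto_atTop_ciSup (mono q) (hb q)
  have hsum : ∀ k (s : Finset E), ∑ q ∈ s, (w q - n k q) ^ 2 ≤ t k ^ 2 := by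
    intro k s
    refine le_of_tendsto (tendsto_finsetSum s fun q _ => ((hlim q).sub_const (n k q)).pow 2) ?_
    filter_upwards [eventually_ge_atTop k] with m hkm
    refine ((hl k m hkm).2.sum_le_tsum s fun q _ => sq_nonneg _).trans ?_
    rw [← L2w.nrm_sq (fun q => n m q - n k q)]
    exact pow_le_pow_left₀ (L2w.nrm_nonneg _) (by linarith [hd k m hkm, h0 m]) 2
  have hs : ∀ k, L2w (fun q => w q - n k q) := fun k =>
    ⟨fun q => sub_nonneg.2 (hle k q), summable_of_sum_le (fun q => sq_nonneg _) (hsum k)⟩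
  refine ⟨w, ?_, hle, fun k => Real.sqrt_le_iff.2 ⟨h0 k, (hs k).2.tsum_le_of_sum_le (hsum k)⟩⟩
  simpa only [sub_add_cancel] using ((hs 0).add (hn 0)).1

end

end Crest.Agent.R105
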