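import Crest.Agent.R105.HI
import Crest.Agent.R105.HP

/-! Row 105, block HB: the main approximation theorem from the Hahn-Banach step. -/

set_option autoImplicit false

open MeasureTheory Set Filter Topology
open scoped ENNReal

namespace Crest.Agent.R105

noncomputable section

variable {U : Set ℂ} {Λ : Lumps U} {M : Set (ℂ → ℝ)}

/-- a stage of the iteration -/
structure St (Λ : Lumps U) (M : Set (ℂ → ℝ)) where
  u : ℂ → ℝ
  n : Λ.E → ℝ
  N : ℕ
  xx : XX U u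
  bdd : Bdd U u
  adm : Adm Λ M ∅ u n

/-- the relation between consecutive stages -/
structure Nx (δ η : ℝ) (s s' : St Λ M) : Prop where
  lev : s.N < s'.N
  mono : ∀ q, s.n q ≤ s'.n q
  wt : nrm (fun q => s'.n q - s.n q) ≤ η
  en : En U (fun z => s'.u z - s.u z) ≤ ENNReal.ofReal (η ^ 2)
  off : ∀ z, (∀ q, z ∉ Λ.W s.N q) → s'.u z = s.u z
  rng : ∀ p α β, (∀ z ∈ Λ.W s.N p, s.u z ∈ Icc α β) → ∀ z ∈ Λ.W s.N p, s'.u z ∈ Icc α β
  big : ∀ y, δ / 4 ≤ s.n y → ∀ z ∈ Λ.W s'.N y, ∀ z' ∈ Λ.W s'.N y, s'.u z - s'.u z' ≤ s'.n y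
  small : ∀ q, (∀ y, Λ.W s.N y = Λ.W s.N q → s.n y ≤ δ) →
    ∀ z ∈ Λ.W s'.N q, ∀ z' ∈ Λ.W s'.N q, s'.u z - s'.u z' ≤ 2 * δ

open Classical in
theorem h51_nrm_ind {E : Type} (Y : Finset E) {c : ℝ} (hc : 0 ≤ c) :
    L2w (fun q => if q ∈ Y then c else 0) ∧
      nrm (fun q => if q ∈ Y then c else 0) ≤ ((Y.card : ℝ) + 1) * c := by
  have hz : ∀ q ∉ Y, (if q ∈ Y then c else 0) ^ 2 = 0 := fun q hq => by simp [hq]
  refine ⟨⟨fun q => by dsimp only; split_ifs <;> simp [hc], summable_of_ne_finset_zero hz⟩, ?_⟩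
  unfold nrm
  rw [tsum_eq_sum hz, Real.sqrt_le_left (by positivity)]
  rw [Finset.sum_congr rfl (g := fun _ => c ^ 2) (fun q hq => by simp [hq])]
  simp only [Finset.sum_const, nsmul_eq_mul]
  have h0 : (0 : ℝ) ≤ Y.card := Nat.cast_nonneg _
  nlinarith [sq_nonneg c, mul_nonneg (mul_nonneg h0 h0) (sq_nonneg c), mul_nonneg h0 (sq_nonneg c)]

/-- One step.  `V = {q | ∃ y, W N y = W N q ∧ δ < n y}`.  For every `k` take a finite
`Y k ⊇ {δ/4 ≤ n}` (`L2w.finite_big`) with `(1 + C) nrm (offY (Y k) n) < κ k := min (η/2) (1/(k+1))`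
(`L2w.tail`), `η' k = η / (8 (card (Y k) + 1))`, `a p = n p + η' k`, and `b k`, `e k` from `istep`.
`patch` gives `k` and `u'`.  `n' q = n q + (if q ∈ Y then 2 η' else e q)` is admissible by
`Adm.of_germ` (`b = u - (u - b)` has the weight `n + e` off `Y`: `Adm.mono`, `Adm.sub`, `Adm.congr`).
`osc u' ≤ osc b` (`osc_germ_le`); the new level comes from `osc_unif` on `Vᶜ` and from `Lumps.near`
on the finite set `Y`.  `u'` is bounded by `off` and `rng` (bounds of `u` on `U`). -/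
theorem mstep (hU : IsOpen U) (hc : IsPreconnected U) (hM : ∀ r ∈ M, Reg Λ r) (hCH : CH Λ M)
    {C : ℝ} (hC : 0 ≤ C) (hI : IIM Λ M C) (s : St Λ M) {δ η : ℝ} (hδ : 0 < δ) (hη : 0 < η) :
    ∃ s', Nx δ η s s' := by
  classical
  set V : Set Λ.E := {q | ∃ y, Λ.W s.N y = Λ.W s.N q ∧ δ < s.n y} with hVdef
  have hV : ∀ q ∈ V, ∀ q', Λ.W s.N q' = Λ.W s.N q → q' ∈ V :=
    fun q ⟨y, h1, h2⟩ q' h => ⟨y, h1.trans h.symm, h2⟩
  have hnV : ∀ q, q ∉ V → s.n q ≤ δ := fun q hq => not_lt.1 fun h => hq ⟨q, rfl, h⟩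
  have hn := s.adm.l2
  have hfin := L2w.finite_big hn.2 (show 0 < δ / 4 by positivity)
  set κ : ℕ → ℝ := fun k => min (η / 2) (1 / ((k : ℝ) + 1)) with hκdef
  have hκ0 : ∀ k, 0 < κ k := fun k => lt_min (by positivity) (by positivity)
  have hY : ∀ k, ∃ Y : Finset Λ.E, (∀ y, δ / 4 ≤ s.n y → y ∈ Y) ∧
      (1 + C) * nrm (offY Y s.n) < κ k := by
    intro k
    have hk := hκ0 k
    obtain ⟨Y₀, hY₀⟩ := hn.tail (θ := κ k / (2 * (1 + C))) (by positivity)
    refine ⟨Y₀ ∪ hfin.toFinset, fun y hy => Finset.mem_union_right _ ?_, ?_⟩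
    · rw [Set.Finite.mem_toFinset]
      exact hy.trans (le_abs_self _)
    · have h1 := hY₀ (Y₀ ∪ hfin.toFinset) Finset.subset_union_left
      have h2 : nrm (offY (Y₀ ∪ hfin.toFinset) s.n) ≤ κ k / (2 * (1 + C)) := by
        convert h1 using 3
        unfold offY
        congr
      have h3 : (1 + C) * (κ k / (2 * (1 + C))) = κ k / 2 := by field_simp
      have h4 := mul_le_mul_of_nonneg_left h2 (show 0 ≤ 1 + C by positivity)
      linarith
  choose Y hYbig hYκ using hY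
  set η' : ℕ → ℝ := fun k => η / (8 * (((Y k).card : ℝ) + 1)) with hη'def
  have hη'0 : ∀ k, 0 < η' k := fun k => by simp only [hη'def]; positivity
  have hb : ∀ k, ∃ b e, BP Λ M (Y k) V (fun p => s.n p + η' k) δ b ∧
      Adm Λ M (Y k) (fun z => s.u z - b z) e ∧
      En U (fun z => s.u z - b z) ≤ ENNReal.ofReal (κ k ^ 2) ∧ nrm e ≤ κ k := fun k =>
    istep hU hc hM hC hI s.xx s.bdd s.adm hδ (fun p _ => by linarith [hη'0 k]) hV hnV (hYκ k)
  choose b e hBP hadm hEn hne using hb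
  have hT : Tendsto (fun k => En U (fun z => s.u z - b k z)) atTop (𝓝 0) := by
    have h1 : Tendsto (fun k : ℕ => ENNReal.ofReal ((1 / ((k : ℝ) + 1)) ^ 2)) atTop (𝓝 0) := by
      have h2 := (tendsto_one_div_add_atTop_nhds_zero_nat (𝕜 := ℝ)).pow 2
      have h3 := ENNReal.tendsto_ofReal h2
      simpa using h3
    refine tendsto_of_tendsto_of_tendsto_of_le_of_le tendsto_const_nhds h1
      (fun k => zero_le) (fun k => (hEn k).trans (ENNReal.ofReal_le_ofReal ?_))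
    exact pow_le_pow_left₀ (hκ0 k).le (min_le_right _ _) 2
  obtain ⟨k, u', hu', hEn', hoff, hrng, hgerm⟩ :=
    patch hU hc Λ s.xx s.bdd s.N (fun k => (hBP k).tt.1) hT hη
  have he := (hadm k).l2
  have hη'k := hη'0 k
  obtain ⟨hi1, hi2⟩ := h51_nrm_ind (Y k) (c := 2 * η' k) (by positivity)
  set d : Λ.E → ℝ := fun q => if q ∈ Y k then 2 * η' k else e k q with hddef
  have hd0 : ∀ q, 0 ≤ d q := fun q => by
    simp only [hddef]
    split_ifs
    · positivity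
    · exact he.1 q
  obtain ⟨hd1, hd2⟩ := L2w.of_le (e := d) (L2w.add hi1 he).1 hd0 (fun q => by
    simp only [hddef]
    split_ifs
    · linarith [he.1 q]
    · linarith)
  have hd3 : nrm d ≤ η := by
    have h1 := (L2w.add hi1 he).2
    have h2 : (((Y k).card : ℝ) + 1) * (2 * η' k) = η / 4 := by
      simp only [hη'def]
      field_simp
      ring
    have h3 : κ k ≤ η / 2 := min_le_left _ _
    have h4 := hne k
    linarith
  have hw : L2w (fun q => s.n q + d q) := (L2w.add hn hd1).1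
  have hbadm : Adm Λ M (Y k) (b k) (fun q => s.n q + e k q) :=
    ((s.adm.mono hM (Finset.empty_subset (Y k)) hn (fun _ _ => le_rfl)).sub hU hM s.xx
      (s.xx.sub hU (hBP k).tt.1) (hadm k)).congr hU (fun z _ => by simp)
  have hadm' : Adm Λ M ∅ u' (fun q => s.n q + d q) :=
    Adm.of_germ hU hM hCH (hBP k).tt.1 (hBP k).bdd hbadm hu' hw
      (fun q hq => by simp [hddef, hq])
      (fun p hp => by
        have := (hBP k).big p hp
        simp only [hddef, hp, if_true]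
        linarith) hgerm
  have hbdd : Bdd U u' := by
    obtain ⟨B, hB⟩ := s.bdd
    refine ⟨B, fun z hz => ?_⟩
    by_cases h : ∀ q, z ∉ Λ.W s.N q
    · rw [hoff z h]
      exact hB z hz
    · push Not at h
      obtain ⟨q, hq⟩ := h
      exact abs_le.2 (hrng q (-B) B (fun w hw => abs_le.1 (hB w (Λ.sub _ _ hw).1)) z hq)
  have hosc : ∀ q, Λ.osc u' q ≤ Λ.osc (b k) q := fun q => by
    obtain ⟨m, T, hT1, hT2⟩ := hgerm q
    exact Λ.osc_germ_le (hBP k).bdd hbdd hT1 hT2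
  obtain ⟨N₁, hN₁⟩ := Λ.osc_unif hbdd Vᶜ (δ := 2 * δ)
    (fun q hq => by linarith [hosc q, (hBP k).small q hq]) s.N
    (fun q hq q' h hq' => hq (hV q' hq' q h.symm))
  choose m hm using fun y => Λ.near hbdd y (η := η' k / 2) (by positivity)
  refine ⟨⟨u', fun q => s.n q + d q, max (s.N + 1) (max N₁ ((Y k).sup m)), hu', hbdd, hadm'⟩,
    lt_of_lt_of_le (Nat.lt_succ_self _) (le_max_left _ _), fun q => by simp [hd0 q],
    by simpa using hd3, hEn', hoff, hrng, ?_, ?_⟩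
  · intro y hy z hz z' hz'
    have hyY := hYbig k y hy
    have hle : m y ≤ max (s.N + 1) (max N₁ ((Y k).sup m)) :=
      ((Finset.le_sup hyY).trans (le_max_right _ _)).trans (le_max_right _ _)
    have h1 := (hm y z (Λ.W_mono hle y hz)).2
    have h2 := (hm y z' (Λ.W_mono hle y hz')).1
    have h3 := hosc y
    have h4 := (hBP k).big y hyY
    have h5 : Λ.osc u' y = Λ.hi u' y - Λ.lo u' y := rfl
    simp only [hddef, hyY, if_true]
    linarith
  · intro q hq z hz z' hz'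
    have hqV : q ∈ Vᶜ := fun ⟨y, h1, h2⟩ => absurd (hq y h1) (not_le.2 h2)
    exact (hN₁ _ ((le_max_left _ _).trans (le_max_right _ _)) q hqV z hz z' hz').le

/-- Ranges on a lump of level `N k` (and on `U`) are kept by all later stages: a point of the set is
either off the lumps of level `N m` or in a lump of level `N m` contained in the set
(`Lumps.W_eq_of_le`, `part`, `W_mono`). -/
theorem rng_keep {s : ℕ → St Λ M} {δ η : ℕ → ℝ} (h : ∀ k, Nx (δ k) (η k) (s k) (s (k + 1)))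
    (k : ℕ) {α β : ℝ} :
    (∀ p, (∀ z ∈ Λ.W (s k).N p, (s k).u z ∈ Icc α β) →
      ∀ m, k ≤ m → ∀ z ∈ Λ.W (s k).N p, (s m).u z ∈ Icc α β) ∧
    ((∀ z ∈ U, (s k).u z ∈ Icc α β) → ∀ m, k ≤ m → ∀ z ∈ U, (s m).u z ∈ Icc α β) := by
  have hN : Monotone fun m => (s m).N := monotone_nat_of_le_succ fun m => (h m).lev.le
  have key : ∀ S : Set ℂ, (∀ m, k ≤ m → ∀ z ∈ S, ∀ q, z ∈ Λ.W (s m).N q → Λ.W (s m).N q ⊆ S) →
      (∀ z ∈ S, (s k).u z ∈ Icc α β) → ∀ m, k ≤ m → ∀ z ∈ S, (s m).u z ∈ Icc α β := by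
    intro S hS h0 m hm
    induction m, hm using Nat.le_induction with
    | base => exact h0
    | succ m hm ih =>
      intro z hz
      by_cases hq : ∃ q, z ∈ Λ.W (s m).N q
      · obtain ⟨q, hq⟩ := hq
        exact (h m).rng q α β (fun y hy => ih y (hS m hm z hz q hq hy)) z hq
      · rw [(h m).off z fun q hq' => hq ⟨q, hq'⟩]
        exact ih z hz
  refine ⟨fun p => key _ fun m hm z hz q hq => ?_, key _ fun m _ z _ q _ y hy => (Λ.sub _ q hy).1⟩
  rcases Λ.part (s k).N q p with e | e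
  · exact e ▸ Λ.W_mono (hN hm) q
  · exact absurd hz (Set.disjoint_left.1 e (Λ.W_mono (hN hm) q hq))

theorem h10_osc_of_stage {s : ℕ → St Λ M} {δ η : ℕ → ℝ}
    (h : ∀ k, Nx (δ k) (η k) (s k) (s (k + 1))) {v : ℂ → ℝ} (hb : Bdd U v)
    (hv : ∀ z, ∀ᶠ k in atTop, (s k).u z = v z) (k : ℕ) (q : Λ.E) {D : ℝ}
    (hD : ∀ z ∈ Λ.W (s k).N q, ∀ z' ∈ Λ.W (s k).N q, (s k).u z - (s k).u z' ≤ D) :
    Λ.osc v q ≤ D := by
  obtain ⟨z₀, hz₀⟩ := (Λ.conn (s k).N q).nonempty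
  have hbb : BddBelow ((s k).u '' Λ.W (s k).N q) :=
    ⟨(s k).u z₀ - D, by rintro _ ⟨z, hz, rfl⟩; linarith [hD z₀ hz₀ z hz]⟩
  set α := sInf ((s k).u '' Λ.W (s k).N q)
  have h1 : ∀ z ∈ Λ.W (s k).N q, (s k).u z ∈ Icc α (α + D) := fun z hz => by
    refine ⟨csInf_le hbb ⟨z, hz, rfl⟩, ?_⟩
    have : (s k).u z - D ≤ α := le_csInf ⟨_, z₀, hz₀, rfl⟩ (by
      rintro _ ⟨y, hy, rfl⟩
      linarith [hD z hz y hy])
    linarith
  have h2 : ∀ z ∈ Λ.W (s k).N q, v z ∈ Icc α (α + D) := fun z hz => by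
    obtain ⟨m, hm, e⟩ := ((eventually_ge_atTop k).and (hv z)).exists
    exact e ▸ (rng_keep h k).1 q h1 m hm z hz
  have h3 := Λ.le_lo hb fun z hz => (h2 z hz).1
  have h4 := Λ.hi_le hb fun z hz => (h2 z hz).2
  rw [Lumps.osc]
  linarith

/-- Oscillation of the limit.  An oscillation bound `D` for `(s k).u` on `W (s k).N q` gives a range
interval of length `D`, which is kept (`rng_keep`), so `osc v q ≤ D`.  Fix `η₀ > 0`.  If for
infinitely many `k` all `y` in the lump `W (s k).N q` have `(s k).n y ≤ δ k`, then `osc v q ≤ 2 δ k → 0`.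
Otherwise for large `k` some `y` in the lump of level `(s (k+1)).N` has `(s (k+1)).n y > δ (k+1) = δ k / 2`,
so `(s k).n y ≥ δ k / 4` (`L2w.le_nrm`), and `big` gives `osc v q ≤ (s (k+1)).n y ≤ w y`.  For large `k`
no point `y ≠ q` of the finite set `{η₀ ≤ w}` lies in that lump (`sep`), so `osc v q ≤ max (w q) η₀`. -/
theorem osc_lim_le {s : ℕ → St Λ M} {η : ℕ → ℝ}
    (h : ∀ k, Nx ((1 / 2) ^ k) (η k) (s k) (s (k + 1))) (hη : ∀ k, η k ≤ (1 / 2) ^ k / 4)
    {v : ℂ → ℝ} (hb : Bdd U v) (hv : ∀ z, ∀ᶠ k in atTop, (s k).u z = v z) {w : Λ.E → ℝ}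
    (hw : L2w w) (hle : ∀ k q, (s k).n q ≤ w q) (q : Λ.E) : Λ.osc v q ≤ w q := by
  refine le_of_forall_pos_le_add fun η₀ hη₀ => ?_
  have hN : StrictMono fun m => (s m).N := strictMono_nat_of_lt_succ fun m => (h m).lev
  by_cases hA : ∃ᶠ k in atTop, ∀ y, Λ.W (s k).N y = Λ.W (s k).N q → (s k).n y ≤ (1 / 2) ^ k
  · have ht : ∀ᶠ k : ℕ in atTop, (1 / 2 : ℝ) ^ k < η₀ / 2 :=
      (tendsto_pow_atTop_nhds_zero_of_lt_one (by norm_num) (by norm_num)).eventually
        (gt_mem_nhds (by positivity))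
    obtain ⟨k, h1, h2⟩ := (hA.and_eventually ht).exists
    have := h10_osc_of_stage h hb hv (k + 1) q ((h k).small q h1)
    linarith [hw.1 q]
  · rw [not_frequently] at hA
    have hS : ∀ᶠ k in atTop, ∀ y ∈ {y | η₀ ≤ |w y|}, Λ.W (s k).N y = Λ.W (s k).N q → y = q := by
      refine (eventually_all_finite (L2w.finite_big hw.2 hη₀)).2 fun y _ => ?_
      by_cases e : y = q
      · exact Eventually.of_forall fun _ _ => e
      obtain ⟨n, hn⟩ := Λ.sep y q e
      filter_upwards [eventually_ge_atTop n] with k hk e'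
      have e2 := Λ.W_eq_of_le (hk.trans (hN.id_le k)) e'
      obtain ⟨z, hz⟩ := (Λ.conn n y).nonempty
      exact absurd (e2 ▸ hz) (Set.disjoint_left.1 hn hz)
    obtain ⟨k, h1, h2⟩ := ((tendsto_add_atTop_nat 1).eventually (hA.and hS)).exists
    push Not at h1
    obtain ⟨y, hy, hy2⟩ := h1
    have l2 : L2w fun q => (s (k + 1)).n q - (s k).n q :=
      (L2w.of_le (s (k + 1)).adm.l2 (fun q => sub_nonneg.2 ((h k).mono q))
        fun q => sub_le_self _ ((s k).adm.l2.1 q)).1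
    have h3 := (l2.le_nrm y).trans ((h k).wt.trans (hη k))
    rw [pow_succ] at hy2
    have h4 := (h k).big y (by linarith)
    rw [hy] at h4
    have h5 := (h10_osc_of_stage h hb hv (k + 1) q h4).trans (hle _ y)
    by_cases hb' : η₀ ≤ |w y|
    · rw [h2 y hb' hy] at h5
      linarith
    · linarith [le_abs_self (w y), hw.1 q, not_le.1 hb']

/-- Iterate `mstep` with `δ k = 2⁻ᵏ`, `η k = t k - t (k+1)`, `t k = ε' 2⁻ᵏ`,
`ε' = min (1/2) (min ε (√ε))`; `x_lim`, `L2w.lim`, `rng_keep`, `osc_lim_le`; the limit has the weight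
`w` by `Adm.mono` and `Adm.limit_En`; `e = w - n`. -/
theorem main_of_IIM (hU : IsOpen U) (hc : IsPreconnected U) (hF : Fam Λ M) (hCH : CH Λ M) {C : ℝ}
    (hC : 0 ≤ C) (hI : IIM Λ M C) : MAIN Λ M := by
  intro u n A B N ε hu hAB hn hε
  have hM := hF.reg
  obtain ⟨ε', hε'⟩ : ∃ ε', ε' = min (1 / 2) (min ε (Real.sqrt ε)) := ⟨_, rfl⟩
  have e0 : 0 < ε' := by rw [hε']; positivity
  have e1 : ε' ≤ 1 / 2 := hε' ▸ min_le_left _ _
  have e2 : ε' ≤ ε := hε' ▸ (min_le_right _ _).trans (min_le_left _ _)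
  have e3 : ε' ^ 2 ≤ ε := by
    have : ε' ≤ Real.sqrt ε := hε' ▸ (min_le_right _ _).trans (min_le_right _ _)
    nlinarith [Real.sq_sqrt hε.le]
  set t : ℕ → ℝ := fun k => ε' * (1 / 2) ^ k with ht
  have hη : ∀ k, t k - t (k + 1) = ε' / 2 * (1 / 2) ^ k := fun k => by
    simp only [ht, pow_succ]
    ring
  have hstep : ∀ (k : ℕ) (s : St Λ M), ∃ s', Nx ((1 / 2) ^ k) (t k - t (k + 1)) s s' :=
    fun k s => mstep hU hc hM hCH hC hI s (by positivity) (by rw [hη]; positivity)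
  choose nx hnx using hstep
  have hbd : ∀ {v : ℂ → ℝ}, (∀ z ∈ U, v z ∈ Icc A B) → Bdd U v := fun h =>
    ⟨max |A| |B|, fun z hz => abs_le_max_abs_abs (h z hz).1 (h z hz).2⟩
  let s : ℕ → St Λ M := fun k => Nat.rec ⟨u, n, N, hu.1, hbd hAB, hn⟩ nx k
  have hs : ∀ k, Nx ((1 / 2) ^ k) (t k - t (k + 1)) (s k) (s (k + 1)) := fun k => hnx k (s k)
  have t0 : ∀ k, 0 ≤ t k := fun k => by simp only [ht]; positivity
  obtain ⟨v, hvX, hv1, hv2, hv3⟩ := x_lim hU Λ (u := fun k => (s k).u) (fun k => (s k).xx)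
    (N := fun k => (s k).N) (strictMono_nat_of_lt_succ fun k => (hs k).lev)
    (fun k => (hs k).off) t0 (fun k => by have := hη k; nlinarith [pow_pos (show (0:ℝ) < 1 / 2 by norm_num) k])
    fun k => (hs k).en
  obtain ⟨w, hw, hw1, hw2⟩ := L2w.lim (n := fun k => (s k).n) (fun k => (s k).adm.l2)
    (fun k => (hs k).mono) t0 fun k => (hs k).wt
  have hvAB : ∀ z ∈ U, v z ∈ Icc A B := fun z hz => by
    obtain ⟨k, hk⟩ := (hv1 z).exists
    rw [← hk]
    exact (rng_keep hs 0).2 hAB k (Nat.zero_le k) z hz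
  have hvb := hbd hvAB
  have hosc := osc_lim_le hs (fun k => by
    rw [hη]; nlinarith [pow_pos (show (0:ℝ) < 1 / 2 by norm_num) k]) hvb hv1 hw hw1
  have hlim : Tendsto (fun k => En U fun z => (s k).u z - v z) atTop (𝓝 0) := by
    have h1 : Tendsto (fun k => ENNReal.ofReal (t k ^ 2)) atTop (𝓝 0) := by
      have := ENNReal.tendsto_ofReal (((tendsto_pow_atTop_nhds_zero_of_lt_one
        (show (0:ℝ) ≤ 1 / 2 by norm_num) (by norm_num)).const_mul ε').pow 2)
      rwa [mul_zero, zero_pow two_ne_zero, ENNReal.ofReal_zero] at this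
    refine tendsto_of_tendsto_of_tendsto_of_le_of_le tendsto_const_nhds h1 (fun k => zero_le)
      fun k => le_of_eq_of_le ?_ (hv3 k)
    have : (fun z => (s k).u z - v z) = fun z => -(v z - (s k).u z) := by funext z; ring
    simp only [this, En, fderiv_fun_neg, enorm_neg]
  have hadm : Adm Λ M ∅ v w := Adm.limit_En hU hM hvX (fun k => (s k).xx) hlim fun k =>
    (s k).adm.mono hM (Finset.Subset.refl _) hw fun q _ => hw1 k q
  have hle : ∀ q, n q ≤ w q := hw1 0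
  refine ⟨v, fun q => w q - n q, ⟨hvX, hvb, ?_⟩, ⟨hvX, w, hadm⟩, hvAB,
    (hw.of_le (fun q => by linarith [hle q]) fun q => by linarith [hn.l2.1 q]).1, ?_,
    fun q => by linarith [hosc q], ?_, fun z _ hz => hv2 0 z hz⟩
  · exact (hw.of_le (Λ.osc_nonneg hvb) hosc).1.2
  · refine (hw2 0).trans ?_
    simpa [ht] using e2
  · refine (hv3 0).trans (ENNReal.ofReal_le_ofReal ?_)
    simpa [ht] using e3

end

end Crest.Agent.R105
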