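import Crest.Agent.R105.KIt
import Crest.Agent.R105.HI

/-! Row 105, block II: `IIM` from the exact range lemma. -/

set_option autoImplicit false

open MeasureTheory Set Filter Topology
open scoped ENNReal

namespace Crest.Agent.R105

variable {U : Set ℂ}

/-- `Cls.cb`, `key_of_RX` for `u χ` with the weight `|val χ q| n q` (`Adm.mul_A0`),
`Super.atom_lump`, `Cls.zero`, `L2w.summable_mul`. -/
theorem iim_of_RX (hU : IsOpen U) (hc : IsPreconnected U) {Λ : Lumps U} {M : Set (ℂ → ℝ)}
    (hF : Fam Λ M) (hC : CH Λ M) (hX : MAX Λ M) {C : ℝ} (h0 : 0 ≤ C) (hR : RX Λ M C) :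
    IIM Λ M 1 := by
  classical
  intro c ν t Y hcl _ u n hu _ hn N p χ S hχ hS hnS
  have hA := key_of_RX hU hc hF hC hX h0 hR hcl.xx hcl.sup hcl.l2 (hcl.cb hF.reg)
    (fun z => u z * χ z) (fun q => |Λ.val χ q| * n q) (hu.mul_A0 hU Λ hχ.1) (hn.mul_A0 hU hχ.1)
  refine hA.trans ?_
  have ht : L2w (onL Λ N p t) := (L2w.of_le hcl.l2 (fun q => by
    unfold onL; split_ifs; exacts [hcl.l2.1 q, le_rfl]) (fun q => by
    unfold onL; split_ifs; exacts [le_rfl, hcl.l2.1 q])).1
  have hn' : L2w (onL Λ N p (offY Y n)) := (L2w.of_le hn.l2 (fun q => by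
    unfold onL offY; split_ifs; exacts [le_rfl, hn.l2.1 q, le_rfl]) (fun q => by
    unfold onL offY; split_ifs; exacts [hn.l2.1 q, le_rfl, hn.l2.1 q])).1
  obtain ⟨s2, l2⟩ := ht.summable_mul hn'
  have s1 : Summable fun q => (if Λ.W N q = Λ.W N p then atom Λ ν q else 0) := by
    refine Summable.of_nonneg_of_le (fun q => ?_) (fun q => ?_) hcl.sup.atom_sum.1
    · split_ifs; exacts [hcl.sup.atom_nonneg q, le_rfl]
    · split_ifs; exacts [le_rfl, hcl.sup.atom_nonneg q]
  have hq : ∀ q, |Λ.val χ q| * n q * (atom Λ ν q + t q) ≤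
      (if Λ.W N q = Λ.W N p then atom Λ ν q else 0) * S +
        onL Λ N p t q * onL Λ N p (offY Y n) q := by
    intro q
    rw [hχ.2 q]
    unfold onL offY
    by_cases e : Λ.W N q = Λ.W N p
    · have h1 := mul_le_mul_of_nonneg_left (hnS q e) (hcl.sup.atom_nonneg q)
      by_cases hY : q ∈ Y
      · simp only [if_pos e, if_pos hY, hcl.zero q hY, abs_one]
        nlinarith
      · simp only [if_pos e, if_neg hY, abs_one]
        nlinarith
    · simp only [if_neg e, abs_zero]
      nlinarith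
  have s3 := (s1.mul_right S).add s2
  refine (Summable.tsum_le_tsum hq (Summable.of_nonneg_of_le (fun q => mul_nonneg
    (mul_nonneg (abs_nonneg _) (hn.l2.1 q)) (add_nonneg (hcl.sup.atom_nonneg q) (hcl.l2.1 q)))
    hq s3) s3).trans ?_
  rw [(s1.mul_right S).tsum_add s2, tsum_mul_right, one_mul]
  exact add_le_add (mul_le_mul_of_nonneg_right (hcl.sup.atom_lump N p) hS) l2

end Crest.Agent.R105
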