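import Crest.Agent.R105.HM
import Crest.Agent.R105.KMain
import Crest.Agent.R105.BPre

/-! Row 105: the main approximation theorem from the exact range lemma. -/

set_option autoImplicit false

open MeasureTheory Set Filter Topology Crest.AnalysisR
open scoped ENNReal

namespace Crest.Agent.R105

variable {U : Set ℂ}

/-- `MAIN` from the exact range lemma `RX` -/
theorem main_of_RX (hU : IsOpen U) (hc : IsPreconnected U) {Λ : Lumps U} {M : Set (ℂ → ℝ)}
    (hF : Fam Λ M) (hC : CH Λ M) (hX : MAX Λ M) {C : ℝ} (h0 : 0 ≤ C) (hR : RX Λ M C) :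
    MAIN Λ M :=
  main_of_IIM hU hc hF hC zero_le_one (iim_of_RX hU hc hF hC hX h0 hR)

/-- block RX -/
def BlkRX : Prop := ∀ U : Set ℂ, IsOpen U → IsPreconnected U → ∀ (Λ : Lumps U) (M : Set (ℂ → ℝ)),
  Fam Λ M → CH Λ M → MAX Λ M → ∃ C, 0 ≤ C ∧ RX Λ M C

theorem blkMAIN_of_RX (h : BlkRX) : BlkMAIN := by
  intro U hU Λ M hF hC hX
  obtain ⟨C, h0, hR⟩ := h U hU.1 hU.2.1.isPreconnected Λ M hF hC hX
  exact main_of_RX hU.1 hU.2.1.isPreconnected hF hC hX h0 hR

end Crest.Agent.R105
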