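import Mathlib

/-! Row 105, block HB: the range bound for the imaginary part of a holomorphic function. -/

set_option autoImplicit false

open MeasureTheory Set Filter Topology
open scoped ContDiff

namespace Crest.Agent.R105

variable {U : Set ℂ} {F : ℂ → ℂ}

/-- Near a noncritical point `F` is injective on a small ball `B ⊆ U` whose image is a neighbourhood
of `F z₀` (`HasStrictDerivAt.localInverse`, `HasStrictFDerivAt.toOpenPartialHomeomorph` or
`HasStrictDerivAt.map_nhds_eq` and `eventually_left_inverse`).  Change variables on `B`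
(`integral_image_eq_integral_abs_det_fderiv_smul`; the real determinant of multiplication by `w`
is `‖w‖²`), and use `g ≥ 0` (`setIntegral_mono_set`; `g` is bounded). -/
theorem hr_local (hU : IsOpen U) (hF : DifferentiableOn ℂ F U)
    (hE : IntegrableOn (fun z => ‖deriv F z‖ ^ 2) U) {z₀ : ℂ} (hz : z₀ ∈ U)
    (hd : deriv F z₀ ≠ 0) : ∃ r > 0, ∀ g : ℂ → ℝ, Continuous g → (∀ y, 0 ≤ g y) →
      (∀ y, g y ≠ 0 → |y.re - (F z₀).re| ≤ r ∧ |y.im - (F z₀).im| ≤ r) →
      ∫ y, g y ≤ ∫ z in U, g (F z) * ‖deriv F z‖ ^ 2 := by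
  have hs : HasStrictDerivAt F (deriv F z₀) z₀ := (hF.analyticOnNhd hU z₀ hz).hasStrictDerivAt
  have h1 := (hs.hasStrictFDerivAt_equiv hd).eventually_left_inverse
  obtain ⟨B, hB, hBo, hzB⟩ := mem_nhds_iff.1 (h1.and (hU.mem_nhds hz))
  have hBU : B ⊆ U := fun z hz => (hB hz).2
  have hinj : InjOn F B := fun x hx y hy e => by rw [← (hB hx).1, e, (hB hy).1]
  have h2 : F '' B ∈ 𝓝 (F z₀) := by
    rw [← hs.map_nhds_eq hd]; exact image_mem_map (hBo.mem_nhds hzB)
  obtain ⟨ε, hε, hεB⟩ := Metric.nhds_basis_closedBall.mem_iff.1 h2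
  refine ⟨ε / 2, by positivity, fun g hg h0 hsup => ?_⟩
  have hout : ∀ y, y ∉ Metric.closedBall (F z₀) ε → g y = 0 := by
    intro y hy
    by_contra hne
    obtain ⟨a, b⟩ := hsup y hne
    refine hy ?_
    rw [Metric.mem_closedBall, dist_eq_norm]
    refine (Complex.norm_le_abs_re_add_abs_im _).trans ?_
    rw [Complex.sub_re, Complex.sub_im]; linarith
  obtain ⟨C, hC⟩ := hg.bounded_above_of_compact_support
    (HasCompactSupport.intro (isCompact_closedBall (F z₀) ε) hout)
  have hint : IntegrableOn (fun z => g (F z) * ‖deriv F z‖ ^ 2) U :=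
    Integrable.bdd_mul hE
      ((hg.comp_continuousOn hF.continuousOn).aestronglyMeasurable hU.measurableSet)
      (Eventually.of_forall fun z => hC _)
  rw [← setIntegral_eq_integral_of_forall_compl_eq_zero (s := F '' B)
    fun y hy => hout y fun h => hy (hεB h)]
  rw [integral_image_eq_integral_abs_det_fderiv_smul (volume : Measure ℂ) hBo.measurableSet
    (f := F) (f' := fun z => (ContinuousLinearMap.toSpanSingleton ℂ (deriv F z)).restrictScalars ℝ)
    (fun z hz => ((hF.differentiableAt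
      (hU.mem_nhds (hBU hz))).hasDerivAt.hasFDerivAt.restrictScalars ℝ).hasFDerivWithinAt) hinj]
  refine le_trans (le_of_eq (integral_congr_ae (Eventually.of_forall fun z => ?_)))
    (setIntegral_mono_set hint (Eventually.of_forall fun z => mul_nonneg (h0 _) (by positivity))
      hBU.eventuallyLE)
  simp [ContinuousLinearMap.det, LinearMap.det_restrictScalars, Algebra.norm_complex_eq,
    Complex.normSq_eq_norm_sq, mul_comm]

/-- If `F` is not constant then every value of `Im F` is taken at a noncritical point: `deriv F` has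
no zero in a punctured neighbourhood `N` of `z₀` (`AnalyticAt.eventually_eq_zero_or_eventually_ne_zero`,
`AnalyticOnNhd.eqOn_zero_of_preconnected_of_eventuallyEq_zero`, `IsOpen.is_const_of_deriv_eq_zero`),
and `F '' N` is a neighbourhood of `F z₀` (`AnalyticAt.eventually_constant_or_nhds_le_map_nhds`),
so it contains `F z₀ + s` for a small real `s ≠ 0`. -/
theorem hr_noncrit (hU : IsOpen U) (hc : IsPreconnected U) (hF : DifferentiableOn ℂ F U)
    (hn : ∃ z ∈ U, ∃ z' ∈ U, F z ≠ F z') {z₀ : ℂ} (hz : z₀ ∈ U) :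
    ∃ z ∈ U, deriv F z ≠ 0 ∧ (F z).im = (F z₀).im := by
  have hA := hF.analyticOnNhd hU
  have h0 : ¬ ∀ᶠ z in 𝓝 z₀, deriv F z = 0 := by
    intro h
    obtain ⟨z, hz1, z', hz2, hne⟩ := hn
    exact hne (hU.is_const_of_deriv_eq_zero hc hF
      (hA.deriv.eqOn_zero_of_preconnected_of_eventuallyEq_zero hc hz h) hz1 hz2)
  have h1 := (hA.deriv z₀ hz).eventually_eq_zero_or_eventually_ne_zero.resolve_left h0
  have h2 : 𝓝 (F z₀) ≤ map F (𝓝 z₀) := by
    refine (hA z₀ hz).eventually_constant_or_nhds_le_map_nhds.resolve_left fun h => h0 ?_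
    have h3 : F =ᶠ[𝓝 z₀] fun _ => F z₀ := h
    filter_upwards [h3.deriv] with z hz
    simpa using hz
  rw [eventually_nhdsWithin_iff] at h1
  obtain ⟨ε, hε, hεB⟩ := Metric.nhds_basis_closedBall.mem_iff.1
    (h2 (image_mem_map (h1.and (hU.mem_nhds hz))))
  obtain ⟨z, ⟨hz1, hz2⟩, he⟩ := hεB (show F z₀ + ε ∈ Metric.closedBall (F z₀) ε by
    simp [abs_of_pos hε])
  refine ⟨z, hz2, hz1 ?_, by rw [he]; simp⟩
  rintro rfl
  have := congrArg Complex.re he
  simp at this
  exact hε.ne' this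

theorem h57_step {a c : ℝ} (hc : 0 < c) : ∃ A : ℝ → ℝ,
    (∀ s, A s = Real.smoothTransition ((s - a) / c)) ∧ ContDiff ℝ ∞ A ∧ Monotone A ∧
      (∀ s, 0 ≤ A s ∧ A s ≤ 1) ∧ (∀ s, s ≤ a → A s = 0) ∧ (∀ s, a + c ≤ s → A s = 1) ∧
      (∀ s, deriv A s ≠ 0 → a ≤ s ∧ s ≤ a + c) ∧ ∃ L, ∀ s, |deriv A s| ≤ L := by
  obtain ⟨A, hA⟩ : ∃ A : ℝ → ℝ, ∀ s, A s = Real.smoothTransition ((s - a) / c) :=
    ⟨_, fun _ => rfl⟩
  have hc1 : ContDiff ℝ ∞ A := by
    rw [show A = fun s => Real.smoothTransition ((s - a) / c) from funext hA]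
    exact Real.smoothTransition.contDiff.comp ((contDiff_id.sub contDiff_const).div_const c)
  have h0 : ∀ s, s ≤ a → A s = 0 := fun s hs => by
    rw [hA]
    exact Real.smoothTransition.zero_of_nonpos (div_nonpos_of_nonpos_of_nonneg (by linarith) hc.le)
  have h1 : ∀ s, a + c ≤ s → A s = 1 := fun s hs => by
    rw [hA]
    exact Real.smoothTransition.one_of_one_le ((one_le_div hc).2 (by linarith))
  have hd : ∀ s, deriv A s ≠ 0 → a ≤ s ∧ s ≤ a + c := by
    intro s hs
    constructor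
    · by_contra hn
      have e : A =ᶠ[𝓝 s] fun _ => 0 :=
        (gt_mem_nhds (not_le.1 hn)).mono fun x hx => h0 x hx.le
      exact hs (by rw [e.deriv_eq, deriv_const])
    · by_contra hn
      have e : A =ᶠ[𝓝 s] fun _ => 1 :=
        (lt_mem_nhds (not_le.1 hn)).mono fun x hx => h1 x hx.le
      exact hs (by rw [e.deriv_eq, deriv_const])
  refine ⟨A, hA, hc1, fun s s' h => ?_, fun s => ?_, h0, h1, hd, ?_⟩
  · rw [hA, hA]
    exact Real.smoothTransition.monotone (div_le_div_of_nonneg_right (by linarith) hc.le)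
  · rw [hA]
    exact ⟨Real.smoothTransition.nonneg _, Real.smoothTransition.le_one _⟩
  · obtain ⟨L, hL⟩ := (isCompact_Icc (a := a) (b := a + c)).exists_bound_of_continuousOn
      (hc1.continuous_deriv (by simp)).continuousOn
    refine ⟨max L 0, fun s => ?_⟩
    by_cases hs : deriv A s = 0
    · simp [hs]
    · exact (hL s (hd s hs)).trans (le_max_left _ _)

/-- The building block `σ((s - s₀ + r)/(2r)) * (σ((t - y)/h) - σ((t - y - h)/h))`,
`σ = Real.smoothTransition` (monotone): its `s`-derivative `g` is continuous, nonnegative, supported in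
`[s₀ - r, s₀ + r] × [y, y + 2h]`, and `∫ g = 1 * h` (`Complex.volume_preserving_equiv_real_prod`,
`integral_prod_mul`, FTC; for the second factor translate the interval integral). -/
theorem hr_block (s₀ y : ℝ) {r h : ℝ} (hr : 0 < r) (hh : 0 < h) :
    ∃ φ : ℝ × ℝ → ℝ, ContDiff ℝ ∞ φ ∧
      (∀ p, 0 ≤ φ p ∧ φ p ≤ Real.smoothTransition ((p.2 - y) / h) -
        Real.smoothTransition ((p.2 - (y + h)) / h)) ∧
      (∀ p, 0 ≤ fderiv ℝ φ p (1, 0)) ∧ (∃ L, ∀ p, ‖fderiv ℝ φ p‖ ≤ L) ∧
      (∀ p, fderiv ℝ φ p (1, 0) ≠ 0 → |p.1 - s₀| ≤ r ∧ y ≤ p.2 ∧ p.2 ≤ y + 2 * h) ∧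
      ∫ w : ℂ, fderiv ℝ φ (w.re, w.im) (1, 0) = h := by
  obtain ⟨A, -, hAc, hAm, hA01, hA0, hA1, hAd, LA, hLA⟩ :=
    h57_step (a := s₀ - r) (c := 2 * r) (by positivity)
  obtain ⟨S, hS, hSc, hSm, hS01, hS0, hS1, -, LS, hLS⟩ := h57_step (a := y) hh
  obtain ⟨B, hB⟩ : ∃ B : ℝ → ℝ, ∀ t, B t = S t - S (t - h) := ⟨_, fun _ => rfl⟩
  have hBf : B = fun t => S t - S (t - h) := funext hB
  have hBc : ContDiff ℝ ∞ B := by
    rw [hBf]
    exact hSc.sub (hSc.comp (contDiff_id.sub contDiff_const))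
  have hB0 : ∀ t, 0 ≤ B t := fun t => by
    rw [hB]
    exact sub_nonneg.2 (hSm (by linarith))
  have hB1 : ∀ t, B t ≤ 1 := fun t => by
    rw [hB]
    linarith [(hS01 t).2, (hS01 (t - h)).1]
  have hBs : ∀ t, B t ≠ 0 → y < t ∧ t ≤ y + 2 * h := by
    intro t ht
    constructor
    · by_contra hn
      exact ht (by rw [hB, hS0 t (not_lt.1 hn), hS0 (t - h) (by linarith [not_lt.1 hn]), sub_zero])
    · by_contra hn
      exact ht (by rw [hB, hS1 t (by linarith [not_le.1 hn]),
        hS1 (t - h) (by linarith [not_le.1 hn]), sub_self])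
  have hAdiff : Differentiable ℝ A := hAc.differentiable (by simp)
  have hSdiff : Differentiable ℝ S := hSc.differentiable (by simp)
  have hBd : ∀ t, HasDerivAt B (deriv S t - deriv S (t - h)) t := fun t => by
    rw [hBf]
    exact (hSdiff t).hasDerivAt.sub ((hSdiff (t - h)).hasDerivAt.comp_sub_const t h)
  have hφ : ∀ p : ℝ × ℝ, HasFDerivAt (fun p : ℝ × ℝ => A p.1 * B p.2)
      (A p.1 • ((deriv S p.2 - deriv S (p.2 - h)) • ContinuousLinearMap.snd ℝ ℝ ℝ) +
        B p.2 • (deriv A p.1 • ContinuousLinearMap.fst ℝ ℝ ℝ)) p := fun p =>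
    ((hAdiff p.1).hasDerivAt.comp_hasFDerivAt p hasFDerivAt_fst).mul
      ((hBd p.2).comp_hasFDerivAt p hasFDerivAt_snd)
  have h10 : ∀ p : ℝ × ℝ, fderiv ℝ (fun p : ℝ × ℝ => A p.1 * B p.2) p (1, 0) =
      deriv A p.1 * B p.2 := fun p => by
    rw [(hφ p).fderiv]
    simp [mul_comm]
  refine ⟨fun p => A p.1 * B p.2, (hAc.comp contDiff_fst).mul (hBc.comp contDiff_snd),
    fun p => ⟨mul_nonneg (hA01 _).1 (hB0 _), ?_⟩, fun p => ?_, ⟨2 * LS + LA, fun p => ?_⟩,
    fun p hp => ?_, ?_⟩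
  · have e : Real.smoothTransition ((p.2 - y) / h) -
        Real.smoothTransition ((p.2 - (y + h)) / h) = B p.2 := by
      rw [hB, hS, hS]
      congr 3
      ring
    rw [e]
    exact mul_le_of_le_one_left (hB0 _) (hA01 _).2
  · rw [h10]
    exact mul_nonneg hAm.deriv_nonneg (hB0 _)
  · rw [(hφ p).fderiv]
    refine ContinuousLinearMap.opNorm_le_bound _
      (by linarith [(abs_nonneg _).trans (hLS 0), (abs_nonneg _).trans (hLA 0)]) fun v => ?_
    have e : (A p.1 • ((deriv S p.2 - deriv S (p.2 - h)) • ContinuousLinearMap.snd ℝ ℝ ℝ) +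
        B p.2 • (deriv A p.1 • ContinuousLinearMap.fst ℝ ℝ ℝ)) v =
        A p.1 * ((deriv S p.2 - deriv S (p.2 - h)) * v.2) + B p.2 * (deriv A p.1 * v.1) := by
      simp
    rw [e, Real.norm_eq_abs]
    have k1 : |v.1| ≤ ‖v‖ := norm_fst_le v
    have k2 : |v.2| ≤ ‖v‖ := norm_snd_le v
    have k3 : |deriv S p.2 - deriv S (p.2 - h)| ≤ 2 * LS := by
      linarith [abs_sub (deriv S p.2) (deriv S (p.2 - h)), hLS p.2, hLS (p.2 - h)]
    have k4 : |A p.1 * ((deriv S p.2 - deriv S (p.2 - h)) * v.2)| ≤ 2 * LS * ‖v‖ := by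
      rw [abs_mul, abs_mul, abs_of_nonneg (hA01 _).1]
      refine (mul_le_of_le_one_left (by positivity) (hA01 _).2).trans ?_
      exact mul_le_mul k3 k2 (abs_nonneg _) ((abs_nonneg _).trans k3)
    have k5 : |B p.2 * (deriv A p.1 * v.1)| ≤ LA * ‖v‖ := by
      rw [abs_mul, abs_mul, abs_of_nonneg (hB0 _)]
      refine (mul_le_of_le_one_left (by positivity) (hB1 _)).trans ?_
      exact mul_le_mul (hLA _) k1 (abs_nonneg _) ((abs_nonneg _).trans (hLA 0))
    linarith [abs_add_le (A p.1 * ((deriv S p.2 - deriv S (p.2 - h)) * v.2))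
      (B p.2 * (deriv A p.1 * v.1))]
  · rw [h10] at hp
    obtain ⟨k1, k2⟩ := hAd _ (left_ne_zero_of_mul hp)
    obtain ⟨k3, k4⟩ := hBs _ (right_ne_zero_of_mul hp)
    exact ⟨abs_le.2 ⟨by linarith, by linarith⟩, k3.le, k4⟩
  · simp only [h10]
    have e1 : ∫ w : ℂ, deriv A w.re * B w.im = ∫ p : ℝ × ℝ, deriv A p.1 * B p.2 :=
      Complex.volume_preserving_equiv_real_prod.integral_comp
        Complex.measurableEquivRealProd.measurableEmbedding
        (fun p : ℝ × ℝ => deriv A p.1 * B p.2)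
    have e2 : ∫ s, deriv A s = 1 := by
      rw [← intervalIntegral.integral_eq_integral_of_support_subset (a := s₀ - 2 * r)
        (b := s₀ + r) (fun s hs => by
          obtain ⟨k1, k2⟩ := hAd s hs
          exact ⟨by linarith, by linarith⟩),
        intervalIntegral.integral_deriv_eq_sub (fun x _ => hAdiff x)
          ((hAc.continuous_deriv (by simp)).intervalIntegrable _ _),
        hA1 _ (by linarith), hA0 _ (by linarith), sub_zero]
    have e3 : ∫ t, B t = h := by
      have hi : ∀ a b, IntervalIntegrable S volume a b := fun a b =>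
        hSc.continuous.intervalIntegrable a b
      rw [← intervalIntegral.integral_eq_integral_of_support_subset (a := y)
        (b := y + 2 * h) (fun t ht => hBs t ht), hBf,
        intervalIntegral.integral_sub (g := fun t => S (t - h)) (hi _ _)
          ((hSc.continuous.comp (continuous_id.sub continuous_const)).intervalIntegrable _ _),
        intervalIntegral.integral_comp_sub_right S h,
        show y + 2 * h - h = y + h by ring,
        ← intervalIntegral.integral_add_adjacent_intervals (hi y (y + h)) (hi (y + h) (y + 2 * h)),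
        ← intervalIntegral.integral_add_adjacent_intervals (hi (y - h) y) (hi y (y + h))]
      have k1 : ∫ t in (y + h)..(y + 2 * h), S t = ∫ _ in (y + h)..(y + 2 * h), (1 : ℝ) := by
        refine intervalIntegral.integral_congr fun t ht => ?_
        rw [uIcc_of_le (by linarith)] at ht
        exact hS1 t ht.1
      have k2 : ∫ t in (y - h)..y, S t = ∫ _ in (y - h)..y, (0 : ℝ) := by
        refine intervalIntegral.integral_congr fun t ht => ?_
        rw [uIcc_of_le (by linarith)] at ht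
        exact hS0 t ht.2
      rw [k1, k2]
      simp
      ring
    rw [e1, Measure.volume_eq_prod, integral_prod_mul (fun s => deriv A s) B, e2, e3, one_mul]

/-- Range bound.  If `F` is constant use `φ = 0`.  Otherwise let `α = Im F z' < β = Im F z`;
`[α, β] ⊆ Im F (U)` (preconnected).  For `t ∈ [α, β]` take `z_t` (`hr_noncrit`) and `r_t` (`hr_local`);
a Lebesgue number `ρ` of the cover by the intervals `(t - r_t, t + r_t)`
(`lebesgue_number_lemma_of_metric`); `h = (β - α)/N` with `2 h < ρ`, `y_k = α + k h`, `φ = ∑_{k<N} φ_k`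
with the blocks of `hr_block`; the upper bounds telescope (`Finset.sum_range_sub'`), so `0 ≤ φ ≤ 1`,
and `β - α = ∑ h ≤ ∑ ∫_U ∂ₛφ_k(F) ‖F'‖² ≤ m`. -/
theorem hb_range (hU : IsOpen U) (hc : IsPreconnected U) (hF : DifferentiableOn ℂ F U)
    (hE : IntegrableOn (fun z => ‖deriv F z‖ ^ 2) U) {m : ℝ}
    (h : ∀ φ : ℝ × ℝ → ℝ, ContDiff ℝ ∞ φ → (∀ p, 0 ≤ φ p ∧ φ p ≤ 1) →
      (∀ p, 0 ≤ fderiv ℝ φ p (1, 0)) → (∃ L, ∀ p, ‖fderiv ℝ φ p‖ ≤ L) →
      ∫ z in U, fderiv ℝ φ ((F z).re, (F z).im) (1, 0) * ‖deriv F z‖ ^ 2 ≤ m) :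
    ∀ z ∈ U, ∀ z' ∈ U, (F z).im - (F z').im ≤ m := by
  intro z hz z' hz'
  have hm : 0 ≤ m := by
    have := h (fun _ => 0) contDiff_const (fun _ => ⟨le_rfl, zero_le_one⟩) (fun p => by simp)
      ⟨0, fun p => by simp⟩
    simpa using this
  rcases le_or_gt (F z).im (F z').im with hle | hlt
  · linarith
  have hn : ∃ z ∈ U, ∃ z' ∈ U, F z ≠ F z' :=
    ⟨z, hz, z', hz', fun e => by rw [e] at hlt; exact lt_irrefl _ hlt⟩
  have himg : Icc (F z').im (F z).im ⊆ (fun w => (F w).im) '' U :=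
    hc.intermediate_value hz' hz (Complex.continuous_im.comp_continuousOn hF.continuousOn)
  generalize (F z').im = α at *
  generalize (F z).im = β at *
  have key : ∀ t : Icc α β, ∃ s r : ℝ, 0 < r ∧ ∀ g : ℂ → ℝ, Continuous g → (∀ y, 0 ≤ g y) →
      (∀ y, g y ≠ 0 → |y.re - s| ≤ r ∧ |y.im - t| ≤ r) →
      ∫ y, g y ≤ ∫ z in U, g (F z) * ‖deriv F z‖ ^ 2 := by
    intro t
    obtain ⟨w, hw, hwt⟩ := himg t.2
    obtain ⟨w', hw', hd, he⟩ := hr_noncrit hU hc hF hn hw
    obtain ⟨r, hr, hg⟩ := hr_local hU hF hE hw' hd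
    refine ⟨(F w').re, r, hr, fun g h1 h2 h3 => hg g h1 h2 fun y hy => ?_⟩
    rw [he, show (F w).im = t from hwt]
    exact h3 y hy
  choose s r hr hg using key
  obtain ⟨ρ, hρ, hL⟩ := lebesgue_number_lemma_of_metric (isCompact_Icc (a := α) (b := β))
    (c := fun t : Icc α β => Metric.ball (t : ℝ) (r t)) (fun _ => Metric.isOpen_ball)
    (fun x hx => mem_iUnion.2 ⟨⟨x, hx⟩, Metric.mem_ball_self (hr _)⟩)
  obtain ⟨N, hN⟩ := exists_nat_gt (2 * (β - α) / ρ)
  have hd : 0 < β - α := sub_pos.2 hlt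
  have hN0 : (0 : ℝ) < N := lt_trans (by positivity) hN
  set η : ℝ := (β - α) / N with hη
  have hη0 : 0 < η := by positivity
  have hηN : N * η = β - α := by rw [hη]; field_simp
  have hηρ : 2 * η < ρ := by
    rw [div_lt_iff₀ hρ] at hN
    have : N * (2 * η) < N * ρ := by nlinarith
    exact lt_of_mul_lt_mul_left this hN0.le
  have hFc : ContinuousOn (fun z => ((F z).re, (F z).im)) U :=
    (Complex.continuous_re.comp_continuousOn hF.continuousOn).prodMk
      (Complex.continuous_im.comp_continuousOn hF.continuousOn)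
  have blk : ∀ k : ℕ, ∃ φ : ℝ × ℝ → ℝ, ContDiff ℝ ∞ φ ∧
      (∀ p, 0 ≤ φ p ∧ φ p ≤ Real.smoothTransition ((p.2 - (α + k * η)) / η) -
        Real.smoothTransition ((p.2 - (α + ((k + 1 : ℕ) : ℝ) * η)) / η)) ∧
      (∀ p, 0 ≤ fderiv ℝ φ p (1, 0)) ∧ (∃ L, ∀ p, ‖fderiv ℝ φ p‖ ≤ L) ∧
      (k < N → η ≤ ∫ z in U, fderiv ℝ φ ((F z).re, (F z).im) (1, 0) * ‖deriv F z‖ ^ 2) := by
    intro k
    by_cases hk : k < N
    · have hk' : (k : ℝ) ≤ N := by exact_mod_cast hk.le
      have hy : α + k * η ∈ Icc α β := ⟨by nlinarith [Nat.cast_nonneg (α := ℝ) k], by nlinarith⟩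
      obtain ⟨t, ht⟩ := hL _ hy
      obtain ⟨φ, h1, h2, h3, h4, h5, h6⟩ := hr_block (s t) (α + k * η) (hr t) hη0
      refine ⟨φ, h1, fun p => ?_, h3, h4, fun _ => ?_⟩
      · have e : α + ((k + 1 : ℕ) : ℝ) * η = α + k * η + η := by push_cast; ring
        rw [e]
        exact h2 p
      · rw [← h6]
        have hcf : Continuous (fderiv ℝ φ) := h1.continuous_fderiv (by simp)
        refine hg t (fun w => fderiv ℝ φ (w.re, w.im) (1, 0)) ?_ (fun w => h3 _) fun w hw => ?_
        · exact (hcf.comp (Complex.continuous_re.prodMk Complex.continuous_im)).clm_apply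
            continuous_const
        · obtain ⟨a1, a2, a3⟩ := h5 _ hw
          refine ⟨a1, le_of_lt ?_⟩
          have : w.im ∈ Metric.ball (α + k * η) ρ := by
            rw [Metric.mem_ball, Real.dist_eq, abs_lt]
            constructor <;> simp only at a2 a3 <;> linarith
          simpa [Real.dist_eq] using ht this
    · obtain ⟨φ, h1, h2, h3, h4, -, -⟩ := hr_block 0 (α + k * η) one_pos hη0
      refine ⟨φ, h1, fun p => ?_, h3, h4, fun hk' => absurd hk' hk⟩
      have e : α + ((k + 1 : ℕ) : ℝ) * η = α + k * η + η := by push_cast; ring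
      rw [e]
      exact h2 p
  choose φ h1 h2 h3 h4 h5 using blk
  choose L hL4 using h4
  have hdf : ∀ p, fderiv ℝ (fun p => ∑ k ∈ Finset.range N, φ k p) p =
      ∑ k ∈ Finset.range N, fderiv ℝ (φ k) p := fun p =>
    fderiv_fun_sum fun k _ => (h1 k).differentiable (by simp) p
  have hint : ∀ k, IntegrableOn
      (fun z => fderiv ℝ (φ k) ((F z).re, (F z).im) (1, 0) * ‖deriv F z‖ ^ 2) U := by
    intro k
    have hcf : Continuous (fderiv ℝ (φ k)) := (h1 k).continuous_fderiv (by simp)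
    refine Integrable.bdd_mul (c := L k) hE ?_ (Eventually.of_forall fun w => ?_)
    · exact ((hcf.comp_continuousOn hFc).clm_apply continuousOn_const).aestronglyMeasurable
        hU.measurableSet
    · refine ((fderiv ℝ (φ k) _).le_opNorm _).trans ?_
      have : ‖((1 : ℝ), (0 : ℝ))‖ = 1 := by simp [Prod.norm_def]
      rw [this, mul_one]
      exact hL4 k _
  have main := h (fun p => ∑ k ∈ Finset.range N, φ k p) (ContDiff.sum fun k _ => h1 k)
    (fun p => ⟨Finset.sum_nonneg fun k _ => (h2 k p).1, ?_⟩) (fun p => ?_)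
    ⟨∑ k ∈ Finset.range N, L k, fun p => ?_⟩
  · simp only [hdf, ContinuousLinearMap.sum_apply, Finset.sum_mul] at main
    rw [integral_finset_sum _ fun k _ => hint k] at main
    calc β - α = ∑ _k ∈ Finset.range N, η := by simp [hηN]
      _ ≤ _ := Finset.sum_le_sum fun k hk => h5 k (Finset.mem_range.1 hk)
      _ ≤ m := main
  · refine (Finset.sum_le_sum fun k _ => (h2 k p).2).trans ?_
    rw [Finset.sum_range_sub' (fun k : ℕ => Real.smoothTransition ((p.2 - (α + k * η)) / η))]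
    linarith [Real.smoothTransition.le_one ((p.2 - (α + ((0 : ℕ) : ℝ) * η)) / η),
      Real.smoothTransition.nonneg ((p.2 - (α + (N : ℝ) * η)) / η)]
  · rw [hdf, ContinuousLinearMap.sum_apply]
    exact Finset.sum_nonneg fun k _ => h3 k p
  · rw [hdf]
    exact (norm_sum_le _ _).trans (Finset.sum_le_sum fun k _ => hL4 k p)

end Crest.Agent.R105
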