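import Mathlib

/-! Row 105: the sharp planar Sobolev inequality `4 π ∫ u² ≤ (∫ |∇ u|)²` for `C¹` functions. -/

set_option autoImplicit false

open MeasureTheory Set Filter Topology

namespace Crest.Agent.R105.Iso

noncomputable section

/-- unit vector of angle `θ` -/
def ev (θ : ℝ) : ℂ := Real.cos θ • (1 : ℂ) + Real.sin θ • Complex.I

/-- its derivative -/
def ew (θ : ℝ) : ℂ := (-Real.sin θ) • (1 : ℂ) + Real.cos θ • Complex.I

/-- Euclidean length of the gradient -/
def gN (u : ℂ → ℝ) (z : ℂ) : ℝ := Real.sqrt (fderiv ℝ u z 1 ^ 2 + fderiv ℝ u z Complex.I ^ 2)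

theorem hasDerivAt_ev (θ : ℝ) : HasDerivAt ev (ew θ) θ :=
  ((Real.hasDerivAt_cos θ).smul_const (1 : ℂ)).add ((Real.hasDerivAt_sin θ).smul_const Complex.I)

theorem hasDerivAt_ew (θ : ℝ) : HasDerivAt ew (-ev θ) θ := by
  have := ((Real.hasDerivAt_sin θ).neg.smul_const (1 : ℂ)).add
    ((Real.hasDerivAt_cos θ).smul_const Complex.I)
  refine this.congr_deriv ?_
  simp only [ev, neg_smul, neg_add]

theorem continuous_ev : Continuous ev := by unfold ev; fun_prop

theorem continuous_ew : Continuous ew := by unfold ew; fun_prop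

theorem norm_ev (θ : ℝ) : ‖ev θ‖ = 1 := by
  have : ev θ = Complex.exp (θ * Complex.I) := by
    rw [Complex.exp_mul_I]; simp [ev]
  rw [this, Complex.norm_exp_ofReal_mul_I]

theorem polar_ev (p : ℝ × ℝ) : Complex.polarCoord.symm p = p.1 • ev p.2 := by
  rw [Complex.polarCoord_symm_apply]; simp [ev, mul_add]

theorem cs_rot (A B : ℂ →L[ℝ] ℝ) (θ : ℝ) :
    |A (ew θ) * B (ew θ) - A (ev θ) * B (ev θ)| ≤
      Real.sqrt (A 1 ^ 2 + A Complex.I ^ 2) * Real.sqrt (B 1 ^ 2 + B Complex.I ^ 2) := by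
  rw [← Real.sqrt_mul (by positivity)]
  refine Real.abs_le_sqrt ?_
  have h := Real.sin_sq_add_cos_sq θ
  have h1 : A (ew θ) ^ 2 + A (ev θ) ^ 2 = A 1 ^ 2 + A Complex.I ^ 2 := by
    simp only [ev, ew, map_add, map_smul, smul_eq_mul]
    linear_combination (A 1 ^ 2 + A Complex.I ^ 2) * h
  have h2 : B (ew θ) ^ 2 + B (ev θ) ^ 2 = B 1 ^ 2 + B Complex.I ^ 2 := by
    simp only [ev, ew, map_add, map_smul, smul_eq_mul]
    linear_combination (B 1 ^ 2 + B Complex.I ^ 2) * h
  rw [← h1, ← h2]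
  nlinarith [sq_nonneg (A (ew θ) * B (ev θ) + A (ev θ) * B (ew θ))]

/-- the polar box -/
def pbox (R : ℝ) : Set (ℝ × ℝ) := Ioo 0 R ×ˢ Ioo (-Real.pi) Real.pi

theorem int_pbox {f : ℝ × ℝ → ℝ} (hf : Continuous f) (R : ℝ) : IntegrableOn f (pbox R) :=
  (hf.continuousOn.integrableOn_compact
    (isCompact_Icc.prod isCompact_Icc : IsCompact (Icc 0 R ×ˢ Icc (-Real.pi) Real.pi))).mono_set
    (prod_mono Ioo_subset_Icc_self Ioo_subset_Icc_self)

theorem pbox_r {f : ℝ × ℝ → ℝ} (hf : Continuous f) {R : ℝ} (hR : 0 ≤ R) :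
    ∫ p in pbox R, f p = ∫ θ in (-Real.pi)..Real.pi, ∫ r in (0 : ℝ)..R, f (r, θ) := by
  have h := int_pbox hf R
  rw [pbox, IntegrableOn, Measure.volume_eq_prod, ← Measure.prod_restrict] at h
  rw [pbox, Measure.volume_eq_prod, ← Measure.prod_restrict, integral_prod_symm _ h,
    intervalIntegral.integral_of_le (by linarith [Real.pi_pos]), integral_Ioc_eq_integral_Ioo]
  refine integral_congr_ae (Eventually.of_forall fun θ => ?_)
  simp only
  rw [intervalIntegral.integral_of_le hR, integral_Ioc_eq_integral_Ioo]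

theorem pbox_θ {f : ℝ × ℝ → ℝ} (hf : Continuous f) {R : ℝ} (hR : 0 ≤ R) :
    ∫ p in pbox R, f p = ∫ r in (0 : ℝ)..R, ∫ θ in (-Real.pi)..Real.pi, f (r, θ) := by
  have h := int_pbox hf R
  rw [pbox, IntegrableOn, Measure.volume_eq_prod, ← Measure.prod_restrict] at h
  rw [pbox, Measure.volume_eq_prod, ← Measure.prod_restrict, integral_prod _ h,
    intervalIntegral.integral_of_le hR, integral_Ioc_eq_integral_Ioo]
  refine integral_congr_ae (Eventually.of_forall fun θ => ?_)
  simp only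
  rw [intervalIntegral.integral_of_le (by linarith [Real.pi_pos]), integral_Ioc_eq_integral_Ioo]

theorem continuous_gN {u : ℂ → ℝ} (hu : ContDiff ℝ 1 u) : Continuous (gN u) := by
  have := hu.continuous_fderiv one_ne_zero
  unfold gN
  fun_prop

theorem field_bound {u : ℂ → ℝ} (hu : ContDiff ℝ 1 u) (y : ℂ) {R : ℝ} (hR : 0 ≤ R)
    (h0 : ∀ z : ℂ, R ≤ ‖z‖ → u (y + z) = 0 ∧ fderiv ℝ u (y + z) = 0) (l : ℂ →L[ℝ] ℝ) :
    2 * |∫ p in pbox R, u (y + p.1 • ev p.2) * l (ev p.2)| ≤
      Real.sqrt (l 1 ^ 2 + l Complex.I ^ 2) * ∫ z, gN u z := by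
  have hd := hu.continuous_fderiv one_ne_zero
  have hc := hu.continuous
  have hdf := hu.differentiable one_ne_zero
  have c1 := continuous_ev
  have c2 := continuous_ew
  have cA : Continuous fun p : ℝ × ℝ => u (y + p.1 • ev p.2) * l (ev p.2) := by fun_prop
  have cB : Continuous fun p : ℝ × ℝ =>
      p.1 * (fderiv ℝ u (y + p.1 • ev p.2) (ev p.2) * l (ev p.2)) := by fun_prop
  have cC : Continuous fun p : ℝ × ℝ =>
      p.1 * (fderiv ℝ u (y + p.1 • ev p.2) (ew p.2) * l (ew p.2)) := by fun_prop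
  have E1 : (∫ p in pbox R, u (y + p.1 • ev p.2) * l (ev p.2)) +
      ∫ p in pbox R, p.1 * (fderiv ℝ u (y + p.1 • ev p.2) (ev p.2) * l (ev p.2)) = 0 := by
    rw [← integral_add (int_pbox cA R) (int_pbox cB R), pbox_r (cA.fun_add cB) hR]
    have : ∀ θ : ℝ, ∫ r in (0 : ℝ)..R, (u (y + r • ev θ) * l (ev θ) +
        r * (fderiv ℝ u (y + r • ev θ) (ev θ) * l (ev θ))) = 0 := fun θ => by
      rw [intervalIntegral.integral_eq_sub_of_hasDerivAt
        (f := fun r : ℝ => r * u (y + r • ev θ) * l (ev θ))]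
      · rw [(h0 (R • ev θ) (by rw [norm_smul, norm_ev, mul_one]; exact le_abs_self R)).1]
        simp
      · intro r _
        have h1 : HasDerivAt (fun r : ℝ => y + r • ev θ) (ev θ) r := by
          simpa using ((hasDerivAt_id r).smul_const (ev θ)).const_add y
        have h2 := (hdf _).hasFDerivAt.comp_hasDerivAt r h1
        refine (((hasDerivAt_id' r).fun_mul h2).mul_const (l (ev θ))).congr_deriv ?_
        simp only [Function.comp]
        ring
      · exact Continuous.intervalIntegrable (by fun_prop) _ _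
    simp only [this, intervalIntegral.integral_zero]
  have E2 : (∫ p in pbox R, p.1 * (fderiv ℝ u (y + p.1 • ev p.2) (ew p.2) * l (ew p.2))) -
      ∫ p in pbox R, u (y + p.1 • ev p.2) * l (ev p.2) = 0 := by
    rw [← integral_sub (int_pbox cC R) (int_pbox cA R), pbox_θ (cC.fun_sub cA) hR]
    have : ∀ r : ℝ, ∫ θ in (-Real.pi)..Real.pi,
        (r * (fderiv ℝ u (y + r • ev θ) (ew θ) * l (ew θ)) - u (y + r • ev θ) * l (ev θ)) = 0 :=
      fun r => by
      rw [intervalIntegral.integral_eq_sub_of_hasDerivAt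
        (f := fun θ : ℝ => u (y + r • ev θ) * l (ew θ))]
      · simp [ev, ew]
      · intro θ _
        have h1 : HasDerivAt (fun θ : ℝ => y + r • ev θ) (r • ew θ) θ :=
          ((hasDerivAt_ev θ).const_smul r).const_add y
        have h2 := (hdf _).hasFDerivAt.comp_hasDerivAt θ h1
        have h3 := l.hasFDerivAt.comp_hasDerivAt θ (hasDerivAt_ew θ)
        refine (h2.fun_mul h3).congr_deriv ?_
        simp only [Function.comp, map_smul, map_neg, smul_eq_mul]
        ring
      · exact Continuous.intervalIntegrable (by fun_prop) _ _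
    simp only [this, intervalIntegral.integral_zero]
  have E3 : 2 * ∫ p in pbox R, u (y + p.1 • ev p.2) * l (ev p.2) =
      ∫ p in pbox R, (p.1 * (fderiv ℝ u (y + p.1 • ev p.2) (ew p.2) * l (ew p.2)) -
        p.1 * (fderiv ℝ u (y + p.1 • ev p.2) (ev p.2) * l (ev p.2))) := by
    rw [integral_sub (int_pbox cC R) (int_pbox cB R)]
    linarith
  have cN := continuous_gN hu
  have cD : Continuous fun p : ℝ × ℝ => p.1 * gN u (y + p.1 • ev p.2) := by fun_prop
  have E4 : ∫ p in pbox R, p.1 * gN u (y + p.1 • ev p.2) = ∫ z, gN u z := by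
    rw [← integral_add_left_eq_self (gN u) y,
      ← Complex.integral_comp_polarCoord_symm (fun z => gN u (y + z))]
    simp only [polar_ev, smul_eq_mul]
    symm
    refine setIntegral_eq_of_subset_of_forall_sdiff_eq_zero
      (polarCoord.open_target.measurableSet) ?_ ?_
    · exact prod_mono Ioo_subset_Ioi_self subset_rfl
    · rintro p ⟨hp, hp'⟩
      have h1 : R ≤ p.1 := by
        by_contra h
        exact hp' ⟨⟨hp.1, not_le.1 h⟩, hp.2⟩
      have h2 := (h0 (p.1 • ev p.2) (by
        rw [norm_smul, norm_ev, mul_one]; exact h1.trans (le_abs_self _))).2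
      simp only [gN, h2]
      simp
  have E5 : 2 * |∫ p in pbox R, u (y + p.1 • ev p.2) * l (ev p.2)| =
      |2 * ∫ p in pbox R, u (y + p.1 • ev p.2) * l (ev p.2)| := by
    rw [abs_mul, abs_two]
  rw [E5, E3, ← E4, ← integral_const_mul]
  refine abs_integral_le_integral_abs.trans ?_
  refine setIntegral_mono_on (int_pbox (cC.sub cB).abs R) (int_pbox (by fun_prop) R)
    (measurableSet_Ioo.prod measurableSet_Ioo) fun p hp => ?_
  rw [← mul_sub, abs_mul, abs_of_pos hp.1.1]
  have := cs_rot (fderiv ℝ u (y + p.1 • ev p.2)) l p.2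
  have h2 := mul_le_mul_of_nonneg_left this hp.1.1.le
  simp only [gN]
  linarith

theorem ray_int {u : ℂ → ℝ} (hu : ContDiff ℝ 1 u) (y : ℂ) {R : ℝ} (hR : 0 ≤ R)
    (h0 : ∀ z : ℂ, R ≤ ‖z‖ → u (y - z) = 0) :
    ∫ p in pbox R, fderiv ℝ u (y - p.1 • ev p.2) (ev p.2) = 2 * Real.pi * u y := by
  have hd := hu.continuous_fderiv one_ne_zero
  have hdf := hu.differentiable one_ne_zero
  have c1 := continuous_ev
  rw [pbox_r (by fun_prop) hR]
  have : ∀ θ : ℝ, ∫ r in (0 : ℝ)..R, fderiv ℝ u (y - r • ev θ) (ev θ) = u y := fun θ => by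
    rw [intervalIntegral.integral_eq_sub_of_hasDerivAt (f := fun r : ℝ => -u (y - r • ev θ))]
    · rw [h0 (R • ev θ) (by rw [norm_smul, norm_ev, mul_one]; exact le_abs_self R)]
      simp
    · intro r _
      have h1 : HasDerivAt (fun r : ℝ => y - r • ev θ) (-ev θ) r := by
        simpa using ((hasDerivAt_id r).smul_const (ev θ)).const_sub y
      have h2 := (hdf _).hasFDerivAt.comp_hasDerivAt r h1
      refine h2.neg.congr_deriv ?_
      simp
    · exact Continuous.intervalIntegrable (by fun_prop) _ _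
  simp only [this, intervalIntegral.integral_const, smul_eq_mul]
  ring

instance (R : ℝ) : IsFiniteMeasure ((volume : Measure (ℝ × ℝ)).restrict (pbox R)) := by
  refine ⟨?_⟩
  rw [Measure.restrict_apply_univ]
  exact lt_of_le_of_lt (measure_mono (prod_mono Ioo_subset_Icc_self Ioo_subset_Icc_self))
    (isCompact_Icc.prod isCompact_Icc : IsCompact (Icc 0 R ×ˢ Icc (-Real.pi) Real.pi)).measure_lt_top

theorem int_prod_pbox {F : ℂ × (ℝ × ℝ) → ℝ} (hF : Continuous F) {g : ℂ → ℝ} (hg : Integrable g)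
    (h : ∀ x, |F x| ≤ g x.1) (R : ℝ) :
    Integrable F ((volume : Measure ℂ).prod ((volume : Measure (ℝ × ℝ)).restrict (pbox R))) := by
  refine Integrable.mono' (g := fun x => g x.1) (hg.comp_fst _) hF.aestronglyMeasurable
    (Eventually.of_forall h)

/-- sharp Sobolev inequality in the plane -/
theorem sobolev_C1 {u : ℂ → ℝ} (hu : ContDiff ℝ 1 u) (hs : HasCompactSupport u) :
    4 * Real.pi * ∫ z, u z ^ 2 ≤ (∫ z, gN u z) ^ 2 := by
  have hd := hu.continuous_fderiv one_ne_zero
  have hc := hu.continuous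
  have c1 := continuous_ev
  have hs' : HasCompactSupport (fderiv ℝ u) := hs.fderiv ℝ
  obtain ⟨R₀, hR₀⟩ := hs.isCompact.isBounded.subset_ball (0 : ℂ)
  set R := 2 * |R₀| with hR
  have hR0 : 0 ≤ R := by positivity
  have hout : ∀ z : ℂ, |R₀| ≤ ‖z‖ → u z = 0 ∧ fderiv ℝ u z = 0 := fun z hz => by
    have h1 : z ∉ tsupport u := fun h => by
      have := mem_ball_zero_iff.1 (hR₀ h)
      linarith [le_abs_self R₀]
    exact ⟨image_eq_zero_of_notMem_tsupport h1,
      image_eq_zero_of_notMem_tsupport fun h => h1 (tsupport_fderiv_subset ℝ h)⟩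
  obtain ⟨B, hB⟩ := hc.bounded_above_of_compact_support hs
  obtain ⟨B', hB'⟩ := hd.bounded_above_of_compact_support hs'
  have iu : Integrable u := hc.integrable_of_hasCompactSupport hs
  have id' : Integrable fun z => ‖fderiv ℝ u z‖ := (hd.integrable_of_hasCompactSupport hs').norm
  have cN := continuous_gN hu
  have iN : Integrable (gN u) := by
    refine cN.integrable_of_hasCompactSupport (hs'.mono fun z hz h => hz ?_)
    simp only [gN, h]
    simp
  have hle : ∀ z θ, |fderiv ℝ u z (ev θ)| ≤ ‖fderiv ℝ u z‖ := fun z θ => by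
    simpa [norm_ev] using (fderiv ℝ u z).le_opNorm (ev θ)
  have i1 : Integrable (fun x : ℂ × (ℝ × ℝ) => u (x.1 + x.2.1 • ev x.2.2) *
      fderiv ℝ u x.1 (ev x.2.2)) (volume.prod (volume.restrict (pbox R))) := by
    refine int_prod_pbox (by fun_prop) (id'.const_mul B) (fun x => ?_) R
    rw [abs_mul]
    exact mul_le_mul (hB _) (hle _ _) (abs_nonneg _) ((norm_nonneg _).trans (hB 0))
  have i2 : Integrable (fun x : ℂ × (ℝ × ℝ) => u x.1 *
      fderiv ℝ u (x.1 - x.2.1 • ev x.2.2) (ev x.2.2)) (volume.prod (volume.restrict (pbox R))) := by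
    refine int_prod_pbox (by fun_prop) (iu.abs.mul_const B') (fun x => ?_) R
    rw [abs_mul]
    exact mul_le_mul_of_nonneg_left ((hle _ _).trans (hB' _)) (abs_nonneg _)
  have e1 : ∫ y, ∫ p in pbox R, u (y + p.1 • ev p.2) * fderiv ℝ u y (ev p.2) =
      ∫ y, ∫ p in pbox R, u y * fderiv ℝ u (y - p.1 • ev p.2) (ev p.2) := by
    rw [integral_integral_swap (f := fun (y : ℂ) (p : ℝ × ℝ) =>
        u (y + p.1 • ev p.2) * fderiv ℝ u y (ev p.2)) i1,
      integral_integral_swap (f := fun (y : ℂ) (p : ℝ × ℝ) =>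
        u y * fderiv ℝ u (y - p.1 • ev p.2) (ev p.2)) i2]
    refine integral_congr_ae (Eventually.of_forall fun p => ?_)
    simp only
    rw [← integral_add_right_eq_self
      (fun y => u y * fderiv ℝ u (y - p.1 • ev p.2) (ev p.2)) (p.1 • ev p.2)]
    simp only [add_sub_cancel_right]
  have e2 : ∀ y, ∫ p in pbox R, u y * fderiv ℝ u (y - p.1 • ev p.2) (ev p.2) =
      2 * Real.pi * u y ^ 2 := fun y => by
    rw [integral_const_mul]
    by_cases hy : |R₀| ≤ ‖y‖
    · simp [(hout y hy).1]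
    · rw [ray_int hu y hR0 fun z hz => (hout _ (by
        have := norm_sub_norm_le z y
        rw [norm_sub_rev] at this
        linarith)).1]
      ring
  have e3 : ∀ y, 2 * |∫ p in pbox R, u (y + p.1 • ev p.2) * fderiv ℝ u y (ev p.2)| ≤
      gN u y * ∫ z, gN u z := fun y => by
    by_cases hy : |R₀| ≤ ‖y‖
    · simp only [gN, (hout y hy).2]
      simp
    · exact field_bound hu y hR0 (fun z hz => hout _ (by
        have := norm_sub_norm_le z (-y)
        rw [norm_neg, sub_neg_eq_add, add_comm] at this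
        linarith)) _
  simp only [e2, integral_const_mul] at e1
  have e4 : 2 * ∫ y, ∫ p in pbox R, u (y + p.1 • ev p.2) * fderiv ℝ u y (ev p.2) ≤
      ∫ y, gN u y * ∫ z, gN u z := by
    rw [← integral_const_mul]
    refine integral_mono (i1.integral_prod_left.const_mul 2) (iN.mul_const _) fun y => ?_
    refine le_trans ?_ (e3 y)
    exact mul_le_mul_of_nonneg_left (le_abs_self _) zero_le_two
  rw [integral_mul_const, e1] at e4
  nlinarith

end

end Crest.Agent.R105.Iso
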