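import Crest.Agent.R105.KDefs

/-! Row 105, block II/KEY: algebra of `Adm`, `TT` and `Sg`. -/

set_option autoImplicit false

open MeasureTheory Set Filter Topology
open scoped ENNReal

namespace Crest.Agent.R105

variable {U : Set ℂ}

/-- `om_germ_congr` -/
theorem k_Adm_germ (hU : IsOpen U) {Λ : Lumps U} {M : Set (ℂ → ℝ)} (hM : ∀ r ∈ M, Reg Λ r)
    {F : Finset Λ.E} {u u' : ℂ → ℝ} {e : Λ.E → ℝ} (hu : XX U u) (hu' : XX U u')
    (hq : ∀ q, ∃ n, ∀ z ∈ Λ.W n q, u' z = u z) (h : Adm Λ M F u e) : Adm Λ M F u' e := by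
  refine ⟨h.l2, fun r hr H hH χ hχ h0 => ?_⟩
  have hc : XX U fun z => H (r z) := XX.comp_C1 hU hH (hM r hr).xx (hM r hr).bdd
  rw [om_germ_congr hU Λ (hu'.mul_A0 hU Λ hχ) (hu.mul_A0 hU Λ hχ) hc hc fun q =>
    (hq q).imp fun n hn => ⟨0, 0, fun z hz => by rw [hn z hz, add_zero], fun z _ => by rw [add_zero]⟩]
  exact h.le r hr H hH χ hχ h0

theorem TT.germ (hU : IsOpen U) {Λ : Lumps U} {M : Set (ℂ → ℝ)} (hM : ∀ r ∈ M, Reg Λ r)
    {u u' : ℂ → ℝ} (h : TT Λ M u) (hu' : XX U u')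
    (hq : ∀ q, ∃ n, ∀ z ∈ Λ.W n q, u' z = u z) : TT Λ M u' := by
  obtain ⟨hu, e, he⟩ := h
  exact ⟨hu', e, k_Adm_germ hU hM hu hu' hq he⟩

/-- `CH` with `F = ∅`, `XX.comp2` -/
theorem TT.comp2 (hU : IsOpen U) {Λ : Lumps U} {M : Set (ℂ → ℝ)} (hC : CH Λ M) {u v : ℂ → ℝ}
    (hu : TT Λ M u) (hv : TT Λ M v) {G : ℝ → ℝ → ℝ} {L₁ L₂ : ℝ} (h₁ : 0 ≤ L₁) (h₂ : 0 ≤ L₂)
    (hG : ∀ s t s' t', |G s t - G s' t'| ≤ L₁ * |s - s'| + L₂ * |t - t'|) :
    TT Λ M (fun z => G (u z) (v z)) := by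
  obtain ⟨hu, e, he⟩ := hu
  obtain ⟨hv, e', he'⟩ := hv
  exact ⟨XX.comp2 hU hG hu hv, _, hC ∅ u v e e' G L₁ L₂ 0 hu hv he he' h₁ h₂ le_rfl hG (Or.inl rfl)⟩

theorem Sg.reg {Λ : Lumps U} {M : Set (ℂ → ℝ)} {σ : ℂ → ℝ} {k : Λ.E → ℝ} (h : Sg Λ M σ k) :
    Reg Λ σ := by
  exact ⟨h.xx, h.bdd, (h.l2.of_le (Λ.osc_nonneg h.bdd) h.osc).1.2⟩

theorem AA.mono {Λ : Lumps U} {M : Set (ℂ → ℝ)} {σ : ℂ → ℝ} {k k' : Λ.E → ℝ} (h : AA Λ M σ k)
    (hk : L2w k) (hk' : L2w k') (hle : ∀ q, k q ≤ k' q) : AA Λ M σ k' := by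
  intro u n hu hn
  exact (h u n hu hn).trans (Summable.tsum_le_tsum
    (fun q => mul_le_mul_of_nonneg_left (hle q) (hn.l2.1 q)) (hn.l2.summable_mul hk).1
    (hn.l2.summable_mul hk').1)

theorem Sg.mono {Λ : Lumps U} {M : Set (ℂ → ℝ)} {σ : ℂ → ℝ} {k k' : Λ.E → ℝ} (h : Sg Λ M σ k)
    (hk' : L2w k') (hle : ∀ q, k q ≤ k' q) : Sg Λ M σ k' := by
  exact ⟨h.xx, h.bdd, h.tt, hk', fun q => (h.osc q).trans (hle q), h.aa.mono h.l2 hk' hle⟩

theorem Sg.add (hU : IsOpen U) {Λ : Lumps U} {M : Set (ℂ → ℝ)} (hM : ∀ r ∈ M, Reg Λ r)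
    {σ σ' : ℂ → ℝ} {k k' : Λ.E → ℝ} (h : Sg Λ M σ k) (h' : Sg Λ M σ' k') :
    Sg Λ M (fun z => σ z + σ' z) (fun q => k q + k' q) := by
  refine ⟨h.xx.add hU h'.xx, ?_, h.tt.add hU hM h'.tt, (h.l2.add h'.l2).1, fun q => ?_,
    fun u n hu hn => ?_⟩
  · obtain ⟨B, hB⟩ := h.bdd
    obtain ⟨B', hB'⟩ := h'.bdd
    exact ⟨B + B', fun z hz => (abs_add_le _ _).trans (add_le_add (hB z hz) (hB' z hz))⟩
  · have := Λ.osc_comp2_le h.bdd h'.bdd (G := fun s t => s + t) zero_le_one zero_le_one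
      (fun s t s' t' => by
        rw [one_mul, one_mul, add_sub_add_comm]
        exact abs_add_le _ _) q
    linarith [h.osc q, h'.osc q]
  · rw [om_add_right hU hu h.xx h'.xx]
    simp only [mul_add]
    rw [(hn.l2.summable_mul h.l2).1.tsum_add (hn.l2.summable_mul h'.l2).1]
    exact (abs_add_le _ _).trans (add_le_add (h.aa u n hu hn) (h'.aa u n hu hn))

theorem Sg.of_A0 (hU : IsOpen U) {Λ : Lumps U} {M : Set (ℂ → ℝ)} (hM : ∀ r ∈ M, Reg Λ r)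
    {χ : ℂ → ℝ} (hχ : A0 U χ) : Sg Λ M χ (fun _ => 0) := by
  refine ⟨hχ.xx, hχ.bdd Λ, TT.of_A0 hU hM hχ, ⟨fun _ => le_rfl, by simp⟩,
    fun q => (hχ.osc_eq Λ q).le, fun u n hu _ => ?_⟩
  rw [om_A0 hU hu.lip hχ]
  simp

/-- Induction on `LL`.  Generator: `H ∘ r ∈ T` by `CH.lip` (replace `H` by `H ∘ clamp`,
Lipschitz, equal on `U`; `Fam.compat`), `TT.mul_A0`; `osc ≤ wt` by `A0.eq_val` and
`Lumps.osc_comp_C1_le`; `AA` by `om_mul_swap` and `Adm.le`. -/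
theorem Sg.of_LL (hU : IsOpen U) {Λ : Lumps U} {M : Set (ℂ → ℝ)} (hF : Fam Λ M) (hC : CH Λ M)
    {l : ℂ → ℝ} {k : Λ.E → ℝ} (h : LL Λ M l k) : Sg Λ M l k := by
  induction h with
  | a0 χ hχ => exact Sg.of_A0 hU hF.reg hχ
  | add l l' k k' _ _ h h' => exact h.add hU hF.reg h'
  | gen r H χ hr hH hχ =>
    have hR := hF.reg r hr
    have hx : XX U fun z => H (r z) := XX.comp_C1 hU hH hR.xx hR.bdd
    obtain ⟨B, hB⟩ := hR.bdd
    have hB' : ∀ z ∈ U, |r z| ≤ |B| := fun z hz => (hB z hz).trans (le_abs_self B)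
    have hb : Bdd U fun z => H (r z) := by
      obtain ⟨C, hC⟩ := (isCompact_Icc (a := -|B|) (b := |B|)).exists_bound_of_continuousOn
        hH.continuous.continuousOn
      exact ⟨C, fun z hz => hC _ (abs_le.1 (hB' z hz))⟩
    have hb' : Bdd U fun z => H (r z) * χ z := by
      obtain ⟨C, hC⟩ := hb
      obtain ⟨D, hD⟩ := hχ.bdd Λ
      exact ⟨C * D, fun z hz => by
        rw [abs_mul]
        exact mul_le_mul (hC z hz) (hD z hz) (abs_nonneg _) ((abs_nonneg _).trans (hC z hz))⟩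
    have hT : TT Λ M fun z => H (r z) := by
      obtain ⟨K, hK⟩ := (hH.contDiffOn (s := Icc (-|B|) |B|)).exists_lipschitzOnWith one_ne_zero
        (convex_Icc _ _) isCompact_Icc
      refine ⟨hx, _, (hC.lip hR.xx (hF.compat r hr) (T := fun s => H (max (-|B|) (min s |B|))) K.2
        fun s s' => ?_).congr hU fun z hz => ?_⟩
      · have := hK.dist_le_mul _ (h18_clamp_mem (abs_nonneg B) s) _
          (h18_clamp_mem (abs_nonneg B) s')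
        rw [Real.dist_eq, Real.dist_eq] at this
        exact this.trans (mul_le_mul_of_nonneg_left (h18_clamp _ s s') K.2)
      · simp only [h18_clamp_eq (hB' z hz)]
    refine ⟨hx.mul_A0 hU Λ hχ, hb', hT.mul_A0 hU hχ, wt_l2 Λ hR hH hχ, fun q => ?_,
      fun u n hu hn => ?_⟩
    · obtain ⟨N, hN⟩ := hχ.eq_val Λ
      have hb2 : Bdd U fun z => Λ.val χ q * H (r z) + 0 * H (r z) := by
        obtain ⟨C, hC⟩ := hb
        exact ⟨|Λ.val χ q| * C, fun z hz => by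
          simp only [zero_mul, add_zero, abs_mul]
          exact mul_le_mul_of_nonneg_left (hC z hz) (abs_nonneg _)⟩
      obtain ⟨h1, h2⟩ := Λ.lo_congr hb' hb2 (q := q) fun η hη => ⟨N, fun z hz => by
        rw [hN N le_rfl q z hz, zero_mul, add_zero, mul_comm, sub_self, abs_zero]
        exact hη.le⟩
      have h3 := Λ.osc_lin_le hb hb (Λ.val χ q) 0 q
      rw [abs_zero, zero_mul, add_zero] at h3
      rw [Lumps.osc, h1, h2]
      exact h3.trans (mul_le_mul_of_nonneg_left (Λ.osc_comp_C1_le hR.bdd hH q) (abs_nonneg _))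
    · rw [← om_mul_swap hU Λ hu hx hχ]
      exact hn.le r hr H hH χ hχ fun p hp => absurd hp (Finset.notMem_empty p)

/-- `exists_smooth`; the difference tends to zero at the ends, so `om_vanish` (with
`om_mul_swap`, `om_skew`) keeps `Adm` and `AA`, and `Lumps.lo_congr` keeps `osc`. -/
theorem Sg.smooth (hU : IsOpen U) {Λ : Lumps U} {M : Set (ℂ → ℝ)} (hM : ∀ r ∈ M, Reg Λ r)
    {σ : ℂ → ℝ} {k : Λ.E → ℝ} (h : Sg Λ M σ k) {ε : ℝ} (hε : 0 < ε) :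
    ∃ σ', Sg Λ M σ' k ∧ ContDiffOn ℝ 1 σ' U ∧ (∀ z ∈ U, |σ' z - σ z| ≤ ε) ∧ Cl U σ' σ ε := by
  obtain ⟨σ', hX, hs, hsup, hE, hq⟩ := exists_smooth hU Λ h.xx (ε := min ε (ε ^ 2)) (by positivity)
  have hom : ∀ c, XX U c → om U σ' c = om U σ c := fun c hc => by
    have := om_vanish hU Λ (hX.sub hU h.xx) hc hq
    rwa [om_sub_left hU hX h.xx hc, sub_eq_zero] at this
  have hb : Bdd U σ' := by
    obtain ⟨B, hB⟩ := h.bdd
    refine ⟨B + min ε (ε ^ 2), fun z hz => ?_⟩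
    have h1 := abs_add_le (σ z) (σ' z - σ z)
    rw [add_sub_cancel] at h1
    linarith [hB z hz, hsup z hz]
  refine ⟨σ', ⟨hX, hb, ⟨hX, ?_⟩, h.l2, fun q => ?_, fun u n hu hn => ?_⟩,
    hs.of_le (by exact_mod_cast le_top), fun z hz => (hsup z hz).trans (min_le_left _ _),
    hE.trans (ENNReal.ofReal_le_ofReal (min_le_right _ _))⟩
  · obtain ⟨e, he⟩ := h.tt.2
    refine ⟨e, he.l2, fun r hr H hH χ hχ hF => ?_⟩
    have hc : XX U fun z => H (r z) := XX.comp_C1 hU hH (hM r hr).xx (hM r hr).bdd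
    rw [om_mul_swap hU Λ hX hc hχ, hom _ (hc.mul_A0 hU Λ hχ), ← om_mul_swap hU Λ h.xx hc hχ]
    exact he.le r hr H hH χ hχ hF
  · obtain ⟨h1, h2⟩ := Λ.lo_congr hb h.bdd (hq q)
    have := h.osc q
    unfold Lumps.osc at this ⊢
    rwa [h1, h2]
  · rw [om_skew, hom u hu, ← om_skew]
    exact h.aa u n hu hn

open Classical in
/-- `τ` has the germs of `σ' χ + σ (1 - χ)`, `χ` from `exists_Ind`;
`om u τ = om (u χ) σ' + om (u (1 - χ)) σ` (`om_skew`, `om_germ_congr`, `om_mul_swap`) and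
`Adm.mul_A0`. -/
theorem Sg.glue (hU : IsOpen U) {Λ : Lumps U} {M : Set (ℂ → ℝ)} (hM : ∀ r ∈ M, Reg Λ r)
    {σ σ' τ : ℂ → ℝ} {k k' : Λ.E → ℝ} (h : Sg Λ M σ k) (h' : Sg Λ M σ' k') (hτ : XX U τ)
    (hτb : Bdd U τ) {n : ℕ} {p : Λ.E}
    (h1 : ∀ q, Λ.W n q = Λ.W n p → ∃ m, ∀ z ∈ Λ.W m q, τ z = σ' z)
    (h2 : ∀ q, Λ.W n q ≠ Λ.W n p → ∃ m, ∀ z ∈ Λ.W m q, τ z = σ z) :
    Sg Λ M τ (fun q => if Λ.W n q = Λ.W n p then k' q else k q) := by
  obtain ⟨χ, ⟨hχ, hv⟩, -⟩ := exists_Ind hU Λ n p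
  obtain ⟨hψ, hv'⟩ := A0.sub hU Λ (A0.const 1) hχ
  have hone : ∀ q, Λ.val (fun _ => (1 : ℝ)) q = 1 := fun q =>
    (val_eq Λ (A0.bdd Λ (A0.const 1)) (n := 0) fun _ _ => rfl).1
  obtain ⟨N, hN⟩ := A0.eq_val Λ hχ
  have x1 := h'.xx.mul_A0 hU Λ hχ
  have x2 := h.xx.mul_A0 hU Λ hψ
  have germ : ∀ q, ∃ m, ∀ z ∈ Λ.W m q, τ z = σ' z * χ z + σ z * (1 - χ z) := by
    intro q
    by_cases e : Λ.W n q = Λ.W n p
    · obtain ⟨m, hm⟩ := h1 q e
      refine ⟨max m N, fun z hz => ?_⟩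
      rw [hm z (Λ.W_mono (le_max_left _ _) q hz), hN _ (le_max_right _ _) q z hz, hv, if_pos e]
      ring
    · obtain ⟨m, hm⟩ := h2 q e
      refine ⟨max m N, fun z hz => ?_⟩
      rw [hm z (Λ.W_mono (le_max_left _ _) q hz), hN _ (le_max_right _ _) q z hz, hv, if_neg e]
      ring
  have oc : ∀ {s : ℂ → ℝ} {q : Λ.E}, Bdd U s → (∃ m, ∀ z ∈ Λ.W m q, τ z = s z) →
      Λ.osc τ q = Λ.osc s q := by
    rintro s q hs ⟨m, hm⟩
    obtain ⟨a1, a2⟩ := Λ.lo_congr hτb hs (q := q) fun η hη =>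
      ⟨m, fun z hz => by rw [hm z hz, sub_self, abs_zero]; exact hη.le⟩
    rw [Lumps.osc, Lumps.osc, a1, a2]
  refine ⟨hτ, hτb, TT.germ hU hM (TT.add hU hM (h'.tt.mul_A0 hU hχ) (h.tt.mul_A0 hU hψ)) hτ germ,
    (L2w.of_le (L2w.add h'.l2 h.l2).1 (fun q => ?_) fun q => ?_).1, fun q => ?_,
    fun u e hu he => ?_⟩
  · split_ifs
    exacts [h'.l2.1 q, h.l2.1 q]
  · split_ifs <;> linarith [h'.l2.1 q, h.l2.1 q]
  · split_ifs with e
    · exact (oc h'.bdd (h1 q e)).trans_le (h'.osc q)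
    · exact (oc h.bdd (h2 q e)).trans_le (h.osc q)
  · have a1 := he.mul_A0 hU hχ
    have a2 := he.mul_A0 hU hψ
    have b1 := h'.aa _ _ (hu.mul_A0 hU Λ hχ) a1
    have b2 := h.aa _ _ (hu.mul_A0 hU Λ hψ) a2
    have e1 : om U u τ = om U u (fun z => σ' z * χ z + σ z * (1 - χ z)) :=
      om_germ_congr hU Λ hu hu hτ (x1.add hU x2) fun q => by
        obtain ⟨m, hm⟩ := germ q
        exact ⟨m, 0, 0, fun z _ => (add_zero _).symm, fun z hz => by rw [hm z hz, add_zero]⟩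
    rw [e1, om_add_right hU hu x1 x2, ← om_mul_swap hU Λ hu h'.xx hχ,
      ← om_mul_swap hU Λ hu h.xx hψ]
    refine (abs_add_le _ _).trans ((add_le_add b1 b2).trans_eq ?_)
    rw [← (L2w.summable_mul a1.l2 h'.l2).1.tsum_add (L2w.summable_mul a2.l2 h.l2).1]
    refine tsum_congr fun q => ?_
    rw [hv', hone, hv]
    split_ifs <;> simp

open Classical in
/-- the tail of a summable family over the other ends of a deep lump is small -/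
theorem k_tail (Λ : Lumps U) {f : Λ.E → ℝ} (h0 : ∀ q, 0 ≤ f q) (hf : Summable f) (q : Λ.E)
    {η : ℝ} (hη : 0 < η) : ∃ N, ∀ n ≥ N,
      ∑' q', (if Λ.W n q' = Λ.W n q ∧ q' ≠ q then f q' else 0) ≤ η := by
  obtain ⟨S, hS⟩ := ((tendsto_tsum_compl_atTop_zero f).eventually (gt_mem_nhds hη)).exists
  have hs : ∀ p, ∃ n, p ≠ q → Disjoint (Λ.W n p) (Λ.W n q) := fun p => by
    by_cases h : p = q
    · exact ⟨0, fun h' => absurd h h'⟩
    · exact (Λ.sep p q h).imp fun n hn _ => hn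
  choose g hg using hs
  refine ⟨S.sup g, fun n hn => le_trans ?_ ((tsum_subtype {x | x ∉ S} f).symm.trans_le hS.le)⟩
  refine Summable.tsum_le_tsum (fun p => ?_) (Summable.of_nonneg_of_le (fun p => ?_) (fun p => ?_) hf)
    (hf.indicator _)
  · split_ifs with h
    · rw [indicator_of_mem]
      intro hp
      have e := Λ.W_eq_of_le ((Finset.le_sup (f := g) hp).trans hn) h.1
      have d := hg p h.2
      rw [e, disjoint_self] at d
      exact (Λ.conn _ _).nonempty.ne_empty d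
    · exact indicator_nonneg (fun a _ => h0 a) p
  · split_ifs
    exacts [h0 p, le_rfl]
  · split_ifs
    exacts [le_rfl, h0 p]

open Classical in
/-- `CH` with exclusion `F` and the clamp to `[-B/2, B/2]` (`Adm.congr`) -/
theorem k_Adm_fill (hU : IsOpen U) {Λ : Lumps U} {M : Set (ℂ → ℝ)} (hC : CH Λ M)
    {F : Finset Λ.E} {v : ℂ → ℝ} {e : Λ.E → ℝ} {B : ℝ} (hv : XX U v)
    (hB : ∀ z ∈ U, |v z| ≤ B / 2) (he : Adm Λ M F v e) :
    Adm Λ M ∅ v (fun q => if q ∈ F then B else e q) := by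
  have hB0 : 0 ≤ B / 2 :=
    (abs_nonneg _).trans (hB (|Λ.R| : ℝ) (Λ.far _ (by simpa using le_abs_self Λ.R)))
  have h := hC F v v e e (fun s _ => max (-(B / 2)) (min s (B / 2))) 1 0 B hv hv he he zero_le_one
    le_rfl (by linarith) (fun s t s' t' => by simpa using h18_clamp (B / 2) s s')
    (Or.inr fun s t => abs_le.2 (h18_clamp_mem hB0 s))
  simp only [one_mul, zero_mul, add_zero] at h
  exact h.congr hU fun z hz => h18_clamp_eq (hB z hz)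

/-- `k_Adm_fill` with `F = {q}` (`Adm.mono`), then `Adm.mul_A0` and `k_tail`. -/
theorem k_locb (hU : IsOpen U) {Λ : Lumps U} {M : Set (ℂ → ℝ)} (hM : ∀ r ∈ M, Reg Λ r)
    (hC : CH Λ M) {k : Λ.E → ℝ} (hk : L2w k) (q : Λ.E) {v : ℂ → ℝ} {B : ℝ} (hv : TT Λ M v)
    (hB : ∀ z ∈ U, |v z| ≤ B / 2) {η : ℝ} (hη : 0 < η) : ∃ N, ∀ n ≥ N, ∀ χ, Ind Λ n q χ →
      ∀ σ, AA Λ M σ k → |om U (fun z => v z * χ z) σ| ≤ k q * B + η := by
  classical
  obtain ⟨hx, e, he⟩ := hv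
  have h1 := k_Adm_fill hU hC hx hB (he.mono hM (Finset.empty_subset {q}) he.l2 fun _ _ => le_rfl)
  have hs := (he.l2.summable_mul hk).1
  have h0 : ∀ p, 0 ≤ e p * k p := fun p => mul_nonneg (he.l2.1 p) (hk.1 p)
  obtain ⟨N, hN⟩ := k_tail Λ h0 hs q hη
  refine ⟨N, fun n hn χ hχ σ hσ => ?_⟩
  have h2 := h1.mul_A0 hU hχ.1
  refine (hσ _ _ (hx.mul_A0 hU Λ hχ.1) h2).trans ?_
  rw [(h2.l2.summable_mul hk).1.tsum_eq_add_tsum_ite q]
  refine add_le_add (le_of_eq ?_) (le_trans (le_of_eq (tsum_congr fun p => ?_)) (hN n hn))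
  · simp [hχ.2 q, mul_comm]
  · rw [hχ.2 p]
    by_cases a : p = q <;> by_cases b : Λ.W n p = Λ.W n q <;> simp [a, b]

/-- a bound on regular elements of `T` gives admissibility: test `v = H(r) χ`
(`Sg.of_LL` for `LL.gen`, `om_mul_swap`, `om_skew`) -/
theorem k_Adm_of_reg (hU : IsOpen U) {Λ : Lumps U} {M : Set (ℂ → ℝ)} (hF : Fam Λ M)
    (hC : CH Λ M) {β : ℂ → ℝ} (hβ : XX U β) {e : Λ.E → ℝ} (he : L2w e)
    (h : ∀ v, Reg Λ v → TT Λ M v → |om U v β| ≤ ∑' q, Λ.osc v q * e q) : Adm Λ M ∅ β e := by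
  refine ⟨he, fun r hr H hH χ hχ _ => ?_⟩
  have hs := Sg.of_LL hU hF hC (LL.gen r H χ hr hH hχ)
  have hR := hF.reg r hr
  rw [om_mul_swap hU Λ hβ (XX.comp_C1 hU hH hR.xx hR.bdd) hχ, om_skew, abs_neg]
  refine (h _ hs.reg hs.tt).trans (Summable.tsum_le_tsum (fun q => ?_)
    (L2w.summable_mul ⟨Λ.osc_nonneg hs.bdd, hs.reg.sq⟩ he).1 (he.summable_mul hs.l2).1)
  rw [mul_comm]
  exact mul_le_mul_of_nonneg_left (hs.osc q) (he.1 q)

/-- supremum of an increasing sequence of weights of bounded norm -/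
theorem k_sup_wt {E : Type} {k : ℕ → E → ℝ} (hk : ∀ i, L2w (k i))
    (hm : ∀ i q, k i q ≤ k (i + 1) q) {s : ℝ} (hs : ∀ i, nrm (k i) ≤ s) :
    ∃ K, L2w K ∧ nrm K ≤ s ∧ ∀ i q, k i q ≤ K q := by
  have hs0 : 0 ≤ s := (L2w.nrm_nonneg _).trans (hs 0)
  have hb : ∀ q, BddAbove (range fun i => k i q) := fun q =>
    ⟨s, by rintro _ ⟨i, rfl⟩; exact ((hk i).le_nrm q).trans (hs i)⟩
  have hle : ∀ i q, k i q ≤ ⨆ j, k j q := fun i q => le_ciSup (hb q) i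
  have hF : ∀ F : Finset E, ∑ q ∈ F, (⨆ j, k j q) ^ 2 ≤ s ^ 2 := fun F => by
    refine le_of_tendsto' (tendsto_finsetSum F fun q _ =>
      (tendsto_atTop_ciSup (monotone_nat_of_le_succ fun i => hm i q) (hb q)).pow 2) fun i => ?_
    refine ((hk i).2.sum_le_tsum F fun q _ => sq_nonneg _).trans ?_
    rw [← L2w.nrm_sq]
    exact pow_le_pow_left₀ (L2w.nrm_nonneg _) (hs i) 2
  have hsum : Summable fun q => (⨆ j, k j q) ^ 2 := summable_of_sum_le (fun q => sq_nonneg _) hF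
  exact ⟨fun q => ⨆ j, k j q, ⟨fun q => ((hk 0).1 q).trans (hle 0 q), hsum⟩,
    Real.sqrt_le_iff.2 ⟨hs0, hsum.tsum_le_of_sum_le hF⟩, hle⟩

end Crest.Agent.R105
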