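import Crest.Agent.R105.KNu
import Crest.Agent.R105.HPoinc

/-! Row 105, block II/KEY: smooth clipping. -/

set_option autoImplicit false

open MeasureTheory Set Filter Topology
open scoped ENNReal

namespace Crest.Agent.R105

variable {U : Set ℂ}

/-- a `C²` contraction with Lipschitz derivative -/
structure Clp (S : ℝ → ℝ) : Prop where
  c2 : ContDiff ℝ 2 S
  d1 : ∀ t, |deriv S t| ≤ 1
  d2 : ∃ L, 0 ≤ L ∧ ∀ t t', |deriv S t - deriv S t'| ≤ L * |t - t'|

/-- `S t = A₁ + ∫ s in A₁..t, b s` for a smooth bump `0 ≤ b ≤ 1` equal to one on `[A₁, A₂]`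
and supported in `[A₁ - η, A₂ + η]` -/
theorem exists_clp {A₁ A₂ η : ℝ} (h : A₁ ≤ A₂) (hη : 0 < η) : ∃ S, Clp S ∧
    (∀ t ∈ Icc A₁ A₂, S t = t) ∧ ∀ t, S t ∈ Icc (A₁ - η) (A₂ + η) := by
  let b : ContDiffBump ((A₁ + A₂) / 2 : ℝ) :=
    ⟨(A₂ - A₁) / 2 + η / 2, (A₂ - A₁) / 2 + η, by linarith, by linarith⟩
  have hb : ContDiff ℝ 1 b := b.contDiff
  have hc : Continuous b := b.continuous
  have hd : ∀ t, HasDerivAt (fun t => A₁ + ∫ s in A₁..t, b s) (b t) t := fun t =>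
    (hc.integral_hasStrictDerivAt A₁ t).hasDerivAt.const_add A₁
  have hd' : deriv (fun t => A₁ + ∫ s in A₁..t, b s) = b := funext fun t => (hd t).deriv
  have h1 : ∀ t ∈ Icc A₁ A₂, b t = 1 := fun t ht => b.one_of_mem_closedBall (by
    rw [Metric.mem_closedBall, Real.dist_eq, abs_le]
    constructor <;> simp only [b] <;> linarith [ht.1, ht.2])
  have h0 : ∀ t, t ≤ A₁ - η ∨ A₂ + η ≤ t → b t = 0 := fun t ht => b.zero_of_le_dist (by
    rw [Real.dist_eq, le_abs]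
    rcases ht with ht | ht
    · right; simp only [b]; linarith
    · left; simp only [b]; linarith)
  have hsub : ∀ s t : ℝ, (∫ x in A₁..t, b x) - ∫ x in A₁..s, b x = ∫ x in s..t, b x :=
    fun s t => intervalIntegral.integral_interval_sub_left (hc.intervalIntegrable _ _)
      (hc.intervalIntegrable _ _)
  have hnn : ∀ s t : ℝ, s ≤ t → 0 ≤ ∫ x in s..t, b x := fun s t hst =>
    intervalIntegral.integral_nonneg hst fun x _ => b.nonneg
  have hle : ∀ s t : ℝ, s ≤ t → ∫ x in s..t, b x ≤ t - s := fun s t hst => by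
    have := intervalIntegral.integral_mono_on (μ := volume) hst (hc.intervalIntegrable _ _)
      ((continuous_const (y := (1 : ℝ))).intervalIntegrable _ _) fun x _ => b.le_one
    simpa using this
  have hid : ∀ t ∈ Icc A₁ A₂, A₁ + ∫ s in A₁..t, b s = t := fun t ht => by
    rw [intervalIntegral.integral_congr (g := fun _ => (1 : ℝ)) fun x hx => h1 x (by
      rw [uIcc_of_le ht.1] at hx; exact ⟨hx.1, hx.2.trans ht.2⟩)]
    simp
  refine ⟨fun t => A₁ + ∫ s in A₁..t, b s, ⟨?_, fun t => ?_, ?_⟩, hid, fun t => ⟨?_, ?_⟩⟩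
  · rw [show (2 : WithTop ℕ∞) = 1 + 1 from rfl, contDiff_succ_iff_deriv, hd']
    exact ⟨fun t => (hd t).differentiableAt, by simp, hb⟩
  · rw [hd', abs_of_nonneg b.nonneg]
    exact b.le_one
  · obtain ⟨L, hL⟩ := hb.lipschitzWith_of_hasCompactSupport b.hasCompactSupport one_ne_zero
    refine ⟨L, L.2, fun t t' => ?_⟩
    rw [hd']
    exact hL.dist_le_mul t t'
  · have e1 := hsub (A₁ - η) A₁
    have e2 := hle (A₁ - η) A₁ (by linarith)
    rw [intervalIntegral.integral_same] at e1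
    rcases le_total (A₁ - η) t with ht | ht
    · have e3 := hsub (A₁ - η) t
      have e4 := hnn _ _ ht
      show A₁ - η ≤ A₁ + ∫ s in A₁..t, b s
      linarith
    · have e3 := hsub t (A₁ - η)
      rw [intervalIntegral.integral_congr (a := t) (g := fun _ => (0 : ℝ)) fun x hx => h0 x (by
        rw [uIcc_of_le ht] at hx; exact Or.inl hx.2), intervalIntegral.integral_zero] at e3
      show A₁ - η ≤ A₁ + ∫ s in A₁..t, b s
      linarith
  · have e1 := hsub A₂ (A₂ + η)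
    have e2 := hle A₂ (A₂ + η) (by linarith)
    have e0 := hid A₂ ⟨h, le_rfl⟩
    rcases le_total t (A₂ + η) with ht | ht
    · have e3 := hsub t (A₂ + η)
      have e4 := hnn _ _ ht
      show A₁ + ∫ s in A₁..t, b s ≤ A₂ + η
      linarith
    · have e3 := hsub (A₂ + η) t
      rw [intervalIntegral.integral_congr (a := A₂ + η) (g := fun _ => (0 : ℝ)) fun x hx => h0 x (by
        rw [uIcc_of_le ht] at hx; exact Or.inr hx.1), intervalIntegral.integral_zero] at e3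
      show A₁ + ∫ s in A₁..t, b s ≤ A₂ + η
      linarith

/-- `wd (w S'(σ)) σ = S'(σ) wd w σ` a.e., `om_comp_right` -/
theorem om_clp (hU : IsOpen U) {w σ : ℂ → ℝ} (hw : LocallyLipschitzOn U w)
    (hσ : LocallyLipschitzOn U σ) {S : ℝ → ℝ} (hS : ContDiff ℝ 2 S) :
    om U w (fun z => S (σ z)) = om U (fun z => w z * deriv S (σ z)) σ := by
  rw [om_comp_right hU (hS.of_le (by norm_num)) hσ]
  have hS' : ContDiff ℝ 1 (deriv S) := by
    rw [show (2 : WithTop ℕ∞) = 1 + 1 from rfl, contDiff_succ_iff_deriv] at hS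
    exact hS.2.2
  refine setIntegral_congr_ae hU.measurableSet ?_
  filter_upwards [ae_diff hU hw, ae_diff hU hσ] with z h1 h2 hz
  have h3 : HasDerivAt (deriv S) (deriv (deriv S) (σ z)) (σ z) :=
    (hS'.differentiable one_ne_zero _).hasDerivAt
  have h4 : DifferentiableAt ℝ (fun z => deriv S (σ z)) z :=
    h3.differentiableAt.comp z (h2 hz)
  simp only [wd, h90_fderiv_mul (h1 hz) h4, h90_fderiv_comp h3 (h2 hz)]
  ring

theorem Clp.h32_lip {S : ℝ → ℝ} (hS : Clp S) (s s' : ℝ) : |S s - S s'| ≤ 1 * |s - s'| :=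
  convex_univ.norm_image_sub_le_of_norm_deriv_le (𝕜 := ℝ)
    (fun x _ => hS.c2.differentiable (by norm_num) x) (fun x _ => hS.d1 x) (mem_univ s')
    (mem_univ s)

/-- `S ∘ σ` is regular, in `T` (`CH.lip`) and has `B2` with weight `k`: for a test function
`v` use `v' = clamp v * S'(σ) ∈ T` (`TT.comp2`), `om_clp`, `k_locb`.  `MAX` gives `AA`. -/
theorem Sg.clp (hU : IsOpen U) {Λ : Lumps U} {M : Set (ℂ → ℝ)} (hM : ∀ r ∈ M, Reg Λ r)
    (hC : CH Λ M) (hX : MAX Λ M) {σ : ℂ → ℝ} {k : Λ.E → ℝ} (h : Sg Λ M σ k)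
    (h1 : ContDiffOn ℝ 1 σ U) {S : ℝ → ℝ} (hS : Clp S) : Sg Λ M (fun z => S (σ z)) k := by
  have hx : XX U fun z => S (σ z) := XX.comp_lip hU hS.h32_lip h.xx
  have hb : Bdd U fun z => S (σ z) := by
    obtain ⟨B, hB⟩ := h.bdd
    refine ⟨|S 0| + B, fun z hz => ?_⟩
    have h2 := hS.h32_lip (σ z) 0
    have h3 := abs_sub_abs_le_abs_sub (S (σ z)) (S 0)
    rw [sub_zero] at h2
    linarith [hB z hz]
  have ht : TT Λ M fun z => S (σ z) := by
    obtain ⟨-, e, he⟩ := h.tt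
    exact ⟨hx, _, hC.lip h.xx he zero_le_one hS.h32_lip⟩
  have ho : ∀ q, Λ.osc (fun z => S (σ z)) q ≤ k q := fun q => by
    have h2 := Λ.osc_comp2_le h.bdd h.bdd (G := fun s _ => S s) zero_le_one le_rfl
      (fun s t s' t' => by simpa using hS.h32_lip s s') q
    linarith [h.osc q]
  have hr : Reg Λ fun z => S (σ z) :=
    ⟨hx, hb, (L2w.of_le h.l2 (fun q => Λ.osc_nonneg hb q) ho).1.2⟩
  refine ⟨hx, hb, ht, h.l2, ho, hX _ k hr ht
    ((hS.c2.of_le (by norm_num)).comp_contDiffOn h1) h.l2 fun q v B hv hB η hη N => ?_⟩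
  obtain ⟨L, hL, hL'⟩ := hS.d2
  have hB0 : 0 ≤ B / 2 := by
    obtain ⟨z, hz⟩ := (Λ.conn 0 q).nonempty
    exact (abs_nonneg _).trans (hB z (Λ.sub 0 q hz).1)
  have hcl : ∀ s, |max (-(B / 2)) (min s (B / 2))| ≤ B / 2 := fun s =>
    abs_le.2 (h18_clamp_mem hB0 s)
  have hv' := TT.comp2 hU hC hv h.tt
    (G := fun s t => max (-(B / 2)) (min s (B / 2)) * deriv S t) (L₁ := 1) (L₂ := B / 2 * L)
    zero_le_one (by positivity) (fun s t s' t' => by
      have e : max (-(B / 2)) (min s (B / 2)) * deriv S t -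
          max (-(B / 2)) (min s' (B / 2)) * deriv S t' =
          (max (-(B / 2)) (min s (B / 2)) - max (-(B / 2)) (min s' (B / 2))) * deriv S t +
            max (-(B / 2)) (min s' (B / 2)) * (deriv S t - deriv S t') := by ring
      rw [e]
      refine (abs_add_le _ _).trans (add_le_add ?_ ?_)
      · rw [abs_mul, mul_comm]
        exact mul_le_mul (hS.d1 t) (h18_clamp _ s s') (abs_nonneg _) zero_le_one
      · rw [abs_mul, mul_assoc]
        exact mul_le_mul (hcl s') (hL' t t') (abs_nonneg _) hB0)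
  obtain ⟨N', hN'⟩ := k_locb hU hM hC h.l2 q hv' (B := B) (fun z _ => by
    rw [abs_mul]
    exact (mul_le_of_le_one_right (abs_nonneg _) (hS.d1 _)).trans (hcl _)) hη
  refine ⟨max N N', le_max_left _ _, fun χ hχ => ?_⟩
  rw [om_clp hU (h67_lip_mul hv.1.lip hχ.1.xx.lip) h.xx.lip hS.c2,
    om_congr hU (u' := fun z => max (-(B / 2)) (min (v z) (B / 2)) * deriv S (σ z) * χ z)
      (fun z hz => by simp only [h18_clamp_eq (hB z hz)]; ring) (eqOn_refl σ U)]
  exact hN' _ (le_max_right _ _) χ hχ σ h.aa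

/-- `En_comp_tendsto` with `G (s, t) = S s * θ t`, `θ` from `exists_clp` for `[0, 1]` -/
theorem k_conv (hU : IsOpen U) {g χ : ℂ → ℝ} {gk : ℕ → ℂ → ℝ} (hg : XX U g)
    (hgk : ∀ i, XX U (gk i)) (hχ : XX U χ) (h01 : ∀ z, 0 ≤ χ z ∧ χ z ≤ 1) {S : ℝ → ℝ}
    (hS : Clp S) {A : ℝ} (hA : ∀ t, |S t| ≤ A)
    (h1 : ∀ᵐ z, z ∈ U → Tendsto (fun i => gk i z) atTop (𝓝 (g z)))
    (e1 : Tendsto (fun i => En U (fun z => gk i z - g z)) atTop (𝓝 0)) :
    Tendsto (fun i => En U (fun z => S (gk i z) * χ z - S (g z) * χ z)) atTop (𝓝 0) := by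
  obtain ⟨θ, hθ, hθ1, hθ2⟩ := exists_clp (A₁ := 0) (A₂ := 1) (η := 1) zero_le_one one_pos
  have hθb : ∀ t, |θ t| ≤ 2 := fun t => by
    have := hθ2 t
    rw [abs_le]
    constructor <;> linarith [this.1, this.2]
  have hS1 : ContDiff ℝ 1 S := hS.c2.of_le (by norm_num)
  have hθc : ContDiff ℝ 1 θ := hθ.c2.of_le (by norm_num)
  have hG : ContDiff ℝ 1 (fun p : ℝ × ℝ => S p.1 * θ p.2) :=
    (hS1.comp contDiff_fst).mul (hθc.comp contDiff_snd)
  have hL : ∀ p, ‖fderiv ℝ (fun p : ℝ × ℝ => S p.1 * θ p.2) p‖ ≤ A + 2 := by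
    intro p
    have d1 : HasFDerivAt (fun p : ℝ × ℝ => S p.1) (deriv S p.1 • ContinuousLinearMap.fst ℝ ℝ ℝ) p :=
      ((hS1.differentiable one_ne_zero) p.1).hasDerivAt.comp_hasFDerivAt p hasFDerivAt_fst
    have d2 : HasFDerivAt (fun p : ℝ × ℝ => θ p.2) (deriv θ p.2 • ContinuousLinearMap.snd ℝ ℝ ℝ) p :=
      ((hθc.differentiable one_ne_zero) p.2).hasDerivAt.comp_hasFDerivAt p hasFDerivAt_snd
    have n1 : ‖deriv S p.1 • ContinuousLinearMap.fst ℝ ℝ ℝ‖ ≤ 1 := by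
      rw [norm_smul]
      exact mul_le_one₀ (hS.d1 _) (norm_nonneg _) (ContinuousLinearMap.norm_fst_le ..)
    have n2 : ‖deriv θ p.2 • ContinuousLinearMap.snd ℝ ℝ ℝ‖ ≤ 1 := by
      rw [norm_smul]
      exact mul_le_one₀ (hθ.d1 _) (norm_nonneg _) (ContinuousLinearMap.norm_snd_le ..)
    rw [(d1.fun_mul d2).fderiv]
    refine (norm_add_le _ _).trans (add_le_add ?_ ?_)
    · rw [norm_smul]
      exact (mul_le_of_le_one_right (norm_nonneg _) n2).trans (hA _)
    · rw [norm_smul]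
      exact (mul_le_of_le_one_right (norm_nonneg _) n1).trans (hθb _)
  have e2 : Tendsto (fun _ : ℕ => En U (fun z => χ z - χ z)) atTop (𝓝 0) :=
    Cl.tendsto (u := fun _ => χ) (t := fun _ => 0) tendsto_const_nhds fun _ => Cl.refl χ 0
  have key := En_comp_tendsto hU (vk := fun _ => χ) hg hχ hgk (fun _ => hχ) hG hL h1
    (Eventually.of_forall fun z _ => tendsto_const_nhds) e1 e2
  have e : ∀ z, θ (χ z) = χ z := fun z => hθ1 _ (h01 z)
  simpa only [e] using key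

/-- Take `s = 1 / (i + 1)`, `Sg.of_LL`, `hb_poinc` for `l i - lam`, subtract the
constants (`Sg.add`, `Sg.of_A0`), then `Sg.smooth` with error `1 / (i + 1)`. -/
theorem k_approx (hU : IsOpen U) (hc : IsPreconnected U) {Λ : Lumps U} {M : Set (ℂ → ℝ)}
    (hF : Fam Λ M) (hC : CH Λ M) {lam : ℂ → ℝ} (hl : XX U lam) {x : ℝ}
    (h : ∀ s > 0, ∃ l k, LL Λ M l k ∧ nrm k ≤ x ∧
      En U (fun z => lam z - l z) ≤ ENNReal.ofReal s) :
    ∃ (l : ℕ → ℂ → ℝ) (k : ℕ → Λ.E → ℝ), (∀ i, Sg Λ M (l i) (k i)) ∧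
      (∀ i, ContDiffOn ℝ 1 (l i) U) ∧ (∀ i, nrm (k i) ≤ x) ∧
      (∀ᵐ z, z ∈ U → Tendsto (fun i => l i z) atTop (𝓝 (lam z))) ∧
      Tendsto (fun i => En U (fun z => l i z - lam z)) atTop (𝓝 0) := by
  have hpos : ∀ i : ℕ, (0 : ℝ) < 1 / ((i : ℝ) + 1) := fun i => Nat.one_div_pos_of_nat
  have ht : Tendsto (fun i : ℕ => 1 / ((i : ℝ) + 1)) atTop (𝓝 0) :=
    tendsto_one_div_add_atTop_nhds_zero_nat
  choose l k hLL hk hE using fun i : ℕ => h ((1 / ((i : ℝ) + 1)) ^ 2) (pow_pos (hpos i) 2)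
  have hsg : ∀ i, Sg Λ M (l i) (k i) := fun i => Sg.of_LL hU hF hC (hLL i)
  have hcl : ∀ i, Cl U (l i) lam (1 / ((i : ℝ) + 1)) := fun i => Cl.symm (hE i)
  obtain ⟨φ, c, hφ, hae⟩ := hb_poinc hU hc (u := fun i z => l i z - lam z)
    (fun i => ((hsg i).xx.sub hU hl).lip) (Cl.tendsto ht hcl)
  have hsg' : ∀ i, Sg Λ M (fun z => l (φ i) z + -c i) (k (φ i)) := fun i => by
    simpa only [add_zero] using Sg.add hU hF.reg (hsg (φ i)) (Sg.of_A0 hU hF.reg (A0.const (-c i)))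
  have hcl' : ∀ i, Cl U (fun z => l (φ i) z + -c i) lam (1 / ((φ i : ℝ) + 1)) := fun i => by
    have e : (fun z => l (φ i) z + -c i - lam z) = fun z => (l (φ i) z - lam z) + -c i := by
      funext z; ring
    have := hcl (φ i)
    unfold Cl En at *
    rw [e]
    simpa only [fderiv_add_const] using this
  choose σ hσ hσ1 hσ2 hσ3 using fun i => Sg.smooth hU hF.reg (hsg' i) (hpos i)
  refine ⟨σ, fun i => k (φ i), hσ, hσ1, fun i => hk _, ?_, ?_⟩
  · filter_upwards [hae] with z hz hzU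
    have a1 : Tendsto (fun i => σ i z - (l (φ i) z + -c i)) atTop (𝓝 0) :=
      squeeze_zero_norm (fun i => hσ2 i z hzU) ht
    have a2 := (a1.add (hz hzU)).add_const (lam z)
    rw [zero_add, zero_add] at a2
    refine a2.congr fun i => ?_
    ring
  · have ht' : Tendsto (fun i : ℕ => 1 / ((i : ℝ) + 1) + 1 / ((φ i : ℝ) + 1)) atTop (𝓝 0) := by
      have := ht.add (ht.comp hφ.tendsto_atTop)
      rwa [add_zero] at this
    exact Cl.tendsto ht' fun i =>
      Cl.trans hU (hσ i).xx (hsg' i).xx hl (hpos i).le (hpos _).le (hσ3 i) (hcl' i)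

end Crest.Agent.R105
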