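import Crest.Agent.R105.NAdm
import Crest.Agent.R105.HAdm
import Crest.Agent.R105.GCl

/-! Row 105, block II: definitions. -/

set_option autoImplicit false

open MeasureTheory Set Filter Topology
open scoped ENNReal

namespace Crest.Agent.R105

noncomputable section

variable {U : Set ℂ}

/-- exact range lemma (global form) -/
def RX (Λ : Lumps U) (M : Set (ℂ → ℝ)) (C : ℝ) : Prop :=
  ∀ (c : ℂ → ℝ) (ν : ℝ) (t : Λ.E → ℝ) (Y : Finset Λ.E), XX U c → 0 ≤ ν → L2w t →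
    (∀ v e B, TT Λ M v → (∀ z ∈ U, |v z| ≤ B / 2) → Adm Λ M Y v e →
      |om U v c| ≤ ν * B + ∑' q, t q * e q) →
    ∀ ε > 0, ∃ (b : ℂ → ℝ) (κ : Λ.E → ℝ), XX U b ∧ ContDiffOn ℝ 1 b U ∧
      (∀ z ∈ U, |b z| ≤ C * ν) ∧ L2w κ ∧ nrm κ ≤ C * nrm t + ε ∧
      (∀ v e, TT Λ M v → Bdd U v → Adm Λ M Y v e →
        |om U v (fun z => c z - b z)| ≤ ∑' q, κ q * e q) ∧
      ∀ s > 0, ∃ l k, LL Λ M l k ∧ nrm k ≤ C * nrm t + ε ∧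
        En U (fun z => c z - b z - l z) ≤ ENNReal.ofReal s

open Classical in
/-- class bound on all lumps, tested with weights without exclusion -/
def CB (Λ : Lumps U) (M : Set (ℂ → ℝ)) (c : ℂ → ℝ) (ν : Set ℂ → ℝ) (t : Λ.E → ℝ) : Prop :=
  ∀ n q χ, Ind Λ n q χ → ∀ v e B, TT Λ M v → (∀ z ∈ U, |v z| ≤ B / 2) → Adm Λ M ∅ v e →
    |om U (fun z => v z * χ z) c| ≤
      ν (Λ.W n q) * B + ∑' q', if Λ.W n q' = Λ.W n q then t q' * e q' else 0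

/-- `σ` pairs with admissible functions like an element of `L` of weight `k` -/
def AA (Λ : Lumps U) (M : Set (ℂ → ℝ)) (σ : ℂ → ℝ) (k : Λ.E → ℝ) : Prop :=
  ∀ u n, XX U u → Adm Λ M ∅ u n → |om U u σ| ≤ ∑' q, n q * k q

/-- `σ` behaves like an element of `L` of weight `k` -/
structure Sg (Λ : Lumps U) (M : Set (ℂ → ℝ)) (σ : ℂ → ℝ) (k : Λ.E → ℝ) : Prop where
  xx : XX U σ
  bdd : Bdd U σ
  tt : TT Λ M σ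
  l2 : L2w k
  osc : ∀ q, Λ.osc σ q ≤ k q
  aa : AA Λ M σ k

/-- state of the iteration -/
structure KSt (Λ : Lumps U) where
  σ : ℂ → ℝ
  b : ℂ → ℝ
  k : Λ.E → ℝ

/-- the current approximation of `c` -/
def KSt.γ {Λ : Lumps U} (s : KSt Λ) : ℂ → ℝ := fun z => s.σ z + s.b z

/-- invariant of the iteration -/
structure KInv (Λ : Lumps U) (M : Set (ℂ → ℝ)) (ν : Set ℂ → ℝ) (t : Λ.E → ℝ) (s : KSt Λ) :
    Prop where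
  sg : Sg Λ M s.σ s.k
  c1 : ContDiffOn ℝ 1 s.σ U
  good : Good U s.b
  cb : CB Λ M s.b ν (fun q => t q + s.k q)

/-- `s'` arises from `s` by modifying the lumps `W n p`, `p ∈ Q` -/
structure Md (Λ : Lumps U) (n : ℕ) (Q : Finset Λ.E) (g η x : ℝ) (s s' : KSt Λ) : Prop where
  off : ∀ z, (∀ p ∈ Q, z ∉ Λ.W n p) → s'.σ z = s.σ z ∧ s'.b z = s.b z
  kle : ∀ q, s.k q ≤ s'.k q
  koff : ∀ q, (∀ p ∈ Q, Λ.W n q ≠ Λ.W n p) → s'.k q = s.k q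
  ksq : ∑' q, (s'.k q - s.k q) ^ 2 ≤ x
  cl : Cl U s'.γ s.γ η
  rng : ∀ p ∈ Q, ∀ a₁ a₂ : ℝ, (∀ z ∈ Λ.W n p, s.γ z ∈ Icc a₁ a₂) →
    ∀ z ∈ Λ.W n p, s'.γ z ∈ Icc (a₁ - g) (a₂ + g)
  oscb : ∀ p ∈ Q, ∀ q, Λ.W n q = Λ.W n p → Λ.osc s'.b q ≤ g

/-- choice of the level `m` and of the representatives `Q` of the lumps that miss `Y` -/
structure Lev (Λ : Lumps U) (ν : Set ℂ → ℝ) (γ : ℂ → ℝ) (Y Y' : Finset Λ.E) (δ : ℝ) (n m : ℕ)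
    (Q : Finset Λ.E) : Prop where
  lt : n < m
  disj : ∀ p ∈ Q, ∀ p' ∈ Q, p ≠ p' → Disjoint (Λ.W m p) (Λ.W m p')
  small : ∀ p ∈ Q, ν (Λ.W m p) ≤ δ
  miss : ∀ p ∈ Q, ∀ y ∈ Y, Disjoint (Λ.W m p) (Λ.W m y)
  all : ∀ q, (∀ y ∈ Y, Λ.W m y ≠ Λ.W m q) → ∃ p ∈ Q, Λ.W m q = Λ.W m p
  sep : ∀ y ∈ Y', ∀ y' ∈ Y', y ≠ y' → Λ.W m y ≠ Λ.W m y'
  osc : ∀ q, ∃ q', Λ.W n q' = Λ.W n q ∧
    ∀ z ∈ Λ.W m q, ∀ z' ∈ Λ.W m q, γ z - γ z' ≤ Λ.osc γ q' + δ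
  oscY : ∀ y ∈ Y, ∀ z ∈ Λ.W m y, ∀ z' ∈ Λ.W m y, γ z - γ z' ≤ Λ.osc γ y + δ

end

end Crest.Agent.R105
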