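import Crest.Agent.R105.KStep
import Crest.Agent.R105.GIs

/-! Row 105, block II: the iteration. -/

set_option autoImplicit false

open MeasureTheory Set Filter Topology
open scoped ENNReal

namespace Crest.Agent.R105

variable {U : Set ℂ}

/-- ranges grow by at most `∑_{t ≥ i} g / 2 ^ t = 2 g / 2 ^ i` -/
theorem k_rng {Λ : Lumps U} {s : ℕ → KSt Λ} {m : ℕ → ℕ} {Q : ℕ → Finset Λ.E} {g : ℝ}
    (hg : 0 ≤ g) {η x : ℕ → ℝ}
    (h : ∀ i, Md Λ (m i) (Q i) (g / 2 ^ i) (η i) (x i) (s i) (s (i + 1)))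
    {V : Set ℂ} {i : ℕ} (hV : ∀ t ≥ i, ∀ p, Λ.W (m t) p ⊆ V ∨ Disjoint (Λ.W (m t) p) V)
    {a₁ a₂ : ℝ} (ha : ∀ z ∈ V, (s i).γ z ∈ Icc a₁ a₂) :
    ∀ j ≥ i, ∀ z ∈ V, (s j).γ z ∈ Icc (a₁ - 2 * g / 2 ^ i) (a₂ + 2 * g / 2 ^ i) := by
  have main : ∀ j ≥ i, ∀ z ∈ V, (s j).γ z ∈
      Icc (a₁ - (2 * g / 2 ^ i - 2 * g / 2 ^ j)) (a₂ + (2 * g / 2 ^ i - 2 * g / 2 ^ j)) := by
    intro j hj
    induction j, hj using Nat.le_induction with
    | base => intro z hz; simpa using ha z hz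
    | succ j hj ih =>
      intro z hz
      have e : 2 * g / 2 ^ (j + 1) = g / 2 ^ j := by rw [pow_succ]; field_simp
      have e' : 2 * g / 2 ^ j = 2 * (g / 2 ^ j) := by ring
      have p0 : 0 ≤ g / 2 ^ j := by positivity
      by_cases hp : ∃ p ∈ Q j, z ∈ Λ.W (m j) p
      · obtain ⟨p, hpQ, hzp⟩ := hp
        have hs : Λ.W (m j) p ⊆ V := (hV j hj p).resolve_right fun hd =>
          Set.disjoint_left.1 hd hzp hz
        have := (h j).rng p hpQ _ _ (fun w hw => ih w (hs hw)) z hzp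
        rw [e]
        constructor <;> linarith [this.1, this.2]
      · push Not at hp
        have := (h j).off z hp
        have e2 : (s (j + 1)).γ z = (s j).γ z := by simp only [KSt.γ, this.1, this.2]
        rw [e2, e]
        constructor <;> linarith [(ih z hz).1, (ih z hz).2]
  intro j hj z hz
  have p0 : 0 ≤ 2 * g / 2 ^ j := by positivity
  constructor <;> linarith [(main j hj z hz).1, (main j hj z hz).2]

/-- Oscillation of the limit.  `osc (s i).γ q ≤ K q + osc (s i).b q` (`Lumps.osc_lin_le`).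
If `q ∈ Y i` for some `i` let `j` be minimal with `q ∈ Y (j + 1)`: by `Lev.sep`
(`Y j ⊆ Y (j + 1) ⊆ Y' j`, `q ∉ Y j`) and `Lev.all` the lump of `q` is modified at step `j`, so
`osc (s (j+1)).b q ≤ G D / 2 ^ j ≤ 2 G a q`; at steps `i > j` it is not touched (`Lev.miss`,
`Md.off`); conclude with `Lev.oscY` and `k_rng` on `V = W (m i) q`, `i → ∞`.
Otherwise the lump of `q` is modified at infinitely many steps (if not, the point of
`Y i` in `W (m i) q` does not depend on `i` by `Lev.sep`, so it equals `q` by `Lumps.sep`);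
for such `i` use `Md.oscb`, `Lev.osc` of step `i + 1` and `L2w.finite_big` for `K`. -/
theorem k_osc {Λ : Lumps U} {ν : Set ℂ → ℝ} {s : ℕ → KSt Λ} {n m : ℕ → ℕ}
    {Q Y Y' : ℕ → Finset Λ.E} {a K : Λ.E → ℝ} {G D : ℝ} (hG : 0 ≤ G) (hD : 0 < D) {η x : ℕ → ℝ}
    (hσ : ∀ i, Bdd U (s i).σ) (hb : ∀ i, Bdd U (s i).b) (hK : L2w K)
    (hk : ∀ i q, Λ.osc (s i).σ q ≤ K q) (ha : ∀ q, 0 ≤ a q) (hY0 : Y 0 = ∅)
    (hYm : ∀ i, Y i ⊆ Y (i + 1)) (hY' : ∀ i, Y (i + 1) ⊆ Y' i)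
    (hY : ∀ i, ∀ q ∈ Y i, D / 2 ^ i ≤ a q) (hn : ∀ i, n (i + 1) = m i)
    (hl : ∀ i, Lev Λ ν (s i).γ (Y i) (Y' i) (D / 2 ^ i) (n i) (m i) (Q i))
    (hm : ∀ i, Md Λ (m i) (Q i) (G * D / 2 ^ i) (η i) (x i) (s i) (s (i + 1)))
    {v : ℂ → ℝ} (hv : Bdd U v) (hlim : ∀ z, ∀ᶠ i in atTop, (s i).γ z = v z) (q : Λ.E) :
    Λ.osc v q ≤ K q + 2 * G * a q := by
  have hsm : ∀ C ε : ℝ, 0 < ε → ∃ N : ℕ, ∀ i ≥ N, C / 2 ^ i ≤ ε := by
    intro C ε hε
    have h1 : Tendsto (fun i : ℕ => C / 2 ^ i) atTop (𝓝 0) :=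
      tendsto_const_nhds.div_atTop (tendsto_pow_atTop_atTop_of_one_lt one_lt_two)
    obtain ⟨N, hN⟩ := eventually_atTop.1 ((tendsto_order.1 h1).2 ε hε)
    exact ⟨N, fun i hi => (hN i hi).le⟩
  have hmm : StrictMono m := strictMono_nat_of_lt_succ fun i => by
    have := (hl (i + 1)).lt
    rwa [hn] at this
  have hYle : ∀ i j, i ≤ j → Y i ⊆ Y j := fun i j hij =>
    monotone_nat_of_le_succ (f := Y) hYm hij
  have hA : ∀ i p, Λ.osc (s i).γ p ≤ K p + Λ.osc (s i).b p := by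
    intro i p
    have h1 := Λ.osc_lin_le (hσ i) (hb i) 1 1 p
    simp only [one_mul, abs_one] at h1
    exact h1.trans (by linarith [hk i p])
  have hB : ∀ i (ω : ℝ), (∀ z ∈ Λ.W (m i) q, ∀ z' ∈ Λ.W (m i) q, (s i).γ z - (s i).γ z' ≤ ω) →
      Λ.osc v q ≤ ω + 4 * (G * D) / 2 ^ i := by
    intro i ω hω
    obtain ⟨z₀, hz₀⟩ := (Λ.conn (m i) q).nonempty
    have hbb : BddBelow ((s i).γ '' Λ.W (m i) q) := ⟨(s i).γ z₀ - ω, by
      rintro _ ⟨z, hz, rfl⟩
      linarith [hω z₀ hz₀ z hz]⟩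
    have h1 : ∀ z ∈ Λ.W (m i) q, (s i).γ z ∈
        Icc (sInf ((s i).γ '' Λ.W (m i) q)) (sInf ((s i).γ '' Λ.W (m i) q) + ω) := by
      intro z hz
      refine ⟨csInf_le hbb ⟨z, hz, rfl⟩, ?_⟩
      have : (s i).γ z - ω ≤ sInf ((s i).γ '' Λ.W (m i) q) := by
        refine le_csInf ⟨_, z₀, hz₀, rfl⟩ ?_
        rintro _ ⟨z', hz', rfl⟩
        linarith [hω z hz z' hz']
      linarith
    have h2 := k_rng (mul_nonneg hG hD.le) hm (V := Λ.W (m i) q) (i := i) (fun t ht p => by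
      have hs := Λ.W_mono (hmm.monotone ht) p
      rcases Λ.part (m i) p q with e | e
      · exact Or.inl (e ▸ hs)
      · exact Or.inr (e.mono_left hs)) h1
    have h3 : ∀ z ∈ Λ.W (m i) q, v z ∈ Icc (sInf ((s i).γ '' Λ.W (m i) q) - 2 * (G * D) / 2 ^ i)
        (sInf ((s i).γ '' Λ.W (m i) q) + ω + 2 * (G * D) / 2 ^ i) := by
      intro z hz
      obtain ⟨j, hj1, hj2⟩ := ((hlim z).and (eventually_ge_atTop i)).exists
      rw [← hj1]
      exact h2 j hj2 z hz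
    refine Λ.osc_le hv fun ε hε => ⟨m i, fun z hz z' hz' => ?_⟩
    have e : 4 * (G * D) / 2 ^ i = 2 * (G * D) / 2 ^ i + 2 * (G * D) / 2 ^ i := by ring
    linarith [(h3 z hz).2, (h3 z' hz').1]
  refine le_of_forall_pos_le_add fun ε hε => ?_
  by_cases hq : ∃ i, q ∈ Y i
  · classical
    have hf := Nat.find_spec hq
    obtain ⟨j, hj⟩ : ∃ j, Nat.find hq = j + 1 := by
      refine Nat.exists_eq_succ_of_ne_zero fun h0 => ?_
      rw [h0, hY0] at hf
      simp at hf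
    have hqj : q ∉ Y j := Nat.find_min hq (by omega)
    rw [hj] at hf
    obtain ⟨p, hp, hpe⟩ := (hl j).all q fun y hy =>
      (hl j).sep y (hY' j (hYm j hy)) q (hY' j hf) fun e => hqj (e ▸ hy)
    have h1 : ∀ i, j + 1 ≤ i → Λ.osc (s i).b q ≤ 2 * G * a q := by
      intro i hi
      induction i, hi using Nat.le_induction with
      | base =>
        refine ((hm j).oscb p hp q hpe).trans ?_
        have h2 := mul_le_mul_of_nonneg_left (hY (j + 1) q hf) hG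
        have e : G * D / 2 ^ j = 2 * (G * (D / 2 ^ (j + 1))) := by
          rw [pow_succ]; field_simp
        linarith
      | succ i hi ih =>
        have h2 := Λ.lo_congr (hb (i + 1)) (hb i) (q := q) fun ε' hε' => ⟨m i, fun z hz => by
          rw [((hm i).off z fun p' hp' hz' => Set.disjoint_left.1
            ((hl i).miss p' hp' q (hYle _ _ hi hf)) hz' hz).2, sub_self, abs_zero]
          exact hε'.le⟩
        unfold Lumps.osc at ih ⊢
        rw [h2.1, h2.2]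
        exact ih
    obtain ⟨N, hN⟩ := hsm (D + 4 * (G * D)) ε hε
    have h2 := hB (max N (j + 1)) _
      ((hl _).oscY q (hYle _ _ (le_max_right N (j + 1)) hf))
    have h3 := hN _ (le_max_left N (j + 1))
    rw [add_div] at h3
    linarith [hA (max N (j + 1)) q, h1 _ (le_max_right N (j + 1))]
  · have hq' : ∀ i, q ∉ Y i := fun i hi => hq ⟨i, hi⟩
    have hinf : ∀ N, ∃ i ≥ N, ∃ p ∈ Q i, Λ.W (m i) q = Λ.W (m i) p := by
      intro N
      by_contra hno
      have h1 : ∀ i ≥ N, ∃ y ∈ Y i, Λ.W (m i) y = Λ.W (m i) q := by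
        intro i hi
        by_contra h2
        exact hno ⟨i, hi, (hl i).all q fun y hy e => h2 ⟨y, hy, e⟩⟩
      obtain ⟨y, hy, hye⟩ := h1 N le_rfl
      have h2 : ∀ i, N ≤ i → Λ.W (m i) y = Λ.W (m i) q := by
        intro i hi
        induction i, hi using Nat.le_induction with
        | base => exact hye
        | succ i hi ih =>
          obtain ⟨y', hy', hye'⟩ := h1 (i + 1) (by omega)
          have e : y = y' := by
            by_contra hne
            exact (hl i).sep y (hY' i (hYle _ _ (by omega) hy)) y' (hY' i hy') hne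
              (ih.trans (Λ.W_eq_of_le (hmm.monotone (Nat.le_succ i)) hye').symm)
          rw [e]; exact hye'
      obtain ⟨n₀, hn₀⟩ := Λ.sep y q fun e => hq' N (e ▸ hy)
      have h3 := Λ.W_eq_of_le ((le_max_right N n₀).trans (hmm.le_apply)) (h2 _ (le_max_left N n₀))
      rw [h3, disjoint_self] at hn₀
      exact (Λ.conn n₀ q).nonempty.ne_empty hn₀
    have hε2 : 0 < ε / 2 := half_pos hε
    have hZ := L2w.finite_big hK.2 hε2
    have hsep : ∀ q', ∃ L, q' ≠ q → Disjoint (Λ.W L q') (Λ.W L q) := by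
      intro q'
      by_cases e : q' = q
      · exact ⟨0, fun h => absurd e h⟩
      · obtain ⟨L, hL⟩ := Λ.sep q' q e
        exact ⟨L, fun _ => hL⟩
    choose L hL using hsep
    obtain ⟨L₀, hL₀⟩ := (hZ.image L).bddAbove
    obtain ⟨N, hN⟩ := hsm (G * D + D + 4 * (G * D)) _ hε2
    obtain ⟨i, hi, p, hp, hpe⟩ := hinf (max N L₀)
    obtain ⟨q', hq1, hq2⟩ := (hl (i + 1)).osc q
    rw [hn] at hq1
    have h1 : K q' ≤ K q + ε / 2 := by
      by_cases e : q' = q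
      · rw [e]; linarith
      · by_contra hlt
        have h2 : q' ∈ {q | ε / 2 ≤ |K q|} := by
          show ε / 2 ≤ |K q'|
          linarith [le_abs_self (K q'), hK.1 q, not_le.1 hlt]
        have h3 : L q' ≤ m i :=
          (hL₀ ⟨q', h2, rfl⟩).trans (((le_max_right N L₀).trans hi).trans hmm.le_apply)
        have h4 := hL q' e
        rw [Λ.W_eq_of_le h3 hq1, disjoint_self] at h4
        exact (Λ.conn _ q).nonempty.ne_empty h4
    have h2 := hB (i + 1) _ hq2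
    have h3 := (hm i).oscb p hp q' (hq1.trans hpe)
    have h4 := hN i ((le_max_left N L₀).trans hi)
    have h5 : D / 2 ^ (i + 1) ≤ D / 2 ^ i :=
      div_le_div_of_nonneg_left hD.le (by positivity) (pow_le_pow_right₀ one_le_two (Nat.le_succ i))
    have h6 : 4 * (G * D) / 2 ^ (i + 1) ≤ 4 * (G * D) / 2 ^ i :=
      div_le_div_of_nonneg_left (by positivity) (by positivity)
        (pow_le_pow_right₀ one_le_two (Nat.le_succ i))
    rw [add_div, add_div] at h4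
    have h7 : 0 ≤ 2 * G * a q := mul_nonneg (by positivity) (ha q)
    linarith [hA (i + 1) q']

theorem ii_main (hU : IsOpen U) (hc : IsPreconnected U) {Λ : Lumps U} {M : Set (ℂ → ℝ)}
    (hF : Fam Λ M) (hC : CH Λ M) (hX : MAX Λ M) {C : ℝ} (h0 : 0 ≤ C) (hR : RX Λ M C)
    {c : ℂ → ℝ} (hx : XX U c) {ν : Set ℂ → ℝ} (hν : Super Λ ν) {t : Λ.E → ℝ} (ht : L2w t)
    (h : CB Λ M c ν t) {ε : ℝ} (hε : 0 < ε) :
    ∃ β K, Reg Λ β ∧ TT Λ M β ∧ ContDiffOn ℝ 1 β U ∧ L2w K ∧ nrm K ≤ ε ∧ Cl U β c ε ∧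
      B2 Λ M β (fun q => atom Λ ν q + t q + K q) := by
  classical
  have hM := hF.reg
  have hat := hν.atom_sum.2
  set ε' := min (ε / 4) 1 with hε'
  have hε0 : 0 < ε' := lt_min (by positivity) one_pos
  have hε1 : ε' ≤ ε / 4 := min_le_left _ _
  obtain ⟨s₀, hs0, hs1, hs2⟩ := k_start hU hF hC h0 hR hx hν ht h hε0
  have hn0 : ∀ e : Λ.E → ℝ, 0 ≤ nrm e := fun e => Real.sqrt_nonneg _
  set D := nrm (atom Λ ν) + nrm t + nrm s₀.k + 1 with hD
  have hD1 : 1 ≤ D := by linarith [hn0 (atom Λ ν), hn0 t, hn0 s₀.k]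
  have hD0 : 0 < D := one_pos.trans_le hD1
  have hδ : ∀ i : ℕ, 0 < D / 2 ^ i := fun i => by positivity
  have hζ : ∀ i : ℕ, 0 < ε' / 2 ^ i := fun i => by positivity
  have step : ∀ (i : ℕ) (x : KSt Λ × Finset Λ.E × ℕ), (KInv Λ M ν t x.1 ∧
      ∀ q, q ∉ x.2.1 → atom Λ ν q < D / 2 ^ i ∧ t q + x.1.k q ≤ 2 * (D / 2 ^ i)) →
      ∃ (x' : KSt Λ × Finset Λ.E × ℕ) (Q Y' : Finset Λ.E), (KInv Λ M ν t x'.1 ∧
        ∀ q, q ∉ x'.2.1 → atom Λ ν q < D / 2 ^ (i + 1) ∧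
          t q + x'.1.k q ≤ 2 * (D / 2 ^ (i + 1))) ∧
        (∀ q, q ∈ x'.2.1 ↔ D / 2 ^ (i + 1) ≤ atom Λ ν q + t q + x.1.k q) ∧ x'.2.1 ⊆ Y' ∧
        Lev Λ ν x.1.γ x.2.1 Y' (D / 2 ^ i) x.2.2 x'.2.2 Q ∧
        nrm (fun q => x'.1.k q - x.1.k q) ≤ ε' / 2 ^ (i + 1) ∧
        Md Λ x'.2.2 Q ((6 * C + 1) * D / 2 ^ i) (ε' / 2 ^ (i + 1)) ((ε' / 2 ^ (i + 1)) ^ 2)
          x.1 x'.1 := by
    rintro i ⟨s, Z, n⟩ ⟨hs, hZ⟩
    have hw : L2w fun q => atom Λ ν q + t q + s.k q := ((hat.add ht).1.add hs.sg.l2).1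
    have hfin := L2w.finite_big hw.2 (hδ (i + 1))
    have hmem : ∀ q, q ∈ hfin.toFinset ↔ D / 2 ^ (i + 1) ≤ atom Λ ν q + t q + s.k q := fun q => by
      rw [Finite.mem_toFinset, mem_ofPred_eq, abs_of_nonneg (hw.1 q)]
    obtain ⟨m, Q, Y', s', h1, h2, h3, h4⟩ := k_stage hU hc hF hC hX h0 hR hν ht hs Z hfin.toFinset
      (hδ i) hZ n (hζ (i + 1))
    have h5 : nrm (fun q => s'.k q - s.k q) ≤ ε' / 2 ^ (i + 1) :=
      Real.sqrt_le_iff.2 ⟨(hζ _).le, h4.ksq⟩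
    have h6 : L2w fun q => s'.k q - s.k q :=
      (h3.sg.l2.of_le (fun q => sub_nonneg.2 (h4.kle q)) fun q => sub_le_self _ (hs.sg.l2.1 q)).1
    refine ⟨(s', hfin.toFinset, m), Q, Y', ⟨h3, fun q hq => ?_⟩, hmem, h1, h2, h5, ?_⟩
    · have e1 := not_le.1 (mt (hmem q).2 hq)
      have e2 := (h6.le_nrm q).trans h5
      have e3 : ε' / 2 ^ (i + 1) ≤ D / 2 ^ (i + 1) :=
        div_le_div_of_nonneg_right ((min_le_right _ _).trans hD1) (by positivity)
      exact ⟨by linarith [ht.1 q, hs.sg.l2.1 q], by linarith [hat.1 q]⟩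
    · rwa [mul_div_assoc]
  choose! F Q Y' h1 h2 h3 h4 h5 h6 using step
  let x : ℕ → KSt Λ × Finset Λ.E × ℕ := fun i => Nat.rec (s₀, ∅, 0) F i
  have hx1 : ∀ i, KInv Λ M ν t (x i).1 ∧ ∀ q, q ∉ (x i).2.1 →
      atom Λ ν q < D / 2 ^ i ∧ t q + (x i).1.k q ≤ 2 * (D / 2 ^ i) := by
    intro i
    induction i with
    | zero =>
      refine ⟨hs0, fun q _ => ?_⟩
      have e1 := hat.le_nrm q
      have e2 := ht.le_nrm q
      have e3 := hs0.sg.l2.le_nrm q
      rw [pow_zero, div_one]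
      exact ⟨by linarith [hn0 t, hn0 s₀.k],
        show t q + s₀.k q ≤ _ by linarith [hn0 (atom Λ ν)]⟩
    | succ i ih => exact h1 i (x i) ih
  have hI : ∀ i, KInv Λ M ν t (x i).1 := fun i => (hx1 i).1
  have hmem : ∀ i q, q ∈ (x (i + 1)).2.1 ↔
      D / 2 ^ (i + 1) ≤ atom Λ ν q + t q + (x i).1.k q := fun i => h2 i (x i) (hx1 i)
  have hlev : ∀ i, Lev Λ ν (x i).1.γ (x i).2.1 (Y' i (x i)) (D / 2 ^ i) (x i).2.2 (x (i + 1)).2.2
      (Q i (x i)) := fun i => h4 i (x i) (hx1 i)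
  have hmd : ∀ i, Md Λ (x (i + 1)).2.2 (Q i (x i)) ((6 * C + 1) * D / 2 ^ i) (ε' / 2 ^ (i + 1))
      ((ε' / 2 ^ (i + 1)) ^ 2) (x i).1 (x (i + 1)).1 := fun i => h6 i (x i) (hx1 i)
  have td : ∀ i : ℕ, ε' / 2 ^ i - ε' / 2 ^ (i + 1) = ε' / 2 ^ (i + 1) := fun i => by ring
  have hnk : ∀ i, nrm (x i).1.k ≤ 2 * ε' - ε' / 2 ^ i := by
    intro i
    induction i with
    | zero =>
      rw [pow_zero, div_one]
      exact hs1.trans (by linarith)
    | succ i ih =>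
      have e1 : L2w fun q => (x (i + 1)).1.k q - (x i).1.k q :=
        ((hI (i + 1)).sg.l2.of_le (fun q => sub_nonneg.2 ((hmd i).kle q))
          fun q => sub_le_self _ ((hI i).sg.l2.1 q)).1
      have e2 := ((hI i).sg.l2.add e1).2
      have e3 : nrm (fun q => (x (i + 1)).1.k q - (x i).1.k q) ≤ ε' / 2 ^ (i + 1) :=
        h5 i (x i) (hx1 i)
      simp only [add_sub_cancel] at e2
      linarith [td i]
  obtain ⟨K, hK1, hK2, hK3⟩ := k_sup_wt (k := fun i => (x i).1.k) (fun i => (hI i).sg.l2)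
    (fun i => (hmd i).kle) (s := 2 * ε') fun i => (hnk i).trans (sub_le_self _ (hζ i).le)
  have hγ : ∀ i, Good U (x i).1.γ := fun i => (hI i).good_γ hU
  have hG : 0 ≤ 6 * C + 1 := by positivity
  obtain ⟨B, hB⟩ := (hγ 0).bdd
  have hBk : ∀ i, ∀ z ∈ U, |(x i).1.γ z| ≤ B + 2 * ((6 * C + 1) * D) / 2 ^ 0 := by
    intro i z hz
    have := k_rng (s := fun i => (x i).1) (mul_nonneg hG hD0.le) hmd (V := U) (i := 0)
      (fun j _ p => Or.inl ((Λ.sub _ _).trans inter_subset_left))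
      (fun z hz => abs_le.1 (hB z hz)) i (Nat.zero_le i) z hz
    exact abs_le.2 ⟨by linarith [this.1], this.2⟩
  have hlv : ∀ i, i ≤ (x i).2.2 := by
    intro i
    induction i with
    | zero => exact Nat.zero_le _
    | succ i ih => exact Nat.succ_le_of_lt (ih.trans_lt (hlev i).lt)
  have t1 : ∀ i : ℕ, ε' / 2 ^ (i + 1) ≤ ε' / 2 ^ i := fun i => by linarith [td i, hζ (i + 1)]
  have tl : Tendsto (fun i : ℕ => ε' / 2 ^ i) atTop (𝓝 0) :=
    tendsto_const_nhds.div_atTop (tendsto_pow_atTop_atTop_of_one_lt one_lt_two)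
  obtain ⟨β, hb1, hb2, -, hb4⟩ := g_lim hU Λ (u := fun i => (x i).1.γ) hγ hBk
    (fun i z hz => by
      obtain ⟨e1, e2⟩ := (hmd i).off z fun p _ hp =>
        hz p (Λ.W_mono ((Nat.le_succ i).trans (hlv (i + 1))) p hp)
      simp only [KSt.γ, e1, e2]) (fun i => (hζ i).le) t1 fun i => by rw [td]; exact (hmd i).cl
  have hw : L2w fun q => atom Λ ν q + t q + K q := ((hat.add ht).1.add hK1).1
  have hosc : ∀ q, Λ.osc β q ≤ K q + 2 * (6 * C + 1) * (atom Λ ν q + t q + K q) :=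
    k_osc (s := fun i => (x i).1) (n := fun i => (x i).2.2) (m := fun i => (x (i + 1)).2.2)
      (Y := fun i => (x i).2.1) hG hD0 (fun i => (hI i).sg.bdd) (fun i => (hI i).good.bdd) hK1
      (fun i q => ((hI i).sg.osc q).trans (hK3 i q)) hw.1 rfl
      (fun i q hq => by
        cases i with
        | zero => exact absurd hq (Finset.notMem_empty q)
        | succ i =>
          have e1 := (hmem i q).1 hq
          have e2 : D / 2 ^ (i + 1 + 1) ≤ D / 2 ^ (i + 1) :=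
            div_le_div_of_nonneg_left hD0.le (by positivity)
              (pow_le_pow_right₀ one_le_two (Nat.le_succ _))
          exact (hmem (i + 1) q).2 (by linarith [(hmd i).kle q]))
      (fun i => h3 i (x i) (hx1 i))
      (fun i q hq => by
        cases i with
        | zero => exact absurd hq (Finset.notMem_empty q)
        | succ i => linarith [(hmem i q).1 hq, hK3 i q])
      (fun _ => rfl) hlev hmd hb1.bdd hb2
  have htK : L2w fun q => t q + K q := (ht.add hK1).1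
  have hAA : ∀ i, AA Λ M (x i).1.σ K := fun i => (hI i).sg.aa.mono (hI i).sg.l2 hK1 (hK3 i)
  have hCB : ∀ i, CB Λ M (x i).1.b ν fun q => t q + K q := fun i =>
    (hI i).cb.mono (ht.add (hI i).sg.l2).1 htK fun q => by linarith [hK3 i q]
  have hlim : ∀ w, XX U w → ∀ a, (∀ i, |om U w (x i).1.σ + om U w (x i).1.b| ≤ a) →
      |om U w β| ≤ a := by
    intro w hw a ha
    have e1 := om_tendsto hU (uk := fun _ => w) hw hb1.xx (fun _ => hw) (fun i => (hγ i).xx)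
      (Cl.tendsto (t := fun _ => 0) tendsto_const_nhds fun _ => Cl.refl w 0)
      (Cl.tendsto tl fun i => (hb4 i).symm)
    refine le_of_tendsto' e1.abs fun i => ?_
    rw [show (x i).1.γ = fun z => (x i).1.σ z + (x i).1.b z from rfl,
      om_add_right hU hw (hI i).sg.xx (hI i).good.xx]
    exact ha i
  have hK2' := hK1.smul zero_le_two
  have hw2 : L2w fun q => atom Λ ν q + t q + 2 * K q := ((hat.add ht).1.add hK2'.1).1
  refine ⟨β, fun q => 2 * K q, ⟨hb1.xx, hb1.bdd, ?_⟩, ⟨hb1.xx, _, k_Adm_of_reg hU hF hC hb1.xx hw2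
    fun v hv hvT => hlim v hv.xx _ fun i => ?_⟩, hb1.c1, hK2'.1, by rw [hK2'.2]; linarith, ?_,
    fun q v B hv hB η hη N => ?_⟩
  · exact ((hK1.add (hw.smul (a := 2 * (6 * C + 1)) (by positivity)).1).1.of_le
      (Λ.osc_nonneg hb1.bdd) hosc).1.2
  · have ho := Adm.osc hU hM hC hv hvT
    have e1 := hAA i v _ hv.xx ho
    have e2 := CB.osc hU hM hC (hI i).good.xx hν htK (hCB i) hv hvT
    refine (abs_add_le _ _).trans ((add_le_add e1 e2).trans (le_of_eq ?_))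
    rw [← (ho.l2.summable_mul hK1).1.tsum_add (ho.l2.summable_mul (hat.add htK).1).1]
    exact tsum_congr fun q => by ring
  · have e1 : Cl U β s₀.γ ε' := by simpa using (show Cl U β s₀.γ (ε' / 2 ^ 0) from hb4 0)
    exact (Cl.trans hU hb1.xx (hγ 0).xx hx hε0.le hε0.le e1 hs2).mono (by positivity)
      (by linarith)
  · obtain ⟨N₁, hN₁⟩ := k_locb hU hM hC hK1 q hv hB (half_pos hη)
    obtain ⟨N₂, hN₂⟩ := k_locc hU hM hC hν htK q hv hB (half_pos hη)
    refine ⟨max N (max N₁ N₂), le_max_left _ _, fun χ hχ =>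
      hlim _ (XX.mul_A0 hU Λ hv.1 hχ.1) _ fun i => ?_⟩
    have e1 := hN₁ _ ((le_max_left _ _).trans (le_max_right _ _)) χ hχ _ (hAA i)
    have e2 := hN₂ _ ((le_max_right _ _).trans (le_max_right _ _)) χ hχ _ (hCB i)
    refine (abs_add_le _ _).trans ((add_le_add e1 e2).trans (le_of_eq ?_))
    ring

/-- `MAX` for `β`; `|om u c - om u β| ≤ √(En u) ε` (`abs_om_le`); `ε → 0` -/
theorem key_of_RX (hU : IsOpen U) (hc : IsPreconnected U) {Λ : Lumps U} {M : Set (ℂ → ℝ)}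
    (hF : Fam Λ M) (hC : CH Λ M) (hX : MAX Λ M) {C : ℝ} (h0 : 0 ≤ C) (hR : RX Λ M C)
    {c : ℂ → ℝ} (hx : XX U c) {ν : Set ℂ → ℝ} (hν : Super Λ ν) {t : Λ.E → ℝ} (ht : L2w t)
    (h : CB Λ M c ν t) : AA Λ M c (fun q => atom Λ ν q + t q) := by
  intro u n hu hn
  have hat : L2w (fun q => atom Λ ν q + t q) := (hν.atom_sum.2.add ht).1
  have hS : 0 ≤ nrm n + Real.sqrt (En U u).toReal := add_nonneg (L2w.nrm_nonneg n) (Real.sqrt_nonneg _)
  refine le_of_forall_pos_le_add fun δ hδ => ?_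
  set S := nrm n + Real.sqrt (En U u).toReal with hSd
  have hε : 0 < δ / (S + 1) := by positivity
  obtain ⟨β, K, hβ, hT, h1, hK, hKε, hcl, hB⟩ := ii_main hU hc hF hC hX h0 hR hx hν ht h hε
  have m1 := hX β _ hβ hT h1 (hat.add hK).1 hB u n hu hn
  have s1 := hn.l2.summable_mul hat
  have s2 := hn.l2.summable_mul hK
  have e1 : ∑' q, n q * (atom Λ ν q + t q + K q) =
      ∑' q, n q * (atom Λ ν q + t q) + ∑' q, n q * K q := by
    rw [← s1.1.tsum_add s2.1]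
    exact tsum_congr fun q => by ring
  have hd := hβ.xx.sub hU hx
  have m2 := abs_om_le hu.en hd.en
  rw [om_sub_right hU hu hβ.xx hx] at m2
  have m3 : Real.sqrt (En U fun z => β z - c z).toReal ≤ δ / (S + 1) := by
    refine Real.sqrt_le_iff.2 ⟨hε.le, ?_⟩
    exact ENNReal.toReal_le_of_le_ofReal (by positivity) hcl
  have m4 := mul_le_mul_of_nonneg_left m3 (Real.sqrt_nonneg (En U u).toReal)
  have m5 := mul_le_mul_of_nonneg_left hKε (L2w.nrm_nonneg n)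
  have m6 : S * (δ / (S + 1)) ≤ δ := by
    rw [← mul_div_assoc, div_le_iff₀ (by positivity)]
    nlinarith
  have m7 : |om U u c| ≤ |om U u β| + |om U u β - om U u c| := by
    have := abs_sub (om U u β) (om U u β - om U u c)
    rwa [sub_sub_cancel] at this
  rw [hSd, add_mul] at m6
  rw [← hSd] at m6
  linarith [s2.2]

end Crest.Agent.R105
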