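import Crest.Agent.R105.KBase

/-! Row 105, block II/KEY: superadditive set functions and class bounds. -/

set_option autoImplicit false

open MeasureTheory Set Filter Topology
open scoped ENNReal

namespace Crest.Agent.R105

variable {U : Set ℂ}

theorem Super.nonneg {Λ : Lumps U} {ν : Set ℂ → ℝ} (h : Super Λ ν) (n : ℕ) (q : Λ.E) :
    0 ≤ ν (Λ.W n q) := by
  simpa using h n n q ∅ le_rfl (by simp) (by simp)

theorem Super.h17_mono {Λ : Lumps U} {ν : Set ℂ → ℝ} (h : Super Λ ν) {n m : ℕ} (hnm : n ≤ m)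
    {q p : Λ.E} (hs : Λ.W m q ⊆ Λ.W n p) : ν (Λ.W m q) ≤ ν (Λ.W n p) := by
  simpa using h n m p {q} hnm (by simpa using hs) (by simp)

theorem Super.atom_nonneg {Λ : Lumps U} {ν : Set ℂ → ℝ} (h : Super Λ ν) (q : Λ.E) :
    0 ≤ atom Λ ν q := by
  exact le_ciInf fun n => h.nonneg n q

theorem Super.atom_le {Λ : Lumps U} {ν : Set ℂ → ℝ} (h : Super Λ ν) (n : ℕ) (q : Λ.E) :
    atom Λ ν q ≤ ν (Λ.W n q) := by
  exact ciInf_le ⟨0, by rintro _ ⟨n, rfl⟩; exact h.nonneg n q⟩ n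

theorem Super.atom_near {Λ : Lumps U} {ν : Set ℂ → ℝ} (h : Super Λ ν) (q : Λ.E) {η : ℝ}
    (hη : 0 < η) : ∃ N, ∀ n ≥ N, ν (Λ.W n q) ≤ atom Λ ν q + η := by
  obtain ⟨N, hN⟩ := exists_lt_of_ciInf_lt (f := fun n => ν (Λ.W n q))
    (lt_add_of_pos_right (atom Λ ν q) hη)
  exact ⟨N, fun n hn => (h.h17_mono hn (Λ.W_mono hn q)).trans hN.le⟩

/-- the lumps of one level carry bounded total mass: `ν₀ = ∑ ν (W 0 p)` over representatives of
level `0`, `Finset.sum_fiberwise` -/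
theorem Super.total {Λ : Lumps U} {ν : Set ℂ → ℝ} (h : Super Λ ν) : ∃ ν₀, 0 ≤ ν₀ ∧
    ∀ (m : ℕ) (Q : Finset Λ.E), (∀ q ∈ Q, ∀ q' ∈ Q, q ≠ q' → Disjoint (Λ.W m q) (Λ.W m q')) →
      ∑ q ∈ Q, ν (Λ.W m q) ≤ ν₀ := by
  classical
  obtain ⟨Q₀, h1, -⟩ := Λ.exists_reps 0
  choose f hf hf' using h1
  refine ⟨∑ p ∈ Q₀, ν (Λ.W 0 p), Finset.sum_nonneg fun p _ => h.nonneg 0 p, fun m Q hQ => ?_⟩
  rw [← Finset.sum_fiberwise_of_maps_to (s := Q) (t := Q₀) (g := f) fun q _ => hf q]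
  refine Finset.sum_le_sum fun p _ => h 0 m p _ (Nat.zero_le _) (fun q hq => ?_)
    fun q hq q' hq' => hQ q (Finset.mem_filter.1 hq).1 q' (Finset.mem_filter.1 hq').1
  rw [← (Finset.mem_filter.1 hq).2, ← hf' q]
  exact Λ.W_mono (Nat.zero_le _) q

/-- finite sets of ends are separated at a high level; `summable_of_sum_le` -/
theorem Super.atom_sum {Λ : Lumps U} {ν : Set ℂ → ℝ} (h : Super Λ ν) :
    Summable (atom Λ ν) ∧ L2w (atom Λ ν) := by
  obtain ⟨ν₀, -, hν⟩ := h.total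
  have hs : Summable (atom Λ ν) := by
    refine summable_of_sum_le (c := ν₀) h.atom_nonneg fun Y => ?_
    obtain ⟨N, hN⟩ := Λ.exists_reps_of Y
    obtain ⟨Q, hYQ, -, hd⟩ := hN N le_rfl
    exact (Finset.sum_le_sum fun q _ => h.atom_le N q).trans
      (hν N Y fun q hq q' hq' => hd q (hYQ hq) q' (hYQ hq'))
  refine ⟨hs, h.atom_nonneg, ?_⟩
  refine Summable.of_nonneg_of_le (fun q => sq_nonneg _) (fun q => ?_) (hs.mul_left ν₀)
  have : atom Λ ν q ≤ ν₀ := (h.atom_le 0 q).trans (by simpa using hν 0 {q} (by simp))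
  nlinarith [h.atom_nonneg q]

open Classical in
theorem Super.atom_lump {Λ : Lumps U} {ν : Set ℂ → ℝ} (h : Super Λ ν) (n : ℕ) (p : Λ.E) :
    ∑' q, (if Λ.W n q = Λ.W n p then atom Λ ν q else 0) ≤ ν (Λ.W n p) := by
  refine Real.tsum_le_of_sum_le (fun q => ?_) fun Y => ?_
  · dsimp only
    split_ifs
    · exact h.atom_nonneg q
    · exact le_rfl
  obtain ⟨N, hN⟩ := Λ.exists_reps_of Y
  obtain ⟨Q, hYQ, -, hd⟩ := hN (max N n) (le_max_left _ _)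
  rw [← Finset.sum_filter]
  refine (Finset.sum_le_sum fun q _ => h.atom_le (max N n) q).trans
    (h n (max N n) p _ (le_max_right _ _) (fun q hq => ?_) fun q hq q' hq' => ?_)
  · rw [← (Finset.mem_filter.1 hq).2]
    exact Λ.W_mono (le_max_right _ _) q
  · exact hd q (hYQ (Finset.mem_filter.1 hq).1) q' (hYQ (Finset.mem_filter.1 hq').1)

/-- König with `f q` such that `ν (W (f q) q) < δ` for `q ∉ Y`, `< atom q + δ` for `q ∈ Y`.
If the lump found belongs to `p ∈ Y`, superadditivity for the two disjoint lumps `W n q`,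
`W n p` inside `W (f p) p`. -/
theorem Super.level {Λ : Lumps U} {ν : Set ℂ → ℝ} (h : Super Λ ν) (Y : Finset Λ.E) {δ : ℝ}
    (hδ : 0 < δ) (hY : ∀ q, q ∉ Y → atom Λ ν q < δ) :
    ∃ N, ∀ n ≥ N, ∀ q, (∀ y ∈ Y, Λ.W n y ≠ Λ.W n q) → ν (Λ.W n q) ≤ δ := by
  classical
  have h1 : ∀ q, ∃ n, (q ∉ Y → ν (Λ.W n q) < δ) ∧ (q ∈ Y → ν (Λ.W n q) < atom Λ ν q + δ) := by
    intro q
    by_cases hq : q ∈ Y
    · obtain ⟨N, hN⟩ := exists_lt_of_ciInf_lt (f := fun n => ν (Λ.W n q))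
        (lt_add_of_pos_right (atom Λ ν q) hδ)
      exact ⟨N, fun h => absurd hq h, fun _ => hN⟩
    · obtain ⟨N, hN⟩ := exists_lt_of_ciInf_lt (f := fun n => ν (Λ.W n q)) (hY q hq)
      exact ⟨N, fun _ => hN, fun h => absurd h hq⟩
  choose f hf hf' using h1
  obtain ⟨N, hN⟩ := Λ.koenig f
  refine ⟨N, fun n hn q hq => ?_⟩
  obtain ⟨p, h2, h3⟩ := hN q
  have h4 : Λ.W n q ⊆ Λ.W (f p) p := h3 ▸ Λ.W_mono (h2.trans hn) q
  by_cases hp : p ∈ Y
  · have h5 := hq p hp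
    have hne : q ≠ p := fun e => h5 (by rw [e])
    have hd : Disjoint (Λ.W n q) (Λ.W n p) := (Λ.part n q p).resolve_left (Ne.symm h5)
    have h6 := h (f p) n p {q, p} (h2.trans hn) (by
      intro x hx
      rcases Finset.mem_insert.1 hx with rfl | hx
      · exact h4
      · rw [Finset.mem_singleton.1 hx]
        exact Λ.W_mono (h2.trans hn) p) (by
      intro x hx y hy hxy
      simp only [Finset.mem_insert, Finset.mem_singleton] at hx hy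
      rcases hx with rfl | rfl <;> rcases hy with rfl | rfl
      exacts [absurd rfl hxy, hd, hd.symm, absurd rfl hxy])
    rw [Finset.sum_pair hne] at h6
    linarith [hf' p hp, h.atom_le n p]
  · exact (h.h17_mono (h2.trans hn) h4).trans (hf p hp).le

theorem Cls.cb {Λ : Lumps U} {M : Set (ℂ → ℝ)} (hM : ∀ r ∈ M, Reg Λ r) {c : ℂ → ℝ}
    {ν : Set ℂ → ℝ} {t : Λ.E → ℝ} {Y : Finset Λ.E} (h : Cls Λ M c ν t Y) : CB Λ M c ν t :=
  fun n q χ hχ v e B hv hB he =>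
    h.le n q χ hχ v e B hv hB (he.mono hM (Finset.empty_subset _) he.l2 fun _ _ => le_rfl)

theorem CB.mono {Λ : Lumps U} {M : Set (ℂ → ℝ)} {c : ℂ → ℝ} {ν : Set ℂ → ℝ} {t t' : Λ.E → ℝ}
    (h : CB Λ M c ν t) (ht : L2w t) (ht' : L2w t') (hle : ∀ q, t q ≤ t' q) : CB Λ M c ν t' := by
  classical
  intro n q χ hχ v e B hv hB he
  refine (h n q χ hχ v e B hv hB he).trans (add_le_add le_rfl ?_)
  have key : ∀ s : Λ.E → ℝ, L2w s →
      Summable fun q' => if Λ.W n q' = Λ.W n q then s q' * e q' else 0 := by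
    intro s hs
    refine Summable.of_nonneg_of_le (fun q' => ?_) (fun q' => ?_) (hs.summable_mul he.l2).1
    · split_ifs
      · exact mul_nonneg (hs.1 _) (he.l2.1 _)
      · exact le_rfl
    · split_ifs
      · exact le_rfl
      · exact mul_nonneg (hs.1 _) (he.l2.1 _)
  refine Summable.tsum_le_tsum (fun q' => ?_) (key t ht) (key t' ht')
  split_ifs
  · exact mul_le_mul_of_nonneg_right (hle _) (he.l2.1 _)
  · exact le_rfl

private theorem h1_ite {E : Type} {t e : E → ℝ} (ht : L2w t) (he : L2w e) (P : E → Prop)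
    [DecidablePred P] : Summable fun q => (if P q then t q else 0) * e q :=
  (L2w.summable_mul (L2w.of_le (e := fun q => if P q then t q else 0) ht
    (fun q => by split_ifs; exacts [ht.1 q, le_rfl])
    fun q => by split_ifs; exacts [le_rfl, ht.1 q]).1 he).1

open Classical in
/-- moving the nodes of `X` into atoms, on one lump: `k_Adm_fill`, `om_mul_swap` -/
theorem CB.lump (hU : IsOpen U) {Λ : Lumps U} {M : Set (ℂ → ℝ)} (hC : CH Λ M) {c : ℂ → ℝ}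
    (hx : XX U c) {ν : Set ℂ → ℝ} {t : Λ.E → ℝ} (ht : L2w t) (h : CB Λ M c ν t)
    (X : Finset Λ.E) {n : ℕ} {p : Λ.E} {χ : ℂ → ℝ} (hχ : Ind Λ n p χ) {δ : ℝ}
    (hδ : ν (Λ.W n p) + ∑ y ∈ X, (if Λ.W n y = Λ.W n p then t y else 0) ≤ δ)
    {v : ℂ → ℝ} {e : Λ.E → ℝ} {B : ℝ} (hv : TT Λ M v) (hB : ∀ z ∈ U, |v z| ≤ B / 2)
    (he : Adm Λ M X v e) : |om U v (fun z => c z * χ z)| ≤
      δ * B + ∑' q, (if Λ.W n q = Λ.W n p ∧ q ∉ X then t q else 0) * e q := by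
  have hB0 : 0 ≤ B := by
    obtain ⟨z, hz⟩ := (Λ.conn n p).nonempty
    linarith [(abs_nonneg _).trans (hB z (Λ.sub n p hz).1)]
  have h1 := h n p χ hχ v _ B hv hB (k_Adm_fill hU hC hv.1 hB he)
  rw [om_mul_swap hU Λ hv.1 hx hχ.1] at h1
  refine h1.trans ?_
  have h2 : ∀ q, (if Λ.W n q = Λ.W n p then t q * (if q ∈ X then B else e q) else 0) =
      (if q ∈ X then (if Λ.W n q = Λ.W n p then t q else 0) * B else 0) +
        (if Λ.W n q = Λ.W n p ∧ q ∉ X then t q else 0) * e q := fun q => by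
    by_cases a : Λ.W n q = Λ.W n p <;> by_cases b : q ∈ X <;> simp [a, b]
  have h3 : ∀ q, q ∉ X →
      (if q ∈ X then (if Λ.W n q = Λ.W n p then t q else 0) * B else 0) = 0 :=
    fun q hq => if_neg hq
  rw [tsum_congr h2, (summable_of_ne_finset_zero h3).tsum_add (h1_ite ht he.l2 _), tsum_eq_sum h3,
    Finset.sum_congr rfl fun q hq => if_pos hq, ← Finset.sum_mul, ← add_assoc, ← add_mul]
  exact add_le_add (mul_le_mul_of_nonneg_right hδ hB0) le_rfl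

open Classical in
/-- global version: `om_eq_sum_lumps` at level `0`, `CB.lump` -/
theorem CB.global (hU : IsOpen U) {Λ : Lumps U} {M : Set (ℂ → ℝ)} (hC : CH Λ M) {c : ℂ → ℝ}
    (hx : XX U c) {ν : Set ℂ → ℝ} (hν : Super Λ ν) {t : Λ.E → ℝ} (ht : L2w t)
    (h : CB Λ M c ν t) (X : Finset Λ.E) : ∃ δ, 0 ≤ δ ∧ ∀ v e B, TT Λ M v →
      (∀ z ∈ U, |v z| ≤ B / 2) → Adm Λ M X v e →
      |om U v c| ≤ δ * B + ∑' q, (if q ∈ X then 0 else t q) * e q := by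
  obtain ⟨Q, hQ, hd⟩ := Λ.exists_reps 0
  choose χ hχ using fun p => exists_Ind hU Λ 0 p
  refine ⟨∑ p ∈ Q, (ν (Λ.W 0 p) + ∑ y ∈ X, (if Λ.W 0 y = Λ.W 0 p then t y else 0)),
    Finset.sum_nonneg fun p _ => add_nonneg (hν.nonneg 0 p) (Finset.sum_nonneg fun y _ => by
      split_ifs; exacts [ht.1 y, le_rfl]), fun v e B hv hB he => ?_⟩
  rw [om_eq_sum_lumps hU hQ hd (fun p _ => (hχ p).1) hv.1 hx]
  refine (Finset.abs_sum_le_sum_abs _ _).trans ((Finset.sum_le_sum fun p _ =>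
    (congrArg abs (om_mul_swap hU Λ hv.1 hx (hχ p).1.1)).trans_le
      (CB.lump hU hC hx ht h X (hχ p).1 le_rfl hv hB he)).trans (le_of_eq ?_))
  rw [Finset.sum_add_distrib, ← Finset.sum_mul,
    ← Summable.tsum_finsetSum fun p _ => h1_ite ht he.l2 _]
  refine congrArg _ (tsum_congr fun q => ?_)
  obtain ⟨p, hp, hqp⟩ := hQ q
  rw [← Finset.sum_mul, Finset.sum_eq_single_of_mem p hp fun p' hp' hne => if_neg fun h' => ?_]
  · by_cases b : q ∈ X <;> simp [hqp, b]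
  · have h1 := hd p' hp' p hp hne
    rw [← h'.1, ← hqp, disjoint_self] at h1
    exact (Λ.conn 0 q).nonempty.ne_empty h1

/-- subtracting a function `lam` that pairs like an element of `L`:
`om (v χ) b' = om (v χ) b - om (v χ) lam`, `Adm.mul_A0` -/
theorem CB.sub (hU : IsOpen U) {Λ : Lumps U} {M : Set (ℂ → ℝ)} {b lam : ℂ → ℝ} (hb : XX U b)
    (hl : XX U lam) {ν : Set ℂ → ℝ} {t κ : Λ.E → ℝ} (ht : L2w t) (hκ : L2w κ)
    (h : CB Λ M b ν t)
    (h' : ∀ v e, TT Λ M v → Bdd U v → Adm Λ M ∅ v e → |om U v lam| ≤ ∑' q, κ q * e q) :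
    CB Λ M (fun z => b z - lam z) ν (fun q => t q + κ q) := by
  classical
  intro n q χ hχ v e B hv hB he
  have h1 := h n q χ hχ v e B hv hB he
  obtain ⟨C, hC⟩ := hχ.1.bdd Λ
  have hbd : Bdd U (fun z => v z * χ z) := ⟨B / 2 * C, fun z hz => by
    rw [abs_mul]
    exact mul_le_mul (hB z hz) (hC z hz) (abs_nonneg _) ((abs_nonneg _).trans (hB z hz))⟩
  have hA := he.mul_A0 hU hχ.1
  have h2 := h' _ _ (hv.mul_A0 hU hχ.1) hbd hA
  have s1 : Summable fun q' => if Λ.W n q' = Λ.W n q then t q' * e q' else 0 := by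
    refine Summable.of_nonneg_of_le (fun q' => ?_) (fun q' => ?_) (ht.summable_mul he.l2).1
    · split_ifs
      exacts [mul_nonneg (ht.1 _) (he.l2.1 _), le_rfl]
    · split_ifs
      exacts [le_rfl, mul_nonneg (ht.1 _) (he.l2.1 _)]
  have h3 : ∑' q', (if Λ.W n q' = Λ.W n q then (t q' + κ q') * e q' else 0) =
      ∑' q', (if Λ.W n q' = Λ.W n q then t q' * e q' else 0) +
        ∑' q', κ q' * (|Λ.val χ q'| * e q') := by
    rw [← s1.tsum_add (hκ.summable_mul hA.l2).1]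
    refine tsum_congr fun q' => ?_
    rw [hχ.2 q']
    split_ifs
    · rw [abs_one]; ring
    · simp
  rw [om_sub_right hU (hv.1.mul_A0 hU Λ hχ.1) hb hl, h3]
  have h4 := abs_sub (om U (fun z => v z * χ z) b) (om U (fun z => v z * χ z) lam)
  linarith

/-- as `k_locb`, with `Super.atom_near` -/
theorem k_locc (hU : IsOpen U) {Λ : Lumps U} {M : Set (ℂ → ℝ)} (hM : ∀ r ∈ M, Reg Λ r)
    (hC : CH Λ M) {ν : Set ℂ → ℝ} (hν : Super Λ ν) {t : Λ.E → ℝ} (ht : L2w t) (q : Λ.E)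
    {v : ℂ → ℝ} {B : ℝ} (hv : TT Λ M v) (hB : ∀ z ∈ U, |v z| ≤ B / 2) {η : ℝ} (hη : 0 < η) :
    ∃ N, ∀ n ≥ N, ∀ χ, Ind Λ n q χ → ∀ b, CB Λ M b ν t →
      |om U (fun z => v z * χ z) b| ≤ (atom Λ ν q + t q) * B + η := by
  classical
  obtain ⟨e, he⟩ := hv.2
  have he' := k_Adm_fill hU hC (F := {q}) hv.1 hB
    (he.mono hM (Finset.empty_subset _) he.l2 fun _ _ => le_rfl)
  have hB0 : 0 ≤ B := by
    obtain ⟨z, hz⟩ := (Λ.conn 0 q).nonempty
    have := (abs_nonneg _).trans (hB z (Λ.sub 0 q hz).1)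
    linarith
  obtain ⟨N₁, h1⟩ := hν.atom_near q (η := η / 2 / (B + 1)) (by positivity)
  obtain ⟨N₂, h2⟩ := k_tail Λ (f := fun q' => t q' * e q')
    (fun q' => mul_nonneg (ht.1 _) (he.l2.1 _)) (ht.summable_mul he.l2).1 q (half_pos hη)
  refine ⟨max N₁ N₂, fun n hn χ hχ b hb => ?_⟩
  have h3 := hb n q χ hχ v _ B hv hB he'
  have s1 : Summable fun q' => if Λ.W n q' = Λ.W n q then
      t q' * (if q' ∈ ({q} : Finset Λ.E) then B else e q') else 0 := by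
    refine Summable.of_nonneg_of_le (fun q' => ?_) (fun q' => ?_) (ht.summable_mul he'.l2).1
    · by_cases h : Λ.W n q' = Λ.W n q
      · rw [if_pos h]; exact mul_nonneg (ht.1 _) (he'.l2.1 _)
      · rw [if_neg h]
    · by_cases h : Λ.W n q' = Λ.W n q
      · rw [if_pos h]
      · rw [if_neg h]; exact mul_nonneg (ht.1 _) (he'.l2.1 _)
  have h4 : ∑' q', (if Λ.W n q' = Λ.W n q then
      t q' * (if q' ∈ ({q} : Finset Λ.E) then B else e q') else 0) =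
      t q * B + ∑' q', (if Λ.W n q' = Λ.W n q ∧ q' ≠ q then t q' * e q' else 0) := by
    rw [s1.tsum_eq_add_tsum_ite q]
    congr 1
    · simp
    · refine tsum_congr fun q' => ?_
      by_cases h : q' = q
      · simp [h]
      · simp [h]
  have h5 := h1 n (le_of_max_le_left hn)
  have h6 := h2 n (le_of_max_le_right hn)
  have h7 : η / 2 / (B + 1) * B ≤ η / 2 := by
    rw [div_mul_eq_mul_div, div_le_iff₀ (by positivity)]
    nlinarith
  have h8 := mul_le_mul_of_nonneg_right h5 hB0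
  have h9 : |om U (fun z => v z * χ z) b| ≤ ν (Λ.W n q) * B + (t q * B +
      ∑' q', (if Λ.W n q' = Λ.W n q ∧ q' ≠ q then t q' * e q' else 0)) := by
    rw [← h4]; convert h3
  nlinarith

open Classical in
/-- on one lump where `v` stays in `[a, a + B]`: the clamp `w` of `v - (a + B / 2)` to
`[-B/2, B/2]` has weight `e` (`Adm.sub`, `Adm.of_A0`, `CH.lip`), and
`om (v χ) c = om (w χ) c` (`om_germ_congr`) -/
theorem CB.osc_lump (hU : IsOpen U) {Λ : Lumps U} {M : Set (ℂ → ℝ)} (hM : ∀ r ∈ M, Reg Λ r)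
    (hC : CH Λ M) {c : ℂ → ℝ} (hx : XX U c) {ν : Set ℂ → ℝ} {t : Λ.E → ℝ} (h : CB Λ M c ν t)
    {v : ℂ → ℝ} {e : Λ.E → ℝ} (hv : XX U v) (he : Adm Λ M ∅ v e) {n : ℕ} {p : Λ.E}
    {χ : ℂ → ℝ} (hχ : Ind Λ n p χ) {a B : ℝ} (hB : 0 ≤ B)
    (ha : ∀ q, Λ.W n q = Λ.W n p → ∃ m, ∀ z ∈ Λ.W m q, v z ∈ Icc a (a + B)) :
    |om U (fun z => v z * χ z) c| ≤
      ν (Λ.W n p) * B + ∑' q, if Λ.W n q = Λ.W n p then t q * e q else 0 := by
  have hT : ∀ s s' : ℝ, |max (-(B / 2)) (min (B / 2) (s - (a + B / 2))) -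
      max (-(B / 2)) (min (B / 2) (s' - (a + B / 2)))| ≤ 1 * |s - s'| := fun s s' => by
    rw [one_mul]; exact h67_clip_lip _ _ s s'
  have hw := hv.comp_lip hU hT
  have hA := hC.lip hv he zero_le_one hT
  have h1 := h n p χ hχ _ _ B ⟨hw, _, hA⟩ (fun z _ => abs_le.2 ⟨le_max_left _ _,
    max_le (by linarith) (min_le_left _ _)⟩) hA
  simp only [one_mul] at h1
  obtain ⟨N, hN⟩ := hχ.1.eq_val Λ
  rw [om_germ_congr hU Λ (hv.mul_A0 hU Λ hχ.1) (hw.mul_A0 hU Λ hχ.1) hx hx fun q => ?_]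
  · exact h1
  by_cases hq : Λ.W n q = Λ.W n p
  · obtain ⟨m, hm⟩ := ha q hq
    refine ⟨max m N, a + B / 2, 0, fun z hz => ?_, fun z _ => (add_zero _).symm⟩
    obtain ⟨h2, h3⟩ := hm z (Λ.W_mono (le_max_left _ _) q hz)
    rw [hN _ (le_max_right _ _) q z hz, hχ.2 q, if_pos hq, min_eq_right (by linarith),
      max_eq_right (by linarith)]
    ring
  · refine ⟨N, 0, 0, fun z hz => ?_, fun z _ => (add_zero _).symm⟩
    rw [hN _ le_rfl q z hz, hχ.2 q, if_neg hq]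
    ring

open Classical in
theorem h38_tsum {Λ : Lumps U} {n : ℕ} {Q : Finset Λ.E}
    (hQ : ∀ q, ∃ p ∈ Q, Λ.W n q = Λ.W n p)
    (hd : ∀ p ∈ Q, ∀ p' ∈ Q, p ≠ p' → Disjoint (Λ.W n p) (Λ.W n p')) {f : Λ.E → ℝ}
    (hf : Summable f) :
    ∑ p ∈ Q, ∑' q, (if Λ.W n q = Λ.W n p then f q else 0) = ∑' q, f q := by
  rw [← Summable.tsum_finsetSum fun p _ => hf.indicator {q | Λ.W n q = Λ.W n p} |>.congr
    fun q => by simp [Set.indicator_apply]]
  refine tsum_congr fun q => ?_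
  obtain ⟨p0, hp0, hq⟩ := hQ q
  rw [Finset.sum_eq_single_of_mem p0 hp0 fun p hp hne => if_neg fun hp' => ?_, if_pos hq]
  obtain ⟨z, hz⟩ := (Λ.conn n q).nonempty
  exact Set.disjoint_left.1 (hd p hp p0 hp0 hne) (hp' ▸ hz) (hq ▸ hz)

theorem h38_range {W : Set ℂ} (hW : W.Nonempty) {v : ℂ → ℝ} {η : ℝ}
    (h : ∀ z ∈ W, ∀ z' ∈ W, v z - v z' < η) : ∃ a, ∀ z ∈ W, v z ∈ Icc a (a + η) := by
  obtain ⟨z₀, hz₀⟩ := hW
  refine ⟨sInf (v '' W), fun z hz => ⟨csInf_le ⟨v z₀ - η, ?_⟩ ⟨z, hz, rfl⟩, ?_⟩⟩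
  · rintro _ ⟨w, hw, rfl⟩
    linarith [h z₀ hz₀ w hw]
  · rw [← sub_le_iff_le_add]
    refine le_csInf ⟨_, z, hz, rfl⟩ ?_
    rintro _ ⟨w, hw, rfl⟩
    linarith [h z hz w hw]

open Classical in
theorem h38_small (hU : IsOpen U) {Λ : Lumps U} {M : Set (ℂ → ℝ)} (hM : ∀ r ∈ M, Reg Λ r)
    (hC : CH Λ M) {c : ℂ → ℝ} (hx : XX U c) {ν : Set ℂ → ℝ} (hν : Super Λ ν) {t : Λ.E → ℝ}
    (ht : L2w t) (h : CB Λ M c ν t) {v : ℂ → ℝ} {e : Λ.E → ℝ} (hv : XX U v) (hb : Bdd U v)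
    (he : Adm Λ M ∅ v e) {n : ℕ} {p : Λ.E} {χ : ℂ → ℝ} (hχ : Ind Λ n p χ) {η : ℝ} (hη : 0 ≤ η)
    (hs : ∀ q, Λ.W n q = Λ.W n p → Λ.osc v q < η) :
    |om U (fun z => v z * χ z) c| ≤
      ν (Λ.W n p) * η + ∑' q, if Λ.W n q = Λ.W n p then t q * e q else 0 := by
  obtain ⟨N, hN⟩ := Λ.osc_unif hb {q | Λ.W n q = Λ.W n p} hs n fun q hq q' hq' => hq'.trans hq
  obtain ⟨m, hNm, hnm⟩ : ∃ m, N ≤ m ∧ n ≤ m := ⟨max N n, le_max_left _ _, le_max_right _ _⟩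
  obtain ⟨Q, hQ1, hQ2⟩ := Λ.exists_reps m
  choose I hI using fun p => exists_Ind hU Λ m p
  obtain ⟨N', hN'⟩ := A0.eq_val Λ hχ.1
  have hu := XX.mul_A0 hU Λ hv hχ.1
  have hu' := he.mul_A0 hU hχ.1
  have key : ∀ p' ∈ Q, |om U (fun z => v z * χ z * I p' z) c| ≤
      (if Λ.W n p' = Λ.W n p then ν (Λ.W m p') else 0) * η +
        ∑' q, if Λ.W m q = Λ.W m p' then t q * (|Λ.val χ q| * e q) else 0 := by
    intro p' _
    have hval : ∀ q, Λ.W m q = Λ.W m p' → ∀ z ∈ Λ.W (max m N') q,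
        χ z = if Λ.W n p' = Λ.W n p then 1 else 0 := fun q hq z hz => by
      rw [hN' _ (le_max_right _ _) q z hz, hχ.2 q, Λ.W_eq_of_le hnm hq]
    split_ifs with hp
    · obtain ⟨a, ha⟩ := h38_range (Λ.conn m p').nonempty (hN m hNm p' hp)
      refine h.osc_lump hU hM hC hx hu hu' (hI p').1 (a := a) hη fun q hq =>
        ⟨max m N', fun z hz => ?_⟩
      rw [hval q hq z hz, if_pos hp, mul_one]
      exact ha z (hq ▸ Λ.W_mono (le_max_left _ _) q hz)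
    · have := h.osc_lump hU hM hC hx hu hu' (hI p').1 (a := 0) le_rfl fun q hq =>
        ⟨max m N', fun z hz => by rw [hval q hq z hz, if_neg hp]; simp⟩
      simpa only [mul_zero, zero_mul] using this
  rw [om_eq_sum_lumps hU hQ1 hQ2 (fun p _ => (hI p).1) hu hx]
  refine (Finset.abs_sum_le_sum_abs _ _).trans ((Finset.sum_le_sum key).trans ?_)
  rw [Finset.sum_add_distrib, h38_tsum hQ1 hQ2 (ht.summable_mul hu'.l2).1, ← Finset.sum_mul,
    ← Finset.sum_filter]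
  refine add_le_add (mul_le_mul_of_nonneg_right (hν n m p _ hnm (fun q hq => ?_)
    fun q hq q' hq' => hQ2 q (Finset.mem_filter.1 hq).1 q' (Finset.mem_filter.1 hq').1) hη)
    (tsum_congr fun q => ?_).le
  · rw [← (Finset.mem_filter.1 hq).2]
    exact Λ.W_mono hnm q
  · rw [hχ.2 q]
    split_ifs <;> simp

open Classical in
theorem h38_two (hU : IsOpen U) {Λ : Lumps U} {M : Set (ℂ → ℝ)} (hM : ∀ r ∈ M, Reg Λ r)
    (hC : CH Λ M) {c : ℂ → ℝ} (hx : XX U c) {ν : Set ℂ → ℝ} (hν : Super Λ ν) {t : Λ.E → ℝ}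
    (ht : L2w t) (h : CB Λ M c ν t) {v : ℂ → ℝ} (hv : Reg Λ v) (hT : TT Λ M v) {ν₀ : ℝ}
    (h₀ : ∀ (m : ℕ) (Q : Finset Λ.E),
      (∀ q ∈ Q, ∀ q' ∈ Q, q ≠ q' → Disjoint (Λ.W m q) (Λ.W m q')) → ∑ q ∈ Q, ν (Λ.W m q) ≤ ν₀)
    {η η' : ℝ} (hη : 0 < η) (hη' : 0 < η') {F : Finset Λ.E} (hF : ∀ q, q ∉ F → Λ.osc v q < η) :
    |om U v c| ≤ ∑ p ∈ F, (atom Λ ν p + η') * (Λ.osc v p + 2 * η') + ν₀ * η +
      ∑' q, t q * Λ.osc v q := by
  have he := Adm.osc hU hM hC hv hT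
  obtain ⟨N, hN⟩ := Λ.exists_reps_of F
  have h1 : ∀ᶠ n in atTop, ∀ p ∈ F, ν (Λ.W n p) ≤ atom Λ ν p + η' ∧
      ∀ z ∈ Λ.W n p, v z ∈ Icc (Λ.lo v p - η') (Λ.hi v p + η') := by
    refine (eventually_all_finset F).2 fun p _ => ?_
    obtain ⟨N₁, h₁⟩ := hν.atom_near p hη'
    obtain ⟨N₂, h₂⟩ := Λ.near hv.bdd p hη'
    filter_upwards [eventually_ge_atTop N₁, eventually_ge_atTop N₂] with n a₁ a₂
    exact ⟨h₁ n a₁, fun z hz => h₂ z (Λ.W_mono a₂ p hz)⟩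
  obtain ⟨n, hn, hnN⟩ := (h1.and (eventually_ge_atTop N)).exists
  obtain ⟨Q, hFQ, hQ1, hQ2⟩ := hN n hnN
  choose I hI using fun p => exists_Ind hU Λ n p
  have key : ∀ p ∈ Q, |om U (fun z => v z * I p z) c| ≤
      ((if p ∈ F then (atom Λ ν p + η') * (Λ.osc v p + 2 * η') else 0) + ν (Λ.W n p) * η) +
        ∑' q, if Λ.W n q = Λ.W n p then t q * Λ.osc v q else 0 := by
    intro p hp
    split_ifs with hpF
    · have hB : 0 ≤ Λ.osc v p + 2 * η' := by linarith [Λ.osc_nonneg hv.bdd p]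
      refine (h.osc_lump hU hM hC hx hv.xx he (hI p).1 (a := Λ.lo v p - η') hB fun q hq =>
        ⟨n, fun z hz => ?_⟩).trans (add_le_add_left ?_ _)
      · have := (hn p hpF).2 z (hq ▸ hz)
        exact ⟨this.1, this.2.trans_eq (by unfold Lumps.osc; ring)⟩
      · exact le_add_of_le_of_nonneg (mul_le_mul_of_nonneg_right (hn p hpF).1 hB)
          (mul_nonneg (hν.nonneg n p) hη.le)
    · rw [zero_add]
      refine h38_small hU hM hC hx hν ht h hv.xx hv.bdd he (hI p).1 hη.le fun q hq =>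
        hF q fun hqF => ?_
      obtain ⟨z, hz⟩ := (Λ.conn n q).nonempty
      exact Set.disjoint_left.1 (hQ2 q (hFQ hqF) p hp fun e => hpF (e ▸ hqF)) hz (hq ▸ hz)
  rw [om_eq_sum_lumps hU hQ1 hQ2 (fun p _ => (hI p).1) hv.xx hx]
  refine (Finset.abs_sum_le_sum_abs _ _).trans ((Finset.sum_le_sum key).trans ?_)
  rw [Finset.sum_add_distrib, h38_tsum hQ1 hQ2 (ht.summable_mul he.l2).1, Finset.sum_add_distrib,
    ← Finset.sum_mul, Finset.sum_ite_mem, Finset.inter_eq_right.2 hFQ]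
  gcongr
  exact h₀ n Q hQ2

/-- Let `F = {osc v ≥ η}` (finite), `n₀` a level separating `F` with `ν (W n₀ p) ≤ atom p + η'`
and `Lumps.near` for `p ∈ F`.  Write `v = ∑_{p ∈ F} v χ_p + w`, `w = v (1 - ∑ χ_p)`, with weights
from `Adm.osc`, `Adm.mul_A0`.  For `v χ_p` use `CB.osc_lump` at level `n₀`.  For `w` use
`Lumps.osc_unif` on the ends outside the lumps of `F`, `om_eq_sum_lumps` at a high level,
`CB.osc_lump` with `B = η` and `Super.total`.  Let `η' → 0`, `η → 0`. -/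
theorem CB.osc (hU : IsOpen U) {Λ : Lumps U} {M : Set (ℂ → ℝ)} (hM : ∀ r ∈ M, Reg Λ r)
    (hC : CH Λ M) {c : ℂ → ℝ} (hx : XX U c) {ν : Set ℂ → ℝ} (hν : Super Λ ν) {t : Λ.E → ℝ}
    (ht : L2w t) (h : CB Λ M c ν t) {v : ℂ → ℝ} (hv : Reg Λ v) (hT : TT Λ M v) :
    |om U v c| ≤ ∑' q, Λ.osc v q * (atom Λ ν q + t q) := by
  obtain ⟨ν₀, -, h₀⟩ := hν.total
  have he := (Adm.osc hU hM hC hv hT).l2
  have hs := (he.summable_mul hν.atom_sum.2).1
  have h1 : ∀ η > 0, |om U v c| ≤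
      ∑' q, Λ.osc v q * atom Λ ν q + ν₀ * η + ∑' q, t q * Λ.osc v q := by
    intro η hη
    have hF := L2w.finite_big hv.sq hη
    have h2 : Tendsto (fun η' : ℝ => ∑ p ∈ hF.toFinset, (atom Λ ν p + η') * (Λ.osc v p + 2 * η') +
        ν₀ * η + ∑' q, t q * Λ.osc v q) (𝓝[>] 0)
        (𝓝 (∑ p ∈ hF.toFinset, (atom Λ ν p + 0) * (Λ.osc v p + 2 * 0) + ν₀ * η +
          ∑' q, t q * Λ.osc v q)) :=
      tendsto_nhdsWithin_of_tendsto_nhds (Continuous.tendsto (by fun_prop) 0)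
    refine (ge_of_tendsto h2 (eventually_mem_nhdsWithin.mono fun η' hη' =>
      h38_two hU hM hC hx hν ht h hv hT h₀ hη hη' fun q hq => ?_)).trans ?_
    · exact (le_abs_self _).trans_lt (not_le.1 fun h' => hq (hF.mem_toFinset.2 h'))
    · simp only [add_zero, mul_zero, mul_comm (atom Λ ν _)]
      gcongr
      exact hs.sum_le_tsum _ fun q _ => mul_nonneg (he.1 q) (hν.atom_nonneg q)
  have h3 : Tendsto (fun η : ℝ => ∑' q, Λ.osc v q * atom Λ ν q + ν₀ * η + ∑' q, t q * Λ.osc v q)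
      (𝓝[>] 0) (𝓝 (∑' q, Λ.osc v q * atom Λ ν q + ν₀ * 0 + ∑' q, t q * Λ.osc v q)) :=
    tendsto_nhdsWithin_of_tendsto_nhds (Continuous.tendsto (by fun_prop) 0)
  refine (ge_of_tendsto h3 (eventually_mem_nhdsWithin.mono h1)).trans_eq ?_
  rw [mul_zero, add_zero, ← hs.tsum_add (ht.summable_mul he).1]
  exact tsum_congr fun q => by ring

end Crest.Agent.R105
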