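import Crest.Agent.R105.KClip

/-! Row 105, block II: one step of the iteration. -/

set_option autoImplicit false

open MeasureTheory Set Filter Topology
open scoped ENNReal

namespace Crest.Agent.R105

variable {U : Set ℂ}

theorem KInv.good_γ (hU : IsOpen U) {Λ : Lumps U} {M : Set (ℂ → ℝ)} {ν : Set ℂ → ℝ}
    {t : Λ.E → ℝ} {s : KSt Λ} (h : KInv Λ M ν t s) : Good U s.γ := by
  obtain ⟨B₁, h₁⟩ := h.sg.bdd
  obtain ⟨B₂, h₂⟩ := h.good.bdd
  exact ⟨XX.add hU h.sg.xx h.good.xx,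
    ⟨B₁ + B₂, fun z hz => (abs_add_le _ _).trans (add_le_add (h₁ z hz) (h₂ z hz))⟩,
    h.c1.add h.good.c1⟩

theorem Clp.h24_lip {S : ℝ → ℝ} (hS : Clp S) (s s' : ℝ) : |S s - S s'| ≤ 1 * |s - s'| := by
  have h : LipschitzWith 1 S := lipschitzWith_of_nnnorm_deriv_le
    (hS.c2.differentiable (by norm_num)) fun t => by
      rw [← NNReal.coe_le_coe]
      exact hS.d1 t
  simpa [Real.dist_eq] using h.dist_le_mul s s'

theorem h24_bdd_add {u v : ℂ → ℝ} (hu : Bdd U u) (hv : Bdd U v) : Bdd U fun z => u z + v z := by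
  obtain ⟨A, hA⟩ := hu
  obtain ⟨B, hB⟩ := hv
  exact ⟨A + B, fun z hz => (abs_add_le _ _).trans (add_le_add (hA z hz) (hB z hz))⟩

theorem h24_bdd_sub {u v : ℂ → ℝ} (hu : Bdd U u) (hv : Bdd U v) : Bdd U fun z => u z - v z := by
  obtain ⟨A, hA⟩ := hu
  obtain ⟨B, hB⟩ := hv
  exact ⟨A + B, fun z hz => (abs_sub _ _).trans (add_le_add (hA z hz) (hB z hz))⟩

theorem h24_bdd_mul {u χ : ℂ → ℝ} (hu : Bdd U u) (h : ∀ z, 0 ≤ χ z ∧ χ z ≤ 1) :
    Bdd U fun z => u z * χ z := by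
  obtain ⟨A, hA⟩ := hu
  refine ⟨A, fun z hz => ?_⟩
  rw [abs_mul, abs_of_nonneg (h z).1]
  exact (mul_le_of_le_one_right (abs_nonneg _) (h z).2).trans (hA z hz)

theorem h24_sq_nrm {E : Type} (e : E → ℝ) : nrm e ^ 2 = ∑' q, e q ^ 2 :=
  Real.sq_sqrt (tsum_nonneg fun _ => sq_nonneg _)

open Classical in
/-- One lump `W = W n p`.  `χ` from `exists_Ind`; `RX` for `b χ` (`CB.lump`) gives `b'`, `κ`;
`k_approx` gives `l i → lam = b χ - b'`.  `S` from `exists_clp` for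
`[inf_W γ - C δ, sup_W γ + C δ]`, `gk i = σ + l i + b (1 - χ) → γ - b'`; new state
`σ + χ (S (gk i) - σ)`, `b - χ (b - b')`, `k + 1_W (k i + κ)`; the change of `γ` is
`S (gk i) χ - S (γ - b') χ` (`k_conv`); `Sg.glue` with `Sg.clp` for `σ + l i`; `CB.sub`. -/
theorem k_one (hU : IsOpen U) (hc : IsPreconnected U) {Λ : Lumps U} {M : Set (ℂ → ℝ)}
    (hF : Fam Λ M) (hC : CH Λ M) (hX : MAX Λ M) {C : ℝ} (h0 : 0 ≤ C) (hR : RX Λ M C)
    {ν : Set ℂ → ℝ} {t : Λ.E → ℝ} (ht : L2w t) {s : KSt Λ} (hs : KInv Λ M ν t s)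
    (X : Finset Λ.E) (n : ℕ) (p : Λ.E) {δ g η : ℝ} (hδ0 : 0 ≤ δ)
    (hδ : ν (Λ.W n p) + ∑ y ∈ X, (if Λ.W n y = Λ.W n p then t y + s.k y else 0) ≤ δ)
    (hg : 2 * C * δ < g) (hη : 0 < η) : ∃ s', KInv Λ M ν t s' ∧ Md Λ n {p} g η
      (8 * C ^ 2 * ∑' q, (if Λ.W n q = Λ.W n p ∧ q ∉ X then t q + s.k q else 0) ^ 2 + η)
      s s' := by
  have hM := hF.reg
  obtain ⟨χ, hχ, hχs, hχ01, hχ0, -⟩ := exists_Ind hU Λ n p
  have hχ1 : ContDiffOn ℝ 1 χ U := hχs.of_le (by exact_mod_cast le_top)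
  obtain ⟨N, hN⟩ := hχ.1.eq_val Λ
  have hin : ∀ q, Λ.W n q = Λ.W n p → ∀ z ∈ Λ.W N q, χ z = 1 := fun q hq z hz => by
    rw [hN N le_rfl q z hz, hχ.2, if_pos hq]
  have hout : ∀ q, Λ.W n q ≠ Λ.W n p → ∀ z ∈ Λ.W N q, χ z = 0 := fun q hq z hz => by
    rw [hN N le_rfl q z hz, hχ.2, if_neg hq]
  have hb := hs.good
  have hT : L2w fun q => t q + s.k q := (ht.add hs.sg.l2).1
  set T : Λ.E → ℝ := fun q => if Λ.W n q = Λ.W n p ∧ q ∉ X then t q + s.k q else 0 with hTdef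
  have hT' : L2w T := (hT.of_le (e := T) (fun q => by
    simp only [hTdef]; split_ifs; exacts [hT.1 q, le_rfl]) fun q => by
    simp only [hTdef]; split_ifs; exacts [le_rfl, hT.1 q]).1
  have hbχ : XX U fun z => s.b z * χ z := XX.mul_A0 hU Λ hb.xx hχ.1
  have hε : 0 < Real.sqrt (η / 8) := Real.sqrt_pos.2 (by positivity)
  obtain ⟨b', κ, hb1, hb2, hb3, hκ1, hκ2, hκ3, hl⟩ := hR _ δ T X hbχ hδ0 hT'
    (fun v e B hv hB he => CB.lump hU hC hb.xx hT hs.cb X hχ hδ hv hB he) _ hε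
  have hb4 : Bdd U b' := ⟨_, hb3⟩
  have hlam : XX U fun z => s.b z * χ z - b' z := XX.sub hU hbχ hb1
  obtain ⟨l, k, hl1, hl2, hl3, hl4, hl5⟩ := k_approx hU hc hF hC hlam hl
  have hγ := hs.good_γ hU
  obtain ⟨Bγ, hBγ⟩ := hγ.bdd
  have hWU : Λ.W n p ⊆ U := (Λ.sub n p).trans inter_subset_left
  have hne : (s.γ '' Λ.W n p).Nonempty := (Λ.conn n p).nonempty.image _
  have hlo : BddBelow (s.γ '' Λ.W n p) :=
    ⟨-Bγ, by rintro _ ⟨z, hz, rfl⟩; exact (abs_le.1 (hBγ z (hWU hz))).1⟩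
  have hhi : BddAbove (s.γ '' Λ.W n p) :=
    ⟨Bγ, by rintro _ ⟨z, hz, rfl⟩; exact (abs_le.1 (hBγ z (hWU hz))).2⟩
  have hCδ : 0 ≤ C * δ := mul_nonneg h0 hδ0
  obtain ⟨S, hS, hS1, hS2⟩ := exists_clp (A₁ := sInf (s.γ '' Λ.W n p) - C * δ)
    (A₂ := sSup (s.γ '' Λ.W n p) + C * δ) (η := g - 2 * C * δ)
    (by linarith [csInf_le_csSup hne hlo hhi]) (by linarith)
  have hSb : ∃ A, ∀ x, |S x| ≤ A := ⟨_, fun x => abs_le_max_abs_abs (hS2 x).1 (hS2 x).2⟩
  obtain ⟨A, hA⟩ := hSb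
  have h1χ : A0 U fun z => 1 - χ z := (A0.sub hU Λ (A0.const 1) hχ.1).1
  have hgk : ∀ i, XX U fun z => s.σ z + l i z + s.b z * (1 - χ z) := fun i =>
    XX.add hU (XX.add hU hs.sg.xx (hl1 i).xx) (XX.mul_A0 hU Λ hb.xx h1χ)
  have hcv := k_conv hU (g := fun z => s.γ z - b' z)
    (gk := fun i z => s.σ z + l i z + s.b z * (1 - χ z)) (XX.sub hU hγ.xx hb1) hgk hχ.1.xx hχ01 hS
    hA (by
      filter_upwards [hl4] with z hz hzU
      have := ((hz hzU).const_add (s.σ z)).add_const (s.b z * (1 - χ z))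
      convert this using 2
      simp only [KSt.γ]
      ring) (by
      convert hl5 using 4 with i z
      simp only [KSt.γ]
      ring)
  obtain ⟨i, hi⟩ := (hcv.eventually (ge_mem_nhds
    (ENNReal.ofReal_pos.2 (show 0 < η ^ 2 by positivity)))).exists
  have hSx : XX U fun z => S (s.σ z + l i z + s.b z * (1 - χ z)) :=
    XX.comp_lip hU hS.h24_lip (hgk i)
  have hκ' : ∀ {f : Λ.E → ℝ}, L2w f →
      L2w (fun q => if Λ.W n q = Λ.W n p then f q else 0) ∧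
        nrm (fun q => if Λ.W n q = Λ.W n p then f q else 0) ≤ nrm f := fun hf =>
    hf.of_le (fun q => by split_ifs; exacts [hf.1 q, le_rfl])
      fun q => by split_ifs; exacts [le_rfl, hf.1 q]
  have hkκ := (hl1 i).l2.add hκ1
  have hk' : L2w fun q => s.k q + if Λ.W n q = Λ.W n p then k i q + κ q else 0 :=
    (hs.sg.l2.add (hκ' hkκ.1).1).1
  have hlam' : XX U fun z => (s.b z - b' z) * χ z := XX.mul_A0 hU Λ (XX.sub hU hb.xx hb1) hχ.1
  have hb'' : Bdd U fun z => s.b z - (s.b z - b' z) * χ z :=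
    h24_bdd_sub hb.bdd (h24_bdd_mul (h24_bdd_sub hb.bdd hb4) hχ01)
  refine ⟨⟨fun z => s.σ z + (S (s.σ z + l i z + s.b z * (1 - χ z)) - s.σ z) * χ z,
    fun z => s.b z - (s.b z - b' z) * χ z,
    fun q => s.k q + if Λ.W n q = Λ.W n p then k i q + κ q else 0⟩, ⟨?_, ?_, ⟨?_, hb'', ?_⟩, ?_⟩,
    fun z hz => ?_, fun q => ?_, fun q hq => ?_, ?_, ?_, fun p' hp' a₁ a₂ ha z hz => ?_,
    fun p' hp' q hq => ?_⟩
  · refine (Sg.glue hU hM hs.sg (Sg.clp hU hM hC hX (Sg.add hU hM hs.sg (hl1 i))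
      (hs.c1.add (hl2 i)) hS) (XX.add hU hs.sg.xx (XX.mul_A0 hU Λ (XX.sub hU hSx hs.sg.xx) hχ.1))
      (h24_bdd_add hs.sg.bdd (h24_bdd_mul (h24_bdd_sub ⟨A, fun z _ => hA _⟩ hs.sg.bdd) hχ01))
      (n := n) (p := p) (fun q hq => ⟨N, fun z hz => ?_⟩) (fun q hq => ⟨N, fun z hz => ?_⟩)).mono
      hk' fun q => ?_
    · simp only [hin q hq z hz]
      ring_nf
    · simp only [hout q hq z hz]
      ring
    · dsimp only
      split_ifs
      · linarith [hκ1.1 q]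
      · linarith
  · exact hs.c1.add (((hS.c2.of_le (by norm_num)).comp_contDiffOn ((hs.c1.add (hl2 i)).add
      (hb.c1.mul (contDiffOn_const.sub hχ1)))).sub hs.c1 |>.mul hχ1)
  · exact XX.sub hU hb.xx hlam'
  · exact hb.c1.sub ((hb.c1.sub hb2).mul hχ1)
  · refine (CB.sub hU hb.xx hlam' hT (hκ' hκ1).1 hs.cb fun v e hv hvb he => ?_).mono
      (hT.add (hκ' hκ1).1).1 (ht.add hk').1 fun q => ?_
    · have e1 : om U v (fun z => (s.b z - b' z) * χ z) =
          om U v (fun z => (s.b z * χ z - b' z) * χ z) := by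
        refine om_germ_congr hU Λ hv.1 hv.1 hlam' (XX.mul_A0 hU Λ hlam hχ.1) fun q =>
          ⟨N, 0, 0, fun z _ => (add_zero _).symm, fun z hz => ?_⟩
        by_cases hq : Λ.W n q = Λ.W n p
        · simp only [hin q hq z hz]
          ring
        · simp only [hout q hq z hz]
          ring
      have e2 := he.mul_A0 hU hχ.1
      rw [e1, ← om_mul_swap hU Λ hv.1 hlam hχ.1]
      refine (hκ3 _ _ (hv.mul_A0 hU hχ.1) (h24_bdd_mul hvb hχ01)
        (e2.mono hM (Finset.empty_subset X) e2.l2 fun _ _ => le_rfl)).trans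
        (le_of_eq (tsum_congr fun q => ?_))
      rw [hχ.2]
      split_ifs <;> simp
    · show t q + s.k q + _ ≤ t q + (s.k q + _)
      split_ifs
      · linarith [(hl1 i).l2.1 q]
      · linarith
  · have := hχ0 z (hz p (Finset.mem_singleton_self p))
    simp [this]
  · show s.k q ≤ s.k q + _
    split_ifs
    · linarith [hkκ.1.1 q]
    · linarith
  · show s.k q + _ = s.k q
    rw [if_neg (hq p (Finset.mem_singleton_self p)), add_zero]
  · simp only [add_sub_cancel_left]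
    rw [← h24_sq_nrm, ← h24_sq_nrm]
    have e1 := ((hκ' hkκ.1).2.trans hkκ.2).trans (add_le_add (hl3 i) hκ2)
    have e2 := Real.sq_sqrt (show 0 ≤ η / 8 by positivity)
    refine (pow_le_pow_left₀ (Real.sqrt_nonneg _) e1 2).trans ?_
    nlinarith [sq_nonneg (C * nrm T - Real.sqrt (η / 8))]
  · refine le_trans (le_of_eq (En_congr hU fun z hzU => ?_)) hi
    by_cases hz : z ∈ Λ.W n p
    · have e1 := csInf_le hlo (mem_image_of_mem _ hz)
      have e2 := le_csSup hhi (mem_image_of_mem _ hz)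
      have e3 := abs_le.1 (hb3 z hzU)
      rw [hS1 (s.γ z - b' z) ⟨by linarith [e3.2], by linarith [e3.1]⟩]
      simp only [KSt.γ]
      ring
    · simp [KSt.γ, hχ0 z hz]
  · rw [Finset.mem_singleton.1 hp'] at ha hz
    have e1 : a₁ ≤ sInf (s.γ '' Λ.W n p) :=
      le_csInf hne (by rintro _ ⟨w, hw, rfl⟩; exact (ha w hw).1)
    have e2 : sSup (s.γ '' Λ.W n p) ≤ a₂ :=
      csSup_le hne (by rintro _ ⟨w, hw, rfl⟩; exact (ha w hw).2)
    have e3 := abs_le.1 (hb3 z (hWU hz))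
    have e4 := hS2 (s.σ z + l i z + s.b z * (1 - χ z))
    have e5 := ha z hz
    have e6 := hχ01 z
    simp only [KSt.γ, mem_Icc] at e5 ⊢
    have hg0 : 0 ≤ g := by linarith
    constructor
    · nlinarith [mul_nonneg e6.1 (show 0 ≤ S (s.σ z + l i z + s.b z * (1 - χ z)) + b' z - (a₁ - g)
        by linarith [e4.1, e3.1]), mul_nonneg (sub_nonneg.2 e6.2)
        (show 0 ≤ s.σ z + s.b z - (a₁ - g) by linarith [e5.1])]
    · nlinarith [mul_nonneg e6.1 (show 0 ≤ a₂ + g - (S (s.σ z + l i z + s.b z * (1 - χ z)) + b' z)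
        by linarith [e4.2, e3.2]), mul_nonneg (sub_nonneg.2 e6.2)
        (show 0 ≤ a₂ + g - (s.σ z + s.b z) by linarith [e5.2])]
  · rw [Finset.mem_singleton.1 hp'] at hq
    refine Λ.osc_le hb'' fun ζ hζ => ⟨N, fun z hz z' hz' => ?_⟩
    have e1 := abs_le.1 (hb3 z (Λ.sub _ _ hz).1)
    have e2 := abs_le.1 (hb3 z' (Λ.sub _ _ hz').1)
    simp only [hin q hq z hz, hin q hq z' hz']
    linarith [e1.2, e2.1]

/-- induction on `Q` (generalising `η`), halving `η`; the increments of `k` have disjoint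
supports (`Md.koff`), so their squares add -/
theorem k_multi (hU : IsOpen U) {Λ : Lumps U} {M : Set (ℂ → ℝ)} {ν : Set ℂ → ℝ} {t : Λ.E → ℝ}
    (n : ℕ) {g : ℝ} (x : Λ.E → ℝ) {s : KSt Λ} (hs : KInv Λ M ν t s) (Q : Finset Λ.E)
    (hQ : ∀ p ∈ Q, ∀ p' ∈ Q, p ≠ p' → Disjoint (Λ.W n p) (Λ.W n p'))
    (h : ∀ p ∈ Q, ∀ s', KInv Λ M ν t s' → (∀ q, Λ.W n q = Λ.W n p → s'.k q = s.k q) →
      ∀ η > 0, ∃ s'', KInv Λ M ν t s'' ∧ Md Λ n {p} g η (x p + η) s' s'')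
    {η : ℝ} (hη : 0 < η) :
    ∃ s', KInv Λ M ν t s' ∧ Md Λ n Q g η (∑ p ∈ Q, x p + η) s s' := by
  classical
  induction Q using Finset.induction_on generalizing η with
  | empty =>
    exact ⟨s, hs, fun _ _ => ⟨rfl, rfl⟩, fun _ => le_rfl, fun _ _ => rfl, by simpa using hη.le,
      Cl.refl _ _, by simp, by simp⟩
  | insert p Q hp ih =>
    have hη2 : 0 < η / 2 := half_pos hη
    obtain ⟨s₁, k₁, m₁⟩ := ih
      (fun a ha b hb => hQ a (Finset.mem_insert_of_mem ha) b (Finset.mem_insert_of_mem hb))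
      (fun a ha => h a (Finset.mem_insert_of_mem ha)) hη2
    have hd : ∀ a ∈ Q, ∀ z ∈ Λ.W n p, z ∉ Λ.W n a := fun a ha z hz =>
      Set.disjoint_left.1 (hQ p (Finset.mem_insert_self _ _) a (Finset.mem_insert_of_mem ha)
        fun e => hp (e ▸ ha)) hz
    have hk1 : ∀ q, Λ.W n q = Λ.W n p → s₁.k q = s.k q := fun q e =>
      m₁.koff q fun a ha e' => by
        obtain ⟨z, hz⟩ := (Λ.conn n p).nonempty
        exact hd a ha z hz (e' ▸ e ▸ hz)
    obtain ⟨s₂, k₂, m₂⟩ := h p (Finset.mem_insert_self _ _) s₁ k₁ hk1 _ hη2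
    have hk2 : ∀ q, Λ.W n q ≠ Λ.W n p → s₂.k q = s₁.k q := fun q e =>
      m₂.koff q fun a ha => by rw [Finset.mem_singleton.1 ha]; exact e
    have ho2 : ∀ z, z ∉ Λ.W n p → s₂.σ z = s₁.σ z ∧ s₂.b z = s₁.b z := fun z hz =>
      m₂.off z fun a ha => by rw [Finset.mem_singleton.1 ha]; exact hz
    have ho1 : ∀ z ∈ Λ.W n p, s₁.σ z = s.σ z ∧ s₁.b z = s.b z := fun z hz =>
      m₁.off z fun a ha => hd a ha z hz
    refine ⟨s₂, k₂, fun z hz => ?_, fun q => (m₁.kle q).trans (m₂.kle q), fun q hq => ?_, ?_, ?_,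
      fun a ha a₁ a₂ hr z hz => ?_, fun a ha q e => ?_⟩
    · have e1 := m₁.off z fun a ha => hz a (Finset.mem_insert_of_mem ha)
      have e2 := ho2 z (hz p (Finset.mem_insert_self _ _))
      exact ⟨e2.1.trans e1.1, e2.2.trans e1.2⟩
    · rw [hk2 q (hq p (Finset.mem_insert_self _ _)),
        m₁.koff q fun a ha => hq a (Finset.mem_insert_of_mem ha)]
    · have l1 := (L2w.of_le (e := fun q => s₁.k q - s.k q) k₁.sg.l2
        (fun q => sub_nonneg.2 (m₁.kle q)) fun q => sub_le_self _ (hs.sg.l2.1 q)).1.2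
      have l2 := (L2w.of_le (e := fun q => s₂.k q - s₁.k q) k₂.sg.l2
        (fun q => sub_nonneg.2 (m₂.kle q)) fun q => sub_le_self _ (k₁.sg.l2.1 q)).1.2
      have e : ∀ q, (s₂.k q - s.k q) ^ 2 = (s₂.k q - s₁.k q) ^ 2 + (s₁.k q - s.k q) ^ 2 :=
        fun q => by
          by_cases hq : Λ.W n q = Λ.W n p
          · rw [hk1 q hq]; ring
          · rw [hk2 q hq]; ring
      rw [tsum_congr e, l2.tsum_add l1, Finset.sum_insert hp]
      linarith [m₁.ksq, m₂.ksq]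
    · have := Cl.trans hU (k₂.good_γ hU).xx (k₁.good_γ hU).xx (hs.good_γ hU).xx hη2.le hη2.le
        m₂.cl m₁.cl
      rwa [add_halves] at this
    · rcases Finset.mem_insert.1 ha with rfl | ha'
      · refine m₂.rng a (Finset.mem_singleton_self _) a₁ a₂ (fun y hy => ?_) z hz
        have e := ho1 y hy
        have := hr y hy
        simp only [KSt.γ] at this ⊢
        rwa [e.1, e.2]
      · have e := ho2 z fun hz' => hd a ha' z hz' hz
        have := m₁.rng a ha' a₁ a₂ hr z hz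
        simp only [KSt.γ] at this ⊢
        rwa [e.1, e.2]
    · rcases Finset.mem_insert.1 ha with rfl | ha'
      · exact m₂.oscb a (Finset.mem_singleton_self _) q e
      · have := Λ.lo_congr k₂.good.bdd k₁.good.bdd (q := q) fun θ hθ => ⟨n, fun z hz => by
          rw [(ho2 z fun hz' => hd a ha' z hz' (e ▸ hz)).2, sub_self, abs_zero]; exact hθ.le⟩
        have h3 := m₁.oscb a ha' q e
        simp only [Lumps.osc] at h3 ⊢
        rwa [this.1, this.2]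

/-- `Super.level`, `Lumps.exists_reps_of`, `Lumps.near`, `Lumps.koenig` with `f q ≥ n`;
`Q` = representatives whose lump is not a lump of `Y` -/
theorem k_level {Λ : Lumps U} {ν : Set ℂ → ℝ} (h : Super Λ ν) {γ : ℂ → ℝ} (hγ : Bdd U γ)
    (Y Y' : Finset Λ.E) {δ : ℝ} (hδ : 0 < δ) (hY : ∀ q, q ∉ Y → atom Λ ν q < δ) (n : ℕ) :
    ∃ m Q, Lev Λ ν γ Y Y' δ n m Q := by
  classical
  obtain ⟨N₁, hN₁⟩ := h.level Y hδ hY
  obtain ⟨N₂, hN₂⟩ := Λ.exists_reps_of Y'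
  have hf : ∀ q, ∃ k, n ≤ k ∧ ∀ z ∈ Λ.W k q, ∀ z' ∈ Λ.W k q, γ z - γ z' ≤ Λ.osc γ q + δ := by
    intro q
    obtain ⟨k, hk⟩ := Λ.near hγ q (half_pos hδ)
    refine ⟨max n k, le_max_left _ _, fun z hz z' hz' => ?_⟩
    have h1 := (hk z (Λ.W_mono (le_max_right _ _) q hz)).2
    have h2 := (hk z' (Λ.W_mono (le_max_right _ _) q hz')).1
    unfold Lumps.osc
    linarith
  choose f hfn hf using hf
  obtain ⟨N₃, hN₃⟩ := Λ.koenig f
  obtain ⟨m, hm0, hm1, hm2, hm3, hm4⟩ : ∃ m, n < m ∧ N₁ ≤ m ∧ N₂ ≤ m ∧ N₃ ≤ m ∧ Y.sup f ≤ m :=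
    ⟨n + 1 + N₁ + N₂ + N₃ + Y.sup f, by omega, by omega, by omega, by omega, by omega⟩
  obtain ⟨Q, hYQ, hQ1, hQ2⟩ := hN₂ m hm2
  refine ⟨m, Q.filter fun p => ∀ y ∈ Y, Λ.W m y ≠ Λ.W m p, hm0,
    fun p hp p' hp' => hQ2 p (Finset.mem_filter.1 hp).1 p' (Finset.mem_filter.1 hp').1,
    fun p hp => hN₁ m hm1 p (Finset.mem_filter.1 hp).2,
    fun p hp y hy => (Λ.part m p y).resolve_left fun e => (Finset.mem_filter.1 hp).2 y hy e.symm,
    fun q hq => ?_, fun y hy y' hy' hne e => ?_, fun q => ?_, fun y hy z hz z' hz' => ?_⟩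
  · obtain ⟨p, hp, e⟩ := hQ1 q
    exact ⟨p, Finset.mem_filter.2 ⟨hp, fun y hy => e ▸ hq y hy⟩, e⟩
  · obtain ⟨z, hz⟩ := (Λ.conn m y).nonempty
    exact Set.disjoint_left.1 (hQ2 y (hYQ hy) y' (hYQ hy') hne) hz (e ▸ hz)
  · obtain ⟨q', h1, h2⟩ := hN₃ q
    refine ⟨q', Λ.W_eq_of_le (hfn q') h2.symm, fun z hz z' hz' => ?_⟩
    exact hf q' z (h2 ▸ Λ.W_mono (h1.trans hm3) q hz) z' (h2 ▸ Λ.W_mono (h1.trans hm3) q hz')
  · have h1 : f y ≤ m := (Finset.le_sup (f := f) hy).trans hm4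
    exact hf y z (Λ.W_mono h1 y hz) z' (Λ.W_mono h1 y hz')

theorem h55_sum_le {E : Type} {Q : Finset E} {f : E → ℝ} {a : ℝ} (ha : 0 ≤ a)
    (h1 : ∀ p ∈ Q, f p ≤ a) (h2 : ∀ p ∈ Q, ∀ p' ∈ Q, f p ≠ 0 → f p' ≠ 0 → p = p') :
    ∑ p ∈ Q, f p ≤ a := by
  by_cases h : ∃ p ∈ Q, f p ≠ 0
  · obtain ⟨p, hp, h0⟩ := h
    rw [Finset.sum_eq_single_of_mem p hp fun p' hp' hne => by_contra fun h' =>
      hne (h2 p' hp' p hp h' h0)]
    exact h1 p hp
  · rw [Finset.sum_eq_zero fun p hp => by_contra fun h' => h ⟨p, hp, h'⟩]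
    exact ha

/-- `X` from `L2w.tail` for `t + k`, `Y' = Z' ∪ X`, `k_level`; a lump of `Q` contains at most one
point of `X` (`Lev.sep`), which is not in `Z` (`Lev.miss`), so `k_one` applies with `3 δ`;
`k_multi`; the sums over the disjoint lumps add up to at most the tail of `t + k`. -/
theorem k_stage (hU : IsOpen U) (hc : IsPreconnected U) {Λ : Lumps U} {M : Set (ℂ → ℝ)}
    (hF : Fam Λ M) (hC : CH Λ M) (hX : MAX Λ M) {C : ℝ} (h0 : 0 ≤ C) (hR : RX Λ M C)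
    {ν : Set ℂ → ℝ} (hν : Super Λ ν) {t : Λ.E → ℝ} (ht : L2w t) {s : KSt Λ}
    (hs : KInv Λ M ν t s) (Z Z' : Finset Λ.E) {δ : ℝ} (hδ : 0 < δ)
    (hZ : ∀ q, q ∉ Z → atom Λ ν q < δ ∧ t q + s.k q ≤ 2 * δ) (n : ℕ) {ζ : ℝ} (hζ : 0 < ζ) :
    ∃ m Q Y' s', Z' ⊆ Y' ∧ Lev Λ ν s.γ Z Y' δ n m Q ∧ KInv Λ M ν t s' ∧
      Md Λ m Q ((6 * C + 1) * δ) ζ (ζ ^ 2) s s' := by
  classical
  have hw : L2w fun q => t q + s.k q := (ht.add hs.sg.l2).1
  obtain ⟨X, hX'⟩ := hw.tail (θ := ζ / (4 * C + 2)) (by positivity)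
  have hT := hX' X le_rfl
  obtain ⟨m, Q, hL⟩ := k_level hν (hs.good_γ hU).bdd Z (Z' ∪ X) hδ (fun q hq => (hZ q hq).1) n
  have hne : ∀ {p q : Λ.E}, Λ.W m q = Λ.W m p → ¬Disjoint (Λ.W m p) (Λ.W m q) := fun e h => by
    rw [e, disjoint_self] at h
    exact (Λ.conn m _).nonempty.ne_empty h
  obtain ⟨s', hs', hM⟩ := k_multi hU m (g := (6 * C + 1) * δ) (fun p => 8 * C ^ 2 *
    ∑' q, (if Λ.W m q = Λ.W m p ∧ q ∉ X then t q + s.k q else 0) ^ 2) hs Q hL.disj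
    (fun p hp s' hs' hk η hη => by
      obtain ⟨s'', a1, a2⟩ := k_one hU hc hF hC hX h0 hR ht hs' X m p (δ := 3 * δ)
        (g := (6 * C + 1) * δ) (by positivity) (by
          have := h55_sum_le (Q := X) (a := 2 * δ)
            (f := fun y => if Λ.W m y = Λ.W m p then t y + s'.k y else 0) (by positivity)
            (fun y _ => by
              split_ifs with e
              · rw [hk y e]
                exact (hZ y fun hy => hne e (hL.miss p hp y hy)).2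
              · positivity)
            fun y hy y' hy' e e' => by_contra fun h =>
              hL.sep y (Finset.mem_union_right _ hy) y' (Finset.mem_union_right _ hy') h
                ((ite_ne_right_iff.1 e).1.trans (ite_ne_right_iff.1 e').1.symm)
          linarith [hL.small p hp]) (by nlinarith) hη
      refine ⟨s'', a1, ?_⟩
      have e : ∑' q, (if Λ.W m q = Λ.W m p ∧ q ∉ X then t q + s.k q else 0) ^ 2 =
          ∑' q, (if Λ.W m q = Λ.W m p ∧ q ∉ X then t q + s'.k q else 0) ^ 2 :=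
        tsum_congr fun q => by
          split_ifs with e
          exacts [by rw [hk q e.1], rfl]
      rw [e]
      exact a2) (η := min ζ (ζ ^ 2 / 2)) (by positivity)
  refine ⟨m, Q, _, s', Finset.subset_union_left, hL, hs', hM.off, hM.kle, hM.koff,
    hM.ksq.trans ?_, hM.cl.mono (by positivity) (min_le_left _ _), hM.rng, hM.oscb⟩
  have b1 : ∀ (P : Λ.E → Prop) [DecidablePred P],
      Summable fun q => (if P q then t q + s.k q else 0) ^ 2 := fun P _ =>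
    (hw.of_le (fun q => by split_ifs; exacts [hw.1 q, le_rfl])
      fun q => by split_ifs; exacts [le_rfl, hw.1 q]).1.2
  have b2 : ∑ p ∈ Q, ∑' q, (if Λ.W m q = Λ.W m p ∧ q ∉ X then t q + s.k q else 0) ^ 2 ≤
      (ζ / (4 * C + 2)) ^ 2 := by
    rw [← Summable.tsum_finsetSum fun p _ => b1 _]
    refine le_trans ?_ (pow_le_pow_left₀ (L2w.nrm_nonneg _) hT 2)
    rw [L2w.nrm_sq]
    refine (summable_sum fun p _ => b1 _).tsum_le_tsum (fun q => ?_)
      ((b1 (· ∉ X)).congr fun q => by simp only [ite_not])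
    refine h55_sum_le (sq_nonneg _) (fun p _ => ?_) fun p hp p' hp' e e' => by_contra fun h =>
      hne ((ite_ne_right_iff.1 (ne_zero_pow two_ne_zero e')).1.1.symm.trans
        (ite_ne_right_iff.1 (ne_zero_pow two_ne_zero e)).1.1) (hL.disj p hp p' hp' h)
    by_cases e : Λ.W m q = Λ.W m p ∧ q ∉ X
    · rw [if_pos e, if_neg e.2]
    · rw [if_neg e, zero_pow two_ne_zero]
      exact sq_nonneg _
  have b3 : 8 * C ^ 2 * (ζ / (4 * C + 2)) ^ 2 ≤ ζ ^ 2 / 2 := by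
    rw [div_pow, ← mul_div_assoc, div_le_div_iff₀ (by positivity) two_pos]
    nlinarith [mul_nonneg (sq_nonneg ζ) h0, sq_nonneg ζ]
  rw [← Finset.mul_sum]
  have b4 := mul_le_mul_of_nonneg_left b2 (show 0 ≤ 8 * C ^ 2 by positivity)
  linarith [min_le_right ζ (ζ ^ 2 / 2)]

/-- the starting state: `L2w.tail`, `CB.global`, `RX` for `c` itself, `Sg.of_LL`, `Sg.smooth`,
`CB.sub` with `lam = c - b`, weight `k + κ` -/
theorem k_start (hU : IsOpen U) {Λ : Lumps U} {M : Set (ℂ → ℝ)} (hF : Fam Λ M) (hC : CH Λ M)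
    {C : ℝ} (h0 : 0 ≤ C) (hR : RX Λ M C) {c : ℂ → ℝ} (hx : XX U c) {ν : Set ℂ → ℝ}
    (hν : Super Λ ν) {t : Λ.E → ℝ} (ht : L2w t) (h : CB Λ M c ν t) {η : ℝ} (hη : 0 < η) :
    ∃ s, KInv Λ M ν t s ∧ nrm s.k ≤ η ∧ Cl U s.γ c η := by
  classical
  have hθ : 0 < η / (4 * (C + 1)) := by positivity
  obtain ⟨X, hX⟩ := ht.tail hθ
  have hX' := hX X (Finset.Subset.refl X)
  obtain ⟨δ, hδ0, hδ⟩ := CB.global hU hC hx hν ht h X
  have ht' := (L2w.of_le ht (e := fun q => if q ∈ X then 0 else t q)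
    (fun q => by by_cases hq : q ∈ X <;> simp [hq, ht.1 q])
    (fun q => by by_cases hq : q ∈ X <;> simp [hq, ht.1 q])).1
  obtain ⟨b, κ, hb, hb1, hbb, hκ, hκn, hp, hs⟩ :=
    hR c δ _ X hx hδ0 ht' hδ (η / 4) (by positivity)
  obtain ⟨l, k, hl, hkn, hE⟩ := hs ((η / 2) ^ 2) (by positivity)
  have hsg := Sg.of_LL hU hF hC hl
  obtain ⟨σ, hσ, hσ1, -, hσc⟩ := hsg.smooth hU hF.reg (show 0 < η / 2 by positivity)
  have hC4 : C * (η / (4 * (C + 1))) ≤ η / 4 := by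
    rw [← mul_div_assoc, div_le_div_iff₀ (by positivity) (by positivity)]
    nlinarith
  have hCn := (mul_le_mul_of_nonneg_left hX' h0).trans hC4
  have hadd := hσ.l2.add hκ
  have hcb := CB.sub hU hx (hx.sub hU hb) ht hκ h fun v e hv hvb he =>
    hp v e hv hvb (he.mono hF.reg (Finset.empty_subset X) he.l2 fun _ _ => le_rfl)
  have e1 : (fun z => c z - (c z - b z)) = b := funext fun z => sub_sub_cancel _ _
  rw [e1] at hcb
  refine ⟨⟨σ, b, fun q => k q + κ q⟩, ⟨hσ.mono hadd.1 fun q => le_add_of_nonneg_right (hκ.1 q),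
    hσ1, ⟨hb, ⟨_, hbb⟩, hb1⟩, hcb.mono (ht.add hκ).1 (ht.add hadd.1).1 fun q => ?_⟩,
    hadd.2.trans (by linarith), ?_⟩
  · have := hσ.l2.1 q
    change t q + κ q ≤ t q + (k q + κ q)
    linarith
  · have c1 : Cl U (fun z => σ z + b z) (fun z => l z + b z) (η / 2) := by
      have e : (fun z => σ z + b z - (l z + b z)) = fun z => σ z - l z :=
        funext fun z => by ring
      unfold Cl at hσc ⊢
      rw [e]; exact hσc
    have c2 : Cl U c (fun z => l z + b z) (η / 2) := by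
      have e : (fun z => c z - (l z + b z)) = fun z => c z - b z - l z :=
        funext fun z => by ring
      unfold Cl
      rw [e]; exact hE
    have c3 := Cl.trans hU (hσ.xx.add hU hb) (hsg.xx.add hU hb) hx (by positivity)
      (by positivity) c1 c2.symm
    rw [add_halves] at c3
    exact c3

end Crest.Agent.R105
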