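import Crest.Agent.R105.LFar
import Crest.Agent.R105.KBase
import Crest.Agent.R105.EQ1
import Crest.Agent.R105.HP

/-! Row 105, block AT: construction of the regular substitute near one atom. -/

set_option autoImplicit false

open MeasureTheory Set Filter Topology
open scoped ENNReal Classical

namespace Crest.Agent.R105

variable {U : Set ℂ} {Λ : Lumps U} {M : Set (ℂ → ℝ)}

/-- nested cut-offs around the end `q` -/
structure Nest (Λ : Lumps U) (q : Λ.E) (n : ℕ → ℕ) (χ : ℕ → ℂ → ℝ) : Prop where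
  mono : StrictMono n
  ind : ∀ i, Ind Λ (n i) q (χ i)
  supp : ∀ i z, z ∉ Λ.W (n i) q → χ i z = 0
  one : ∀ i, ∀ z ∈ Λ.W (n (i + 1)) q, χ i z = 1
  abs : ∀ i z, |χ i z| ≤ 1

/-- choose `c m` by `exists_Ind` for every level `m` and `N m` by `A0.eq_val`; `n 0 = N`,
`n (i+1) = max (n i + 1) (N (n i))`, `χ i = c (n i)`. -/
theorem exists_nest (hU : IsOpen U) (q : Λ.E) (N : ℕ) :
    ∃ n χ, N ≤ n 0 ∧ Nest Λ q n χ := by
  choose c hc _ h01 h0 _ using fun m => exists_Ind hU Λ m q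
  choose P hP using fun m => A0.eq_val Λ (hc m).1
  obtain ⟨n, hn0, hns⟩ : ∃ n : ℕ → ℕ, n 0 = N ∧ ∀ i, n (i + 1) = max (n i + 1) (P (n i)) :=
    ⟨fun i => Nat.rec N (fun _ m => max (m + 1) (P m)) i, rfl, fun _ => rfl⟩
  refine ⟨n, fun i => c (n i), hn0.ge, strictMono_nat_of_lt_succ fun i => ?_, fun i => hc _,
    fun i => h0 _, fun i z hz => ?_, fun i z => ?_⟩
  · rw [hns]; exact lt_of_lt_of_le (Nat.lt_succ_self _) (le_max_left _ _)
  · rw [hP (n i) (n (i + 1)) (by rw [hns]; exact le_max_right _ _) q z hz, (hc (n i)).2 q,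
      if_pos rfl]
  · rw [abs_of_nonneg (h01 _ z).1]; exact (h01 _ z).2

/-- the single atom hypothesis -/
def At0 (Λ : Lumps U) (M : Set (ℂ → ℝ)) (lam : ℂ → ℝ) (k : Λ.E → ℝ) (q : Λ.E) : Prop :=
  ∀ v e, TT Λ M v → Bdd U v → Adm Λ M ∅ v e → Λ.osc v q ≤ e q →
    |om U v lam| ≤ ∑' q', k q' * e q'

/-- the ends of the `j`-th annulus -/
def Ann (Λ : Lumps U) (q : Λ.E) (n : ℕ → ℕ) (j : ℕ) (q' : Λ.E) : Prop :=
  Λ.W (n (j + 1)) q' = Λ.W (n (j + 1)) q ∧ Λ.W (n (j + 2)) q' ≠ Λ.W (n (j + 2)) q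

/-- One annulus.  `φ = χ (j+1) - χ (j+2) ∈ A0` has `val φ q' = 1` on `Ann j`, `0` otherwise
(`A0.sub`, `Lumps.W_eq_of_le`).  `r0` with `F = ∅`, `τ = nrm (k on Ann j)`: for bounded `v ∈ T`
with weight `e` the function `v φ` has the weight `|val φ| e` (`Adm.mul_A0`), vanishes near `q`
(oscillation `0`, `val_eq`/`Lumps.osc_le`), so `At0` and `L2w.summable_mul` apply.  Then
`cut_close` with `ψ = χ j * (1 - χ (j+3))` (`lam φ ψ = lam φ` pointwise by `Nest.supp/one`) and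
`P l := ∃ k', LL l k' ∧ nrm k' ≤ s ∧ Sp k'`; `(l + c) ψ ∈ LL` with the smaller weight
`|val ψ| (k' + 0)` (`LL.add`, `LL.const`, `LL.mul_A0`, `L2w.of_le`; `val ψ ∈ {0, 1}`). -/
theorem at_piece (hU : IsOpen U) (hc : IsPreconnected U) (hM : ∀ r ∈ M, Reg Λ r) (hC : CH Λ M)
    {lam : ℂ → ℝ} {k : Λ.E → ℝ} {q : Λ.E} (hl : XX U lam) (hk : L2w k) (h : At0 Λ M lam k q)
    {n : ℕ → ℕ} {χ : ℕ → ℂ → ℝ} (hn : Nest Λ q n χ) (j : ℕ) {δ ε : ℝ} (hδ : 0 < δ) (hε : 0 < ε) :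
    ∃ l k', LL Λ M l k' ∧ nrm k' ≤ nrm (fun q' => if Ann Λ q n j q' then k q' else 0) + δ ∧
      (∀ q', ¬ Ann Λ q n j q' → k' q' = 0) ∧
      En U (fun z => l z - lam z * (χ (j + 1) z - χ (j + 2) z)) ≤ ENNReal.ofReal ε ∧
      (∀ z, z ∉ Λ.W (n j) q → l z = 0) ∧ ∀ z ∈ Λ.W (n (j + 4)) q, l z = 0 := by
  have le : ∀ {a b : ℕ}, a ≤ b → n a ≤ n b := fun h => hn.mono.monotone h
  obtain ⟨hφ, vφ⟩ := (hn.ind (j + 1)).1.sub hU Λ (hn.ind (j + 2)).1
  have vφ' : ∀ q', Λ.val (fun z => χ (j + 1) z - χ (j + 2) z) q' =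
      if Ann Λ q n j q' then 1 else 0 := fun q' => by
    rw [vφ, (hn.ind _).2, (hn.ind _).2]
    by_cases b : Λ.W (n (j + 2)) q' = Λ.W (n (j + 2)) q
    · simp [Ann, b, Λ.W_eq_of_le (le (Nat.le_succ (j + 1))) b]
    · simp [Ann, b]
  have z3 : ∀ z ∈ Λ.W (n (j + 3)) q, χ (j + 1) z - χ (j + 2) z = 0 := fun z hz => by
    rw [hn.one (j + 2) z hz, hn.one (j + 1) z (Λ.W_mono (le (Nat.le_succ _)) q hz), sub_self]
  obtain ⟨h1, v1⟩ := (A0.const (U := U) 1).sub hU Λ (hn.ind (j + 3)).1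
  obtain ⟨hψ, vψ⟩ := (hn.ind j).1.mul hU Λ h1
  have vψ' : ∀ q', |Λ.val (fun z => χ j z * (1 - χ (j + 3) z)) q'| ≤ 1 := fun q' => by
    rw [vψ, v1, (hn.ind _).2, (hn.ind _).2,
      (val_eq Λ ((A0.const (U := U) 1).bdd Λ) (n := 0) fun _ _ => rfl).1]
    split_ifs <;> simp
  have ha : L2w fun q' => if Ann Λ q n j q' then k q' else 0 :=
    (hk.of_le (fun q' => by split_ifs; exacts [hk.1 q', le_rfl])
      fun q' => by split_ifs; exacts [le_rfl, hk.1 q']).1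
  have key := fun ε (hε : ε > 0) => r0 hU hc hM hC hl hφ
    (fun q' => by rw [vφ']; split_ifs <;> simp) ∅ (L2w.nrm_nonneg _)
    (lt_add_of_pos_right (nrm fun q' => if Ann Λ q n j q' then k q' else 0) hδ)
    (fun v e hv hb he => by
      have he' := he.mul_A0 hU hφ
      have hb' : Bdd U fun z => v z * (χ (j + 1) z - χ (j + 2) z) := by
        obtain ⟨B, hB⟩ := hb
        obtain ⟨B', hB'⟩ := hφ.bdd Λ
        exact ⟨B * B', fun z hz => by
          rw [abs_mul]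
          exact mul_le_mul (hB z hz) (hB' z hz) (abs_nonneg _) ((abs_nonneg _).trans (hB z hz))⟩
      have e0 := val_eq Λ hb' (a := 0) fun z hz => by rw [z3 z hz, mul_zero]
      refine (h _ _ (hv.mul_A0 hU hφ) hb' he' ?_).trans
        (le_trans (le_of_eq (tsum_congr fun q' => ?_)) (ha.summable_mul he.l2).2)
      · rw [Lumps.osc, e0.2, show Λ.lo _ q = 0 from e0.1, sub_self]
        exact he'.l2.1 q
      · rw [vφ']
        split_ifs <;> simp) hε
  obtain ⟨l, c, ⟨k', hl', hn', hs⟩, hE⟩ := cut_close hU hc Λ (hl.mul_A0 hU Λ hφ) hψ (fun z => by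
      by_cases a : z ∈ Λ.W (n (j + 1)) q
      · by_cases b : z ∈ Λ.W (n (j + 3)) q
        · simp [z3 z b]
        · simp [hn.one j z a, hn.supp _ z b]
      · simp [hn.supp _ z a, hn.supp (j + 2) z fun b => a (Λ.W_mono (le (Nat.le_succ _)) q b)])
    (fun l => ∃ k', LL Λ M l k' ∧
      nrm k' ≤ nrm (fun q' => if Ann Λ q n j q' then k q' else 0) + δ ∧
      Sp Λ (fun z => χ (j + 1) z - χ (j + 2) z) ∅ k')
    (fun l ⟨_, a, _⟩ => a.xx hU hM)
    (fun ε hε => by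
      obtain ⟨l, k', a, b, c, d⟩ := key ε hε
      exact ⟨l, ⟨k', a, b, c⟩, d⟩) hε
  have hL := (LL.add _ _ _ _ hl' (LL.const c)).mul_A0 hU hψ
  have h2 := hl'.l2 hM
  refine ⟨_, _, hL, (h2.of_le (hL.l2 hM).1 fun q' => ?_).2.trans hn', fun q' hq => ?_,
    le_trans (le_of_eq ?_) hE, fun z hz => by simp [hn.supp j z hz],
    fun z hz => by simp [hn.one (j + 3) z hz]⟩
  · rw [add_zero]
    exact mul_le_of_le_one_left (h2.1 q') (vψ' q')
  · rw [hs q' (Or.inl (by rw [vφ', if_neg hq]))]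
    simp
  · unfold En
    refine lintegral_congr fun z => ?_
    rw [← enorm_neg, ← fderiv_fun_neg]
    simp only [neg_sub]

/-- Locally finite sums.  `H z = ∑ᶠ`/limit of the eventually constant partial sums; near a point
of `U` only finitely many terms are nonzero (`Lumps.loc_fin`), off `U` all terms vanish; the energy
of `H - (partial sum)` by `En_add_le` for finite sums and Fatou (`lintegral_liminf_le`), as in
`g_lim` (file `GCl`). -/
theorem loc_sum (hU : IsOpen U) {q : Λ.E} {n : ℕ → ℕ} (hn : StrictMono n) {h : ℕ → ℂ → ℝ}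
    (hh : ∀ j, XX U (h j)) (h0 : ∀ j z, z ∉ Λ.W (n j) q → h j z = 0) {t : ℕ → ℝ}
    (ht0 : ∀ j, 0 ≤ t j) (ht : ∀ j, t (j + 1) ≤ t j)
    (he : ∀ j, En U (h j) ≤ ENNReal.ofReal ((t j - t (j + 1)) ^ 2)) :
    ∃ H, XX U H ∧ (∀ J z, z ∉ Λ.W (n J) q → H z = ∑ j ∈ Finset.range J, h j z) ∧
      ∀ i, En U (fun z => H z - ∑ j ∈ Finset.range i, h j z) ≤ ENNReal.ofReal (t i ^ 2) := by
  obtain ⟨H, hH, h1, -, h2⟩ := x_lim hU Λ (u := fun k z => ∑ j ∈ Finset.range k, h j z)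
    (fun k => XX.sum hU _ fun j _ => hh j) hn
    (fun k z hz => by rw [Finset.sum_range_succ, h0 k z (hz q), add_zero]) ht0 ht
    fun k => by simpa only [Finset.sum_range_succ, add_sub_cancel_left] using he k
  refine ⟨H, hH, fun J z hz => ?_, h2⟩
  obtain ⟨m, hm, hJ⟩ := ((h1 z).and (eventually_ge_atTop J)).exists
  rw [← hm]
  refine (Finset.sum_subset (Finset.range_mono hJ) fun j _ hj => h0 j z fun hz' => hz ?_).symm
  exact Λ.W_mono (hn.monotone (not_lt.1 fun h => hj (Finset.mem_range.2 h))) q hz'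

/-- `t i = ε / 2 ^ i / (1 + ∑ j ∈ range (i + 1), |D j|)` -/
theorem exists_t (D : ℕ → ℝ) {ε : ℝ} (hε : 0 < ε) : ∃ t : ℕ → ℝ, (∀ i, 0 < t i) ∧
    (∀ i, t (i + 1) < t i) ∧ t 0 ≤ ε ∧ Tendsto (fun i => t i * (1 + |D i|)) atTop (𝓝 0) := by
  have hS : ∀ i, 0 ≤ ∑ j ∈ Finset.range i, |D j| := fun i =>
    Finset.sum_nonneg fun _ _ => abs_nonneg _
  refine ⟨fun i => ε * (1 / 2) ^ i / (1 + ∑ j ∈ Finset.range (i + 1), |D j|), fun i => ?_,
    fun i => ?_, ?_, ?_⟩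
  · have := hS (i + 1)
    positivity
  · have h1 := hS (i + 1)
    have h2 : ε * (1 / 2) ^ (i + 1) < ε * (1 / 2) ^ i := by
      have : (0 : ℝ) < ε * (1 / 2) ^ i := by positivity
      rw [pow_succ]; linarith
    refine lt_of_le_of_lt (div_le_div_of_nonneg_left (by positivity) (by positivity) ?_)
      (div_lt_div_of_pos_right h2 (by positivity))
    rw [Finset.sum_range_succ _ (i + 1)]
    linarith [abs_nonneg (D (i + 1))]
  · have := hS 1
    simp only [pow_zero, mul_one, zero_add]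
    exact div_le_self hε.le (by linarith)
  · have h1 := (tendsto_pow_atTop_nhds_zero_of_lt_one (r := (1 / 2 : ℝ)) (by norm_num)
      (by norm_num)).const_mul ε
    rw [mul_zero] at h1
    refine squeeze_zero (fun i => ?_) (fun i => ?_) h1
    · have := hS (i + 1)
      positivity
    · have h2 := hS (i + 1)
      rw [div_mul_eq_mul_div, div_le_iff₀ (by positivity)]
      refine mul_le_mul_of_nonneg_left ?_ (by positivity)
      rw [Finset.sum_range_succ]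
      linarith [hS i]

/-- Weights with disjoint supports: the squares of the partial sums are the sums of the squares,
`(a + δ)² ≤ 2 a² + 2 δ²`, `∑ (δ / 2^(j+1))² ≤ δ²`; `k_sup_wt`, then cut the supremum off by the
indicator of `S` (`L2w.of_le`). -/
theorem l2_disj {E : Type} {a : E → ℝ} (ha : L2w a) {A : ℕ → E → Prop} {S : E → Prop}
    (hA : ∀ i j q, A i q → A j q → i = j) (hS : ∀ j q, A j q → S q) {k : ℕ → E → ℝ}
    (hk : ∀ j, L2w (k j)) (h0 : ∀ j q, ¬ A j q → k j q = 0) {δ : ℝ} (hδ : 0 < δ)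
    (hn : ∀ j, nrm (k j) ≤ nrm (fun q => if A j q then a q else 0) + δ / 2 ^ (j + 1)) :
    ∃ K, L2w K ∧ nrm K ≤ 2 * (nrm (fun q => if S q then a q else 0) + δ) ∧
      (∀ J q, ∑ j ∈ Finset.range J, k j q ≤ K q) ∧ ∀ q, ¬ S q → K q = 0 := by
  have hsq : ∀ J q, (∑ j ∈ Finset.range J, k j q) ^ 2 = ∑ j ∈ Finset.range J, k j q ^ 2 := by
    intro J q
    induction J with
    | zero => simp
    | succ J ih =>
      rw [Finset.sum_range_succ, Finset.sum_range_succ, ← ih]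
      by_cases h : A J q
      · have : ∑ j ∈ Finset.range J, k j q = 0 := Finset.sum_eq_zero fun j hj =>
          h0 j q fun h' => absurd (hA j J q h' h) (Finset.mem_range.1 hj).ne
        rw [this]; ring
      · rw [h0 J q h]; ring
  have hP : ∀ J, L2w (fun q => ∑ j ∈ Finset.range J, k j q) := fun J =>
    ⟨fun q => Finset.sum_nonneg fun j _ => (hk j).1 q, by
      simp only [hsq]
      exact summable_sum fun j _ => (hk j).2⟩
  have hind : ∀ B : E → Prop, L2w (fun q => if B q then a q else 0) := fun B =>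
    (L2w.of_le ha (fun q => by split_ifs; exacts [ha.1 q, le_rfl])
      (fun q => by split_ifs; exacts [le_rfl, ha.1 q])).1
  set σ := nrm (fun q => if S q then a q else 0) with hσ
  have hσ0 : 0 ≤ σ := L2w.nrm_nonneg _
  have hα : ∀ J, ∑ j ∈ Finset.range J, nrm (fun q => if A j q then a q else 0) ^ 2 ≤ σ ^ 2 := by
    intro J
    simp only [hσ, L2w.nrm_sq]
    rw [← Summable.tsum_finsetSum fun j _ => (hind (A j)).2]
    refine Summable.tsum_le_tsum (fun q => ?_) (summable_sum fun j _ => (hind (A j)).2) (hind S).2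
    beta_reduce
    by_cases h : ∃ j ∈ Finset.range J, A j q
    · obtain ⟨j, hj, hjq⟩ := h
      rw [Finset.sum_eq_single_of_mem j hj fun i _ hi => by
        rw [if_neg fun h' => hi (hA i j q h' hjq)]; ring, if_pos hjq, if_pos (hS j q hjq)]
    · rw [Finset.sum_eq_zero fun j hj => by rw [if_neg fun h' => h ⟨j, hj, h'⟩]; ring]
      exact sq_nonneg _
  have hδs : ∀ J, ∑ j ∈ Finset.range J, (δ / 2 ^ (j + 1)) ^ 2 ≤ δ ^ 2 - (δ / 2 ^ J) ^ 2 := by
    intro J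
    induction J with
    | zero => simp
    | succ J ih =>
      rw [Finset.sum_range_succ]
      have e : δ / 2 ^ J = 2 * (δ / 2 ^ (J + 1)) := by
        rw [pow_succ]; field_simp
      rw [e] at ih
      nlinarith [sq_nonneg (δ / 2 ^ (J + 1))]
  have hN : ∀ J, nrm (fun q => ∑ j ∈ Finset.range J, k j q) ≤ 2 * (σ + δ) := by
    intro J
    refine le_of_sq_le_sq ?_ (by positivity)
    have e : nrm (fun q => ∑ j ∈ Finset.range J, k j q) ^ 2 =
        ∑ j ∈ Finset.range J, nrm (k j) ^ 2 := by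
      simp only [L2w.nrm_sq, hsq]
      exact Summable.tsum_finsetSum fun j _ => (hk j).2
    have l1 : ∑ j ∈ Finset.range J, nrm (k j) ^ 2 ≤ ∑ j ∈ Finset.range J,
        (2 * nrm (fun q => if A j q then a q else 0) ^ 2 + 2 * (δ / 2 ^ (j + 1)) ^ 2) := by
      refine Finset.sum_le_sum fun j _ => ?_
      have := pow_le_pow_left₀ (L2w.nrm_nonneg _) (hn j) 2
      nlinarith [sq_nonneg (nrm (fun q => if A j q then a q else 0) - δ / 2 ^ (j + 1))]
    rw [Finset.sum_add_distrib, ← Finset.mul_sum, ← Finset.mul_sum] at l1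
    rw [e]
    nlinarith [hα J, hδs J, sq_nonneg (δ / 2 ^ J), mul_nonneg hσ0 hδ.le, sq_nonneg σ, sq_nonneg δ]
  obtain ⟨K, hK, hKn, hKle⟩ := k_sup_wt hP (fun J q => by
    rw [Finset.sum_range_succ]
    exact le_add_of_nonneg_right ((hk J).1 q)) hN
  obtain ⟨h1, h2⟩ := L2w.of_le (e := fun q => if S q then K q else 0) hK
    (fun q => by split_ifs; exacts [hK.1 q, le_rfl]) (fun q => by split_ifs; exacts [le_rfl, hK.1 q])
  refine ⟨_, h1, h2.trans hKn, fun J q => ?_, fun q hq => if_neg hq⟩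
  by_cases hq : S q
  · rw [if_pos hq]
    exact hKle J q
  · rw [if_neg hq]
    exact (Finset.sum_eq_zero fun j _ => h0 j q fun h => hq (hS j q h)).le

/-- the substitute `g` of `lam * χ 1` -/
structure AD (Λ : Lumps U) (M : Set (ℂ → ℝ)) (q : Λ.E) (n : ℕ → ℕ) (χ : ℕ → ℂ → ℝ)
    (lam g : ℂ → ℝ) (K : Λ.E → ℝ) (t : ℕ → ℝ) : Prop where
  nest : Nest Λ q n χ
  xl : XX U lam
  xx : XX U g
  l2 : L2w K
  kq : K q = 0
  loc : ∀ m, ∃ l k', LL Λ M l k' ∧ (∀ q', k' q' ≤ K q') ∧ ∀ z, z ∉ Λ.W (n m) q → g z = l z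
  pos : ∀ i, 0 ≤ t i
  near : ∀ i, ∃ h, XX U h ∧ En U h ≤ ENNReal.ofReal (t i ^ 2) ∧
    ∀ z ∈ Λ.W (n (i + 4)) q, g z = lam z + h z
  glob : En U (fun z => g z - lam z * χ 1 z) ≤ ENNReal.ofReal (t 0 ^ 2)
  lim : Tendsto (fun i => t i * (1 + |Real.sqrt (En U (χ (i + 4))).toReal|)) atTop (𝓝 0)

/-- `exists_t` with `D i = √(En (χ (i+4)))`, `at_piece` with `δ / 2^(j+1)` and
`(t j - t (j+1))²`, `h j = l j - lam (χ (j+1) - χ (j+2))`, `loc_sum`, `l2_disj`;
`g = lam χ 1 + H`.  Off `W (n m) q`: `g = ∑_{j<m} l j` (telescoping, `χ (m+1) = 0` there;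
`LL.sum`).  On `W (n (i+4)) q`: `χ 1 = 1` and `h j = 0` for `j < i`. -/
theorem at_data (hU : IsOpen U) (hc : IsPreconnected U) (hM : ∀ r ∈ M, Reg Λ r) (hC : CH Λ M)
    {lam : ℂ → ℝ} {k : Λ.E → ℝ} {q : Λ.E} (hl : XX U lam) (hk : L2w k) (h : At0 Λ M lam k q)
    {n : ℕ → ℕ} {χ : ℕ → ℂ → ℝ} (hn : Nest Λ q n χ) {ε : ℝ} (hε : 0 < ε) :
    ∃ g K t, AD Λ M q n χ lam g K t ∧ t 0 ≤ ε ∧ nrm K ≤ 2 * (nrm (fun q' =>
      if Λ.W (n 1) q' = Λ.W (n 1) q ∧ q' ≠ q then k q' else 0) + ε) := by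
  obtain ⟨t, t0, tlt, tε, tlim⟩ :=
    exists_t (fun i => Real.sqrt (En U (χ (i + 4))).toReal) hε
  choose l k' hLL hnrm hk0 hEn hoff hin using fun j => at_piece hU hc hM hC hl hk h hn j
    (δ := ε / 2 ^ (j + 1)) (ε := (t j - t (j + 1)) ^ 2) (by positivity)
    (pow_pos (sub_pos.2 (tlt j)) 2)
  have hW : ∀ {i j : ℕ}, i ≤ j → Λ.W (n j) q ⊆ Λ.W (n i) q := fun hij =>
    Λ.W_mono (hn.mono.monotone hij) q
  have hxx : ∀ j, XX U (fun z => l j z - lam z * (χ (j + 1) z - χ (j + 2) z)) := fun j =>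
    ((hLL j).xx hU hM).sub hU
      (hl.mul_A0 hU Λ (A0.sub hU Λ (hn.ind (j + 1)).1 (hn.ind (j + 2)).1).1)
  obtain ⟨H, hH, hHs, hHe⟩ := loc_sum (q := q) hU hn.mono hxx (fun j z hz => by
    rw [hoff j z hz, hn.supp (j + 1) z fun h' => hz (hW (by omega) h'),
      hn.supp (j + 2) z fun h' => hz (hW (by omega) h')]; ring)
    (fun j => (t0 j).le) (fun j => (tlt j).le) hEn
  have hA : ∀ i j q', i < j → Ann Λ q n i q' → ¬ Ann Λ q n j q' := fun i j q' hij hi hj =>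
    hi.2 (Λ.W_eq_of_le (hn.mono.monotone (by omega)) hj.1)
  obtain ⟨K, hK, hKn, hKs, hKS⟩ := l2_disj hk (A := Ann Λ q n)
    (S := fun q' => Λ.W (n 1) q' = Λ.W (n 1) q ∧ q' ≠ q)
    (fun i j q' hi hj => by
      rcases lt_trichotomy i j with h' | h' | h'
      · exact absurd hj (hA i j q' h' hi)
      · exact h'
      · exact absurd hi (hA j i q' h' hj))
    (fun j q' hj => ⟨Λ.W_eq_of_le (hn.mono.monotone (by omega)) hj.1, fun e => hj.2 (by rw [e])⟩)
    (fun j => (hLL j).l2 hM) hk0 hε hnrm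
  refine ⟨fun z => lam z * χ 1 z + H z, K, t, ⟨hn, hl, (hl.mul_A0 hU Λ (hn.ind 1).1).add hU hH, hK,
    hKS q fun h' => h'.2 rfl, fun m => ?_, fun i => (t0 i).le, fun i => ?_, ?_, tlim⟩, tε,
    by convert hKn⟩
  · refine ⟨_, _, LL.sum (Finset.range m) fun j _ => hLL j, hKs m, fun z hz => ?_⟩
    have h1 := Finset.sum_range_sub' (fun j => χ (j + 1) z) m
    rw [hHs m z hz, Finset.sum_sub_distrib, ← Finset.mul_sum, h1,
      hn.supp (m + 1) z fun h' => hz (hW (by omega) h')]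
    ring
  · refine ⟨_, hH.sub hU (XX.sum hU (Finset.range i) fun j _ => hxx j), hHe i, fun z hz => ?_⟩
    rw [hn.one 1 z (hW (by omega) hz), Finset.sum_eq_zero fun j hj => by
      have := Finset.mem_range.1 hj
      rw [hin j z (hW (by omega) hz), hn.one (j + 1) z (hW (by omega) hz),
        hn.one (j + 2) z (hW (by omega) hz)]; ring]
    ring
  · simpa using hHe 0

end Crest.Agent.R105
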