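import Crest.Agent.R105.LAt1

/-! Row 105, block AT: atoms. -/

set_option autoImplicit false

open MeasureTheory Set Filter Topology
open scoped ENNReal Classical

namespace Crest.Agent.R105

variable {U : Set ℂ} {Λ : Lumps U} {M : Set (ℂ → ℝ)} {q : Λ.E} {n : ℕ → ℕ} {χ : ℕ → ℂ → ℝ}
  {lam g : ℂ → ℝ} {K : Λ.E → ℝ} {t : ℕ → ℝ}

/-- near every other end `g` is an element of `LL` (`Lumps.sep`, `Lumps.W_mono`,
`StrictMono.le_apply`) -/
theorem AD.germ (h : AD Λ M q n χ lam g K t) {q' : Λ.E} (hq : q' ≠ q) :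
    ∃ m l k', LL Λ M l k' ∧ (∀ p, k' p ≤ K p) ∧ ∀ z ∈ Λ.W m q', g z = l z := by
  obtain ⟨m, hm⟩ := Λ.sep q' q hq
  obtain ⟨l, k', h1, h2, h3⟩ := h.loc m
  exact ⟨m, l, k', h1, h2, fun z hz => h3 z fun hz' =>
    disjoint_left.1 hm hz (Λ.W_mono h.nest.mono.le_apply q hz')⟩


/-- a test function `ψ` with `val ψ q = 0` vanishes on some `W (n m) q` (`A0.eq_val`), so
`g ψ = l ψ` for the `l` of `AD.loc m`; `LL.adm`, `Adm.mono`. -/
theorem AD.adm (hU : IsOpen U) (hF : Fam Λ M) (hC : CH Λ M) (h : AD Λ M q n χ lam g K t) :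
    Adm Λ M {q} g K := by
  refine ⟨h.l2, fun r hr H hH ψ hψ h0 => ?_⟩
  obtain ⟨N, hN⟩ := hψ.eq_val Λ
  obtain ⟨l, k', h1, h2, h3⟩ := h.loc N
  have e : (fun z => g z * ψ z) = fun z => l z * ψ z := funext fun z => by
    by_cases hz : z ∈ Λ.W (n N) q
    · rw [hN _ h.nest.mono.le_apply q z hz, h0 q (Finset.mem_singleton_self q), mul_zero, mul_zero]
    · rw [h3 z hz]
  rw [e]
  exact ((h1.adm hU hF hC).mono hF.reg (Finset.empty_subset {q}) h.l2 fun p _ => h2 p).le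
    r hr H hH ψ hψ h0


/-- `CH` with `F = {q}`, `G s _ = T s`, `L₂ = 0`, `B = 2 (A + 1)`; for `q' ≠ q`:
`osc (T g) q' = osc (T l) q' ≤ osc l q' ≤ K q'` (`AD.germ`, `Lumps.lo_congr`,
`Lumps.osc_comp2_le`, `LL.osc_le`); summability off one point. -/
theorem AD.reg_tt (hU : IsOpen U) (hF : Fam Λ M) (hC : CH Λ M) (h : AD Λ M q n χ lam g K t)
    {T : ℝ → ℝ} {A : ℝ} (hT : SClip T A) :
    Reg Λ (fun z => T (g z)) ∧ TT Λ M (fun z => T (g z)) := by
  have hA : 0 ≤ A + 1 := (abs_nonneg _).trans (hT.bd 0)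
  have hx := XX.comp_lip hU hT.lip h.xx
  have hb : ∀ u : ℂ → ℝ, Bdd U fun z => T (u z) := fun u => ⟨A + 1, fun z _ => hT.bd _⟩
  have hG : ∀ s t s' t' : ℝ, |T s - T s'| ≤ 1 * |s - s'| + 0 * |t - t'| := fun s t s' t' => by
    simpa using hT.lip s s'
  have ha := hC {q} g g K K (fun s _ => T s) 1 0 (2 * (A + 1)) h.xx h.xx (h.adm hU hF hC)
    (h.adm hU hF hC) zero_le_one le_rfl (by positivity) hG
    (Or.inr fun s _ => (hT.bd s).trans_eq (by ring))
  refine ⟨⟨hx, hb g, (ha.l2.of_le (fun p => Λ.osc_nonneg (hb g) p) fun p => ?_).1.2⟩, hx, _, ha⟩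
  split_ifs with hp
  · refine Λ.osc_le (hb g) fun η hη => ⟨0, fun z _ z' _ => ?_⟩
    linarith [abs_le.1 (hT.bd (g z)), abs_le.1 (hT.bd (g z'))]
  · obtain ⟨m, l, k', h1, h2, h3⟩ := h.germ (Finset.notMem_singleton.1 hp)
    obtain ⟨e1, e2⟩ := Λ.lo_congr (hb g) (hb l) (q := p) fun η hη =>
      ⟨m, fun z hz => by rw [h3 z hz, sub_self, abs_zero]; exact hη.le⟩
    have h4 := Λ.osc_comp2_le (h1.bdd hF.reg) (h1.bdd hF.reg) (G := fun s _ => T s) zero_le_one
      le_rfl hG p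
    have h5 := (h1.osc_le hF.reg p).trans (h2 p)
    rw [Lumps.osc, e1, e2]
    rw [Lumps.osc] at h4
    linarith


/-- the product of a bounded `v` with `T'(w)`: `CH` with
`G s t = max (-(B/2)) (min (B/2) s) * deriv T t` (Lipschitz with `L₁ = 1`, `L₂ = B/2 * L`, bounded
by `B/2`), `Adm.congr`. -/
theorem adm_mul_deriv (hU : IsOpen U) (hC : CH Λ M) {F : Finset Λ.E} {v w : ℂ → ℝ}
    {e e' : Λ.E → ℝ} {B : ℝ} (hv : XX U v) (hw : XX U w) (he : Adm Λ M F v e)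
    (he' : Adm Λ M F w e') (hB : ∀ z ∈ U, |v z| ≤ B / 2) {T : ℝ → ℝ} {A : ℝ} (hT : SClip T A) :
    TT Λ M (fun z => v z * deriv T (w z)) ∧ ∀ z ∈ U, |v z * deriv T (w z)| ≤ B / 2 := by
  obtain ⟨L, hL, hd⟩ := hT.dlip
  have d1 : ∀ t, |deriv T t| ≤ 1 := fun t => by
    rw [abs_of_nonneg (hT.d01 t).1]; exact (hT.d01 t).2
  have hb := abs_nonneg (B / 2)
  have hc : ∀ s, |max (-|B / 2|) (min s |B / 2|)| ≤ |B / 2| := fun s =>
    abs_le.2 (h18_clamp_mem hb s)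
  have hG : ∀ s t s' t' : ℝ, |max (-|B / 2|) (min s |B / 2|) * deriv T t -
      max (-|B / 2|) (min s' |B / 2|) * deriv T t'| ≤ 1 * |s - s'| + |B / 2| * L * |t - t'| := by
    intro s t s' t'
    have a1 := mul_le_mul (d1 t) (h18_clamp |B / 2| s s') (abs_nonneg _) zero_le_one
    have a2 := mul_le_mul (hc s') (hd t t') (abs_nonneg _) hb
    rw [← abs_mul] at a1 a2
    rw [mul_assoc]
    exact le_trans (le_of_eq (congrArg _ (by ring))) ((abs_add_le _ _).trans (add_le_add a1 a2))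
  have hq : EqOn (fun z => max (-|B / 2|) (min (v z) |B / 2|) * deriv T (w z))
      (fun z => v z * deriv T (w z)) U := fun z hz => by
    simp only [h18_clamp_eq ((hB z hz).trans (le_abs_self _))]
  refine ⟨⟨h18_XX_congr hU (XX.comp2 hU hG hv hw) hq.symm ?_, _,
    (hC F v w e e' _ 1 (|B / 2| * L) (2 * |B / 2|) hv hw he he' zero_le_one (by positivity)
      (by positivity) hG (Or.inr fun s t => ?_)).congr hU hq⟩, fun z hz => ?_⟩
  · obtain ⟨R, c, hc⟩ := hv.inf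
    obtain ⟨R', c', hc'⟩ := hw.inf
    exact ⟨max R R', c * deriv T c', fun z hz => by
      rw [hc z ((le_max_left _ _).trans hz), hc' z ((le_max_right _ _).trans hz)]⟩
  · rw [abs_mul, mul_div_cancel_left₀ _ two_ne_zero]
    exact (mul_le_of_le_one_right (abs_nonneg _) (d1 t)).trans (hc s)
  · rw [abs_mul]
    exact (mul_le_of_le_one_right (abs_nonneg _) (d1 _)).trans (hB z hz)

/-- `(b2)` at another end: with `l` from `AD.germ` and `f = v T'(l) ∈ T` (`adm_mul_deriv`,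
`LL.adm`), for deep `n'`: `om (v χ') (T g) = om (v χ') (T l)` (`om_germ` for the difference
`T g - T l`, which vanishes on `W m q'`, while `v χ'` vanishes near the ends outside
`W n' q'`), `= om (f χ') l` (`om_comp_swap`); `k_locb` with `σ = l` (`LL.om_le`). -/
theorem AD.b2_off (hU : IsOpen U) (hF : Fam Λ M) (hC : CH Λ M) (h : AD Λ M q n χ lam g K t)
    {T : ℝ → ℝ} {A : ℝ} (hT : SClip T A) {q' : Λ.E} (hq : q' ≠ q) {v : ℂ → ℝ} {B : ℝ}
    (hv : TT Λ M v) (hB : ∀ z ∈ U, |v z| ≤ B / 2) {η : ℝ} (hη : 0 < η) (N : ℕ) :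
    ∃ m ≥ N, ∀ χ', Ind Λ m q' χ' →
      |om U (fun z => v z * χ' z) (fun z => T (g z))| ≤ K q' * B + η := by
  obtain ⟨m₀, l, k', hl, hk', hgl⟩ := h.germ hq
  obtain ⟨hx, e, he⟩ := hv
  have hlx := hl.xx hU hF.reg
  have hl2 := hl.l2 hF.reg
  obtain ⟨hf, hfB⟩ := adm_mul_deriv hU hC hx hlx he (hl.adm hU hF hC) hB hT
  obtain ⟨N₁, hN₁⟩ := k_locb hU hF.reg hC hl2 q' hf hfB hη
  have hB0 : 0 ≤ B := by
    obtain ⟨z, hz⟩ := (Λ.conn 0 q).nonempty
    have := (abs_nonneg _).trans (hB z (Λ.sub 0 q hz).1)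
    linarith
  refine ⟨max N (max m₀ N₁), le_max_left _ _, fun χ' hχ' => ?_⟩
  have hm₀ : m₀ ≤ max N (max m₀ N₁) := (le_max_left _ _).trans (le_max_right _ _)
  have hN : N₁ ≤ max N (max m₀ N₁) := (le_max_right _ _).trans (le_max_right _ _)
  have hvx := XX.mul_A0 hU Λ hx hχ'.1
  have hTg : XX U (fun z => T (g z)) := XX.comp_lip hU hT.lip h.xx
  have hTl : XX U (fun z => T (l z)) := XX.comp_lip hU hT.lip hlx
  have e1 : om U (fun z => v z * χ' z) (fun z => T (g z) - T (l z)) = 0 := by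
    refine om_germ hU Λ hvx (hTg.sub hU hTl) fun p => ?_
    by_cases hp : Λ.W (max N (max m₀ N₁)) p = Λ.W (max N (max m₀ N₁)) q'
    · refine ⟨max N (max m₀ N₁), 0, Or.inr fun z hz => ?_⟩
      rw [hp] at hz
      rw [hgl z (Λ.W_mono hm₀ q' hz), sub_self]
    · obtain ⟨N', hN'⟩ := A0.eq_val Λ hχ'.1
      refine ⟨N', 0, Or.inl fun z hz => ?_⟩
      rw [hN' N' le_rfl p z hz, hχ'.2 p, if_neg hp, mul_zero]
  rw [om_sub_right hU hvx hTg hTl, sub_eq_zero] at e1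
  have e2 : (fun z => v z * χ' z * deriv T (l z)) = fun z => v z * deriv T (l z) * χ' z := by
    funext z
    ring
  rw [e1, om_comp_swap hU hvx.lip hlx.lip hT.sm, e2]
  refine (hN₁ _ hN χ' hχ' l fun u n hu hn => hl.om_le hU hF.reg hu hn).trans ?_
  have := mul_le_mul_of_nonneg_right (hk' q') hB0
  linarith

/-- the localised hypothesis: a bounded `f ∈ T` with weight `e` has the weight `B` at `q`
(`Adm.mono` to `{q}`, `Adm.rem`), `f χ'` the weight `|val χ'| (…)` (`Adm.mul_A0`), its oscillation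
at `q` is at most `B` (`Lumps.osc_le`, `A0.eq_val`); `tsum_lump_le`. -/
theorem At0.loc (hU : IsOpen U) (hM : ∀ r ∈ M, Reg Λ r) (hC : CH Λ M) {k : Λ.E → ℝ} (hk : L2w k)
    (h : At0 Λ M lam k q) {f : ℂ → ℝ} {B : ℝ} (hf : TT Λ M f) (hB : ∀ z ∈ U, |f z| ≤ B / 2)
    {η : ℝ} (hη : 0 < η) : ∃ N, ∀ m ≥ N, ∀ χ', Ind Λ m q χ' →
      |om U (fun z => f z * χ' z) lam| ≤ k q * B + η := by
  obtain ⟨e, he⟩ := hf.2
  have h1 := Adm.rem hU hC hf.1
    (he.mono hM (Finset.empty_subset {q}) he.l2 fun _ _ => le_rfl) hB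
  obtain ⟨N, hN⟩ := tsum_lump_le hk h1.l2 q hη
  refine ⟨N, fun m hm χ' hχ => ?_⟩
  have hb : Bdd U fun z => f z * χ' z := by
    obtain ⟨C, hC⟩ := hχ.1.bdd Λ
    refine ⟨B / 2 * C, fun z hz => ?_⟩
    rw [abs_mul]
    exact mul_le_mul (hB z hz) (hC z hz) (abs_nonneg _) ((abs_nonneg _).trans (hB z hz))
  have hv : Λ.val χ' q = 1 := (hχ.2 q).trans (if_pos rfl)
  have h2 := h _ _ (hf.mul_A0 hU hχ.1) hb (h1.mul_A0 hU hχ.1) (by
    obtain ⟨n, hn⟩ := hχ.1.eq_val Λ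
    refine Λ.osc_le hb fun η' hη' => ⟨n, fun z hz z' hz' => ?_⟩
    have a1 := abs_le.1 (hB z (Λ.sub n q hz).1)
    have a2 := abs_le.1 (hB z' (Λ.sub n q hz').1)
    rw [hn n le_rfl q z hz, hn n le_rfl q z' hz', hv, if_pos (Finset.mem_singleton_self q),
      abs_one]
    linarith [a1.2, a2.1])
  have h3 := hN m hm
  rw [if_pos (Finset.mem_singleton_self q)] at h3
  refine h2.trans (le_trans (le_of_eq (tsum_congr fun q' => ?_)) h3)
  rw [hχ.2 q']
  split_ifs <;> simp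

/-- energy of a product: a.e. `‖∇(f a)‖ ≤ ‖∇f‖ + B ‖∇a‖` when `|a| ≤ 1`, `|f| ≤ B`
(or a cruder argument with `En_add_le`-type estimates). -/
theorem sqrt_En_mul_le (hU : IsOpen U) {f a : ℂ → ℝ} (hf : XX U f) (ha : XX U a) {B C : ℝ}
    (hB : ∀ z ∈ U, |f z| ≤ B) (hC : ∀ z ∈ U, |a z| ≤ C) :
    Real.sqrt (En U (fun z => f z * a z)).toReal ≤
      2 * C * Real.sqrt (En U f).toReal + 2 * B * Real.sqrt (En U a).toReal := by
  rcases U.eq_empty_or_nonempty with rfl | ⟨z₀, hz₀⟩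
  · simp [En]
  have hB0 : 0 ≤ B := (abs_nonneg _).trans (hB z₀ hz₀)
  have hC0 : 0 ≤ C := (abs_nonneg _).trans (hC z₀ hz₀)
  have h1 : En U (fun z => f z * a z) ≤
      ENNReal.ofReal (2 * C ^ 2) * En U f + ENNReal.ofReal (2 * B ^ 2) * En U a := by
    unfold En
    rw [← lintegral_const_mul' _ _ ENNReal.ofReal_ne_top,
      ← lintegral_const_mul' _ _ ENNReal.ofReal_ne_top,
      ← lintegral_add_left' (((h99_meas U f).pow_const 2).const_mul _)]
    refine lintegral_mono_ae ?_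
    rw [ae_restrict_iff' hU.measurableSet]
    filter_upwards [ae_diff hU hf.lip, ae_diff hU ha.lip] with z d1 d2 hz
    refine h67_enorm_sq_le ?_
    rw [fderiv_fun_mul (d1 hz) (d2 hz), add_comm]
    refine (norm_add_le _ _).trans (add_le_add ?_ ?_)
    · rw [norm_smul]
      exact mul_le_mul_of_nonneg_right (hC z hz) (norm_nonneg _)
    · rw [norm_smul]
      exact mul_le_mul_of_nonneg_right (hB z hz) (norm_nonneg _)
  have n1 := ENNReal.mul_ne_top (ENNReal.ofReal_ne_top (r := 2 * C ^ 2)) hf.en.ne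
  have n2 := ENNReal.mul_ne_top (ENNReal.ofReal_ne_top (r := 2 * B ^ 2)) ha.en.ne
  have h2 := ENNReal.toReal_mono (ENNReal.add_ne_top.2 ⟨n1, n2⟩) h1
  rw [ENNReal.toReal_add n1 n2, ENNReal.toReal_mul, ENNReal.toReal_mul,
    ENNReal.toReal_ofReal (by positivity), ENNReal.toReal_ofReal (by positivity)] at h2
  refine Real.sqrt_le_iff.2 ⟨by positivity, h2.trans ?_⟩
  have s1 := Real.sq_sqrt (ENNReal.toReal_nonneg (a := En U f))
  have s2 := Real.sq_sqrt (ENNReal.toReal_nonneg (a := En U a))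
  have p1 := mul_nonneg hC0 (Real.sqrt_nonneg (En U f).toReal)
  have p2 := mul_nonneg hB0 (Real.sqrt_nonneg (En U a).toReal)
  rw [← s1, ← s2, Real.sqrt_sq (Real.sqrt_nonneg _), Real.sqrt_sq (Real.sqrt_nonneg _)]
  nlinarith [mul_nonneg p1 p2, sq_nonneg (C * √(En U f).toReal), sq_nonneg (B * √(En U a).toReal)]

/-- `(b2)` at the atom. -/
theorem AD.b2_at (hU : IsOpen U) (hF : Fam Λ M) (hC : CH Λ M) (h : AD Λ M q n χ lam g K t)
    {k : Λ.E → ℝ} (hk : L2w k) (h0 : At0 Λ M lam k q)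
    {T : ℝ → ℝ} {A : ℝ} (hT : SClip T A) {v : ℂ → ℝ} {B : ℝ}
    (hv : TT Λ M v) (hB : ∀ z ∈ U, |v z| ≤ B / 2) {η : ℝ} (hη : 0 < η) (N : ℕ) :
    ∃ m ≥ N, ∀ χ', Ind Λ m q χ' →
      |om U (fun z => v z * χ' z) (fun z => T (g z))| ≤ k q * B + η := by
  have hM := hF.reg
  obtain ⟨hvx, e, he⟩ := hv
  obtain ⟨hf, hfB⟩ := adm_mul_deriv hU hC hvx h.xx
    (he.mono hM (Finset.empty_subset {q}) he.l2 fun _ _ => le_rfl) (h.adm hU hF hC) hB hT
  set f : ℂ → ℝ := fun z => v z * deriv T (g z) with hfdef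
  obtain ⟨N₁, hN₁⟩ := h0.loc hU hM hC hk hf hfB (half_pos hη)
  set D := 2 * Real.sqrt (En U f).toReal + |B| + 1 with hD
  have hD0 : 0 < D := by positivity
  have hev : ∀ᶠ i in atTop, t i * (1 + |Real.sqrt (En U (χ (i + 4))).toReal|) < η / 2 / D :=
    h.lim.eventually (gt_mem_nhds (by positivity))
  obtain ⟨i, hi, hiN⟩ := (hev.and (eventually_ge_atTop (max N N₁))).exists
  have hni : max N N₁ ≤ n (i + 4) := hiN.trans ((Nat.le_add_right i 4).trans
    (h.nest.mono.le_apply))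
  refine ⟨n (i + 4), (le_max_left _ _).trans hni, fun χ' hχ' => ?_⟩
  obtain ⟨w, hw, hwE, hwg⟩ := h.near i
  have hI := h.nest.ind (i + 4)
  set c := χ (i + 4) with hc
  have hfc : XX U fun z => f z * c z := XX.mul_A0 hU Λ hf.1 hI.1
  have e1 : om U (fun z => v z * χ' z) (fun z => T (g z)) = om U (fun z => f z * χ' z) g := by
    rw [om_comp_swap hU (XX.mul_A0 hU Λ hvx hχ'.1).lip h.xx.lip hT.sm]
    congr 1
    ext z
    simp only [hfdef]
    ring
  have e2 : om U (fun z => f z * χ' z) g = om U (fun z => f z * c z) g :=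
    Ind.om_eq hU hχ' hI hf.1 h.xx
  have hlw : XX U fun z => lam z + w z := XX.add hU h.xl hw
  have e3 : om U (fun z => f z * c z) (fun z => g z - (lam z + w z)) = 0 := by
    refine om_germ hU Λ hfc (XX.sub hU h.xx hlw) fun q' => ⟨n (i + 4), 0, ?_⟩
    rcases Λ.part (n (i + 4)) q' q with h1 | h1
    · exact Or.inr fun z hz => by rw [hwg z (h1 ▸ hz), sub_self]
    · exact Or.inl fun z hz => by
        rw [hc, h.nest.supp (i + 4) z (disjoint_left.1 h1 hz), mul_zero]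
  rw [om_sub_right hU hfc h.xx hlw, om_add_right hU hfc h.xl hw, sub_eq_zero] at e3
  have b1 := hN₁ _ ((le_max_right _ _).trans hni) c hI
  have b2 : |om U (fun z => f z * c z) w| ≤ η / 2 := by
    have s1 := sqrt_En_mul_le hU hf.1 hI.1.xx hfB (fun z _ => h.nest.abs (i + 4) z)
    have s2 : Real.sqrt (En U w).toReal ≤ t i := by
      rw [Real.sqrt_le_left (h.pos i)]
      exact ENNReal.toReal_le_of_le_ofReal (sq_nonneg _) hwE
    have s3 := abs_om_le hfc.en hw.en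
    have s4 : Real.sqrt (En U fun z => f z * c z).toReal ≤
        D * (1 + |Real.sqrt (En U c).toReal|) := by
      rw [abs_of_nonneg (Real.sqrt_nonneg _)]
      have := Real.sqrt_nonneg (En U f).toReal
      have := Real.sqrt_nonneg (En U c).toReal
      have := le_abs_self B
      have := abs_nonneg B
      rw [hD]
      nlinarith [mul_nonneg (Real.sqrt_nonneg (En U f).toReal) (Real.sqrt_nonneg (En U c).toReal)]
    rw [lt_div_iff₀ hD0] at hi
    calc _ ≤ _ := s3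
      _ ≤ D * (1 + |Real.sqrt (En U c).toReal|) * t i :=
        mul_le_mul s4 s2 (Real.sqrt_nonneg _) (by positivity)
      _ ≤ η / 2 := by nlinarith
  rw [e1, e2, e3]
  have := abs_add_le (om U (fun z => f z * c z) lam) (om U (fun z => f z * c z) w)
  linarith

/-- `MAX` without the `C¹` hypothesis: `exists_smooth`, `eq_pert`; the difference tends to zero at
all ends, so it pairs to zero with everything (`om_vanish`, `om_skew`, `om_sub_right`). -/
theorem max_lip (hU : IsOpen U) (hF : Fam Λ M) (hX : MAX Λ M) {β : ℂ → ℝ} {k : Λ.E → ℝ}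
    (hr : Reg Λ β) (hT : TT Λ M β) (hk : L2w k) (hb : B2 Λ M β k) {u : ℂ → ℝ} {e : Λ.E → ℝ}
    (hu : XX U u) (he : Adm Λ M ∅ u e) : |om U u β| ≤ ∑' q, e q * k q := by
  obtain ⟨β', h1, h2, h3, -, h5⟩ := exists_smooth hU Λ hr.xx one_pos
  have hb' : Bdd U β' := by
    obtain ⟨B, hB⟩ := hr.bdd
    refine ⟨B + 1, fun z hz => ?_⟩
    have a1 := abs_le.1 (hB z hz)
    have a2 := abs_le.1 (h3 z hz)
    exact abs_le.2 ⟨by linarith [a1.1, a2.1], by linarith [a1.2, a2.2]⟩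
  obtain ⟨r1, r2⟩ := eq_pert hU hF hr hT h1 hb' h5
  have key : ∀ w, XX U w → om U w β' = om U w β := fun w hw => by
    rw [← sub_eq_zero, ← om_sub_right hU hw h1 hr.xx, om_skew,
      om_vanish hU Λ (h1.sub hU hr.xx) hw h5, neg_zero]
  rw [← key u hu]
  refine hX β' k r1 r2 (h2.of_le (by exact_mod_cast le_top)) hk
    (fun q v B hv hB η hη N => ?_) u e hu he
  obtain ⟨n, hn, h⟩ := hb q v B hv hB η hη N
  exact ⟨n, hn, fun χ hχ => by rw [key _ (hv.1.mul_A0 hU Λ hχ.1)]; exact h χ hχ⟩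

end Crest.Agent.R105
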