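import Crest.Agent.R105.LAt2

/-! Row 105, block AT: removal of the oscillation constraints at finitely many atoms. -/

set_option autoImplicit false

open MeasureTheory Set Filter Topology
open scoped ENNReal Classical

namespace Crest.Agent.R105

variable {U : Set ℂ} {Λ : Lumps U} {M : Set (ℂ → ℝ)}

theorem at_l2_upd {E : Type} {K : E → ℝ} (hK : L2w K) (q : E) {a : ℝ} (ha : 0 ≤ a) :
    L2w (fun q' => if q' = q then a else K q') := by
  refine ⟨fun q' => by by_cases h : q' = q <;> simp [h, ha, hK.1 q'], ?_⟩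
  have : Summable fun q' => (if q' = q then a ^ 2 else 0) + K q' ^ 2 :=
    (summable_of_ne_finset_zero (s := {q}) fun q' h => by simp_all).add hK.2
  refine Summable.of_nonneg_of_le (fun _ => sq_nonneg _) (fun q' => ?_) this
  by_cases h : q' = q <;> simp [h, sq_nonneg]

/-- the estimate in the first lump of a nest -/
theorem AD.bound (hU : IsOpen U) (hF : Fam Λ M) (hC : CH Λ M) (hX : MAX Λ M) {q : Λ.E}
    {n : ℕ → ℕ} {χ : ℕ → ℂ → ℝ} {lam g : ℂ → ℝ} {K : Λ.E → ℝ} {t : ℕ → ℝ}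
    (h : AD Λ M q n χ lam g K t) {k : Λ.E → ℝ} (hk : L2w k) (h0 : At0 Λ M lam k q)
    {u : ℂ → ℝ} {e : Λ.E → ℝ} (hu : XX U u) (he : Adm Λ M ∅ u e) :
    |om U (fun z => u z * χ 1 z) lam| ≤
      k q * e q + nrm e * nrm K + Real.sqrt (En U u).toReal * t 0 := by
  have hK' := at_l2_upd h.l2 q (hk.1 q)
  choose T hT using fun m : ℕ => exists_sclip (A := (m : ℝ)) (Nat.cast_nonneg m)
  have hb : ∀ m, |om U u (fun z => T m (g z))| ≤ k q * e q + nrm e * nrm K := fun m => by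
    obtain ⟨hr, hTT⟩ := h.reg_tt hU hF hC (hT m)
    have hB2 : B2 Λ M (fun z => T m (g z)) (fun q' => if q' = q then k q else K q') := by
      intro q' v B hv hB η hη N
      by_cases hq : q' = q
      · subst hq
        simpa using h.b2_at hU hF hC hk h0 (hT m) hv hB hη N
      · simpa [hq] using h.b2_off hU hF hC (hT m) hq hv hB hη N
    refine (max_lip hU hF hX hr hTT hK' hB2 hu he).trans ?_
    have s1 := he.l2.summable_mul h.l2
    have : ∀ q', e q' * (if q' = q then k q else K q') =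
        (if q' = q then k q * e q else 0) + e q' * K q' := fun q' => by
      by_cases hq : q' = q
      · subst hq
        simp [h.kq, mul_comm]
      · simp [hq]
    simp_rw [this]
    rw [Summable.tsum_add (summable_of_ne_finset_zero (s := {q}) fun q' h => by simp_all) s1.1,
      tsum_ite_eq]
    linarith [s1.2]
  have hlim : Tendsto (fun m => om U (fun z => T m (g z)) u) atTop (𝓝 (om U g u)) :=
    End.h18_om_tendsto hU hu h.xx (fun m => XX.comp_lip hU (hT m).lip h.xx)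
      (En_clip_tendsto hU h.xx (fun m => (hT m).lip) fun m s hs => (hT m).id s hs)
  have hg : |om U g u| ≤ k q * e q + nrm e * nrm K :=
    le_of_tendsto' hlim.abs fun m => by
      rw [om_skew, abs_neg]
      exact hb m
  have hA := (h.nest.ind 1).1
  have hlc : XX U fun z => lam z * χ 1 z := XX.mul_A0 hU Λ h.xl hA
  have hd := abs_om_le hu.en (XX.sub hU h.xx hlc).en
  rw [om_sub_right hU hu h.xx hlc] at hd
  have s2 : Real.sqrt (En U fun z => g z - lam z * χ 1 z).toReal ≤ t 0 := by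
    rw [Real.sqrt_le_left (h.pos 0)]
    exact ENNReal.toReal_le_of_le_ofReal (sq_nonneg _) h.glob
  have s3 := hd.trans (mul_le_mul_of_nonneg_left s2 (Real.sqrt_nonneg _))
  rw [om_mul_swap hU Λ hu h.xl hA]
  rw [om_skew, abs_neg] at hg
  have := abs_sub_abs_le_abs_sub (om U u fun z => lam z * χ 1 z) (om U u g)
  rw [abs_sub_comm] at this
  linarith

theorem at_osc_zero {u : ℂ → ℝ} (hb : Bdd U u) {q : Λ.E} {m : ℕ} (h : ∀ z ∈ Λ.W m q, u z = 0) :
    Λ.osc u q = 0 := by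
  obtain ⟨h1, h2⟩ := val_eq Λ hb h
  simp only [Lumps.val] at h1
  simp [Lumps.osc, h1, h2]

theorem at_osc_congr {u v : ℂ → ℝ} (hu : Bdd U u) (hv : Bdd U v) {q : Λ.E} {m : ℕ}
    (h : ∀ z ∈ Λ.W m q, u z = v z) : Λ.osc u q = Λ.osc v q := by
  obtain ⟨h1, h2⟩ := Λ.lo_congr hu hv (q := q) fun η hη => ⟨m, fun z hz => by
    rw [h z hz, sub_self, abs_zero]; exact hη.le⟩
  simp [Lumps.osc, h1, h2]

theorem at_bdd_mul {u a : ℂ → ℝ} (hu : Bdd U u) (ha : Bdd U a) : Bdd U fun z => u z * a z := by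
  obtain ⟨B, hB⟩ := hu
  obtain ⟨C, hC⟩ := ha
  exact ⟨B * C, fun z hz => by
    rw [abs_mul]
    exact mul_le_mul (hB z hz) (hC z hz) (abs_nonneg _) ((abs_nonneg _).trans (hB z hz))⟩

/-- oscillation of `v a` for a cut-off with values `0, 1` at the ends -/
theorem at_osc_mul {v a : ℂ → ℝ} (hv : Bdd U v) (ha : A0 U a) (p : Λ.E)
    (h01 : Λ.val a p = 0 ∨ Λ.val a p = 1) :
    Λ.osc (fun z => v z * a z) p = |Λ.val a p| * Λ.osc v p := by
  obtain ⟨N, hN⟩ := ha.eq_val Λ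
  have hb := at_bdd_mul hv (ha.bdd Λ)
  rcases h01 with h | h
  · rw [at_osc_zero hb (m := N) fun z hz => by rw [hN N le_rfl p z hz, h, mul_zero], h]
    simp
  · rw [at_osc_congr hb hv (m := N) fun z hz => by rw [hN N le_rfl p z hz, h, mul_one], h]
    simp

theorem at_compl (hU : IsOpen U) {a : ℂ → ℝ} (ha : A0 U a) :
    A0 U (fun z => 1 - a z) ∧ ∀ p, Λ.val (fun z => 1 - a z) p = 1 - Λ.val a p := by
  obtain ⟨h1, h2⟩ := A0.sub hU Λ (A0.const 1) ha
  refine ⟨h1, fun p => ?_⟩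
  rw [h2 p, (val_eq Λ (χ := fun _ => (1 : ℝ)) ⟨1, fun _ _ => by simp⟩ (q := p) (n := 0)
    fun _ _ => rfl).1]

theorem at_split (hU : IsOpen U) (Λ : Lumps U) {u a lam : ℂ → ℝ} (hu : XX U u) (ha : A0 U a)
    (hl : XX U lam) :
    om U u lam = om U (fun z => u z * a z) lam + om U (fun z => u z * (1 - a z)) lam := by
  rw [← om_add_left hU (XX.mul_A0 hU Λ hu ha) (XX.mul_A0 hU Λ hu (at_compl (Λ := Λ) hU ha).1) hl]
  congr 1
  ext z
  ring

theorem at_l2_val {e : Λ.E → ℝ} (he : L2w e) {c : Λ.E → ℝ} (h01 : ∀ p, c p = 0 ∨ c p = 1) :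
    L2w fun p => |c p| * e p :=
  (he.of_le (fun p => mul_nonneg (abs_nonneg _) (he.1 p))
    fun p => by rcases h01 p with h | h <;> simp [h, he.1 p]).1

/-- one atom, no exclusion -/
theorem at0 (hU : IsOpen U) (hc : IsPreconnected U) (hF : Fam Λ M) (hC : CH Λ M) (hX : MAX Λ M)
    {lam : ℂ → ℝ} {k : Λ.E → ℝ} {q : Λ.E} (hl : XX U lam) (hk : L2w k) (h : At0 Λ M lam k q)
    {u : ℂ → ℝ} {e : Λ.E → ℝ} (hu : TT Λ M u) (hb : Bdd U u) (he : Adm Λ M ∅ u e) :
    |om U u lam| ≤ ∑' q', k q' * e q' := by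
  have hM := hF.reg
  refine le_of_forall_pos_le_add fun η hη => ?_
  have hne : 0 ≤ nrm e := Real.sqrt_nonneg _
  set D := 4 * nrm e + Real.sqrt (En U u).toReal + 1 with hD
  have hD0 : 0 < D := by positivity
  have hε : 0 < η / D := by positivity
  obtain ⟨N, hN⟩ := nrm_tail_lump hk q hε
  obtain ⟨n, χ, hn0, hn⟩ := exists_nest (Λ := Λ) hU q N
  obtain ⟨g, K, t, hd, ht, hK⟩ := at_data hU hc hM hC hl hk h hn hε
  have b1 := hd.bound hU hF hC hX hk h hu.1 he
  have hK' : nrm K ≤ 4 * (η / D) := by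
    have := hN (n 1) (hn0.trans (hn.mono.monotone zero_le_one))
    linarith
  have hI := hn.ind 1
  have h01 : ∀ p, Λ.val (χ 1) p = 0 ∨ Λ.val (χ 1) p = 1 := fun p => by
    rw [hI.2 p]; split_ifs <;> simp
  have hq1 : Λ.val (χ 1) q = 1 := by rw [hI.2 q, if_pos rfl]
  obtain ⟨hA, hv⟩ := at_compl (Λ := Λ) hU hI.1
  have h01' : ∀ p, Λ.val (fun z => 1 - χ 1 z) p = 0 ∨ Λ.val (fun z => 1 - χ 1 z) p = 1 :=
    fun p => by rw [hv p]; rcases h01 p with h | h <;> simp [h]
  have b2 := h _ _ (hu.mul_A0 hU hA) (at_bdd_mul hb (hA.bdd Λ)) (he.mul_A0 hU hA) (by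
    rw [at_osc_mul hb hA q (h01' q), hv q, hq1]; simp)
  have s1 := (hk.summable_mul he.l2).1
  have s2 := (hk.summable_mul (at_l2_val he.l2 h01')).1
  have b3 : k q * e q + ∑' p, k p * (|Λ.val (fun z => 1 - χ 1 z) p| * e p) ≤
      ∑' p, k p * e p := by
    have s0 : Summable fun p => if p = q then k q * e q else 0 :=
      summable_of_ne_finset_zero (s := {q}) fun q' h => by simp_all
    rw [← tsum_ite_eq q (fun _ => k q * e q), ← Summable.tsum_add s0 s2]
    refine Summable.tsum_le_tsum (fun p => ?_) (s0.add s2) s1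
    have := mul_nonneg (hk.1 p) (he.l2.1 p)
    by_cases hp : p = q
    · subst hp
      simp [hv, hq1]
    · rcases h01' p with h | h <;> simp [hp, h, this]
  have b4 : nrm e * nrm K + Real.sqrt (En U u).toReal * t 0 ≤ η := by
    have c1 := mul_le_mul_of_nonneg_left hK' hne
    have c2 := mul_le_mul_of_nonneg_left ht (Real.sqrt_nonneg (En U u).toReal)
    have c3 : D * (η / D) = η := mul_div_cancel₀ _ hD0.ne'
    rw [hD] at c3
    nlinarith
  rw [at_split hU Λ hu.1 hI.1 hl]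
  have := abs_add_le (om U (fun z => u z * χ 1 z) lam) (om U (fun z => u z * (1 - χ 1 z)) lam)
  linarith

/-- removing one atom -/
theorem at_step (hU : IsOpen U) (hc : IsPreconnected U) (hF : Fam Λ M) (hC : CH Λ M)
    (hX : MAX Λ M) {lam : ℂ → ℝ} {k : Λ.E → ℝ} (hl : XX U lam) (hk : L2w k) {Y Z : Finset Λ.E}
    {q : Λ.E} (hqY : q ∉ Y) (hqZ : q ∉ Z)
    (h : ∀ v e, TT Λ M v → Bdd U v → Adm Λ M Y v e → (∀ p ∈ insert q Z, Λ.osc v p ≤ e p) →
      |om U v lam| ≤ ∑' p, k p * e p) :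
    ∀ v e, TT Λ M v → Bdd U v → Adm Λ M Y v e → (∀ p ∈ Z, Λ.osc v p ≤ e p) →
      |om U v lam| ≤ ∑' p, k p * e p := by
  have hM := hF.reg
  obtain ⟨N, hN⟩ : ∃ N, ∀ p ∈ Y ∪ Z, Λ.W N p ≠ Λ.W N q := by
    have : ∀ p, ∃ m, p ≠ q → Disjoint (Λ.W m p) (Λ.W m q) := fun p => by
      by_cases hp : p = q
      · exact ⟨0, fun h => (h hp).elim⟩
      · obtain ⟨m, hm⟩ := Λ.sep p q hp
        exact ⟨m, fun _ => hm⟩
    choose m hm using this
    refine ⟨(Y ∪ Z).sup m, fun p hp he => ?_⟩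
    have hpq : p ≠ q := by
      rintro rfl
      rcases Finset.mem_union.1 hp with h | h
      exacts [hqY h, hqZ h]
    have hd := hm p hpq
    rw [Λ.W_eq_of_le (Finset.le_sup hp) he] at hd
    exact (Λ.conn _ q).nonempty.ne_empty (disjoint_self.1 hd)
  obtain ⟨a, hI, -⟩ := exists_Ind hU Λ N q
  have h01 : ∀ p, Λ.val a p = 0 ∨ Λ.val a p = 1 := fun p => by
    rw [hI.2 p]; split_ifs <;> simp
  have hq1 : Λ.val a q = 1 := by rw [hI.2 q, if_pos rfl]
  have hY0 : ∀ p ∈ Y, Λ.val a p = 0 := fun p hp => by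
    rw [hI.2 p, if_neg (hN p (Finset.mem_union_left _ hp))]
  have hZ0 : ∀ p ∈ Z, Λ.val a p = 0 := fun p hp => by
    rw [hI.2 p, if_neg (hN p (Finset.mem_union_right _ hp))]
  have hla : XX U fun z => lam z * a z := XX.mul_A0 hU Λ hl hI.1
  have h0 : At0 Λ M (fun z => lam z * a z) (fun p => |Λ.val a p| * k p) q := by
    intro v e hv hb he ho
    have hw := he.mul_A0 hU hI.1
    have := h _ _ (hv.mul_A0 hU hI.1) (at_bdd_mul hb (hI.1.bdd Λ))
      (hw.mono hM (Finset.empty_subset Y) hw.l2 fun _ _ => le_rfl) fun p hp => by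
        rw [at_osc_mul hb hI.1 p (h01 p)]
        rcases Finset.mem_insert.1 hp with rfl | hp
        · exact mul_le_mul_of_nonneg_left ho (abs_nonneg _)
        · simp [hZ0 p hp]
    rw [← om_mul_swap hU Λ hv.1 hl hI.1]
    refine this.trans (le_of_eq (tsum_congr fun p => by ring))
  intro v e hv hb he ho
  have b1 := at0 hU hc hF hC hX hla (at_l2_val hk h01) h0 (hv.mul_A0 hU hI.1)
    (at_bdd_mul hb (hI.1.bdd Λ)) (he.of_vanish hU hI.1 hY0)
  obtain ⟨hAA, hvv⟩ := A0.mul hU Λ hI.1 hI.1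
  have hI2 : Ind Λ N q fun z => a z * a z := ⟨hAA, fun p => by
    rw [hvv p, hI.2 p]; split_ifs <;> simp⟩
  have e1 : om U (fun z => v z * a z) (fun z => lam z * a z) = om U (fun z => v z * a z) lam := by
    rw [← om_mul_swap hU Λ (XX.mul_A0 hU Λ hv.1 hI.1) hl hI.1,
      ← Ind.om_eq hU hI2 hI hv.1 hl]
    congr 1
    ext z
    ring
  rw [e1] at b1
  obtain ⟨hA, hvc⟩ := at_compl (Λ := Λ) hU hI.1
  have h01' : ∀ p, Λ.val (fun z => 1 - a z) p = 0 ∨ Λ.val (fun z => 1 - a z) p = 1 :=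
    fun p => by rw [hvc p]; rcases h01 p with h | h <;> simp [h]
  have b2 := h _ _ (hv.mul_A0 hU hA) (at_bdd_mul hb (hA.bdd Λ)) (he.mul_A0 hU hA) fun p hp => by
    rw [at_osc_mul hb hA p (h01' p)]
    rcases Finset.mem_insert.1 hp with rfl | hp
    · simp [hvc, hq1]
    · exact mul_le_mul_of_nonneg_left (ho p hp) (abs_nonneg _)
  have s1 := ((at_l2_val hk h01).summable_mul (at_l2_val he.l2 h01)).1
  have s2 := (hk.summable_mul (at_l2_val he.l2 h01')).1
  have b3 : (∑' p, |Λ.val a p| * k p * (|Λ.val a p| * e p)) +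
      ∑' p, k p * (|Λ.val (fun z => 1 - a z) p| * e p) = ∑' p, k p * e p := by
    rw [← Summable.tsum_add s1 s2]
    refine tsum_congr fun p => ?_
    rcases h01 p with h | h <;> simp [hvc, h]
  rw [at_split hU Λ hv.1 hI.1 hl]
  have := abs_add_le (om U (fun z => v z * a z) lam) (om U (fun z => v z * (1 - a z)) lam)
  linarith

/-- AT: the oscillation constraints at finitely many atoms can be dropped. -/
theorem at_main (hU : IsOpen U) (hc : IsPreconnected U) (hF : Fam Λ M) (hC : CH Λ M)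
    (hX : MAX Λ M) {lam : ℂ → ℝ} {k : Λ.E → ℝ} (hl : XX U lam) (hk : L2w k) {Y Z : Finset Λ.E}
    (hYZ : ∀ q ∈ Z, q ∉ Y)
    (h : ∀ v e, TT Λ M v → Bdd U v → Adm Λ M Y v e → (∀ p ∈ Z, Λ.osc v p ≤ e p) →
      |om U v lam| ≤ ∑' p, k p * e p) :
    ∀ v e, TT Λ M v → Bdd U v → Adm Λ M Y v e → |om U v lam| ≤ ∑' p, k p * e p := by
  induction Z using Finset.induction_on with
  | empty => exact fun v e h1 h2 h3 => h v e h1 h2 h3 (by simp)
  | insert q Z hq ih =>
    exact ih (fun p hp => hYZ p (Finset.mem_insert_of_mem hp))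
      (at_step hU hc hF hC hX hl hk (hYZ q (Finset.mem_insert_self q Z)) hq h)

end Crest.Agent.R105
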