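import Crest.Agent.R105.LL1
import Crest.Agent.R105.HGr
import Crest.Agent.R105.HPoinc
import Crest.Agent.R105.ET2

/-! Row 105: Farkas lemma and the closure lemma `R0`. -/

set_option autoImplicit false

open MeasureTheory Set Filter Topology
open scoped ENNReal Classical

namespace Crest.Agent.R105

variable {U : Set ℂ} {Λ : Lumps U} {M : Set (ℂ → ℝ)}

/-- Abstract Farkas lemma in `ℓ²`.  If all `x.2 ≤ 0` take `e = 0`.  Otherwise apply `hb_near0`
(measure `0`, first components `0`) to the convex set `{k | (k, 1) ∈ S}`: the nearest point `t`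
has `nrm t ^ 2 ≤ ⟨t, k⟩` and `1 ≤ C * nrm t` (limit of `1 ≤ C * nrm k`, triangle inequality
`nrm k ≤ nrm t + nrm (k - t)`); `e = t / nrm t ^ 2`.  A coordinate vanishing on all of `S` vanishes
on the convex set. -/
theorem farkas0 {E : Type} (S : Set ((E → ℝ) × ℝ)) {C : ℝ} (hC : 0 ≤ C)
    (h2 : ∀ x ∈ S, L2w x.1)
    (hadd : ∀ x ∈ S, ∀ y ∈ S, ((fun q => x.1 q + y.1 q), x.2 + y.2) ∈ S)
    (hsm : ∀ x ∈ S, ∀ a : ℝ, 0 ≤ a → ((fun q => a * x.1 q), a * x.2) ∈ S)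
    (hle : ∀ x ∈ S, x.2 ≤ C * nrm x.1) :
    ∃ e, L2w e ∧ nrm e ≤ C ∧ (∀ q, (∀ x ∈ S, x.1 q = 0) → e q = 0) ∧
      ∀ x ∈ S, x.2 ≤ ∑' q, e q * x.1 q := by
  by_cases hall : ∀ x ∈ S, x.2 ≤ 0
  · refine ⟨fun _ => 0, ⟨fun _ => le_rfl, by simpa using summable_zero⟩, by simpa [nrm] using hC,
      fun _ _ => rfl, fun x hx => by simpa using hall x hx⟩
  push Not at hall
  obtain ⟨x₀, hx₀, hp₀⟩ := hall
  have hn : ∀ x ∈ S, 0 < x.2 → ((fun q => x.2⁻¹ * x.1 q), (1 : ℝ)) ∈ S := fun x hx hp => by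
    have := hsm x hx _ (inv_nonneg.2 hp.le)
    rwa [inv_mul_cancel₀ hp.ne'] at this
  obtain ⟨G, t, -, ht, hz, hmin, happ⟩ := hb_near0 (0 : Measure ℂ)
    {p : (ℂ → ℂ) × (E → ℝ) | (p.2, (1 : ℝ)) ∈ S} ⟨(0, _), hn x₀ hx₀ hp₀⟩
    (fun x hx => ⟨memLp_measure_zero, h2 _ hx⟩) fun x hx y hy θ h0 h1 => by
      refine ⟨(0, fun q => θ * x.2 q + (1 - θ) * y.2 q), ?_, by simp [EventuallyEq], rfl⟩
      have := hadd _ (hsm _ hx θ h0) _ (hsm _ hy (1 - θ) (sub_nonneg.2 h1))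
      simpa using this
  have h1 : 1 ≤ C * nrm t := by
    refine le_of_forall_pos_le_add fun η hη => ?_
    obtain ⟨k, hk, -, hkt⟩ := happ (η / (C + 1)) (by positivity)
    have l1 : L2w k.2 := h2 _ hk
    have l2 : L2w fun q => |k.2 q - t q| :=
      ((l1.add ht).1.of_le (fun q => abs_nonneg _) fun q =>
        abs_le.2 ⟨by linarith [l1.1 q, ht.1 q], by linarith [l1.1 q, ht.1 q]⟩).1
    have l3 := ((ht.add l2).1.of_le l1.1 fun q => by linarith [le_abs_self (k.2 q - t q)]).2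
    have l4 := (ht.add l2).2
    have l5 : nrm (fun q => |k.2 q - t q|) = nrm fun q => k.2 q - t q := by simp only [nrm, sq_abs]
    have l6 : (1 : ℝ) ≤ C * nrm k.2 := hle _ hk
    have l7 : C * (η / (C + 1)) ≤ η := by
      rw [← mul_div_assoc, div_le_iff₀ (by positivity)]
      linarith
    have l8 := mul_le_mul_of_nonneg_left (l3.trans (l4.trans (add_le_add_right (l5 ▸ hkt) _))) hC
    linarith
  have h0 : 0 < nrm t := (L2w.nrm_nonneg t).lt_of_ne fun e => by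
    rw [← e, mul_zero] at h1
    exact absurd h1 (by norm_num)
  obtain ⟨e1, e2⟩ := ht.smul (a := (nrm t ^ 2)⁻¹) (by positivity)
  refine ⟨_, e1, ?_, fun q hq => ?_, fun x hx => ?_⟩
  · rw [e2, inv_mul_le_iff₀ (by positivity)]
    nlinarith
  · rw [hz q fun p hp => hq _ hp, mul_zero]
  · rcases le_or_gt x.2 0 with hp | hp
    · exact hp.trans (tsum_nonneg fun q => mul_nonneg (e1.1 q) ((h2 x hx).1 q))
    · have h3 := hmin (0, _) (hn x hx hp)
      simp only [integral_zero_measure, zero_add, mul_left_comm (t _), tsum_mul_left] at h3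
      simp only [mul_assoc, tsum_mul_left]
      rw [le_inv_mul_iff₀ hp] at h3
      rw [le_inv_mul_iff₀ (by positivity), mul_comm]
      exact h3


/-- the weight lives where `val ψ ≠ 0`, off `F` -/
def Sp (Λ : Lumps U) (ψ : ℂ → ℝ) (F : Finset Λ.E) (k : Λ.E → ℝ) : Prop :=
  ∀ q, (Λ.val ψ q = 0 ∨ q ∈ F) → k q = 0

/-- FARKAS.  `farkas0` for `S = {(k, om u l) | LL l k, Sp k}` (`LL.add`, `LL.smul`).  For a test
triple `(r, H, χ)` with `χ` vanishing on `F` use `l = ± H(r) (ψ χ)` (`LL.gen`, `LL.smul (-1)`,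
`A0.mul`, `om_mul_swap`); `wt (ψ χ) = |val ψ| wt χ ≤ wt χ`. -/
theorem farkas (hU : IsOpen U) (hM : ∀ r ∈ M, Reg Λ r) {u ψ : ℂ → ℝ} (hu : XX U u)
    (hψ : A0 U ψ) (h01 : ∀ q, Λ.val ψ q = 0 ∨ Λ.val ψ q = 1) (F : Finset Λ.E) {C : ℝ}
    (hC : 0 ≤ C) (h : ∀ l k, LL Λ M l k → Sp Λ ψ F k → |om U u l| ≤ C * nrm k) :
    ∃ e, Adm Λ M F (fun z => u z * ψ z) e ∧ nrm e ≤ C ∧ Sp Λ ψ F e := by
  obtain ⟨e, he, hn, h0, hle⟩ := farkas0
    {x : (Λ.E → ℝ) × ℝ | ∃ l, LL Λ M l x.1 ∧ Sp Λ ψ F x.1 ∧ x.2 = om U u l} hC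
    (by rintro x ⟨l, hl, -, -⟩; exact hl.l2 hM)
    (by
      rintro x ⟨l, hl, hs, e⟩ y ⟨l', hl', hs', e'⟩
      refine ⟨_, LL.add _ _ _ _ hl hl', fun q hq => ?_, ?_⟩
      · show x.1 q + y.1 q = 0
        rw [hs q hq, hs' q hq, add_zero]
      · show x.2 + y.2 = _
        rw [om_add_right hU hu (hl.xx hU hM) (hl'.xx hU hM), e, e'])
    (by
      rintro x ⟨l, hl, hs, e⟩ a ha
      refine ⟨fun z => a * l z, ?_, fun q hq => ?_, ?_⟩
      · have := hl.smul hU a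
        rwa [abs_of_nonneg ha] at this
      · show a * x.1 q = 0
        rw [hs q hq, mul_zero]
      · show a * x.2 = _
        rw [om_smul_right, e])
    (by
      rintro x ⟨l, hl, hs, e⟩
      rw [e]
      exact (le_abs_self _).trans (h l _ hl hs))
  have hle' : ∀ l k, LL Λ M l k → Sp Λ ψ F k → om U u l ≤ ∑' q, e q * k q :=
    fun l k h1 h2 => hle (k, om U u l) ⟨l, h1, h2, rfl⟩
  refine ⟨e, ⟨he, fun r hr H hH χ hχ hF => ?_⟩, hn, fun q hq => h0 q ?_⟩
  · have hreg := hM r hr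
    have hw := wt_l2 Λ hreg hH hχ
    have l0 := (LL.gen (Λ := Λ) r H χ hr hH hχ).mul_A0 hU hψ
    have s0 : Sp Λ ψ F (fun q => |Λ.val ψ q| * wt Λ r H χ q) := fun q hq => by
      rcases hq with hq | hq
      · simp [hq]
      · simp [wt, hF q hq]
    have b1 := hle' _ _ l0 s0
    have l1 := l0.smul hU (-1)
    simp only [abs_neg, abs_one, one_mul] at l1
    have b2 := hle' _ _ l1 s0
    rw [om_smul_right] at b2
    have e1 : om U (fun z => u z * ψ z * χ z) (fun z => H (r z)) =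
        om U u (fun z => H (r z) * χ z * ψ z) := by
      have := om_mul_swap hU Λ hu (XX.comp_C1 hU hH hreg.xx hreg.bdd) (A0.mul hU Λ hψ hχ).1
      simp only [← mul_assoc] at this
      rw [this]
      congr 1
      funext z
      ring
    have b3 : ∑' q, e q * (|Λ.val ψ q| * wt Λ r H χ q) ≤ ∑' q, e q * wt Λ r H χ q := by
      refine Summable.tsum_le_tsum (fun q => mul_le_mul_of_nonneg_left ?_ (he.1 q))
        (he.summable_mul (l0.l2 hM)).1 (he.summable_mul hw).1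
      rcases h01 q with hq | hq
      · simpa [hq] using hw.1 q
      · simp [hq]
    rw [e1]
    exact abs_le.2 ⟨by linarith, by linarith⟩
  · rintro x ⟨l, -, hs, -⟩
    exact hs q hq

/-- The bound on bounded elements of `T` extends to unbounded `d` admissible off `F`: the hard
clips `v n` of `d` are bounded, in `T` and keep the weight (`CH` with `L₂ = 0`, `Adm.mono`);
`om_mul_swap`, `En_clip_tendsto`, `h18_om_tendsto`. -/
theorem om_unclip (hU : IsOpen U) (hM : ∀ r ∈ M, Reg Λ r) (hC : CH Λ M) {F : Finset Λ.E}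
    {lam ψ d : ℂ → ℝ} {e : Λ.E → ℝ} {τ : ℝ} (hl : XX U lam) (hψ : A0 U ψ) (hd : XX U d)
    (he : Adm Λ M F d e)
    (h : ∀ v, TT Λ M v → Bdd U v → Adm Λ M F v e → |om U (fun z => v z * ψ z) lam| ≤ τ) :
    |om U (fun z => d z * ψ z) lam| ≤ τ := by
  have hT : ∀ (n : ℕ) (s s' : ℝ),
      |max (-(n : ℝ)) (min s n) - max (-(n : ℝ)) (min s' n)| ≤ 1 * |s - s'| := fun n s s' => by
    rw [one_mul]; exact h18_clamp _ s s'
  have hx : ∀ n : ℕ, XX U (fun z => max (-(n : ℝ)) (min (d z) n)) := fun n =>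
    XX.comp_lip hU (T := fun s => max (-(n : ℝ)) (min s n)) (hT n) hd
  have hlim := End.h18_om_tendsto hU (hl.mul_A0 hU Λ hψ) hd hx
    (En_clip_tendsto hU hd (T := fun n s => max (-(n : ℝ)) (min s n)) hT
      fun n s hs => h18_clamp_eq hs)
  rw [om_mul_swap hU Λ hd hl hψ]
  refine le_of_tendsto' hlim.abs fun n => ?_
  have hb : ∀ s : ℝ, |max (-(n : ℝ)) (min s n)| ≤ n := fun s =>
    abs_le.2 (h18_clamp_mem (Nat.cast_nonneg n) s)
  have ha := hC F d d e e (fun s _ => max (-(n : ℝ)) (min s n)) 1 0 (2 * n) hd hd he he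
    zero_le_one le_rfl (by positivity) (fun s t s' t' => by simpa using hT n s s')
    (Or.inr fun s _ => (hb s).trans (by linarith))
  rw [← om_mul_swap hU Λ (hx n) hl hψ]
  refine h _ ⟨hx n, _, ha⟩ ⟨n, fun z _ => hb _⟩ (ha.mono hM (Finset.empty_subset F) he.l2 ?_)
  intro q hq
  simp [hq]

theorem h51_En_of_zero (hU : IsOpen U) {x : ℂ → ℝ} {F : ℂ → ℂ} (hx : XX U x)
    (hF : DifferentiableOn ℂ F U) (h0 : En U (fun z => (F z).re) = 0) :
    En U x = En U (fun z => x z - (F z).re) := by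
  unfold En at h0 ⊢
  have hm : Measurable fun z => ‖fderiv ℝ (fun z => (F z).re) z‖ₑ ^ 2 :=
    (measurable_fderiv ℝ _).enorm.pow_const 2
  rw [lintegral_eq_zero_iff hm] at h0
  refine lintegral_congr_ae ?_
  filter_upwards [h0, (ae_restrict_iff' hU.measurableSet).2 (ae_diff hU hx.lip),
    ae_restrict_mem hU.measurableSet] with z h1 h2 h3
  have hd : DifferentiableAt ℝ (fun z => (F z).re) z :=
    Complex.reCLM.differentiableAt.comp z
      ((hF.differentiableAt (hU.mem_nhds h3)).restrictScalars ℝ)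
  have h4 : fderiv ℝ (fun z => (F z).re) z = 0 := by
    have h5 : ‖fderiv ℝ (fun z => (F z).re) z‖ₑ = 0 := by simpa using h1
    rw [← ofReal_norm, ENNReal.ofReal_eq_zero] at h5
    exact norm_le_zero_iff.1 h5
  rw [fderiv_fun_sub h2 hd, h4, sub_zero]

theorem h51_nrm_zero {E : Type} : nrm (fun _ : E => (0 : ℝ)) = 0 := by simp [nrm]

/-- `R0`.  `hb_nearest` for `K = {(lam ψ - l, 0) | LL l k, nrm k ≤ s, Sp k}` gives `F`, `c`, `t = 0`
and `D = En (Re F) ≤ om (lam ψ - l) c`.  With `m = om (lam ψ) c - D ≥ 0` (take `l = 0`) scaling gives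
`|om c l| ≤ (m / s) nrm k` (if `nrm k = 0` all multiples of `l` are allowed).  `farkas` gives a
weight `e` of `c ψ` with `nrm e ≤ m / s`; `om_unclip` for `d = c ψ` and germs
(`om (c ψ ψ) lam = om (c ψ) lam = om c (lam ψ) = - om (lam ψ) c`) give `m + D ≤ τ m / s`, so
`D = 0`; take an approximant (`En_add_le`). -/
theorem r0 (hU : IsOpen U) (hc : IsPreconnected U) (hM : ∀ r ∈ M, Reg Λ r) (hC : CH Λ M)
    {lam ψ : ℂ → ℝ} (hl : XX U lam) (hψ : A0 U ψ) (h01 : ∀ q, Λ.val ψ q = 0 ∨ Λ.val ψ q = 1)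
    (F : Finset Λ.E) {τ s : ℝ} (hτ : 0 ≤ τ) (hs : τ < s)
    (h : ∀ v e, TT Λ M v → Bdd U v → Adm Λ M F v e →
      |om U (fun z => v z * ψ z) lam| ≤ τ * nrm e) {ε : ℝ} (hε : 0 < ε) :
    ∃ l k, LL Λ M l k ∧ nrm k ≤ s ∧ Sp Λ ψ F k ∧
      En U (fun z => lam z * ψ z - l z) ≤ ENNReal.ofReal ε := by
  have hs0 : 0 < s := hτ.trans_lt hs
  have hg : XX U (fun z => lam z * ψ z) := XX.mul_A0 hU Λ hl hψ
  have hl0 : L2w (fun _ : Λ.E => (0 : ℝ)) := ⟨fun _ => le_rfl, by simp⟩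
  obtain ⟨G, c, t, hG, hGE, hcx, -, -, -, -, ht0, hle, happ⟩ := hb_nearest hU hc Λ
    {x | ∃ l k, LL Λ M l k ∧ nrm k ≤ s ∧ Sp Λ ψ F k ∧
      x = ((fun z => lam z * ψ z - l z), fun _ => (0 : ℝ))}
    ⟨_, fun _ => 0, fun _ => 0, LL.const 0, by rw [h51_nrm_zero]; exact hs0.le,
      fun _ _ => rfl, rfl⟩
    (by
      rintro _ ⟨l, k, h1, -, -, rfl⟩
      exact ⟨hg.sub hU (h1.xx hU hM), hl0⟩)
    (by
      rintro _ ⟨l, k, h1, h2, h3, rfl⟩ _ ⟨l', k', h1', h2', h3', rfl⟩ θ h0 hθ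
      have hθ' : 0 ≤ 1 - θ := by linarith
      refine ⟨_, _, LL.add _ _ _ _ (h1.smul hU θ) (h1'.smul hU (1 - θ)), ?_, ?_, ?_⟩
      · rw [abs_of_nonneg h0, abs_of_nonneg hθ']
        obtain ⟨a1, a2⟩ := (h1.l2 hM).smul h0
        obtain ⟨b1, b2⟩ := (h1'.l2 hM).smul hθ'
        have := (L2w.add a1 b1).2
        rw [a2, b2] at this
        nlinarith [mul_le_mul_of_nonneg_left h2 h0, mul_le_mul_of_nonneg_left h2' hθ']
      · intro q hq
        simp [h3 q hq, h3' q hq]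
      · refine Prod.ext (funext fun z => ?_) (funext fun q => ?_)
        · simp only
          ring
        · simp)
    (by
      rintro _ ⟨l, k, h1, h2, h3, rfl⟩ a ha
      refine ⟨_, _, LL.add _ _ _ _ h1 ((LL.a0 a ha).smul hU (-1)), by simpa using h2, ?_, ?_⟩
      · intro q hq
        simp [h3 q hq]
      · refine Prod.ext (funext fun z => ?_) rfl
        simp only
        ring)
  have ht : t = fun _ => 0 := funext fun q => ht0 q (by
    rintro _ ⟨l, k, -, -, -, rfl⟩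
    rfl)
  subst ht
  set D : ℝ := (En U (fun z => (G z).re)).toReal with hD
  have hD0 : 0 ≤ D := ENNReal.toReal_nonneg
  set m : ℝ := om U (fun z => lam z * ψ z) c - D with hm
  have key : ∀ l k, LL Λ M l k → nrm k ≤ s → Sp Λ ψ F k → om U l c ≤ m := by
    intro l k h1 h2 h3
    have := hle _ ⟨l, k, h1, h2, h3, rfl⟩
    simp only [h51_nrm_zero, mul_zero, tsum_zero] at this
    rw [om_sub_left hU hg (h1.xx hU hM) hcx] at this
    linarith
  have hm0 : 0 ≤ m := by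
    have := key _ _ (LL.const 0) (by rw [h51_nrm_zero]; exact hs0.le) (fun _ _ => rfl)
    simpa [om, wd] using this
  have key2 : ∀ l k, LL Λ M l k → Sp Λ ψ F k → |om U c l| ≤ m / s * nrm k := by
    intro l k h1 h3
    have sc : ∀ a : ℝ, |a| * nrm k ≤ s → a * om U l c ≤ m := fun a ha => by
      rw [← om_smul_left]
      refine key _ _ (h1.smul hU a) ?_ (fun q hq => by simp [h3 q hq])
      rwa [((h1.l2 hM).smul (abs_nonneg a)).2]
    rw [om_skew, abs_neg]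
    rcases (L2w.nrm_nonneg k).eq_or_lt with h0 | h0
    · rw [← h0, mul_zero]
      by_contra hne
      have hne' : om U l c ≠ 0 := fun e => hne (by rw [e, abs_zero])
      have := sc ((m + 1) / om U l c) (by rw [← h0, mul_zero]; exact hs0.le)
      rw [div_mul_cancel₀ _ hne'] at this
      linarith
    · have ha : |s / nrm k| * nrm k ≤ s := by
        rw [abs_of_nonneg (by positivity), div_mul_cancel₀ _ h0.ne']
      have b1 := sc (s / nrm k) ha
      have b2 := sc (-(s / nrm k)) (by rwa [abs_neg])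
      have hp : 0 < s / nrm k := by positivity
      have e : m / s * nrm k = m / (s / nrm k) := by field_simp
      rw [e, le_div_iff₀ hp]
      rcases abs_cases (om U l c) with h' | h' <;> rw [h'.1] <;> linarith
  obtain ⟨e, he, hen, -⟩ := farkas hU hM hcx hψ h01 F (by positivity) key2
  have hcψ : XX U (fun z => c z * ψ z) := XX.mul_A0 hU Λ hcx hψ
  have h1 := om_unclip hU hM hC hl hψ hcψ he (τ := τ * nrm e)
    (fun v h1 h2 h3 => h v e h1 h2 h3)
  have h2 : om U (fun z => c z * ψ z * ψ z) lam = om U (fun z => c z * ψ z) lam := by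
    obtain ⟨N, hN⟩ := hψ.eq_val Λ
    refine om_germ_congr hU Λ (XX.mul_A0 hU Λ hcψ hψ) hcψ hl hl fun q =>
      ⟨N, 0, 0, fun z hz => ?_, fun z _ => by simp⟩
    rw [hN N le_rfl q z hz]
    rcases h01 q with h' | h' <;> simp [h']
  rw [h2, om_mul_swap hU Λ hcx hl hψ, om_skew, abs_neg] at h1
  have h3 : m + D ≤ τ * (m / s) := by
    have := le_abs_self (om U (fun z => lam z * ψ z) c)
    have h4 := mul_le_mul_of_nonneg_left hen hτ
    linarith
  have h4 : τ * (m / s) ≤ m := by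
    have h5 : 0 ≤ m / s := by positivity
    calc τ * (m / s) ≤ s * (m / s) := mul_le_mul_of_nonneg_right hs.le h5
      _ = m := by field_simp
  have hDz : En U (fun z => (G z).re) = 0 := by
    have : D = 0 := le_antisymm (by linarith) hD0
    rcases (ENNReal.toReal_eq_zero_iff _).1 this with h' | h'
    · exact h'
    · exact absurd h' hGE.ne
  obtain ⟨_, ⟨l, k, a1, a2, a3, rfl⟩, b1, -⟩ := happ ε hε
  refine ⟨l, k, a1, a2, a3, ?_⟩
  rw [h51_En_of_zero hU (hg.sub hU (a1.xx hU hM)) hG hDz]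
  exact b1

/-- `R0` with `ψ = 1` -/
theorem r0_one (hU : IsOpen U) (hc : IsPreconnected U) (hM : ∀ r ∈ M, Reg Λ r) (hC : CH Λ M)
    {lam : ℂ → ℝ} (hl : XX U lam) (F : Finset Λ.E) {κ : Λ.E → ℝ} (hκ : L2w κ) {s : ℝ}
    (hs : nrm κ < s)
    (h : ∀ v e, TT Λ M v → Bdd U v → Adm Λ M F v e → |om U v lam| ≤ ∑' q, κ q * e q)
    {ε : ℝ} (hε : 0 < ε) :
    ∃ l k, LL Λ M l k ∧ nrm k ≤ s ∧ (∀ q ∈ F, k q = 0) ∧
      En U (fun z => lam z - l z) ≤ ENNReal.ofReal ε := by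
  have hv : ∀ q, Λ.val (fun _ => (1 : ℝ)) q = 1 := fun q =>
    (val_eq Λ ⟨1, fun _ _ => by simp⟩ (n := 0) fun _ _ => rfl).1
  obtain ⟨l, k, h1, h2, h3, h4⟩ := r0 hU hc hM hC hl (A0.const 1) (fun q => Or.inr (hv q)) F
    (L2w.nrm_nonneg κ) hs (fun v e hv hb he => by
      simp only [mul_one]
      exact (h v e hv hb he).trans (hκ.summable_mul he.l2).2) hε
  exact ⟨l, k, h1, h2, fun q hq => h3 q (Or.inr hq), by simpa only [mul_one] using h4⟩

/-- a.e. `‖∇(h ψ)‖² ≤ 2 B² ‖∇h‖² + 2 L² h² 1_K`, where `K` is the compact set of `A0.loc` and `L`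
bounds `‖∇ψ‖` on it; `l2loc`. -/
theorem En_mul_A0_tendsto (hU : IsOpen U) (Λ : Lumps U) {h : ℕ → ℂ → ℝ} (hh : ∀ n, XX U (h n))
    (he : Tendsto (fun n => En U (h n)) atTop (𝓝 0))
    (ha : ∀ᵐ z, z ∈ U → Tendsto (fun n => h n z) atTop (𝓝 0)) {ψ : ℂ → ℝ} (hψ : A0 U ψ) :
    Tendsto (fun n => En U (fun z => h n z * ψ z)) atTop (𝓝 0) := by
  exact End.en_mul_A0 hU Λ (fun n => (hh n).lip) he ha hψ

/-- cutting the approximants off: take `l n` with `En (g - l n) ≤ 1 / (n + 1)`, `hb_poinc` for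
`g - l n`, `En_mul_A0_tendsto` for `g - l (φ n) - c n`; `g - (l + c) ψ = (g - l - c) ψ`. -/
theorem cut_close (hU : IsOpen U) (hc : IsPreconnected U) (Λ : Lumps U) {g ψ : ℂ → ℝ}
    (hg : XX U g) (hψ : A0 U ψ) (hgψ : ∀ z, g z * ψ z = g z) (P : (ℂ → ℝ) → Prop)
    (hP : ∀ l, P l → XX U l)
    (h : ∀ ε > 0, ∃ l, P l ∧ En U (fun z => g z - l z) ≤ ENNReal.ofReal ε) {ε : ℝ} (hε : 0 < ε) :
    ∃ l c, P l ∧ En U (fun z => g z - (l z + c) * ψ z) ≤ ENNReal.ofReal ε := by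
  choose l hl hE using fun n : ℕ => h (1 / ((n : ℝ) + 1)) Nat.one_div_pos_of_nat
  have hx : ∀ n, XX U (fun z => g z - l n z) := fun n => hg.sub hU (hP _ (hl n))
  have h0 : Tendsto (fun n => En U (fun z => g z - l n z)) atTop (𝓝 0) := by
    refine tendsto_of_tendsto_of_tendsto_of_le_of_le tendsto_const_nhds ?_ (fun _ => zero_le) hE
    simpa using ENNReal.tendsto_ofReal (tendsto_one_div_add_atTop_nhds_zero_nat (𝕜 := ℝ))
  obtain ⟨φ, c, hφ, ha⟩ := hb_poinc hU hc (fun n => (hx n).lip) h0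
  have h1 : Tendsto (fun n => En U (fun z => g z - l (φ n) z - c n)) atTop (𝓝 0) := by
    refine (h0.comp hφ.tendsto_atTop).congr fun n => ?_
    simp only [Function.comp, En, fderiv_sub_const]
  have h2 := En_mul_A0_tendsto hU Λ (fun n => (hx (φ n)).sub hU (XX.const (c n))) h1 ha hψ
  obtain ⟨n, hn⟩ := (h2.eventually (ge_mem_nhds (ENNReal.ofReal_pos.2 hε))).exists
  refine ⟨l (φ n), c n, hl _, le_of_eq_of_le ?_ hn⟩
  congr 1
  funext z
  linear_combination -hgψ z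

end Crest.Agent.R105
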