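import Crest.Agent.R105.HAdm

/-! Row 105: toolkit for the cone `LL` and a few clipping lemmas. -/

set_option autoImplicit false

open MeasureTheory Set Filter Topology
open scoped ENNReal Classical

namespace Crest.Agent.R105

variable {U : Set ℂ} {Λ : Lumps U} {M : Set (ℂ → ℝ)}

/-- induction on `LL` (`XX.mul_A0`, `XX.comp_C1`, `XX.add`) -/
theorem LL.xx (hU : IsOpen U) (hM : ∀ r ∈ M, Reg Λ r) {l : ℂ → ℝ} {k : Λ.E → ℝ}
    (h : LL Λ M l k) : XX U l := by
  induction h with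
  | a0 χ hχ => exact hχ.xx
  | gen r H χ hr hH hχ => exact (XX.comp_C1 hU hH (hM r hr).xx (hM r hr).bdd).mul_A0 hU Λ hχ
  | add l l' k k' _ _ ih ih' => exact ih.add hU ih'

theorem LL.bdd (hM : ∀ r ∈ M, Reg Λ r) {l : ℂ → ℝ} {k : Λ.E → ℝ} (h : LL Λ M l k) :
    Bdd U l := by
  induction h with
  | a0 χ hχ => exact hχ.bdd Λ
  | gen r H χ hr hH hχ =>
    obtain ⟨B, hB⟩ := (hM r hr).bdd
    obtain ⟨B', hB'⟩ := hχ.bdd Λ
    obtain ⟨A, hA⟩ := (isCompact_Icc (a := -B) (b := B)).exists_bound_of_continuousOn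
      hH.continuous.continuousOn
    refine ⟨A * B', fun z hz => ?_⟩
    have h1 : |H (r z)| ≤ A := hA _ (abs_le.1 (hB z hz))
    rw [abs_mul]
    exact mul_le_mul h1 (hB' z hz) (abs_nonneg _) ((abs_nonneg _).trans h1)
  | add l l' k k' _ _ ih ih' =>
    obtain ⟨B, hB⟩ := ih
    obtain ⟨B', hB'⟩ := ih'
    exact ⟨B + B', fun z hz => (abs_add_le _ _).trans (add_le_add (hB z hz) (hB' z hz))⟩

/-- `wt_l2`, `L2w.add` -/
theorem LL.l2 (hM : ∀ r ∈ M, Reg Λ r) {l : ℂ → ℝ} {k : Λ.E → ℝ} (h : LL Λ M l k) : L2w k := by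
  induction h with
  | a0 χ hχ => exact ⟨fun _ => le_rfl, by simp⟩
  | gen r H χ hr hH hχ => exact wt_l2 Λ (hM r hr) hH hχ
  | add l l' k k' _ _ ih ih' => exact (ih.add ih').1

/-- near `q` the generator is `val χ q * H (r z)` (`A0.eq_val`, `Lumps.lo_congr`,
`Lumps.osc_lin_le`, `Lumps.osc_comp_C1_le`, `A0.osc_eq`) -/
theorem LL.osc_le (hM : ∀ r ∈ M, Reg Λ r) {l : ℂ → ℝ} {k : Λ.E → ℝ} (h : LL Λ M l k)
    (q : Λ.E) : Λ.osc l q ≤ k q := by
  induction h with
  | a0 χ hχ => exact (hχ.osc_eq Λ q).le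
  | gen r H χ hr hH hχ =>
    have b1 : Bdd U fun z => H (r z) := by
      simpa using (LL.gen r H _ hr hH (A0.const (U := U) 1)).bdd hM
    obtain ⟨N, hN⟩ := hχ.eq_val Λ
    obtain ⟨e1, e2⟩ := Λ.lo_congr ((LL.gen r H χ hr hH hχ).bdd hM)
      ((LL.gen r H _ hr hH (A0.const (U := U) (Λ.val χ q))).bdd hM) (q := q) fun η hη =>
        ⟨N, fun z hz => by simpa [hN N le_rfl q z hz] using hη.le⟩
    have h1 := Λ.osc_comp2_le b1 b1 (G := fun s _ => s * Λ.val χ q) (abs_nonneg (Λ.val χ q))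
      le_rfl (fun s t s' t' => by rw [← sub_mul, abs_mul, mul_comm, zero_mul, add_zero]) q
    rw [zero_mul, add_zero] at h1
    rw [Lumps.osc, e1, e2]
    exact h1.trans (mul_le_mul_of_nonneg_left (Λ.osc_comp_C1_le (hM r hr).bdd hH q)
      (abs_nonneg _))
  | add l l' k k' h h' ih ih' =>
    have := Λ.osc_lin_le (h.bdd hM) (h'.bdd hM) 1 1 q
    simp only [one_mul, abs_one] at this
    exact this.trans (add_le_add ih ih')

theorem LL.reg (hU : IsOpen U) (hM : ∀ r ∈ M, Reg Λ r) {l : ℂ → ℝ} {k : Λ.E → ℝ}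
    (h : LL Λ M l k) : Reg Λ l := by
  exact ⟨h.xx hU hM, h.bdd hM,
    (L2w.of_le (h.l2 hM) (fun q => Λ.osc_nonneg (h.bdd hM) q) (h.osc_le hM)).1.2⟩

/-- `H (r z) = H (clip (r z))` on `U` with a globally Lipschitz `H ∘ clip`; `Fam.compat`,
`CH.lip`, `Adm.congr`, `TT.mul_A0`, `TT.add`, `TT.of_A0` -/
theorem LL.tt (hU : IsOpen U) (hF : Fam Λ M) (hC : CH Λ M) {l : ℂ → ℝ} {k : Λ.E → ℝ}
    (h : LL Λ M l k) : TT Λ M l := by
  induction h with
  | a0 χ hχ => exact TT.of_A0 hU hF.reg hχ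
  | gen r H χ hr hH hχ =>
    have hR := hF.reg r hr
    obtain ⟨B, hB⟩ := hR.bdd
    obtain ⟨K, hK⟩ := (hH.contDiffOn (s := Icc (-|B|) |B|)).exists_lipschitzOnWith one_ne_zero
      (convex_Icc _ _) isCompact_Icc
    refine TT.mul_A0 hU ⟨hR.xx.comp_C1 hU hH hR.bdd, _, (hC.lip hR.xx (hF.compat r hr)
      (T := fun s => H (max (-|B|) (min s |B|))) K.2 fun s s' => ?_).congr hU fun z hz => ?_⟩ hχ
    · have := hK.dist_le_mul _ (h18_clamp_mem (abs_nonneg B) s) _
        (h18_clamp_mem (abs_nonneg B) s')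
      rw [Real.dist_eq, Real.dist_eq] at this
      exact this.trans (mul_le_mul_of_nonneg_left (h18_clamp _ s s') K.2)
    · simp only [h18_clamp_eq ((hB z hz).trans (le_abs_self B))]
  | add l l' k k' _ _ ih ih' => exact TT.add hU hF.reg ih ih'

/-- `Adm.osc`, `Adm.mono` -/
theorem LL.adm (hU : IsOpen U) (hF : Fam Λ M) (hC : CH Λ M) {l : ℂ → ℝ} {k : Λ.E → ℝ}
    (h : LL Λ M l k) : Adm Λ M ∅ l k := by
  exact (Adm.osc hU hF.reg hC (h.reg hU hF.reg) (h.tt hU hF hC)).mono hF.reg Finset.Subset.rfl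
    (h.l2 hF.reg) fun q _ => h.osc_le hF.reg q

/-- induction; `A0.mul` -/
theorem LL.mul_A0 (hU : IsOpen U) {l ψ : ℂ → ℝ} {k : Λ.E → ℝ} (h : LL Λ M l k) (hψ : A0 U ψ) :
    LL Λ M (fun z => l z * ψ z) (fun q => |Λ.val ψ q| * k q) := by
  induction h with
  | a0 χ hχ => simpa using LL.a0 (Λ := Λ) (M := M) _ (hχ.mul hU Λ hψ).1
  | gen r H χ hr hH hχ =>
    obtain ⟨h1, h2⟩ := hχ.mul hU Λ hψ
    convert LL.gen (Λ := Λ) r H _ hr hH h1 using 2 with z q
    · ring
    · unfold wt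
      rw [h2, abs_mul]
      ring
  | add l l' k k' _ _ ih ih' =>
    convert LL.add _ _ _ _ ih ih' using 2 with z q <;> ring

theorem LL.smul (hU : IsOpen U) {l : ℂ → ℝ} {k : Λ.E → ℝ} (h : LL Λ M l k) (a : ℝ) :
    LL Λ M (fun z => a * l z) (fun q => |a| * k q) := by
  have h1 : ∀ q, Λ.val (fun _ => a) q = a := fun q =>
    (val_eq Λ ((A0.const a).bdd Λ) (n := 0) fun _ _ => rfl).1
  simpa only [h1, mul_comm a] using h.mul_A0 hU (A0.const a)

theorem LL.const (a : ℝ) : LL Λ M (fun _ => a) (fun _ => 0) := LL.a0 _ (A0.const a)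

theorem LL.sum {ι : Type*} (s : Finset ι) {l : ι → ℂ → ℝ} {k : ι → Λ.E → ℝ}
    (h : ∀ i ∈ s, LL Λ M (l i) (k i)) :
    LL Λ M (fun z => ∑ i ∈ s, l i z) (fun q => ∑ i ∈ s, k i q) := by
  induction s using Finset.induction_on with
  | empty => simpa using LL.const (Λ := Λ) (M := M) 0
  | insert i s hi ih =>
    simp only [Finset.sum_insert hi]
    exact LL.add _ _ _ _ (h i (Finset.mem_insert_self _ _))
      (ih fun j hj => h j (Finset.mem_insert_of_mem hj))

/-- induction: `om_A0`; `om_mul_swap` and `Adm.le`; `om_add_right`, `Summable.tsum_add` -/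
theorem LL.om_le (hU : IsOpen U) (hM : ∀ r ∈ M, Reg Λ r) {l v : ℂ → ℝ} {k e : Λ.E → ℝ}
    (h : LL Λ M l k) (hv : XX U v) (he : Adm Λ M ∅ v e) : |om U v l| ≤ ∑' q, e q * k q := by
  induction h with
  | a0 χ hχ => simp [om_A0 hU hv.lip hχ]
  | gen r H χ hr hH hχ =>
    rw [← om_mul_swap hU Λ hv (XX.comp_C1 hU hH (hM r hr).xx (hM r hr).bdd) hχ]
    exact he.le r hr H hH χ hχ (by simp)
  | add l l' k k' h1 h2 ih1 ih2 =>
    rw [om_add_right hU hv (h1.xx hU hM) (h2.xx hU hM)]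
    simp only [mul_add]
    rw [(he.l2.summable_mul (h1.l2 hM)).1.tsum_add (he.l2.summable_mul (h2.l2 hM)).1]
    exact (abs_add_le _ _).trans (add_le_add ih1 ih2)

/-- a cut-off vanishing at the excluded ends removes the exclusion (test with `ψ χ`, `A0.mul`) -/
theorem Adm.of_vanish (hU : IsOpen U) {F : Finset Λ.E} {v ψ : ℂ → ℝ} {e : Λ.E → ℝ}
    (h : Adm Λ M F v e) (hψ : A0 U ψ) (h0 : ∀ p ∈ F, Λ.val ψ p = 0) :
    Adm Λ M ∅ (fun z => v z * ψ z) (fun q => |Λ.val ψ q| * e q) := by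
  refine ⟨?_, fun r hr H hH χ hχ _ => ?_⟩
  · obtain ⟨B, hB⟩ := hψ.bdd Λ
    obtain ⟨N, hN⟩ := hψ.eq_val Λ
    have hv : ∀ q, |Λ.val ψ q| ≤ |B| := fun q => by
      obtain ⟨z, hz⟩ := (Λ.conn N q).nonempty
      rw [← hN N le_rfl q z hz]
      exact (hB z (Λ.sub N q hz).1).trans (le_abs_self B)
    exact ((h.l2.smul (abs_nonneg B)).1.of_le (fun q => mul_nonneg (abs_nonneg _) (h.l2.1 q))
      fun q => mul_le_mul_of_nonneg_right (hv q) (h.l2.1 q)).1
  · obtain ⟨hA, hval⟩ := A0.mul hU Λ hψ hχ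
    have h1 := h.le r hr H hH _ hA fun p hp => by rw [hval p, h0 p hp, zero_mul]
    simp only [mul_assoc]
    refine h1.trans (le_of_eq (tsum_congr fun q => ?_))
    simp only [wt, hval q, abs_mul]
    ring

/-- a bounded function has the weight `B` at the excluded ends (`CH` with
`G s t = max (-(B/2)) (min (B/2) s)`, `L₂ = 0`; `Adm.congr`; `0 ≤ B` since `U` is nonempty,
`Λ.far`) -/
theorem Adm.rem (hU : IsOpen U) (hC : CH Λ M) {F : Finset Λ.E} {f : ℂ → ℝ} {e : Λ.E → ℝ} {B : ℝ}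
    (hf : XX U f) (h : Adm Λ M F f e) (hB : ∀ z ∈ U, |f z| ≤ B / 2) :
    Adm Λ M ∅ f (fun q => if q ∈ F then B else e q) := by
  have hB0 : 0 ≤ B / 2 := (abs_nonneg _).trans (hB (|Λ.R| : ℝ) (Λ.far _ (by
    rw [Complex.norm_real, Real.norm_eq_abs, abs_abs]; exact le_abs_self _)))
  have h1 := hC F f f e e (fun s _ => max (-(B / 2)) (min s (B / 2))) 1 0 B hf hf h h zero_le_one
    le_rfl (by linarith) (fun s t s' t' => by simpa using h18_clamp (B / 2) s s')
    (Or.inr fun s t => abs_le.2 (h18_clamp_mem hB0 s))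
  simp only [one_mul, zero_mul, add_zero] at h1
  refine ⟨by convert h1.l2, fun r hr H hH χ hχ h0 => ?_⟩
  rw [om_congr hU (u' := fun z => max (-(B / 2)) (min (f z) (B / 2)) * χ z) (fun z hz => by
    simp only [h18_clamp_eq (hB z hz)]) (eqOn_refl _ _)]
  convert h1.le r hr H hH χ hχ h0

/-- the weight in a small lump around `q`, without `q`: `L2w.tail` gives a finite set carrying
almost everything, `Lumps.sep` (and `W_mono`, `W_eq_of_le`) separates it from `q`; `L2w.of_le`. -/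
theorem nrm_tail_lump {k : Λ.E → ℝ} (hk : L2w k) (q : Λ.E) {η : ℝ} (hη : 0 < η) :
    ∃ N, ∀ n ≥ N, nrm (fun q' => if Λ.W n q' = Λ.W n q ∧ q' ≠ q then k q' else 0) ≤ η := by
  obtain ⟨Y, hY⟩ := hk.tail hη
  obtain ⟨N, hN⟩ := Λ.exists_reps_of (insert q Y)
  refine ⟨N, fun n hn => le_trans ?_ (hY Y (Finset.Subset.refl _))⟩
  obtain ⟨Q, hQ, -, hd⟩ := hN n hn
  have ht : L2w fun q' => if q' ∈ Y then 0 else k q' :=
    (hk.of_le (fun q' => by split_ifs; exacts [le_rfl, hk.1 q'])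
      fun q' => by split_ifs; exacts [hk.1 q', le_rfl]).1
  refine (ht.of_le (fun q' => by split_ifs; exacts [hk.1 q', le_rfl]) fun q' => ?_).2
  split_ifs with h1 h2 h2
  · have h3 := hd q' (hQ (Finset.mem_insert_of_mem h2)) q (hQ (Finset.mem_insert_self _ _)) h1.2
    rw [h1.1, disjoint_self] at h3
    exact absurd h3 (Λ.conn n q).nonempty.ne_empty
  exacts [le_rfl, le_rfl, hk.1 q']

/-- the pairing of weights localised to a small lump around `q` (`nrm_tail_lump` for `a` with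
`η / (nrm b + 1)`, `L2w.summable_mul`, split off the term `q' = q`, e.g. by
`Summable.tsum_eq_add_tsum_ite`) -/
theorem tsum_lump_le {a b : Λ.E → ℝ} (ha : L2w a) (hb : L2w b) (q : Λ.E) {η : ℝ} (hη : 0 < η) :
    ∃ N, ∀ n ≥ N, ∑' q', (if Λ.W n q' = Λ.W n q then a q' * b q' else 0) ≤ a q * b q + η := by
  have hb0 : 0 ≤ nrm b := Real.sqrt_nonneg _
  obtain ⟨N, hN⟩ := nrm_tail_lump ha q (η := η / (nrm b + 1)) (by positivity)
  refine ⟨N, fun n hn => ?_⟩
  have ht : L2w fun q' => if Λ.W n q' = Λ.W n q ∧ q' ≠ q then a q' else 0 :=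
    (ha.of_le (fun q' => by split_ifs; exacts [ha.1 q', le_rfl])
      fun q' => by split_ifs; exacts [le_rfl, ha.1 q']).1
  obtain ⟨h1, h2⟩ := ht.summable_mul hb
  have h3 : (fun q' => if Λ.W n q' = Λ.W n q then a q' * b q' else 0) = fun q' =>
      (if q' = q then a q * b q else 0) +
        (if Λ.W n q' = Λ.W n q ∧ q' ≠ q then a q' else 0) * b q' := by
    funext q'
    by_cases h : q' = q
    · subst h; simp
    · simp [h]
  rw [h3, (hasSum_ite_eq q _).summable.tsum_add h1, tsum_ite_eq]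
  refine add_le_add le_rfl (h2.trans ((mul_le_mul_of_nonneg_right (hN n hn) hb0).trans ?_))
  rw [div_mul_eq_mul_div, div_le_iff₀ (by positivity)]
  nlinarith

/-- a.e. `wd (f T'(g)) g = T'(g) wd f g`; `om_comp_right` -/
theorem om_comp_swap (hU : IsOpen U) {f g : ℂ → ℝ} (hf : LocallyLipschitzOn U f)
    (hg : LocallyLipschitzOn U g) {T : ℝ → ℝ} (hT : ContDiff ℝ 2 T) :
    om U f (fun z => T (g z)) = om U (fun z => f z * deriv T (g z)) g := by
  have hT1 : ContDiff ℝ 1 T := hT.of_le (by norm_num)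
  have hT' : Differentiable ℝ (deriv T) := by
    rw [← one_add_one_eq_two, contDiff_succ_iff_deriv] at hT
    exact hT.2.2.differentiable one_ne_zero
  rw [om_comp_right hU hT1 hg, om]
  refine setIntegral_congr_ae hU.measurableSet ?_
  filter_upwards [ae_diff hU hf, ae_diff hU hg] with z h1 h2 hz
  have g1 := (hT' (g z)).hasDerivAt
  have g2 : DifferentiableAt ℝ (fun z => deriv T (g z)) z := g1.differentiableAt.comp z (h2 hz)
  simp only [wd, h90_fderiv_mul (h1 hz) g2, h90_fderiv_comp g1 (h2 hz)]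
  ring

/-- a smooth clip -/
structure SClip (T : ℝ → ℝ) (A : ℝ) : Prop where
  sm : ContDiff ℝ 2 T
  id : ∀ s, |s| ≤ A → T s = s
  bd : ∀ s, |T s| ≤ A + 1
  d01 : ∀ s, 0 ≤ deriv T s ∧ deriv T s ≤ 1
  lip : ∀ s s', |T s - T s'| ≤ 1 * |s - s'|
  dlip : ∃ L, 0 ≤ L ∧ ∀ s s', |deriv T s - deriv T s'| ≤ L * |s - s'|

/-- `T s = ∫ x in 0..s, b x` for a smooth bump `b` (`ContDiffBump (0 : ℝ)` with radii `A + 1/2`
and `A + 1`); `b` is Lipschitz since it is `C¹` with compact support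
(`ContDiff.lipschitzWith_of_hasCompactSupport`). -/
theorem exists_sclip {A : ℝ} (hA : 0 ≤ A) : ∃ T, SClip T A := by
  let b : ContDiffBump (0 : ℝ) := ⟨A + 1 / 2, A + 1, by positivity, by linarith⟩
  have hb : Continuous b := b.continuous
  set T : ℝ → ℝ := fun u => ∫ x in (0 : ℝ)..u, b x with hT
  have hd : ∀ t, HasDerivAt T (b t) t := fun t => (hb.integral_hasStrictDerivAt 0 t).hasDerivAt
  have e : deriv T = b := funext fun t => (hd t).deriv
  have hlip : ∀ s s', |T s - T s'| ≤ 1 * |s - s'| := by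
    have h1 : LipschitzWith 1 T := lipschitzWith_of_nnnorm_deriv_le
      (fun t => (hd t).differentiableAt) fun t => by
        rw [e, ← NNReal.coe_le_coe, coe_nnnorm, Real.norm_eq_abs, abs_of_nonneg b.nonneg]
        exact b.le_one
    intro s s'
    simpa [Real.dist_eq] using h1.dist_le_mul s s'
  have hsub : ∀ s s', T s - T s' = ∫ x in s'..s, b x := fun s s' =>
    intervalIntegral.integral_interval_sub_left (hb.intervalIntegrable _ _)
      (hb.intervalIntegrable _ _)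
  have hz : ∀ x, A + 1 ≤ |x| → b x = 0 := fun x hx =>
    b.zero_of_le_dist (by rwa [dist_zero_right])
  have hin : ∀ s, |s| ≤ A + 1 → |T s| ≤ A + 1 := fun s hs => by
    have h1 := hlip s 0
    have h2 : T 0 = 0 := intervalIntegral.integral_same
    rw [h2, sub_zero, sub_zero, one_mul] at h1
    exact h1.trans hs
  refine ⟨T, ?_, fun s hs => ?_, fun s => ?_, fun s => ?_, hlip, ?_⟩
  · rw [← one_add_one_eq_two, contDiff_succ_iff_deriv, e]
    exact ⟨fun t => (hd t).differentiableAt, by simp, b.contDiff⟩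
  · have h1 : T s = ∫ _ in (0 : ℝ)..s, (1 : ℝ) := by
      refine intervalIntegral.integral_congr fun x hx => b.one_of_mem_closedBall ?_
      rw [mem_closedBall_zero_iff, Real.norm_eq_abs]
      have h2 : |x| ≤ |s| := by simpa using abs_sub_left_of_mem_uIcc hx
      change |x| ≤ A + 1 / 2
      linarith
    simpa using h1
  · rcases le_total s (-(A + 1)) with h | h
    · have h1 : T s - T (-(A + 1)) = 0 := by
        rw [hsub]
        refine (intervalIntegral.integral_congr (g := fun _ => 0) fun x hx => hz x ?_).trans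
          intervalIntegral.integral_zero
        rw [uIcc_of_ge h] at hx
        linarith [hx.2, neg_le_abs x]
      rw [sub_eq_zero.1 h1]
      exact hin _ (by rw [abs_neg, abs_of_nonneg (by linarith)])
    · rcases le_total s (A + 1) with h' | h'
      · exact hin s (abs_le.2 ⟨h, h'⟩)
      · have h1 : T s - T (A + 1) = 0 := by
          rw [hsub]
          refine (intervalIntegral.integral_congr (g := fun _ => 0) fun x hx => hz x ?_).trans
            intervalIntegral.integral_zero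
          rw [uIcc_of_le h'] at hx
          linarith [hx.1, le_abs_self x]
        rw [sub_eq_zero.1 h1]
        exact hin _ (by rw [abs_of_nonneg (by linarith)])
  · rw [e]; exact ⟨b.nonneg, b.le_one⟩
  · obtain ⟨L, hL⟩ := ContDiff.lipschitzWith_of_hasCompactSupport b.hasCompactSupport
      (b.contDiff (n := 1)) (by simp)
    refine ⟨L, L.2, fun s s' => ?_⟩
    rw [e]
    simpa [Real.dist_eq] using hL.dist_le_mul s s'

/-- On `{|u| ≤ n}` the difference vanishes, so its gradient vanishes a.e. there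
(`ae_fderiv_eq_zero_of_eq`); everywhere it is at most `2 ‖∇u‖` (`norm_fderiv_comp2_le`);
dominated convergence. -/
theorem En_clip_tendsto (hU : IsOpen U) {u : ℂ → ℝ} (hu : XX U u) {T : ℕ → ℝ → ℝ}
    (hT : ∀ n s s', |T n s - T n s'| ≤ 1 * |s - s'|) (hid : ∀ (n : ℕ) (s : ℝ), |s| ≤ n → T n s = s) :
    Tendsto (fun n => En U (fun z => T n (u z) - u z)) atTop (𝓝 0) := by
  have hc : ∀ n, XX U (fun z => T n (u z) - u z) := fun n =>
    (XX.comp_lip hU (T := T n) (hT n) hu).sub hU hu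
  have lim : Tendsto (fun n => En U (fun z => T n (u z) - u z)) atTop (𝓝 (∫⁻ _ in U, 0)) := by
    refine tendsto_lintegral_of_dominated_convergence
      (fun z => ENNReal.ofReal (2 ^ 2) * ‖fderiv ℝ u z‖ₑ ^ 2)
      (fun n => (measurable_fderiv ℝ _).enorm.pow_const 2) (fun n => ?_) ?_ ?_
    · refine (ae_restrict_iff' hU.measurableSet).2 ?_
      filter_upwards [ae_diff hU hu.lip] with z d hz
      have hG : ∀ s t s' t' : ℝ, |(T n s - t) - (T n s' - t')| ≤ 1 * |s - s'| + 1 * |t - t'| := by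
        intro s t s' t'
        have e : (T n s - t) - (T n s' - t') = (T n s - T n s') - (t - t') := by ring
        rw [e]
        linarith [abs_sub (T n s - T n s') (t - t'), hT n s s']
      have b : ‖fderiv ℝ (fun z => T n (u z) - u z) z‖ ≤ 2 * ‖fderiv ℝ u z‖ := by
        refine ContinuousLinearMap.opNorm_le_bound _ (by positivity) fun w => ?_
        have h1 := norm_fderiv_comp2_le (G := fun s t => T n s - t) hG (d hz) (d hz) w
        have h2 := (fderiv ℝ u z).le_opNorm w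
        rw [Real.norm_eq_abs] at h2 ⊢
        linarith
      rw [← ofReal_norm, ← ofReal_norm, ← ENNReal.ofReal_pow (norm_nonneg _),
        ← ENNReal.ofReal_pow (norm_nonneg _), ← ENNReal.ofReal_mul (by positivity), ← mul_pow]
      exact ENNReal.ofReal_le_ofReal (pow_le_pow_left₀ (norm_nonneg _) b 2)
    · rw [lintegral_const_mul _ ((measurable_fderiv ℝ _).enorm.pow_const 2)]
      exact (ENNReal.mul_lt_top ENNReal.ofReal_lt_top hu.en).ne
    · refine (ae_restrict_iff' hU.measurableSet).2 ?_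
      filter_upwards [ae_all_iff.2 fun n => ae_fderiv_eq_zero_of_eq hU (hc n).lip 0] with z h0 hz
      refine tendsto_const_nhds.congr' ?_
      filter_upwards [tendsto_natCast_atTop_atTop.eventually_ge_atTop |u z|] with n hn
      rw [h0 n hz (by rw [hid n _ hn, sub_self]), ← ofReal_norm, norm_zero, ENNReal.ofReal_zero,
        zero_pow two_ne_zero]
  rwa [lintegral_zero] at lim

end Crest.Agent.R105
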