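import Crest.Agent.R105.NBr
import Crest.Agent.R105.HAdm

/-! Row 105, block MAX/ISO: definitions, branches with the fibre property. -/

set_option autoImplicit false

open MeasureTheory Set Filter Topology
open scoped ENNReal

namespace Crest.Agent.R105.Mx

variable {U : Set ℂ} {Λ : Lumps U} {M : Set (ℂ → ℝ)}

/-- Lipschitz bound in the elementary form used by `CH` -/
def Lp1 (L : ℝ) (G : ℝ → ℝ) : Prop := ∀ s s', |G s - G s'| ≤ L * |s - s'|

/-- monotone branches of `β` (output of `exists_branches`, plus the fibre property `cst`) -/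
structure Br (Λ : Lumps U) (M : Set (ℂ → ℝ)) (β : ℂ → ℝ) where
  /-- the branches -/
  r : ℕ → ℂ → ℝ
  /-- where the branch is `β` -/
  A : ℕ → Set ℂ
  /-- the levels given to the branch -/
  T : ℕ → Set ℝ
  op : IsOpen U
  reg : Reg Λ β
  c1 : ContDiffOn ℝ 1 β U
  mem : ∀ i, r i ∈ M
  mono : ∀ i, Mono Λ (r i)
  Aop : ∀ i, IsOpen (A i)
  Asub : ∀ i, A i ⊆ U
  eq : ∀ i, EqOn (r i) β (A i)
  ne : ∀ i, ∀ z ∈ A i, fderiv ℝ β z ≠ 0
  ae : ∀ i, ∀ᵐ z, z ∈ U → z ∉ A i → fderiv ℝ (r i) z = 0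
  Top : ∀ i, IsOpen (T i)
  disj : ∀ i j, i ≠ j → ∀ z ∈ A i ∩ A j, β z ∈ T i → β z ∉ T j
  cov : ∀ᵐ z, z ∈ U → fderiv ℝ β z ≠ 0 → ∃ i, z ∈ A i ∧ β z ∈ T i
  cst : ∀ i j, ∃ t₀ : ℝ, ∀ z ∈ A j, ∀ z' ∈ A j, β z = β z' → β z ≠ t₀ → r i z = r i z'

/-- the part of `U` carried by the branch `i` -/
def Br.D {β : ℂ → ℝ} (B : Br Λ M β) (i : ℕ) : Set ℂ := B.A i ∩ β ⁻¹' B.T i

/-- `w` has total jump `∫ h` across the end `q` along the levels of `r` -/
structure Jmp (Λ : Lumps U) (r : ℂ → ℝ) (q : Λ.E) (h : ℝ → ℝ) (w : ℂ → ℝ) : Prop where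
  xx : XX U w
  int : Integrable h
  le : ∀ z ∈ U, |w z| ≤ h (r z) / 2
  loc : ∃ n, ∀ z ∈ Λ.W n q, ∃ L G, Lp1 L G ∧ ∀ᶠ y in 𝓝 z, w y = G (r y)
  ends : ∃ (F : Finset Λ.E) (L : ℝ), 0 ≤ L ∧ ∀ p, p ∉ F → ∃ n G, Lp1 L G ∧
    ∀ z ∈ Λ.W n p, w z = G (r z)
  flux : ∃ n, ∀ ψ, A0 U ψ → (∀ z ∈ U, z ∉ Λ.W n q → ψ z = 0) → Λ.val ψ q = 1 →
    ∫ z in U, w z * wd ψ r z = ∫ t, h t

/-- functions of `β` and of its branches -/
structure Fib {β : ℂ → ℝ} (B : Br Λ M β) (f : ℂ → ℝ) : Prop where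
  xx : XX U f
  bdd : Bdd U f
  wd0 : ∀ᵐ z, z ∈ U → wd f β z = 0
  cst : ∀ j, ∃ S : Set ℝ, S.Finite ∧ ∀ z ∈ B.A j, ∀ z' ∈ B.A j, β z = β z' → β z ∉ S → f z = f z'

theorem h70_Dn_le {σ : ℂ → ℝ} {m m' z z' : ℂ} (h : StH U σ m) (hm' : m' ∈ U) (hz : z ∈ U)
    (hz' : z' ∈ U) (e : σ z = σ z') (h1 : Dn U σ m' z = σ z) (h2 : Dn U σ m' z' = σ z') :
    Dn U σ m z ≤ Dn U σ m z' := by
  have h' : StH U σ m' := ⟨h.op, h.conn, h.cont, h.bdd, hm'⟩
  refine le_of_forall_lt fun t ht => ?_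
  have a0 : t < σ z := ht.trans_le (h.Dn_le hz).1
  have a1 : z ∈ Oc U σ m' t := (h'.lt_Dn hz).1 (by rw [h1]; exact a0)
  have a2 : z' ∈ Oc U σ m' t := (h'.lt_Dn hz').1 (by rw [h2, ← e]; exact a0)
  have a3 : z ∈ Oc U σ m t := (h.lt_Dn hz).1 ht
  rw [h.lt_Dn hz']
  unfold Oc at *
  rw [connectedComponentIn_eq a3, ← connectedComponentIn_eq a1]
  exact a2

/-- first pass.  Let `t = β z = β z'`.  For `s > t` both points lie in the component of
`{β < s}` containing `m'` (`StH.lt_Dn` for `-β`, since `Up m' z = t < s`), so for such `s`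
membership in the component of `m` is the same for `z` and `z'` (`connectedComponentIn_eq`);
both values `Up m z`, `Up m z'` are `≥ t` (`StH.Dn_le`). -/
theorem Up_cst {β : ℂ → ℝ} {m m' z z' : ℂ} (h : StH U β m) (hm' : m' ∈ U) (hz : z ∈ U)
    (hz' : z' ∈ U) (e : β z = β z') (h1 : Up U β m' z = β z) (h2 : Up U β m' z' = β z') :
    Up U β m z = Up U β m z' := by
  have e' : -β z = -β z' := by rw [e]
  have a1 : Dn U (fun w => -β w) m' z = -β z := by rw [← h1, Up, neg_neg]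
  have a2 : Dn U (fun w => -β w) m' z' = -β z' := by rw [← h2, Up, neg_neg]
  unfold Up
  rw [le_antisymm (h70_Dn_le h.neg hm' hz hz' e' a1 a2) (h70_Dn_le h.neg hm' hz' hz e'.symm a2 a1)]

theorem h74_merge {β : ℂ → ℝ} {m m' y w : ℂ} (h : StH U β m) (h' : StH U β m') {s : ℝ}
    (hy : y ∈ U) (h1 : Up U β m y < s) (h2 : Up U β m' y < s) (hw : w ∈ U) :
    Up U β m w < s ↔ Up U β m' w < s := by
  have key := h57_Dn_iff h.neg h'.neg (t := -s) (fun _ _ => Iff.rfl) hy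
    (by unfold Up at h1; linarith) (by unfold Up at h2; linarith) hw
  unfold Up
  rw [neg_lt, key, neg_lt]

theorem h74_spread {σ : ℂ → ℝ} {p z z' : ℂ} (h : StH U σ p) {t : ℝ} {W : Set ℂ}
    (hc : IsPreconnected W) (hW : ∀ w ∈ W, w ∈ U ∧ t < σ w) (hz : z ∈ W) (hz' : z' ∈ W)
    (ht : t < Dn U σ p z) : t < Dn U σ p z' := by
  rw [h.lt_Dn (hW z hz).1] at ht
  rw [h.lt_Dn (hW z' hz').1]
  unfold Oc at ht ⊢
  rw [connectedComponentIn_eq ht]
  exact hc.subset_connectedComponentIn hz hW hz'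

/-- FIBRE PROPERTY.  Take `t₀ = Up U β m m'` (the level at which `m`, `m'` merge in the sublevel
sets).  Let `t = β z = β z' ≠ t₀`, `τ = Up m z = Up m z'` (`Up_cst`).  It suffices that for
`s < τ` the points `z`, `z'` lie in one preconnected subset of `{s < Up m}` (then `StH.lt_Dn`
for `σ = Up m`, `StH.up`).  If `τ > t`: for `max s t < τ' < τ` the component `V` of `{β < τ'}`
containing `m'` contains `z, z'`, misses the component of `m`, so `Up m ≥ τ'` on `V`.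
If `τ = t`: `m, m'` lie in one component of `{β < s}` for all `s > t`, so `t₀ ≤ t`, so `t₀ < t`;
for `t₀ < s` the sets `{Up m < s}` and `{Up m' < s}` are equal, hence `{s < Up m} = {s < Up m'}`
on `U`; `z, z'` lie in `Oc U (Up m') p' s` for `s < t` since `Str m' p' = t` there. -/
theorem Str_cst {β : ℂ → ℝ} {m p m' p' : ℂ} (h : StH U β m) (hl : LocallyLipschitzOn U β)
    (hp : p ∈ U) (hm' : m' ∈ U) (hp' : p' ∈ U) : ∃ t₀ : ℝ, ∀ z ∈ SA U β m' p',
      ∀ z' ∈ SA U β m' p', β z = β z' → β z ≠ t₀ → Str U β m p z = Str U β m p z' := by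
  have h' : StH U β m' := ⟨h.op, h.conn, h.cont, h.bdd, hm'⟩
  have hu := (h.up hl hp).1
  have hu' := (h'.up hl hp').1
  have e0 : Up U β m' m' = β m' := by unfold Up; rw [h'.neg.Dn_pole, neg_neg]
  have a0 : Up U β m' m' ≤ Up U β m m' := by
    have := (h.neg.Dn_le hm').1
    rw [e0]; unfold Up; linarith
  have ha : ∀ w ∈ U, Up U β m' w < Up U β m m' → Up U β m m' ≤ Up U β m w := fun w hw h1 => by
    by_contra h2
    exact lt_irrefl _ ((h74_merge h h' hw (not_le.1 h2) h1 hm').2 (by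
      have := (h'.neg.Dn_le hw).2
      rw [e0]; unfold Up at h1 ⊢; linarith))
  have hb : ∀ s, Up U β m m' < s → ∀ w ∈ U, (Up U β m w < s ↔ Up U β m' w < s) :=
    fun s hs w hw => h74_merge h h' hm' hs (a0.trans_lt hs) hw
  have key : ∀ z ∈ SA U β m' p', ∀ z' ∈ SA U β m' p', β z = β z' → β z ≠ Up U β m m' →
      Str U β m p z ≤ Str U β m p z' := by
    intro z hz z' hz' e hne
    obtain ⟨b1, b2⟩ := interior_subset hz.1
    obtain ⟨c1, c2⟩ := interior_subset hz'.1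
    have hzU := hz.2.1
    have hzU' := hz'.2.1
    refine le_of_forall_lt fun s₁ hs₁ => ?_
    have hle : s₁ < Up U β m z := hs₁.trans_le (hu.Dn_le hzU).1
    rcases lt_or_gt_of_ne hne with l | l
    · have l1 : s₁ < Up U β m m' := hle.trans_le (le_of_forall_gt fun s hs =>
        (hb s hs z hzU).2 (by rw [b1]; linarith))
      have hQ : {w | w ∈ U ∧ Up U β m' w < Up U β m m'} =
          Oc U (fun w => -β w) m' (-Up U β m m') := by
        rw [← h'.neg.Dn_up]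
        ext w
        simp only [mem_ofPred_eq, Up, neg_lt]
      refine h74_spread hu (W := {w | w ∈ U ∧ Up U β m' w < Up U β m m'})
        (by rw [hQ]; exact isPreconnected_connectedComponentIn)
        (fun w hw => ⟨hw.1, l1.trans_le (ha w hw.1 hw.2)⟩) ⟨hzU, by rwa [b1]⟩
        ⟨hzU', by rwa [c1, ← e]⟩ hs₁
    · have l1 : s₁ < β z := hle.trans_le (le_of_forall_gt fun s hs =>
        (hb s (l.trans hs) z hzU).2 (by rwa [b1]))
      have l2 : max s₁ (Up U β m m') < β z := max_lt l1 l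
      refine h74_spread hu (W := Oc U (Up U β m') p' (max s₁ (Up U β m m')))
        isPreconnected_connectedComponentIn (fun w hw => ?_)
        ((hu'.lt_Dn hzU).1 (l2.trans_eq b2.symm))
        ((hu'.lt_Dn hzU').1 (l2.trans_eq (e.trans c2.symm))) hs₁
      obtain ⟨hwU, hw'⟩ := connectedComponentIn_subset _ _ hw
      refine ⟨hwU, not_le.1 fun h3 => lt_irrefl _ ((hb _ ((le_max_right _ _).trans_lt hw') w hwU).1
        (h3.trans_lt ((le_max_left _ _).trans_lt hw')))⟩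
  exact ⟨Up U β m m', fun z hz z' hz' e hne =>
    le_antisymm (key z hz z' hz' e hne) (key z' hz' z hz e.symm (e ▸ hne))⟩

/-- copy the proof of `exists_branches` (file NBr) and add `Str_mono`, `Str_cst`
(points of `SA` lie in `U`; `interior_subset`). -/
theorem exists_br (hU : IsOpen U) (hc : IsConnected U) (hM : MaxFam Λ M) (hC : CH Λ M)
    {β : ℂ → ℝ} (hr : Reg Λ β) (hT : TT Λ M β) (hβ : ContDiffOn ℝ 1 β U) :
    Nonempty (Br Λ M β) := by
  classical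
  obtain ⟨D, hDc, hD⟩ := TopologicalSpace.exists_countable_dense ℂ
  have hne : (D ∩ U).Nonempty := by
    obtain ⟨x, h1, h2⟩ := hD.inter_open_nonempty U hU hc.nonempty
    exact ⟨x, h2, h1⟩
  have hcnt : (D ∩ U).Countable := hDc.mono inter_subset_left
  obtain ⟨f, hf⟩ := (hcnt.prod hcnt).exists_eq_range (hne.prod hne)
  have hfm : ∀ i, f i ∈ (D ∩ U) ×ˢ (D ∩ U) := fun i => hf ▸ mem_range_self i
  have hm : ∀ i, (f i).1 ∈ U := fun i => (hfm i).1.2
  have hp : ∀ i, (f i).2 ∈ U := fun i => (hfm i).2.2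
  have hS : ∀ i, StH U β (f i).1 := fun i =>
    ⟨hU, hc.isPreconnected, hβ.continuousOn, hr.bdd, hm i⟩
  set K : ℕ → ℕ → Set ℝ := fun i j => SK U β (f i).1 (f i).2 (f j).1 (f j).2 with hK
  have hF := fun i => h4_frontier_fin (K := K i) (fun j => h4_SK_open β _ _ _ _)
    (fun j => SK_frontier β _ _ _ _) i
  refine ⟨⟨fun i => Str U β (f i).1 (f i).2, fun i => SA U β (f i).1 (f i).2,
    fun i => (⋃ j ∈ Finset.range i, closure (K i j))ᶜ, hU, hr, hβ,
    fun i => hM.max _ (Str_mono (hS i) hβ (hp i) Λ hr)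
      (Str_TT (hS i) (hp i) hM.fam.reg hC hr hT),
    fun i => Str_mono (hS i) hβ (hp i) Λ hr,
    fun i => (SA_open hU hβ _ _).1, fun i => (SA_open hU hβ _ _).2.1,
    fun i => (SA_open hU hβ _ _).2.2, fun i z hz => hz.2.2, fun i => SA_ae (hS i) hβ (hp i),
    fun i => (hF i).1.isOpen_compl, ?_, ?_,
    fun i j => Str_cst (hS i) hr.xx.lip (hp i) (hm j) (hp j)⟩⟩
  · intro i j hij z hz h1 h2
    rcases lt_or_gt_of_ne hij with h | h
    · exact h2 (mem_iUnion₂.2 ⟨i, Finset.mem_range.2 h,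
        subset_closure (SK_of_mem hU hβ hz.2 hz.1)⟩)
    · exact h1 (mem_iUnion₂.2 ⟨j, Finset.mem_range.2 h,
        subset_closure (SK_of_mem hU hβ hz.1 hz.2)⟩)
  · have hae : ∀ᵐ z, ∀ i j, ∀ a ∈ closure (K i j) \ K i j,
        z ∈ U → β z = a → fderiv ℝ β z = 0 := by
      refine ae_all_iff.2 fun i => ae_all_iff.2 fun j => ?_
      exact (ae_ball_iff (SK_frontier β _ _ _ _).countable).2 fun a _ =>
        ae_fderiv_eq_zero_of_eq hU hr.xx.lip a
    filter_upwards [hae] with z hz hzU hd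
    have hex : ∃ i, z ∈ SA U β (f i).1 (f i).2 := by
      obtain ⟨m, hm', p, hp', h⟩ := exists_SA hU hc.isPreconnected hβ hr.bdd hD hzU hd
      obtain ⟨i, hi⟩ : (m, p) ∈ range f := hf ▸ (⟨hm', hp'⟩ : (m, p) ∈ (D ∩ U) ×ˢ (D ∩ U))
      exact ⟨i, by rw [hi]; exact h⟩
    refine ⟨Nat.find hex, Nat.find_spec hex, fun h => ?_⟩
    obtain ⟨j, hj, hzj⟩ := mem_iUnion₂.1 h
    by_cases hk : β z ∈ K (Nat.find hex) j
    · exact Nat.find_min hex (Finset.mem_range.1 hj)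
        (SA_of_SK (hS _) hβ (hp _) (hm j) (hp j) hk (Nat.find_spec hex))
    · exact hd (hz _ j _ ⟨hzj, hk⟩ hzU rfl)

theorem TT_comp2 (hU : IsOpen U) (hC : CH Λ M) {u v : ℂ → ℝ} {G : ℝ → ℝ → ℝ} {L₁ L₂ : ℝ}
    (hG : ∀ s t s' t', |G s t - G s' t'| ≤ L₁ * |s - s'| + L₂ * |t - t'|)
    (hu : TT Λ M u) (hv : TT Λ M v) : TT Λ M (fun z => G (u z) (v z)) := by
  obtain ⟨h1, h2⟩ := h18_nonneg hG
  obtain ⟨hx, e, he⟩ := hu
  obtain ⟨hx', e', he'⟩ := hv
  exact ⟨XX.comp2 hU hG hx hx', _, hC ∅ u v e e' G L₁ L₂ 0 hx hx' he he' h1 h2 le_rfl hG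
    (Or.inl rfl)⟩

end Crest.Agent.R105.Mx
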