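import Crest.Agent.R105.NBr

/-! Row 105: splitting an integral along the branches of a `C¹` function. -/

set_option autoImplicit false

open MeasureTheory Set Filter Topology
open scoped ENNReal

namespace Crest.Agent.R105

variable {U : Set ℂ}

theorem wd_eq_zero_right {u c : ℂ → ℝ} {z : ℂ} (h : fderiv ℝ c z = 0) : wd u c z = 0 := by
  simp [wd, h]

theorem wd_congr_right {u c c' : ℂ → ℝ} {z : ℂ} (h : c =ᶠ[𝓝 z] c') : wd u c z = wd u c' z := by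
  simp only [wd, h.fderiv_eq]

theorem wd_congr_left {u u' c : ℂ → ℝ} {z : ℂ} (h : u =ᶠ[𝓝 z] u') : wd u c z = wd u' c z := by
  simp only [wd, h.fderiv_eq]

theorem branch_open {β : ℂ → ℝ} (hβ : ContinuousOn β U) {A : Set ℂ} {T : Set ℝ}
    (hA : IsOpen A) (hAU : A ⊆ U) (hT : IsOpen T) : IsOpen (A ∩ β ⁻¹' T) :=
  (hβ.mono hAU).isOpen_inter_preimage hA hT

theorem branch_hasSum (hU : IsOpen U) {β : ℂ → ℝ} (hβ : ContinuousOn β U) {A : ℕ → Set ℂ}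
    {T : ℕ → Set ℝ} (hA : ∀ i, IsOpen (A i) ∧ A i ⊆ U) (hT : ∀ i, IsOpen (T i))
    (hd : ∀ i j, i ≠ j → ∀ z ∈ A i ∩ A j, β z ∈ T i → β z ∉ T j)
    (hc : ∀ᵐ z, z ∈ U → fderiv ℝ β z ≠ 0 → ∃ i, z ∈ A i ∧ β z ∈ T i)
    {w : ℂ → ℝ} (hw : IntegrableOn w U) (h0 : ∀ z, fderiv ℝ β z = 0 → w z = 0) :
    HasSum (fun i => ∫ z in A i ∩ β ⁻¹' T i, w z) (∫ z in U, w z) := by
  have ho : ∀ i, IsOpen (A i ∩ β ⁻¹' T i) := fun i => branch_open hβ (hA i).1 (hA i).2 (hT i)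
  have hsub : (⋃ i, A i ∩ β ⁻¹' T i) ⊆ U := iUnion_subset fun i z hz => (hA i).2 hz.1
  have h1 := hasSum_integral_iUnion (μ := volume) (fun i => (ho i).measurableSet)
    (fun i j hij => Set.disjoint_left.2 fun z hi hj => hd i j hij z ⟨hi.1, hj.1⟩ hi.2 hj.2)
    (hw.mono_set hsub)
  rwa [setIntegral_eq_of_subset_of_ae_diff_eq_zero hU.measurableSet.nullMeasurableSet hsub]
  filter_upwards [hc] with z hz hz'
  by_contra hne
  obtain ⟨i, hi⟩ := hz hz'.1 fun h => hne (h0 z h)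
  exact hz'.2 (mem_iUnion.2 ⟨i, hi⟩)

theorem branch_int (hU : IsOpen U) {β r : ℂ → ℝ} (hβ : ContinuousOn β U) {A : Set ℂ} {T : Set ℝ}
    (hA : IsOpen A) (hAU : A ⊆ U) (hT : IsOpen T) (he : EqOn r β A)
    (h0 : ∀ᵐ z, z ∈ U → z ∉ A → fderiv ℝ r z = 0) (u : ℂ → ℝ) (k : ℂ → ℝ → ℝ) :
    ∫ z in A ∩ β ⁻¹' T, wd u β z * k z (β z) =
      ∫ z in U, wd u r z * T.indicator (k z) (r z) := by
  have ho := branch_open hβ hA hAU hT
  rw [setIntegral_eq_of_subset_of_ae_diff_eq_zero hU.measurableSet.nullMeasurableSet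
    (inter_subset_left.trans hAU : A ∩ β ⁻¹' T ⊆ U)]
  · refine setIntegral_congr_fun ho.measurableSet fun z hz => ?_
    have h1 : r =ᶠ[𝓝 z] β := Filter.eventuallyEq_of_mem (hA.mem_nhds hz.1) he
    simp only [wd_congr_right h1, he hz.1, indicator_of_mem (show β z ∈ T from hz.2)]
  · filter_upwards [h0] with z hz hz'
    by_cases hzA : z ∈ A
    · have : r z ∉ T := fun h => hz'.2 ⟨hzA, by rwa [mem_preimage, ← he hzA]⟩
      rw [indicator_of_notMem this, mul_zero]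
    · rw [wd_eq_zero_right (hz hz'.1 hzA), zero_mul]

end Crest.Agent.R105
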