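import Mathlib

/-! Row 105, isotropy: sums of product tests are norming for a signed measure off a closed set. -/

set_option autoImplicit false

open MeasureTheory Set Filter Topology
open scoped BoundedContinuousFunction

namespace Crest.Agent.R105

/-- Step 1.  `ν` finite measure on `ℂ`, `Z` closed, `g` measurable, `|g| ≤ 1`, `g = 0` on `Z`.
`Integrable.exists_hasCompactSupport_integral_sub_le` gives `Φ₀`; clip it to `[-1,1]`
(`|g - clip Φ₀| ≤ |g - Φ₀|`); take a compact `K ⊆ Zᶜ` with `ν (Zᶜ \ K)` small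
(`MeasurableSet.exists_isCompact_sdiff_lt`), a compact `K'` between (`exists_compact_between`) and
a continuous `η` with values in `[0,1]`, `1` on `K`, `0` off `interior K'`
(`exists_continuous_one_zero_of_isCompact`); `Φ = η * clip Φ₀`; `|g - Φ| ≤ |g - Φ₀| + 1_{Zᶜ \ K}`
(on `Z` both `g` and `Φ` vanish). -/
theorem mi_approx (ν : Measure ℂ) [IsFiniteMeasure ν] {Z : Set ℂ} (hZ : IsClosed Z) {g : ℂ → ℝ}
    (hg : Measurable g) (h1 : ∀ y, |g y| ≤ 1) (h0 : ∀ y ∈ Z, g y = 0) {δ : ℝ} (hδ : 0 < δ) :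
    ∃ Φ : ℂ → ℝ, Continuous Φ ∧ HasCompactSupport Φ ∧ Disjoint (tsupport Φ) Z ∧
      (∀ y, |Φ y| ≤ 1) ∧ ∫ y, |g y - Φ y| ∂ν ≤ δ := by
  have hgi : Integrable g ν :=
    Integrable.of_bound hg.aestronglyMeasurable 1 (ae_of_all _ fun y => by simpa using h1 y)
  obtain ⟨Φ₀, -, hI, hc₀, hi₀⟩ := hgi.exists_hasCompactSupport_integral_sub_le (half_pos hδ)
  obtain ⟨K, hKZ, hK, hν⟩ := hZ.isOpen_compl.measurableSet.exists_isCompact_sdiff_lt (μ := ν)
    (measure_ne_top _ _) (ε := ENNReal.ofReal (δ / 2)) (by simpa using hδ)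
  obtain ⟨η, hη1, hηc, hηZ, hη⟩ :=
    exists_continuousMap_one_of_isCompact_subset_isOpen hK hZ.isOpen_compl hKZ
  set c : ℂ → ℝ := fun y => max (-1) (min 1 (Φ₀ y)) with hcdef
  have hcc : Continuous c := continuous_const.max (continuous_const.min hc₀)
  have hc1 : ∀ y, |c y| ≤ 1 := fun y =>
    abs_le.mpr ⟨le_max_left _ _, max_le (by norm_num) (min_le_left _ _)⟩
  have hgc : ∀ y, |g y - c y| ≤ |g y - Φ₀ y| := by
    intro y
    have hy := abs_le.mp (h1 y)
    simp only [hcdef]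
    rcases le_total 1 (Φ₀ y) with h | h
    · rw [min_eq_left h, max_eq_right (by norm_num), abs_of_nonpos (by linarith),
        abs_of_nonpos (by linarith)]
      linarith
    · rw [min_eq_right h]
      rcases le_total (-1) (Φ₀ y) with h' | h'
      · rw [max_eq_right h']
      · rw [max_eq_left h', abs_of_nonneg (by linarith), abs_of_nonneg (by linarith)]
        linarith
  have hsub : tsupport (fun y => η y * c y) ⊆ tsupport η := tsupport_mul_subset_left
  have hmeas : MeasurableSet (Zᶜ \ K) := hZ.isOpen_compl.measurableSet.diff hK.measurableSet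
  have hpt : ∀ y, |g y - η y * c y| ≤ ‖g y - Φ₀ y‖ + (Zᶜ \ K).indicator (fun _ => (1 : ℝ)) y := by
    intro y
    rw [Real.norm_eq_abs]
    by_cases hyZ : y ∈ Z
    · have hη0 : η y = 0 := image_eq_zero_of_notMem_tsupport fun h => hηZ h hyZ
      rw [h0 y hyZ, hη0]
      have : (0 : ℝ) ≤ (Zᶜ \ K).indicator (fun _ => (1 : ℝ)) y :=
        indicator_nonneg (fun _ _ => zero_le_one) y
      simp only [zero_mul, sub_zero, abs_zero]
      positivity
    · by_cases hyK : y ∈ K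
      · have hη1' : η y = 1 := hη1 hyK
        rw [hη1', one_mul, indicator_of_notMem (fun h => h.2 hyK), add_zero]
        exact hgc y
      · rw [indicator_of_mem (show y ∈ Zᶜ \ K from ⟨hyZ, hyK⟩)]
        have e : g y - η y * c y = (g y - c y) + (1 - η y) * c y := by ring
        rw [e]
        refine le_trans (abs_add_le _ _) (add_le_add (hgc y) ?_)
        rw [abs_mul, abs_of_nonneg (by linarith [(hη y).2])]
        have := hc1 y
        have h2 := hη y
        nlinarith [h2.1, h2.2, abs_nonneg (c y)]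
  refine ⟨fun y => η y * c y, η.continuous.mul hcc, ?_, ?_, ?_, ?_⟩
  · exact hηc.of_isClosed_subset (isClosed_tsupport _) hsub
  · exact Set.disjoint_left.mpr fun y hy hyZ => hηZ (hsub hy) hyZ
  · intro y
    rw [abs_mul, abs_of_nonneg (hη y).1]
    have := hc1 y
    have h2 := hη y
    nlinarith [h2.1, h2.2, abs_nonneg (c y)]
  · have hind : Integrable ((Zᶜ \ K).indicator (fun _ => (1 : ℝ))) ν :=
      (integrable_const 1).indicator hmeas
    have hle := integral_mono_of_nonneg (μ := ν) (f := fun y => |g y - η y * c y|)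
      (g := fun y => ‖g y - Φ₀ y‖ + (Zᶜ \ K).indicator (fun _ => (1 : ℝ)) y)
      (ae_of_all _ fun y => abs_nonneg _) ((hgi.sub hi₀).norm.add hind) (ae_of_all _ hpt)
    have hn : Integrable (fun y => ‖g y - Φ₀ y‖) ν := (hgi.sub hi₀).norm
    rw [integral_add hn hind, integral_indicator hmeas] at hle
    have hm : ν.real (Zᶜ \ K) ≤ δ / 2 := by
      rw [Measure.real]
      exact ENNReal.toReal_le_of_le_ofReal (half_pos hδ).le hν.le
    simp only [integral_const, measureReal_restrict_apply_univ, smul_eq_mul, mul_one] at hle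
    show ∫ y, |g y - η y * c y| ∂ν ≤ δ
    linarith

/-- Step 2.  `Φ` is uniformly continuous; take `η` with `|Φ y - Φ y'| ≤ δ` for `dist y y' ≤ η` and
`cthickening (3η) Z` disjoint from `tsupport Φ` (`Disjoint.exists_cthickenings`).  The compact set
`im '' tsupport Φ` is covered by finitely many balls `ball (τ j) (η/2)`; take a subordinate
`PartitionOfUnity` (`PartitionOfUnity.exists_isSubordinate`, `finsum_eq_sum_of_fintype`,
`sum_le_one`, `sum_eq_one`; `BoundedContinuousFunction.ofNormedAddCommGroup` or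
`mkOfBound`), `g j s = Φ ⟨s, τ j⟩`.  If `y.im` is in the compact set then `∑ θ j y.im = 1`;
otherwise `Φ y = 0` and `|∑ (g j - Φ y) θ j| ≤ δ ∑ θ j ≤ δ` as well. -/
theorem mi_prod {Z : Set ℂ} (hZ : IsClosed Z) {Φ : ℂ → ℝ} (hΦ : Continuous Φ)
    (hc : HasCompactSupport Φ) (hd : Disjoint (tsupport Φ) Z) (h1 : ∀ y, |Φ y| ≤ 1) {δ : ℝ}
    (hδ : 0 < δ) : ∃ (ι : Type) (_ : Fintype ι) (g θ : ι → ℝ →ᵇ ℝ) (τ : ι → ℝ) (η : ℝ), 0 < η ∧
      (∀ j, ‖g j‖ ≤ 1) ∧ (∀ j t, 0 ≤ θ j t) ∧ (∀ t, ∑ j, θ j t ≤ 1) ∧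
      (∀ j t, η ≤ |t - τ j| → θ j t = 0) ∧
      (∀ j, ∀ y ∈ Metric.cthickening η Z, |y.im - τ j| ≤ 2 * η → g j y.re = 0) ∧
      ∀ y : ℂ, |Φ y - ∑ j, g j y.re * θ j y.im| ≤ δ := by
  obtain ⟨η₁, hη₁, hu⟩ := Metric.uniformContinuous_iff.1 (hc.uniformContinuous_of_continuous hΦ) δ hδ
  obtain ⟨η₂, hη₂, hdis⟩ := hd.exists_cthickenings hc.isCompact hZ
  obtain ⟨η, hη, e1, e2⟩ : ∃ η : ℝ, 0 < η ∧ η ≤ η₁ ∧ 2 * η ≤ η₂ :=
    ⟨min η₁ (η₂ / 2), lt_min hη₁ (by linarith), min_le_left _ _,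
      by linarith [min_le_right η₁ (η₂ / 2)]⟩
  have hK : IsCompact (Complex.im '' tsupport Φ) := hc.isCompact.image Complex.continuous_im
  obtain ⟨T, -, hT, hcov⟩ := finite_cover_balls_of_compact hK hη
  letI : Fintype T := hT.fintype
  obtain ⟨f, hf⟩ := PartitionOfUnity.exists_isSubordinate hK.isClosed
    (fun j : T => Metric.ball (j : ℝ) η) (fun _ => Metric.isOpen_ball)
    (by rwa [biUnion_eq_iUnion] at hcov)
  have hcg : ∀ τ : ℝ, Continuous fun s : ℝ => Φ ⟨s, τ⟩ := fun τ =>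
    hΦ.comp (Complex.equivRealProdCLM.symm.continuous.comp (continuous_id.prodMk continuous_const))
  let g : T → ℝ →ᵇ ℝ := fun j =>
    BoundedContinuousFunction.ofNormedAddCommGroup _ (hcg j) 1 fun s => h1 _
  let θ : T → ℝ →ᵇ ℝ := fun j =>
    BoundedContinuousFunction.ofNormedAddCommGroup _ (f j).continuous 1 fun s => by
      rw [Real.norm_eq_abs, abs_of_nonneg (f.nonneg j s)]; exact f.le_one j s
  have hg : ∀ j s, g j s = Φ ⟨s, j⟩ := fun _ _ => rfl
  have hθ : ∀ j s, θ j s = f j s := fun _ _ => rfl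
  have hz : ∀ (j : T) (t : ℝ), η ≤ |t - (j : ℝ)| → θ j t = 0 := by
    intro j t ht
    refine image_eq_zero_of_notMem_tsupport (f := f j) fun h => ?_
    have := hf j h
    rw [Metric.mem_ball, Real.dist_eq] at this
    linarith
  have hs : ∀ t, ∑ j, θ j t ≤ 1 := fun t => by
    have := f.sum_le_one t
    rwa [finsum_eq_sum_of_fintype] at this
  have hdist : ∀ (y : ℂ) (τ : ℝ), dist y ⟨y.re, τ⟩ = |y.im - τ| := fun y τ => by
    rw [Complex.dist_of_re_eq (by rfl), Real.dist_eq]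
  refine ⟨T, inferInstance, g, θ, fun j => (j : ℝ), η, hη, fun j => ?_, fun j t => f.nonneg j t, hs, hz,
    fun j y hy hj => ?_, fun y => ?_⟩
  · exact BoundedContinuousFunction.norm_ofNormedAddCommGroup_le _ zero_le_one _
  · rw [hg]
    refine image_eq_zero_of_notMem_tsupport fun h => ?_
    refine Set.disjoint_left.1 hdis ?_ (Metric.cthickening_mono (by linarith) _ hy)
    exact Metric.mem_cthickening_of_dist_le _ _ _ _ h (by rw [hdist]; linarith)
  · have key : Φ y - ∑ j, g j y.re * θ j y.im = ∑ j, (Φ y - g j y.re) * θ j y.im := by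
      simp only [sub_mul, Finset.sum_sub_distrib, ← Finset.mul_sum]
      by_cases hy : y ∈ tsupport Φ
      · have := f.sum_eq_one (mem_image_of_mem Complex.im hy)
        rw [finsum_eq_sum_of_fintype] at this
        simp only [hθ, this, mul_one]
      · rw [image_eq_zero_of_notMem_tsupport hy, zero_mul]
    rw [key]
    refine (Finset.abs_sum_le_sum_abs _ _).trans ?_
    refine le_trans (Finset.sum_le_sum fun j _ => (?_ : _ ≤ δ * θ j y.im)) ?_
    · rw [abs_mul, abs_of_nonneg (show 0 ≤ θ j y.im from f.nonneg j _)]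
      by_cases hj : η ≤ |y.im - (j : ℝ)|
      · rw [hz j _ hj, mul_zero, mul_zero]
      · refine mul_le_mul_of_nonneg_right ?_ (f.nonneg j _)
        rw [hg, ← Real.dist_eq]
        exact (hu (by rw [hdist]; linarith [not_le.1 hj])).le
    · rw [← Finset.mul_sum]
      exact mul_le_of_le_one_right hδ.le (hs _)

/-- NORMING.  Let `ν = map (z ↦ ⟨a z, b z⟩) (μ.withDensity ‖w‖ₑ)` (finite; as in `gi_int_zero` of
`GRIso.lean`, `∫ k dν = ∫ |w| * k ⟨a,b⟩ dμ`).  With `mi_approx` and `mi_prod`,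
`|∫ w g| ≤ ε + δ + δ ∫ |w|` for every `δ > 0`. -/
theorem mi_norming {α : Type*} [MeasurableSpace α] {μ : Measure α} {w a b : α → ℝ}
    (hw : Integrable w μ) (ha : AEMeasurable a μ) (hb : AEMeasurable b μ) {Z : Set ℂ}
    (hZ : IsClosed Z) {ε : ℝ}
    (h : ∀ (ι : Type) (_ : Fintype ι) (g θ : ι → ℝ →ᵇ ℝ) (τ : ι → ℝ) (η : ℝ), 0 < η →
      (∀ j, ‖g j‖ ≤ 1) → (∀ j t, 0 ≤ θ j t) → (∀ t, ∑ j, θ j t ≤ 1) →
      (∀ j t, η ≤ |t - τ j| → θ j t = 0) →
      (∀ j, ∀ y ∈ Metric.cthickening η Z, |y.im - τ j| ≤ 2 * η → g j y.re = 0) →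
      |∑ j, ∫ z, w z * (g j (a z) * θ j (b z)) ∂μ| ≤ ε)
    {g : ℂ → ℝ} (hg : Measurable g) (h1 : ∀ y, |g y| ≤ 1) (h0 : ∀ y ∈ Z, g y = 0) :
    |∫ z, w z * g ⟨a z, b z⟩ ∂μ| ≤ ε := by
  have hF : AEMeasurable (fun z => (⟨a z, b z⟩ : ℂ)) μ :=
    Complex.measurableEquivRealProd.symm.measurable.comp_aemeasurable (ha.prodMk hb)
  let ν : Measure ℂ :=
    (μ.withDensity fun z => (((|w z|).toNNReal : NNReal) : ENNReal)).map fun z => (⟨a z, b z⟩ : ℂ)
  have hfin : IsFiniteMeasure ν := by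
    have := isFiniteMeasure_withDensity_ofReal hw.abs.2
    exact Measure.isFiniteMeasure_map (μ.withDensity fun z => ENNReal.ofReal (|w z|)) _
  have hint : ∀ k : ℂ → ℝ, Measurable k →
      ∫ p, k p ∂ν = ∫ z, |w z| * k ⟨a z, b z⟩ ∂μ := fun k hk => by
    rw [integral_map (hF.mono_ac (withDensity_absolutelyContinuous _ _))
      hk.aestronglyMeasurable,
      integral_withDensity_eq_integral_smul₀ hw.abs.aemeasurable.real_toNNReal]
    refine integral_congr_ae (Eventually.of_forall fun z => ?_)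
    simp [NNReal.smul_def]
  have hI : ∀ k : ℂ → ℝ, Measurable k → ∀ D : ℝ, (∀ y, |k y| ≤ D) →
      Integrable (fun z => w z * k ⟨a z, b z⟩) μ := fun k hk D hD =>
    hw.mul_bdd (hk.comp_aemeasurable hF).aestronglyMeasurable
      (Eventually.of_forall fun z => hD _)
  set I : ℝ := ∫ z, |w z| ∂μ with hIdef
  have hI0 : 0 ≤ I := integral_nonneg fun z => abs_nonneg _
  refine le_of_forall_pos_le_add fun δ' hδ' => ?_
  have hδ : 0 < δ' / (1 + I) := by positivity
  obtain ⟨Φ, hΦc, hΦs, hΦd, hΦ1, hΦi⟩ := mi_approx ν hZ hg h1 h0 hδ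
  obtain ⟨ι, hι, G, θ, τ, η, hη, hG, hθ0, hθ1, hθs, hGz, hap⟩ := mi_prod hZ hΦc hΦs hΦd hΦ1 hδ
  have hh := h ι hι G θ τ η hη hG hθ0 hθ1 hθs hGz
  let P : ℂ → ℝ := fun y => ∑ j, G j y.re * θ j y.im
  have hPc : Continuous P := by
    refine continuous_finsetSum _ fun j _ => ?_
    exact ((G j).continuous.comp Complex.continuous_re).mul
      ((θ j).continuous.comp Complex.continuous_im)
  have hPj : ∀ j, Integrable (fun z => w z * (G j (a z) * θ j (b z))) μ := fun j =>
    hI (fun y => G j y.re * θ j y.im)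
      (((G j).continuous.comp Complex.continuous_re).mul
        ((θ j).continuous.comp Complex.continuous_im)).measurable (‖G j‖ * ‖θ j‖) fun y => by
      rw [abs_mul]
      exact mul_le_mul ((G j).norm_coe_le_norm _) ((θ j).norm_coe_le_norm _) (abs_nonneg _)
        (norm_nonneg _)
  have hsum : ∑ j, ∫ z, w z * (G j (a z) * θ j (b z)) ∂μ = ∫ z, w z * P ⟨a z, b z⟩ ∂μ := by
    rw [← integral_finsetSum _ fun j _ => hPj j]
    refine integral_congr_ae (Eventually.of_forall fun z => ?_)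
    simp only [P, Finset.mul_sum]
  rw [hsum] at hh
  have hP1 : ∀ y, |P y| ≤ 1 + δ' / (1 + I) := fun y => by
    have := hap y
    have h2 := hΦ1 y
    have h3 : |P y| ≤ |Φ y| + |Φ y - P y| := by
      have := abs_sub (Φ y) (Φ y - P y)
      rwa [sub_sub_cancel] at this
    linarith
  have i1 := hI g hg 1 h1
  have i2 := hI Φ hΦc.measurable 1 hΦ1
  have i3 := hI P hPc.measurable _ hP1
  have e1 : |∫ z, w z * g ⟨a z, b z⟩ ∂μ - ∫ z, w z * Φ ⟨a z, b z⟩ ∂μ| ≤ δ' / (1 + I) := by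
    rw [← integral_sub i1 i2]
    refine le_trans abs_integral_le_integral_abs (le_trans (le_of_eq ?_) hΦi)
    rw [hint (fun y => |g y - Φ y|) (hg.sub hΦc.measurable).abs]
    refine integral_congr_ae (Eventually.of_forall fun z => ?_)
    simp only [← mul_sub, abs_mul]
  have e2 : |∫ z, w z * Φ ⟨a z, b z⟩ ∂μ - ∫ z, w z * P ⟨a z, b z⟩ ∂μ| ≤ δ' / (1 + I) * I := by
    rw [← integral_sub i2 i3]
    refine le_trans abs_integral_le_integral_abs ?_
    rw [hIdef, ← integral_const_mul]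
    refine integral_mono (i2.sub i3).abs (hw.abs.const_mul _) fun z => ?_
    simp only [← mul_sub, abs_mul]
    rw [mul_comm]
    exact mul_le_mul_of_nonneg_right (hap _) (abs_nonneg _)
  have e3 : δ' / (1 + I) + δ' / (1 + I) * I = δ' := by field_simp
  have := abs_le.1 e1
  have := abs_le.1 e2
  have := abs_le.1 hh
  rw [abs_le]
  constructor <;> linarith

end Crest.Agent.R105
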