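import Crest.Agent.R105.MI1
import Crest.Agent.R105.ET
import Crest.Agent.R105.GRIso

/-! Row 105, isotropy: the estimate for one product test along one branch. -/

set_option autoImplicit false

open MeasureTheory Set Filter Topology
open scoped ENNReal BoundedContinuousFunction

namespace Crest.Agent.R105

variable {U : Set ℂ}

theorem mi_val_one (Λ : Lumps U) (q : Λ.E) : Λ.val (fun _ => (1 : ℝ)) q = 1 :=
  (val_eq Λ (⟨1, fun _ _ => by simp⟩ : Bdd U fun _ => (1 : ℝ)) (n := 0) fun _ _ => rfl).1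

theorem mi_wt_eq (Λ : Lumps U) (r : ℂ → ℝ) (H : ℝ → ℝ) (χ : ℂ → ℝ) (q : Λ.E) :
    wt Λ r H χ q = |Λ.val χ q| * wt Λ r H (fun _ => 1) q := by
  simp only [wt, mi_val_one, abs_one, one_mul]

/-- a regular element of `T` that is continuous at `p` has no flux at `p` -/
theorem mi_node (hU : IsOpen U) {Λ : Lumps U} {M : Set (ℂ → ℝ)} (hM : ∀ r ∈ M, Reg Λ r)
    (hC : CH Λ M) {φ : ℂ → ℝ} (hφ : Reg Λ φ) (hT : TT Λ M φ) {p : Λ.E} (h0 : Λ.osc φ p = 0)
    {r : ℂ → ℝ} (hr : r ∈ M) {H : ℝ → ℝ} (hH : ContDiff ℝ 1 H) {δ : ℝ} (hδ : 0 < δ) :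
    ∃ N, ∀ n ≥ N, ∀ χ, Ind Λ n p χ →
      |om U (fun z => φ z * χ z) (fun z => H (r z))| ≤ δ := by
  classical
  have hA := Adm.osc hU hM hC hφ hT
  have hw := wt_l2 Λ (hM r hr) hH (A0.const (U := U) 1)
  have hs := (hA.l2.summable_mul hw).1
  have hn : ∀ q, 0 ≤ Λ.osc φ q * wt Λ r H (fun _ => 1) q := fun q => mul_nonneg (hA.l2.1 q) (hw.1 q)
  obtain ⟨N, hN⟩ := End.tail_lump hn hs p hδ
  refine ⟨N, fun n hn' χ hχ => (hA.le r hr H hH χ hχ.1 (by simp)).trans (le_trans (le_of_eq ?_)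
    (hN n hn'))⟩
  refine tsum_congr fun q => ?_
  rw [mi_wt_eq, hχ.2]
  by_cases h1 : Λ.W n q = Λ.W n p
  · by_cases h2 : q = p
    · simp [h2, h0]
    · simp [h1, h2]
  · simp [h1]

/-- the cut-off in the level variable -/
noncomputable def miK (τ η t : ℝ) : ℝ := max 0 (min 1 (2 - |t - τ| / η))

theorem miK_mem (τ η t : ℝ) : 0 ≤ miK τ η t ∧ miK τ η t ≤ 1 :=
  ⟨le_max_left _ _, max_le zero_le_one (min_le_left _ _)⟩

theorem miK_one {τ η t : ℝ} (hη : 0 < η) (h : |t - τ| ≤ η) : miK τ η t = 1 := by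
  have : |t - τ| / η ≤ 1 := (div_le_one hη).2 h
  rw [miK, min_eq_left (by linarith), max_eq_right zero_le_one]

theorem miK_zero {τ η t : ℝ} (hη : 0 < η) (h : 2 * η ≤ |t - τ|) : miK τ η t = 0 := by
  have : 2 ≤ |t - τ| / η := (le_div_iff₀ hη).2 h
  exact max_eq_left ((min_le_right _ _).trans (by linarith))

theorem miK_lip {τ η : ℝ} (hη : 0 < η) (t t' : ℝ) :
    |miK τ η t - miK τ η t'| ≤ η⁻¹ * |t - t'| := by
  unfold miK
  rw [max_comm 0, max_comm 0, min_comm 1, min_comm 1]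
  refine (abs_max_sub_max_le_abs _ _ _).trans ((abs_min_sub_min_le_max _ _ _ _).trans ?_)
  rw [sub_self, abs_zero]
  refine max_le ?_ (by positivity)
  rw [show 2 - |t - τ| / η - (2 - |t' - τ| / η) = η⁻¹ * (|t' - τ| - |t - τ|) by ring, abs_mul,
    abs_of_pos (inv_pos.2 hη)]
  refine mul_le_mul_of_nonneg_left ((abs_abs_sub_abs_le_abs_sub _ _).trans (le_of_eq ?_))
    (inv_pos.2 hη).le
  rw [show t' - τ - (t - τ) = t' - t by ring, abs_sub_comm]

/-- the localised test function -/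
theorem mi_phi (hU : IsOpen U) {Λ : Lumps U} {M : Set (ℂ → ℝ)} (hC : CH Λ M) {a b : ℂ → ℝ}
    (ha : Reg Λ a) (hTa : TT Λ M a) (hb : Reg Λ b) (hTb : TT Λ M b) {G : ℝ → ℝ}
    (hG : ∀ s s', |G s - G s'| ≤ 1 * |s - s'|) (γ τ : ℝ) {η : ℝ} (hη : 0 < η) :
    ∃ φ, Reg Λ φ ∧ TT Λ M φ ∧ ∀ z ∈ U, φ z = (G (a z) - γ) * miK τ η (b z) := by
  obtain ⟨B, hB⟩ := (gi_Reg_lip hU ha (T := fun s => G s - γ) zero_le_one
    (fun s s' => by simpa using hG s s')).bdd
  set Ψ : ℝ → ℝ → ℝ := fun s t => max (-|B|) (min (G s - γ) |B|) * miK τ η t with hΨ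
  have hL : ∀ s t s' t', |Ψ s t - Ψ s' t'| ≤ 1 * |s - s'| + (|B| * η⁻¹) * |t - t'| := by
    intro s t s' t'
    have e1 := (h18_clamp |B| (G s - γ) (G s' - γ)).trans
      ((le_of_eq (by rw [sub_sub_sub_cancel_right])).trans (hG s s'))
    have e2 := abs_le.2 (h18_clamp_mem (abs_nonneg B) (G s' - γ))
    have e3 := miK_lip (τ := τ) hη t t'
    have e4 : |miK τ η t| ≤ 1 := by
      rw [abs_of_nonneg (miK_mem τ η t).1]; exact (miK_mem τ η t).2
    have a1 := mul_le_mul e1 e4 (abs_nonneg _) (by positivity)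
    have a2 := mul_le_mul e2 e3 (abs_nonneg _) (abs_nonneg _)
    rw [← abs_mul] at a1 a2
    refine le_trans (le_of_eq (congrArg _ ?_)) ((abs_add_le _ _).trans (add_le_add a1 a2)) |>.trans
      (le_of_eq (by ring))
    simp only [hΨ]
    ring
  have h2 : 0 ≤ |B| * η⁻¹ := by positivity
  have hx := XX.comp2 hU hL ha.xx hb.xx
  have hbd : Bdd U fun z => Ψ (a z) (b z) := ⟨|B|, fun z _ => by
    simp only [hΨ]
    rw [abs_mul, abs_of_nonneg (miK_mem τ η _).1]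
    exact (mul_le_mul (abs_le.2 (h18_clamp_mem (abs_nonneg B) _)) (miK_mem τ η _).2
      (miK_mem τ η _).1 (abs_nonneg _)).trans (le_of_eq (mul_one _))⟩
  have la : L2w (Λ.osc a) := ⟨Λ.osc_nonneg ha.bdd, ha.sq⟩
  have lb : L2w (Λ.osc b) := ⟨Λ.osc_nonneg hb.bdd, hb.sq⟩
  refine ⟨fun z => Ψ (a z) (b z), ⟨hx, hbd, ?_⟩, ⟨hx, ?_⟩, fun z hz => ?_⟩
  · exact (((la.smul zero_le_one).1.add (lb.smul h2).1).1.of_le (Λ.osc_nonneg hbd)
      (Λ.osc_comp2_le ha.bdd hb.bdd zero_le_one h2 hL)).1.2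
  · obtain ⟨e₁, h₁⟩ := hTa.2
    obtain ⟨e₂, h₂⟩ := hTb.2
    exact ⟨_, hC ∅ a b e₁ e₂ Ψ 1 _ 0 ha.xx hb.xx h₁ h₂ zero_le_one h2 le_rfl hL (Or.inl rfl)⟩
  · simp only [hΨ, h18_clamp_eq ((hB z hz).trans (le_abs_self B))]

/-- only the values on the branch matter -/
theorem mi_swap (hU : IsOpen U) {Λ : Lumps U} {r b u φ χ : ℂ → ℝ} (hr : Reg Λ r)
    (hb : ContinuousOn b U) {A : Set ℂ} (hA : IsOpen A) (hAU : A ⊆ U) (he : EqOn r b A)
    (h0 : ∀ᵐ z, z ∈ U → z ∉ A → fderiv ℝ r z = 0) (hu : XX U u) (hχ : A0 U χ) {γ τ η : ℝ}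
    (hη : 0 < η) (hφ : ∀ z ∈ U, φ z = (u z - γ) * miK τ η (b z)) {H : ℝ → ℝ}
    (hH : ContDiff ℝ 1 H) (hθ : ∀ t, η ≤ |t - τ| → deriv H t = 0) :
    om U (fun z => u z * χ z) (fun z => H (r z)) =
      om U (fun z => φ z * χ z) (fun z => H (r z)) := by
  have hc : XX U fun z => H (r z) := XX.comp_C1 hU hH hr.xx hr.bdd
  have h1 : om U (fun z => u z * χ z) (fun z => H (r z)) =
      om U (fun z => (u z - γ) * χ z) (fun z => H (r z)) := by
    have e := om_sub_left hU (hu.mul_A0 hU Λ hχ) (hχ.xx.smul γ) hc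
    rw [om_smul_left, om_skew χ, om_A0 hU hc.lip hχ, neg_zero, mul_zero, sub_zero] at e
    rw [← e]
    exact om_congr hU (fun z _ => by ring) (eqOn_refl _ _)
  rw [h1, om_comp_right hU hH hr.xx.lip, om_comp_right hU hH hr.xx.lip]
  refine setIntegral_congr_ae hU.measurableSet ?_
  filter_upwards [h0] with z hz hzU
  by_cases hzA : z ∈ A
  · by_cases ht : η ≤ |r z - τ|
    · simp only [hθ _ ht, zero_mul]
    · have hcb : ContinuousAt (fun w => |b w - τ|) z :=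
        ((hb.continuousAt (hU.mem_nhds hzU)).sub continuousAt_const).abs
      rw [he hzA, not_le] at ht
      congr 1
      refine wd_congr_left ?_
      filter_upwards [hcb.eventually (gt_mem_nhds ht), hU.mem_nhds hzU] with w hw hwU
      rw [hφ w hwU, miK_one hη hw.le, mul_one]
  · simp only [wd_eq_zero_right (hz hzU hzA), mul_zero]

theorem mi_om_prod (hU : IsOpen U) {a r : ℂ → ℝ} (ha : LocallyLipschitzOn U a)
    (hr : LocallyLipschitzOn U r) {G H : ℝ → ℝ} (hG : ContDiff ℝ 1 G) (hH : ContDiff ℝ 1 H) :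
    om U (fun z => G (a z)) (fun z => H (r z)) =
      ∫ z in U, wd a r z * (deriv G (a z) * deriv H (r z)) := by
  rw [om_comp_right hU hH hr]
  refine setIntegral_congr_ae hU.measurableSet ?_
  filter_upwards [ae_diff hU ha] with z hz hzU
  have h2 : fderiv ℝ (fun z => G (a z)) z = deriv G (a z) • fderiv ℝ a z :=
    (((hG.differentiable one_ne_zero (a z)).hasDerivAt).comp_hasFDerivAt z
      (hz hzU).hasFDerivAt).fderiv
  simp only [wd, h2, _root_.smul_apply, smul_eq_mul]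
  ring

open Classical in
/-- the estimate for one product test -/
theorem mi_one (hU : IsOpen U) {Λ : Lumps U} {M : Set (ℂ → ℝ)} (hM : ∀ r ∈ M, Reg Λ r)
    (hC : CH Λ M) {a b r : ℂ → ℝ} (ha : Reg Λ a) (hTa : TT Λ M a) (hb : Reg Λ b)
    (hTb : TT Λ M b) (hr : r ∈ M) {A : Set ℂ} (hA : IsOpen A) (hAU : A ⊆ U) (he : EqOn r b A)
    (h0 : ∀ᵐ z, z ∈ U → z ∉ A → fderiv ℝ r z = 0) {c : Λ.E → ℂ} {ρ : Λ.E → ℝ}
    (hB : ∀ q, InBall Λ a b q (c q) (ρ q)) (F : Finset Λ.E) (g θ : ℝ →ᵇ ℝ) {τ η : ℝ}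
    (hη : 0 < η) (hg : ‖g‖ ≤ 1) (hθ : ∀ t, η ≤ |t - τ| → θ t = 0)
    (hz : ∀ q ∈ F, ∀ y ∈ Metric.closedBall (c q) (ρ q + η), |y.im - τ| ≤ 2 * η → g y.re = 0) :
    |∫ z in U, wd a r z * (g (a z) * θ (r z))| ≤
      ∑' q, if q ∈ F then 0 else Λ.osc a q * ∫ t in Icc (Λ.lo r q) (Λ.hi r q), |θ t| := by
  obtain ⟨G, hG1, hG2, hG3⟩ := gi_prim g
  obtain ⟨H, hH1, hH2, -⟩ := gi_prim θ
  have hG : ∀ s s', |G s - G s'| ≤ 1 * |s - s'| := fun s s' =>
    (hG3 s s').trans (mul_le_mul_of_nonneg_right hg (abs_nonneg _))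
  have hu := gi_Reg_lip hU ha zero_le_one hG
  have hc : XX U fun z => H (r z) := XX.comp_C1 hU hH1 (hM r hr).xx (hM r hr).bdd
  have e0 := mi_om_prod hU ha.xx.lip (hM r hr).xx.lip hG1 hH1
  simp only [hG2, hH2] at e0
  rw [← e0]
  -- the nodes of `F`
  have hnode : ∀ δ > 0, ∀ p ∈ F, ∃ N, ∀ n ≥ N, ∀ χ, Ind Λ n p χ →
      |om U (fun z => G (a z) * χ z) (fun z => H (r z))| ≤ δ := by
    intro δ hδ p hp
    set S : Set ℝ := Complex.reCLM '' (Metric.closedBall (c p) (ρ p + η) ∩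
      Complex.imCLM ⁻¹' Metric.closedBall τ (2 * η)) with hS
    have hSc : Convex ℝ S := ((convex_closedBall _ _).inter
      ((convex_closedBall _ _).linear_preimage Complex.imCLM.toLinearMap)).linear_image
        Complex.reCLM.toLinearMap
    have hS0 : ∀ s ∈ S, deriv G s = 0 := by
      rintro _ ⟨y, ⟨h1, h2⟩, rfl⟩
      rw [hG2]
      exact hz p hp y h1 (by simpa [Real.dist_eq] using h2)
    have hγ : ∃ γ, ∀ s ∈ S, G s = γ := by
      rcases S.eq_empty_or_nonempty with h | ⟨s₀, hs₀⟩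
      · exact ⟨0, by simp [h]⟩
      · refine ⟨G s₀, fun s hs => ?_⟩
        have := hSc.norm_image_sub_le_of_norm_deriv_le (f := G) (C := 0)
          (fun x _ => hG1.differentiable one_ne_zero x) (fun x hx => by simp [hS0 x hx]) hs₀ hs
        simpa [sub_eq_zero] using this
    obtain ⟨γ, hγ⟩ := hγ
    obtain ⟨φ, f1, f2, f3⟩ := mi_phi hU hC ha hTa hb hTb hG γ τ hη
    have f0 : Λ.osc φ p = 0 := by
      obtain ⟨n, hn⟩ := hB p η hη
      have : ∀ z ∈ Λ.W n p, φ z = 0 := fun z hz => by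
        rw [f3 z (Λ.sub n p hz).1]
        by_cases h : 2 * η ≤ |b z - τ|
        · rw [miK_zero hη h, mul_zero]
        · rw [hγ (a z) ⟨⟨a z, b z⟩, ⟨mem_closedBall_iff_norm.2 (hn z hz), by
            simpa [Real.dist_eq] using (not_le.1 h).le⟩, rfl⟩, sub_self, zero_mul]
      obtain ⟨e1, e2⟩ := val_eq Λ f1.bdd this
      rw [Lumps.osc, e2, show Λ.lo φ p = 0 from e1, sub_zero]
    obtain ⟨N, hN⟩ := mi_node hU hM hC f1 f2 f0 hr hH1 hδ
    refine ⟨N, fun n hn χ hχ => ?_⟩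
    rw [mi_swap hU (hM r hr) hb.xx.lip.continuousOn hA hAU he h0 hu.xx hχ.1 hη f3 hH1
      fun t ht => by rw [hH2, hθ t ht]]
    exact hN n hn χ hχ
  have hAd := hC.lip ha.xx (Adm.osc hU hM hC ha hTa) zero_le_one hG
  have hw := wt_l2 Λ (hM r hr) hH1 (A0.const (U := U) 1)
  have hw1 : ∀ q, wt Λ r H (fun _ => 1) q = ∫ t in Icc (Λ.lo r q) (Λ.hi r q), |θ t| := fun q => by
    simp only [wt, mi_val_one, abs_one, one_mul, hH2]
  have la : L2w (Λ.osc a) := ⟨Λ.osc_nonneg ha.bdd, ha.sq⟩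
  refine le_of_forall_pos_le_add fun δ hδ => ?_
  have hδ' : 0 < δ / (F.card + 1) := by positivity
  choose! N hN using hnode _ hδ'
  obtain ⟨N', hN'⟩ := End.sep_lumps Λ F
  set n := max N' (F.sup N) with hn
  choose χ hχ _ using exists_Ind hU Λ n
  obtain ⟨s1, s2⟩ := A0.sum hU Λ F (fun _ => 1) fun p _ => (hχ p).1
  obtain ⟨s3, s4⟩ := A0.sub hU Λ (A0.const (U := U) 1) s1
  have hX : ∀ p ∈ F, XX U fun z => G (a z) * χ p z := fun p _ => hu.xx.mul_A0 hU Λ (hχ p).1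
  have e1 : om U (fun z => G (a z)) (fun z => H (r z)) =
      om U (fun z => G (a z) * (1 - ∑ p ∈ F, 1 * χ p z)) (fun z => H (r z)) +
        ∑ p ∈ F, om U (fun z => G (a z) * χ p z) (fun z => H (r z)) := by
    rw [← om_sum_left hU F hX hc, ← om_add_left hU (hu.xx.mul_A0 hU Λ s3) (XX.sum hU F hX) hc]
    refine om_congr hU (fun z _ => ?_) (eqOn_refl _ _)
    simp only [one_mul, ← Finset.mul_sum]
    ring
  have hv : ∀ q, |Λ.val (fun z => 1 - ∑ p ∈ F, 1 * χ p z) q| ≤ if q ∈ F then 0 else 1 := by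
    intro q
    rw [s4, s2, mi_val_one]
    simp only [one_mul, (hχ _).2]
    by_cases hq : ∃ p ∈ F, Λ.W n q = Λ.W n p
    · obtain ⟨p, hp, e⟩ := hq
      rw [Finset.sum_eq_single_of_mem p hp fun p' hp' hne => if_neg fun e' =>
        hN' n (le_max_left _ _) p' hp' p hp hne (e'.symm.trans e), if_pos e, sub_self, abs_zero]
      split_ifs
      exacts [le_rfl, zero_le_one]
    · rw [Finset.sum_eq_zero fun p hp => if_neg fun e => hq ⟨p, hp, e⟩,
        if_neg fun h => hq ⟨q, h, rfl⟩, sub_zero, abs_one]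
  rw [e1]
  refine (abs_add_le _ _).trans (add_le_add ((hAd.le r hr H hH1 _ s3 (by simp)).trans ?_) ?_)
  · have hle : ∀ q, 1 * Λ.osc a q * wt Λ r H (fun z => 1 - ∑ p ∈ F, 1 * χ p z) q ≤
        if q ∈ F then 0 else Λ.osc a q * ∫ t in Icc (Λ.lo r q) (Λ.hi r q), |θ t| := fun q => by
      rw [mi_wt_eq, one_mul, ← hw1]
      have := mul_le_mul_of_nonneg_left (mul_le_mul_of_nonneg_right (hv q) (hw.1 q)) (la.1 q)
      refine this.trans (le_of_eq ?_)
      split_ifs <;> simp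
    refine (hAd.l2.summable_mul (wt_l2 Λ (hM r hr) hH1 s3)).1.tsum_le_tsum hle ?_
    refine (la.summable_mul hw).1.of_nonneg_of_le (fun q => ?_) fun q => ?_
    · split_ifs
      exacts [le_rfl, by rw [← hw1]; exact mul_nonneg (la.1 q) (hw.1 q)]
    · split_ifs
      exacts [mul_nonneg (la.1 q) (hw.1 q), by rw [hw1]]
  · refine (Finset.abs_sum_le_sum_abs _ _).trans ((Finset.sum_le_card_nsmul _ _ _ fun p hp =>
      hN p hp n ((Finset.le_sup hp).trans (le_max_right _ _)) _ (hχ p)).trans ?_)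
    rw [nsmul_eq_mul, mul_div_assoc', div_le_iff₀ (by positivity)]
    nlinarith

end Crest.Agent.R105
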