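import Crest.Agent.R105.MZ
import Crest.Agent.R105.E2An

/-! Row 105, block MAX/ISO: isotropy. -/

set_option autoImplicit false

open MeasureTheory Set Filter Topology
open scoped ENNReal

namespace Crest.Agent.R105.Mx

variable {U : Set ℂ} {Λ : Lumps U} {M : Set (ℂ → ℝ)}

theorem helper30_bd {r f χ : ℂ → ℝ} (hr : r ∈ M) (hreg : Reg Λ r) {e : Λ.E → ℝ}
    (he : Adm Λ M ∅ f e) (hχ : A0 U χ) {g : Λ.E → ℝ} (hg : Summable g)
    (h : ∀ p, |Λ.val χ p| * (e p * Λ.osc r p) ≤ g p) :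
    |om U (fun z => f z * χ z) r| ≤ ∑' p, g p := by
  refine (he.le r hr id contDiff_id χ hχ (by simp)).trans
    ((L2w.summable_mul he.l2 (wt_l2 Λ hreg contDiff_id hχ)).1.tsum_le_tsum (fun p => ?_) hg)
  refine le_trans (le_of_eq ?_) (h p)
  simp only [wt, deriv_id, abs_one, integral_const, MeasurableSet.univ, measureReal_restrict_apply,
    univ_inter, Real.volume_real_Icc_of_le (Λ.lo_le_hi hreg.bdd p), smul_eq_mul, mul_one,
    Lumps.osc]
  ring

theorem helper30_tail {r f : ℂ → ℝ} (hreg : Reg Λ r) {e : Λ.E → ℝ} (he : Adm Λ M ∅ f e) {η : ℝ}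
    (hη : 0 < η) : ∃ Y : Finset Λ.E, Summable (indicator {p | p ∉ Y} fun p => e p * Λ.osc r p) ∧
      ∑' p, indicator {p | p ∉ Y} (fun p => e p * Λ.osc r p) p ≤ η := by
  obtain ⟨Y, hY⟩ := ((tendsto_tsum_compl_atTop_zero fun p => e p * Λ.osc r p).eventually
    (ge_mem_nhds hη)).exists
  exact ⟨Y, (L2w.summable_mul he.l2 ⟨Λ.osc_nonneg hreg.bdd, hreg.sq⟩).1.indicator _,
    (tsum_subtype {p | p ∉ Y} fun p => e p * Λ.osc r p).symm.trans_le hY⟩

theorem helper30_sep (Λ : Lumps U) (Q : Finset Λ.E) : ∃ N, ∀ n ≥ N, ∀ p ∈ Q, ∀ q ∈ Q,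
    Λ.W n p = Λ.W n q → p = q := by
  obtain ⟨N, hN⟩ := Λ.exists_reps_of Q
  refine ⟨N, fun n hn p hp q hq e => by_contra fun hne => ?_⟩
  obtain ⟨Q', h1, -, h2⟩ := hN n hn
  have h3 := h2 p (h1 hp) q (h1 hq) hne
  rw [e, disjoint_self] at h3
  exact (Λ.conn n q).nonempty.ne_empty h3

/-- `Adm.le` with `H = id`: `wt Λ r id χ p = |val χ p| * osc r p`.  The series
`∑ e p * osc r p` converges; take a finite set `F` carrying all but `η` of it and `n₀` separating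
`q` from the other points of `F` (`Lumps.sep`, `W_mono`). -/
theorem atom_near {r f : ℂ → ℝ} (hr : r ∈ M) (hreg : Reg Λ r) {e : Λ.E → ℝ}
    (he : Adm Λ M ∅ f e) (q : Λ.E) {η : ℝ} (hη : 0 < η) : ∃ n₀, ∀ n ≥ n₀, ∀ χ, Ind Λ n q χ →
      |om U (fun z => f z * χ z) r| ≤ e q * Λ.osc r q + η := by
  classical
  have h0 : ∀ p, 0 ≤ e p * Λ.osc r p := fun p => mul_nonneg (he.l2.1 p) (Λ.osc_nonneg hreg.bdd p)
  obtain ⟨Y, hs, hY⟩ := helper30_tail hreg he hη
  obtain ⟨N, hN⟩ := helper30_sep Λ (insert q Y)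
  refine ⟨N, fun n hn χ hχ => ?_⟩
  have h1 := hasSum_ite_eq q (e q * Λ.osc r q)
  refine (helper30_bd hr hreg he hχ.1 (h1.summable.add hs) fun p => ?_).trans ?_
  · have h2 : 0 ≤ indicator {p | p ∉ Y} (fun p => e p * Λ.osc r p) p :=
      indicator_nonneg (fun p _ => h0 p) p
    rw [hχ.2 p]
    by_cases hp : p = q
    · subst hp
      rw [if_pos rfl, if_pos rfl, abs_one, one_mul]
      linarith
    · rw [if_neg hp, zero_add]
      split_ifs with hW
      · rw [abs_one, one_mul, indicator_of_mem]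
        exact fun hY' => hp (hN n hn p (Finset.mem_insert_of_mem hY') q
          (Finset.mem_insert_self _ _) hW)
      · rwa [abs_zero, zero_mul]
  · rw [h1.summable.tsum_add hs, h1.tsum_eq]
    linarith

/-- Take `F` finite with small tail of `∑ e p * osc r p`, a level `n` above all `n₀ q`, `q ∈ F`,
and representatives `Q ⊇ F` (`Lumps.exists_reps_of`); `χ q` from `exists_Ind`; the function
`ψ = 1 - ∑_{q ∈ F} χ q ∈ A0` has values `0` on `F` and in `{0, 1}`, so `Adm.le` bounds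
`om (f ψ) r` by the tail; `om_sub_left`, `om_sum_left`, `Summable.sum_le_tsum`. -/
theorem atom_sum (hU : IsOpen U) {r f : ℂ → ℝ} (hr : r ∈ M) (hreg : Reg Λ r) (hf : XX U f)
    {e : Λ.E → ℝ} (he : Adm Λ M ∅ f e) {c : Λ.E → ℝ} (h0 : ∀ q, 0 ≤ c q) (hc : Summable c)
    (h : ∀ q, ∀ η > 0, ∃ n₀, ∀ n ≥ n₀, ∀ χ, Ind Λ n q χ →
      |om U (fun z => f z * χ z) r| ≤ c q + η) : |om U f r| ≤ ∑' q, c q := by
  classical
  have h0' : ∀ p, 0 ≤ e p * Λ.osc r p := fun p => mul_nonneg (he.l2.1 p) (Λ.osc_nonneg hreg.bdd p)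
  refine le_of_forall_pos_le_add fun ε hε => ?_
  obtain ⟨Y, hs, hY⟩ := helper30_tail hreg he (half_pos hε)
  obtain ⟨N, hN⟩ := helper30_sep Λ Y
  have hη : 0 < ε / 2 / (Y.card + 1) := by positivity
  choose n₀ hn₀ using fun q => h q _ hη
  choose χ hχ _ using fun q => exists_Ind hU Λ (max N (Y.sup n₀)) q
  obtain ⟨a1, a2⟩ := A0.sum hU Λ Y (fun _ => 1) fun q _ => (hχ q).1
  obtain ⟨hψ, hv⟩ := A0.sub hU Λ (A0.const 1) a1
  have hone : ∀ q, Λ.val (fun _ => (1 : ℝ)) q = 1 := fun q =>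
    (val_eq Λ (A0.bdd Λ (A0.const 1)) (n := 0) fun _ _ => rfl).1
  have hx : ∀ q ∈ Y, XX U fun z => f z * χ q z := fun q _ => hf.mul_A0 hU Λ (hχ q).1
  have e1 : f = fun z => f z * (1 - ∑ q ∈ Y, 1 * χ q z) + ∑ q ∈ Y, f z * χ q z := by
    funext z
    simp only [one_mul, ← Finset.mul_sum]
    ring
  have e2 : om U f r = om U (fun z => f z * (1 - ∑ q ∈ Y, 1 * χ q z)) r +
      ∑ q ∈ Y, om U (fun z => f z * χ q z) r := by
    rw [← om_sum_left hU Y hx hreg.xx, ← om_add_left hU (hf.mul_A0 hU Λ hψ) (XX.sum hU Y hx) hreg.xx,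
      ← e1]
  have b1 := (helper30_bd hr hreg he hψ hs fun p => by
    rw [hv, hone, a2]
    simp only [one_mul, (hχ _).2 p]
    by_cases hp : ∃ q ∈ Y, Λ.W (max N (Y.sup n₀)) p = Λ.W (max N (Y.sup n₀)) q
    · obtain ⟨q, hq, hW⟩ := hp
      rw [Finset.sum_eq_single_of_mem q hq fun q' hq' hne => if_neg fun hW' =>
        hne (hN _ (le_max_left _ _) q' hq' q hq (hW'.symm.trans hW)), if_pos hW, sub_self,
        abs_zero, zero_mul]
      exact indicator_nonneg (fun p _ => h0' p) p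
    · rw [Finset.sum_eq_zero fun q hq => if_neg fun hW => hp ⟨q, hq, hW⟩, sub_zero, abs_one,
        one_mul, indicator_of_mem]
      exact fun hY' => hp ⟨p, hY', rfl⟩).trans hY
  have b2 : |∑ q ∈ Y, om U (fun z => f z * χ q z) r| ≤
      ∑ q ∈ Y, (c q + ε / 2 / (Y.card + 1)) :=
    (Finset.abs_sum_le_sum_abs _ _).trans (Finset.sum_le_sum fun q hq =>
      hn₀ q _ ((Finset.le_sup (f := n₀) hq).trans (le_max_right _ _)) _ (hχ q))
  rw [Finset.sum_add_distrib, Finset.sum_const, nsmul_eq_mul] at b2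
  have b3 := hc.sum_le_tsum Y fun q _ => h0 q
  have b4 : (Y.card : ℝ) * (ε / 2 / (Y.card + 1)) ≤ ε / 2 := by
    have hc1 : (0 : ℝ) < Y.card + 1 := Nat.cast_add_one_pos _
    rw [mul_div_assoc', div_le_iff₀ hc1, mul_add, mul_one, mul_comm]
    exact le_add_of_nonneg_right (half_pos hε).le
  rw [e2]
  linarith [abs_add_le (om U (fun z => f z * (1 - ∑ q ∈ Y, 1 * χ q z)) r)
    (∑ q ∈ Y, om U (fun z => f z * χ q z) r)]

theorem h97_line {Φ : ℂ → ℝ} (hΦ : ContDiff ℝ 1 Φ) (s t : ℝ) :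
    HasDerivAt (fun x : ℝ => Φ ⟨x, t⟩) (fderiv ℝ Φ ⟨s, t⟩ 1) s := by
  have h : HasDerivAt (fun x : ℝ => (⟨x, t⟩ : ℂ)) 1 s := by
    simp only [Complex.mk_eq_add_mul_I]
    exact (Complex.ofRealCLM.hasDerivAt (x := s)).add_const _
  exact (hΦ.differentiable one_ne_zero _).hasFDerivAt.comp_hasDerivAt s h

/-- `φ (s, t) = ∫_{x < s} g ⟨x, t⟩`, the convolution of the indicator of `Ioi 0` with
`g ⟨·, t⟩` (`contDiffOn_convolution_right_with_param`), or differentiate under the integral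
`∫ y in 0..R, g ⟨s - y, t⟩`; the derivative in `s` by the fundamental theorem of calculus. -/
theorem exists_prim2 {g : ℂ → ℝ} (hg : ContDiff ℝ 1 g) (hs : HasCompactSupport g) :
    ∃ φ : ℝ × ℝ → ℝ, ContDiff ℝ 1 φ ∧ ∀ s t, HasDerivAt (fun x => φ (x, t)) (g ⟨s, t⟩) s := by
  obtain ⟨Φ, hΦ, h⟩ := End.exists_prim_x hg hs
  refine ⟨fun p => Φ ⟨p.1, p.2⟩, hΦ.sm.comp Complex.equivRealProdCLM.symm.contDiff,
    fun s t => ?_⟩
  rw [← h]
  exact h97_line hΦ.sm s t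

/-- chain rule at points of differentiability (`ae_diff`); `fderiv φ p (1, 0) = g` -/
theorem om_phi (hU : IsOpen U) {a r : ℂ → ℝ} (ha : XX U a) (hr : XX U r) {g : ℂ → ℝ}
    {φ : ℝ × ℝ → ℝ} (hφ : ContDiff ℝ 1 φ)
    (hd : ∀ s t, HasDerivAt (fun x => φ (x, t)) (g ⟨s, t⟩) s) :
    om U (fun z => φ (a z, r z)) r = ∫ z in U, wd a r z * g ⟨a z, r z⟩ := by
  have hΨ : ContDiff ℝ 1 fun y : ℂ => φ (y.re, y.im) := hφ.comp Complex.equivRealProdCLM.contDiff
  refine setIntegral_congr_ae hU.measurableSet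
    ((End.wd_cp hU hΨ ha.lip hr.lip).mono fun z hz hzU => ?_)
  rw [← (h97_line hΨ (a z) (r z)).unique (hd (a z) (r z))]
  exact (hz hzU).1

/-- a `C¹` function of two elements of `Reg ∩ T`: replace `φ` by `φ ∘ clamp`, Lipschitz
(`ContDiffOn.exists_lipschitzOnWith` on a square), `TT_comp2`, `Lumps.osc_comp2_le`,
`Adm.congr`, `h18_XX_congr`. -/
theorem reg_phi (hU : IsOpen U) (hC : CH Λ M) {a r : ℂ → ℝ} (ha : Reg Λ a) (ha' : TT Λ M a)
    (hr : Reg Λ r) (hr' : TT Λ M r) {φ : ℝ × ℝ → ℝ} (hφ : ContDiff ℝ 1 φ) :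
    Reg Λ (fun z => φ (a z, r z)) ∧ TT Λ M (fun z => φ (a z, r z)) := by
  obtain ⟨B, hB⟩ := ha.bdd
  obtain ⟨B', hB'⟩ := hr.bdd
  have hK0 : IsCompact (Icc (-|B|) |B| ×ˢ Icc (-|B'|) |B'|) := isCompact_Icc.prod isCompact_Icc
  obtain ⟨K, hK⟩ := (hφ.contDiffOn (s := Icc (-|B|) |B| ×ˢ Icc (-|B'|) |B'|)).exists_lipschitzOnWith
    one_ne_zero ((convex_Icc _ _).prod (convex_Icc _ _)) hK0
  have hG : ∀ s t s' t' : ℝ,
      |φ (max (-|B|) (min s |B|), max (-|B'|) (min t |B'|)) -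
        φ (max (-|B|) (min s' |B|), max (-|B'|) (min t' |B'|))| ≤ K * |s - s'| + K * |t - t'| := by
    intro s t s' t'
    have h1 := hK.dist_le_mul (max (-|B|) (min s |B|), max (-|B'|) (min t |B'|))
      ⟨h18_clamp_mem (abs_nonneg B) s, h18_clamp_mem (abs_nonneg B') t⟩
      (max (-|B|) (min s' |B|), max (-|B'|) (min t' |B'|))
      ⟨h18_clamp_mem (abs_nonneg B) s', h18_clamp_mem (abs_nonneg B') t'⟩
    rw [Real.dist_eq, Prod.dist_eq, Real.dist_eq, Real.dist_eq] at h1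
    refine h1.trans ?_
    rw [← mul_add]
    refine mul_le_mul_of_nonneg_left (max_le ?_ ?_) K.2
    · exact (h18_clamp _ s s').trans (le_add_of_nonneg_right (abs_nonneg _))
    · exact (h18_clamp _ t t').trans (le_add_of_nonneg_left (abs_nonneg _))
  have heq : EqOn (fun z => φ (a z, r z))
      (fun z => φ (max (-|B|) (min (a z) |B|), max (-|B'|) (min (r z) |B'|))) U := fun z hz => by
    simp only [h18_clamp_eq ((hB z hz).trans (le_abs_self B)),
      h18_clamp_eq ((hB' z hz).trans (le_abs_self B'))]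
  obtain ⟨hx, e, he⟩ := TT_comp2 hU hC
    (G := fun s t => φ (max (-|B|) (min s |B|), max (-|B'|) (min t |B'|))) hG ha' hr'
  have hxx : XX U (fun z => φ (a z, r z)) := by
    refine h18_XX_congr hU hx heq ?_
    obtain ⟨R, c, hc⟩ := ha.xx.inf
    obtain ⟨R', c', hc'⟩ := hr.xx.inf
    exact ⟨max R R', φ (c, c'), fun z hz => by
      rw [hc z ((le_max_left _ _).trans hz), hc' z ((le_max_right _ _).trans hz)]⟩
  obtain ⟨D, hD⟩ := hK0.exists_bound_of_continuousOn hφ.continuous.continuousOn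
  have hb2 : Bdd U (fun z => φ (max (-|B|) (min (a z) |B|), max (-|B'|) (min (r z) |B'|))) :=
    ⟨D, fun z _ => hD _ ⟨h18_clamp_mem (abs_nonneg B) _, h18_clamp_mem (abs_nonneg B') _⟩⟩
  have hb1 : Bdd U (fun z => φ (a z, r z)) := by
    obtain ⟨D', hD'⟩ := hb2
    exact ⟨D', fun z hz => (congrArg abs (heq hz)).trans_le (hD' z hz)⟩
  refine ⟨⟨hxx, hb1, ?_⟩, hxx, e, he.congr hU heq.symm⟩
  have la : L2w (Λ.osc a) := ⟨Λ.osc_nonneg ha.bdd, ha.sq⟩
  have lr : L2w (Λ.osc r) := ⟨Λ.osc_nonneg hr.bdd, hr.sq⟩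
  refine (L2w.of_le ((la.smul K.2).1.add (lr.smul K.2).1).1 (Λ.osc_nonneg hb1) fun q => ?_).1.2
  obtain ⟨e1, e2⟩ := Λ.lo_congr hb1 hb2 (q := q) fun η hη => ⟨0, fun z hz => by
    rw [sub_eq_zero.2 (heq (Λ.sub _ _ hz).1), abs_zero]; exact hη.le⟩
  have h3 := Λ.osc_comp2_le ha.bdd hr.bdd
    (G := fun s t => φ (max (-|B|) (min s |B|), max (-|B'|) (min t |B'|))) K.2 K.2 hG q
  unfold Lumps.osc at h3 ⊢
  rw [e1, e2]
  exact h3

/-- small nodes.  With `m = lo a q`, `f' = φ (a, r) - φ (m, r)` lies in `Reg ∩ T` (`reg_phi` for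
`(s, t) ↦ φ (s, t) - φ (m, t)`), `om (φ (m, r) χ) r = 0` (`om_self`), `|f'| ≤ C |a - m|`, so
`osc f' q ≤ 2 C osc a q` (`Lumps.osc_le`, `Lumps.near`); `Adm.osc`, `atom_near`. -/
theorem atom_small (hU : IsOpen U) (hM : Fam Λ M) (hC : CH Λ M) {a r : ℂ → ℝ} (ha : Reg Λ a)
    (ha' : TT Λ M a) (hr : r ∈ M) {g : ℂ → ℝ} {φ : ℝ × ℝ → ℝ} (hφ : ContDiff ℝ 1 φ)
    (hd : ∀ s t, HasDerivAt (fun x => φ (x, t)) (g ⟨s, t⟩) s) {C : ℝ} (hg : ∀ y, |g y| ≤ C)
    (q : Λ.E) : ∀ η > 0, ∃ n₀, ∀ n ≥ n₀, ∀ χ, Ind Λ n q χ →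
      |om U (fun z => φ (a z, r z) * χ z) r| ≤ 2 * C * Λ.osc a q * Λ.osc r q + η := by
  intro η hη
  have hreg := hM.reg r hr
  have hrT : TT Λ M r := ⟨hreg.xx, _, hM.compat r hr⟩
  have hC0 : 0 ≤ C := (abs_nonneg _).trans (hg 0)
  have hκ : ContDiff ℝ 1 (fun t : ℝ => φ (Λ.lo a q, t)) :=
    hφ.comp (contDiff_const.prodMk contDiff_id)
  have hφ' : ContDiff ℝ 1 (fun p : ℝ × ℝ => φ p - φ (Λ.lo a q, p.2)) :=
    hφ.sub (hκ.comp contDiff_snd)
  obtain ⟨hf, hf'⟩ := reg_phi hU hC ha ha' hreg hrT hφ'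
  have hA := Adm.osc hU hM.reg hC hf hf'
  obtain ⟨n₀, hn₀⟩ := atom_near hr hreg hA q hη
  refine ⟨n₀, fun n hn χ hχ => ?_⟩
  have h1 := hn₀ n hn χ hχ
  have hmv : ∀ s t, |φ (s, t) - φ (Λ.lo a q, t)| ≤ C * |s - Λ.lo a q| := by
    intro s t
    have := convex_univ.norm_image_sub_le_of_norm_hasDerivWithin_le
      (f := fun x => φ (x, t)) (f' := fun x => g ⟨x, t⟩) (C := C)
      (fun x _ => (hd x t).hasDerivWithinAt) (fun x _ => hg _) (mem_univ (Λ.lo a q)) (mem_univ s)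
    simpa only [Real.norm_eq_abs] using this
  have hosc : Λ.osc (fun z => φ (a z, r z) - φ (Λ.lo a q, r z)) q ≤ 2 * C * Λ.osc a q := by
    refine Λ.osc_le hf.bdd fun η' hη' => ?_
    have hη'' : 0 < η' / (2 * C + 1) := by positivity
    obtain ⟨n, hn⟩ := Λ.near ha.bdd q hη''
    have key : ∀ z ∈ Λ.W n q, |φ (a z, r z) - φ (Λ.lo a q, r z)| ≤
        C * (Λ.osc a q + η' / (2 * C + 1)) := by
      intro z hz
      refine (hmv _ _).trans (mul_le_mul_of_nonneg_left ?_ hC0)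
      have h2 := hn z hz
      have h3 := Λ.osc_nonneg ha.bdd q
      unfold Lumps.osc at h3 ⊢
      rw [abs_le]
      constructor <;> linarith [h2.1, h2.2]
    refine ⟨n, fun z hz z' hz' => ?_⟩
    have h2 := abs_le.1 (key z hz)
    have h3 := abs_le.1 (key z' hz')
    have h4 : 2 * C * (η' / (2 * C + 1)) ≤ η' := by
      rw [mul_div_assoc', div_le_iff₀ (by positivity)]
      nlinarith
    nlinarith [h2.1, h2.2, h3.1, h3.2]
  have hz0 : om U (fun z => φ (Λ.lo a q, r z) * χ z) r = 0 :=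
    om_self hU Λ hreg.xx hreg.bdd hχ.1 hκ contDiff_id
  have hx2 : XX U (fun z => φ (Λ.lo a q, r z) * χ z) :=
    XX.mul_A0 hU Λ (XX.comp_C1 hU hκ hreg.xx hreg.bdd) hχ.1
  have hsum := om_add_left hU (XX.mul_A0 hU Λ hf.xx hχ.1) hx2 hreg.xx
  have he : (fun z => (φ (a z, r z) - φ (Λ.lo a q, r z)) * χ z + φ (Λ.lo a q, r z) * χ z) =
      fun z => φ (a z, r z) * χ z := funext fun z => by ring
  rw [he, hz0, add_zero] at hsum
  rw [hsum]
  refine h1.trans ?_
  have h5 := mul_le_mul_of_nonneg_right hosc (Λ.osc_nonneg hreg.bdd q)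
  linarith

/-- two functions that agree on `A i` have the same pairing with `r i` (`Br.wd_r`) -/
theorem Br.om_congr {β : ℂ → ℝ} (B : Br Λ M β) (i : ℕ) {f f' : ℂ → ℝ} (h : EqOn f f' (B.A i)) :
    om U f (B.r i) = om U f' (B.r i) := by
  refine setIntegral_congr_ae B.op.measurableSet ?_
  filter_upwards [B.wd_r i f, B.wd_r i f'] with z h1 h2 hz
  rw [h1 hz, h2 hz]
  by_cases hA : z ∈ B.A i
  · simp only [indicator_of_mem hA, wd,
      (h.eventuallyEq_of_mem ((B.Aop i).mem_nhds hA)).fderiv_eq (𝕜 := ℝ)]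
  · simp only [indicator_of_notMem hA]

theorem h16_xx_phi (hU : IsOpen U) {a b : ℂ → ℝ} (ha : XX U a) (ha' : Bdd U a) (hb : XX U b)
    (hb' : Bdd U b) {φ : ℝ × ℝ → ℝ} (hφ : ContDiff ℝ 1 φ) : XX U (fun z => φ (a z, b z)) := by
  obtain ⟨B, hB⟩ := ha'
  obtain ⟨B', hB'⟩ := hb'
  obtain ⟨K, hK⟩ := (hφ.contDiffOn (s := Icc (-|B|) |B| ×ˢ Icc (-|B'|) |B'|)).exists_lipschitzOnWith
    one_ne_zero ((convex_Icc _ _).prod (convex_Icc _ _)) (isCompact_Icc.prod isCompact_Icc)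
  refine h18_XX_congr hU (XX.comp2 hU
    (G := fun s t => φ (max (-|B|) (min s |B|), max (-|B'|) (min t |B'|))) (L₁ := K) (L₂ := K)
    (fun s t s' t' => ?_) ha hb) (fun z hz => ?_) ?_
  · have h1 := hK.dist_le_mul (max (-|B|) (min s |B|), max (-|B'|) (min t |B'|))
      ⟨h18_clamp_mem (abs_nonneg _) _, h18_clamp_mem (abs_nonneg _) _⟩
      (max (-|B|) (min s' |B|), max (-|B'|) (min t' |B'|))
      ⟨h18_clamp_mem (abs_nonneg _) _, h18_clamp_mem (abs_nonneg _) _⟩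
    rw [Real.dist_eq, Prod.dist_eq, Real.dist_eq, Real.dist_eq] at h1
    refine h1.trans ?_
    rw [← mul_add]
    refine mul_le_mul_of_nonneg_left (max_le ?_ ?_) K.2
    · linarith [h18_clamp |B| s s', abs_nonneg (t - t')]
    · linarith [h18_clamp |B'| t t', abs_nonneg (s - s')]
  · simp only [h18_clamp_eq ((hB z hz).trans (le_abs_self B)),
      h18_clamp_eq ((hB' z hz).trans (le_abs_self B'))]
  · obtain ⟨R, c, hc⟩ := ha.inf
    obtain ⟨R', c', hc'⟩ := hb.inf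
    exact ⟨max R R', φ (c, c'), fun z hz => by
      rw [hc z ((le_max_left _ _).trans hz), hc' z ((le_max_right _ _).trans hz)]⟩

theorem h16_seg {g : ℂ → ℝ} {φ : ℝ × ℝ → ℝ}
    (hd : ∀ s t, HasDerivAt (fun x => φ (x, t)) (g ⟨s, t⟩) s) {c : ℂ} {R s t : ℝ}
    (h0 : ∀ y ∈ Metric.ball c R, g y = 0) (h : ‖(⟨s, t⟩ : ℂ) - c‖ < R) :
    φ (s, t) = φ (c.re, t) := by
  have h1 := (convex_uIcc c.re s).norm_image_sub_le_of_norm_hasDerivWithin_le
    (f := fun x => φ (x, t)) (f' := fun x => g ⟨x, t⟩) (C := 0)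
    (fun x _ => (hd x t).hasDerivWithinAt) (fun x hx => ?_) left_mem_uIcc right_mem_uIcc
  · rw [zero_mul, norm_le_zero_iff, sub_eq_zero] at h1
    exact h1
  · rw [h0, norm_zero]
    rw [Metric.mem_ball, dist_eq_norm]
    refine lt_of_le_of_lt ?_ h
    have h2 : |x - c.re| ≤ |s - c.re| := abs_sub_left_of_mem_uIcc hx
    have h3 : (x - c.re) ^ 2 ≤ (s - c.re) ^ 2 := sq_le_sq.2 h2
    rw [Complex.norm_eq_sqrt_sq_add_sq, Complex.norm_eq_sqrt_sq_add_sq]
    refine Real.sqrt_le_sqrt ?_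
    simp only [Complex.sub_re, Complex.sub_im]
    linarith

/-- big nodes.  On `W n q` the point `⟨a, b⟩` lies in the ball where `g = 0`; the horizontal
segment to `⟨c.re, b⟩` stays in it, so `φ (a, b) = κ b`, `κ t = φ (c.re, t)`.  `Br.om_congr`
(replace `r i` by `b`), `om_germ_congr` (at ends of other lumps `χ = 0`), `Br.om_congr` back,
`om_self`. -/
theorem atom_big {a b : ℂ → ℝ} (B : Br Λ M b) (i : ℕ) (ha : Reg Λ a) {g : ℂ → ℝ}
    {φ : ℝ × ℝ → ℝ} (hφ : ContDiff ℝ 1 φ)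
    (hd : ∀ s t, HasDerivAt (fun x => φ (x, t)) (g ⟨s, t⟩) s) {q : Λ.E} {c : ℂ} {ρ δ : ℝ}
    (hδ : 0 < δ) (hb : InBall Λ a b q c ρ) (h0 : ∀ y ∈ Metric.ball c (ρ + δ), g y = 0) :
    ∃ n₀, ∀ n ≥ n₀, ∀ χ, Ind Λ n q χ → om U (fun z => φ (a z, B.r i z) * χ z) (B.r i) = 0 := by
  have hU := B.op
  obtain ⟨n₀, hn₀⟩ := hb (δ / 2) (by positivity)
  refine ⟨n₀, fun n hn χ hχ => ?_⟩
  have hκ : ContDiff ℝ 1 (fun t : ℝ => φ (c.re, t)) := hφ.comp (contDiff_const.prodMk contDiff_id)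
  have hr := (B.mono i).reg
  have e1 : om U (fun z => φ (a z, B.r i z) * χ z) (B.r i) =
      om U (fun z => φ (a z, b z) * χ z) (B.r i) :=
    B.om_congr i fun z hz => by simp only [B.eq i hz]
  have e3 : om U (fun z => φ (c.re, b z) * χ z) (B.r i) =
      om U (fun z => φ (c.re, B.r i z) * χ z) (B.r i) :=
    B.om_congr i fun z hz => by simp only [B.eq i hz]
  have e2 : om U (fun z => φ (a z, b z) * χ z) (B.r i) =
      om U (fun z => φ (c.re, b z) * χ z) (B.r i) := by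
    refine om_germ_congr hU Λ
      ((h16_xx_phi hU ha.xx ha.bdd B.reg.xx B.reg.bdd hφ).mul_A0 hU Λ hχ.1)
      ((B.reg.xx.comp_C1 hU hκ B.reg.bdd).mul_A0 hU Λ hχ.1) hr.xx hr.xx fun p => ?_
    by_cases hp : Λ.W n p = Λ.W n q
    · refine ⟨n, 0, 0, fun z hz => ?_, fun z _ => by rw [add_zero]⟩
      rw [hp] at hz
      rw [add_zero, h16_seg hd h0 (lt_of_le_of_lt (hn₀ z (Λ.W_mono hn q hz)) (by linarith))]
    · obtain ⟨N, hN⟩ := hχ.1.eq_val Λ
      refine ⟨N, 0, 0, fun z hz => ?_, fun z _ => by rw [add_zero]⟩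
      rw [hN N le_rfl p z hz, hχ.2 p, if_neg hp]
      simp
  rw [e1, e2, e3]
  exact om_self hU Λ hr.xx hr.bdd hχ.1 hκ (H := fun t => t) contDiff_id

open Classical in
/-- `exists_prim2`, `om_phi`, `reg_phi`, `atom_sum`, `atom_small`, `atom_big`; the compact
`tsupport g` has positive distance from each of the finitely many closed discs. -/
theorem iso_smooth (hM : Fam Λ M) (hC : CH Λ M) {a b : ℂ → ℝ} (B : Br Λ M b) (i : ℕ)
    (ha : Reg Λ a) (ha' : TT Λ M a) {c : Λ.E → ℂ} {ρ : Λ.E → ℝ}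
    (hb : ∀ q, InBall Λ a b q (c q) (ρ q)) (F : Finset Λ.E) {g : ℂ → ℝ} (hg : ContDiff ℝ 1 g)
    (hs : HasCompactSupport g) (h1 : ∀ y, |g y| ≤ 1)
    (h0 : tsupport g ⊆ (⋃ q ∈ F, Metric.closedBall (c q) (ρ q))ᶜ) :
    |∫ z in U, wd a (B.r i) z * g ⟨a z, B.r i z⟩| ≤
      ∑' q, if q ∈ F then 0 else 2 * Λ.osc a q * Λ.osc (B.r i) q := by
  sorry

/-- smooth approximants converging a.e. for a finite measure -/
theorem h85_apx_ae (ν : Measure ℂ) [IsFiniteMeasure ν] {g : ℂ → ℝ} (hg : Measurable g)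
    (h1 : ∀ y, |g y| ≤ 1) : ∃ f : ℕ → ℂ → ℝ, (∀ k, HasCompactSupport (f k)) ∧
      (∀ k, ContDiff ℝ 1 (f k)) ∧ ∀ᵐ y ∂ν, Tendsto (fun k => f k y) atTop (𝓝 (g y)) := by
  have hm : MemLp g 1 ν := MemLp.of_bound hg.aestronglyMeasurable 1 (.of_forall h1)
  choose f hf1 hf2 hf3 using fun k : ℕ => hm.exist_eLpNorm_sub_le (by simp) le_rfl
    (show 0 < 1 / ((k : ℝ) + 1) by positivity)
  have ht : Tendsto (fun k => eLpNorm (f k - g) 1 ν) atTop (𝓝 0) := by
    have := ENNReal.tendsto_ofReal tendsto_one_div_add_atTop_nhds_zero_nat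
    rw [ENNReal.ofReal_zero] at this
    exact tendsto_of_tendsto_of_tendsto_of_le_of_le tendsto_const_nhds this (fun _ => zero_le)
      fun k => (eLpNorm_sub_comm _ _ _ _).trans_le (hf3 k)
  obtain ⟨ns, -, h⟩ := (tendstoInMeasure_of_tendsto_eLpNorm one_ne_zero
    (fun k => (hf2 k).continuous.aestronglyMeasurable) hg.aestronglyMeasurable
    ht).exists_seq_tendsto_ae
  exact ⟨fun k => f (ns k), fun k => hf1 _, fun k => (hf2 _).of_le (by simp), h⟩

/-- Approximation.  Let `ν` be the push-forward under `Φ` of `|w| μ` (a finite measure on `ℂ`).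
Take a compact `K ⊆ V` with `ν (V \ K)` small, a smooth `θ : ℂ → [0,1]` with compact support in
`V`, `θ = 1` on `K`, a smooth `g₁` close to `g` in `L¹ ν`
(`MeasureTheory.MemLp.exist_eLpNorm_sub_le` / `Integrable.exists_hasCompactSupport_integral_sub_le`
and uniform approximation of continuous functions by smooth ones), and a smooth clip; e.g.
approximate `g` first by a continuous function, clip it to `[-1, 1]`, approximate uniformly within
`ε` by a smooth one and divide by `1 + ε`. -/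
theorem apx {α : Type} [MeasurableSpace α] {μ : Measure α} {w : α → ℝ} (hw : Integrable w μ)
    {Φ : α → ℂ} (hΦ : AEMeasurable Φ μ) {V : Set ℂ} (hV : IsOpen V) {τ : ℝ}
    (h : ∀ g : ℂ → ℝ, ContDiff ℝ 1 g → HasCompactSupport g → (∀ y, |g y| ≤ 1) → tsupport g ⊆ V →
      |∫ z, w z * g (Φ z) ∂μ| ≤ τ) {g : ℂ → ℝ} (hg : Measurable g) (h1 : ∀ y, |g y| ≤ 1)
    (h0 : ∀ y, y ∉ V → g y = 0) : |∫ z, w z * g (Φ z) ∂μ| ≤ τ := by
  have := isFiniteMeasure_withDensity (μ := μ) (f := fun z => ‖w z‖ₑ) hw.2.ne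
  obtain ⟨f, hf1, hf2, hf3⟩ := h85_apx_ae ((μ.withDensity fun z => ‖w z‖ₑ).map Φ) hg h1
  have hf4 := (ae_withDensity_iff' hw.1.enorm).1
    (ae_of_ae_map (hΦ.mono_ac (withDensity_absolutelyContinuous _ _)) hf3)
  obtain ⟨φ, hφs, hφ, hφr⟩ := hV.exists_contDiff_support_eq (n := 1)
  have hφ0 : ∀ y, 0 ≤ φ y := fun y => (hφr (mem_range_self y)).1
  have hφV : ∀ y, 0 < φ y ↔ y ∈ V := fun y => by
    rw [← hφs, Function.mem_support]
    exact ⟨fun h => h.ne', fun h => (hφ0 y).lt_of_ne' h⟩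
  have hst : ContDiff ℝ 1 Real.smoothTransition := Real.smoothTransition.contDiff (n := 1)
  have key : ∀ δ : ℝ, 0 < δ → |∫ z, w z * g (Φ z) ∂μ| ≤ (1 + δ) * τ := by
    intro δ hδ
    let b : ContDiffBump (0 : ℝ) := ⟨1, 1 + δ, one_pos, by linarith⟩
    have hb : ContDiff ℝ 1 b := b.contDiff (n := 1)
    have hκ : ∀ s, |(1 + δ)⁻¹ * (s * b s)| ≤ 1 := fun s => by
      rw [abs_mul, abs_mul, abs_of_nonneg b.nonneg, abs_of_nonneg (by positivity),
        inv_mul_le_iff₀ (by positivity), mul_one]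
      rcases le_total (1 + δ) |s| with hs | hs
      · rw [b.zero_of_le_dist (by simpa using hs), mul_zero]
        positivity
      · exact (mul_le_of_le_one_right (abs_nonneg _) b.le_one).trans hs
    let G : ℕ → ℂ → ℝ := fun k y =>
      Real.smoothTransition (k * φ y - 1) * ((1 + δ)⁻¹ * (f k y * b (f k y)))
    have hG1 : ∀ k, ContDiff ℝ 1 (G k) := fun k =>
      (hst.comp ((contDiff_const.mul hφ).sub contDiff_const)).mul
        (contDiff_const.mul ((hf2 k).mul (hb.comp (hf2 k))))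
    have hG2 : ∀ k y, |G k y| ≤ 1 := fun k y => by
      rw [abs_mul, abs_of_nonneg (Real.smoothTransition.nonneg _)]
      exact mul_le_one₀ (Real.smoothTransition.le_one _) (abs_nonneg _) (hκ _)
    have hG3 : ∀ k, tsupport (G k) ⊆ V := fun k => by
      refine (closure_minimal (t := {y | 1 ≤ k * φ y}) (fun y hy => ?_)
        (isClosed_le continuous_const (continuous_const.mul hφ.continuous))).trans fun y hy => ?_
      · by_contra h'
        exact hy (mul_eq_zero_of_left (Real.smoothTransition.zero_of_nonpos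
          (by simp only [mem_ofPred_eq, not_le] at h'; linarith)) _)
      · refine (hφV y).1 ((hφ0 y).lt_of_ne fun h' => ?_)
        rw [mem_ofPred_eq, ← h'] at hy
        linarith
    have hlim := tendsto_integral_of_dominated_convergence (μ := μ)
      (F := fun k z => w z * G k (Φ z)) (f := fun z => (1 + δ)⁻¹ * (w z * g (Φ z)))
      (fun z => ‖w z‖) (fun k => hw.1.mul
        ((hG1 k).continuous.measurable.comp_aemeasurable hΦ).aestronglyMeasurable) hw.norm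
      (fun k => .of_forall fun z => by
        rw [norm_mul]
        exact mul_le_of_le_one_right (norm_nonneg _) (hG2 k _)) (by
      filter_upwards [hf4] with z hz
      by_cases hw0 : w z = 0
      · simp [hw0]
      have h2 := hz (by simpa using hw0)
      have h3 := ((h2.mul ((b.continuous.tendsto _).comp h2)).const_mul (1 + δ)⁻¹).const_mul (w z)
      rw [b.one_of_mem_closedBall (by simpa using h1 _), mul_one, mul_left_comm] at h3
      by_cases hzV : Φ z ∈ V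
      · refine h3.congr' ?_
        filter_upwards [(tendsto_natCast_atTop_atTop.atTop_mul_const
          ((hφV _).2 hzV)).eventually_ge_atTop 2] with k hk
        simp only [G, Function.comp_apply]
        rw [Real.smoothTransition.one_of_one_le (by linarith), one_mul]
      · have h4 : φ (Φ z) = 0 := (hφ0 _).eq_or_lt.resolve_right (fun h' => hzV ((hφV _).1 h')) |>.symm
        simp [G, h4, h0 _ hzV, Real.smoothTransition.zero_of_nonpos])
    have h5 := le_of_tendsto' hlim.abs fun k => h (G k) (hG1 k)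
      (hf1 k).mul_right.mul_left.mul_left (hG2 k) (hG3 k)
    rwa [integral_const_mul, abs_mul, abs_of_nonneg (by positivity),
      inv_mul_le_iff₀ (by positivity)] at h5
  have ht : Tendsto (fun δ : ℝ => (1 + δ) * τ) (𝓝[>] 0) (𝓝 ((1 + 0) * τ)) :=
    (((continuous_const.add continuous_id).mul continuous_const).tendsto 0).mono_left
      nhdsWithin_le_nhds
  rw [add_zero, one_mul] at ht
  exact ge_of_tendsto ht (eventually_nhdsWithin_of_forall key)

/-- Scale `g` to `|g| ≤ 1`.  If `ρ q ≤ 0` then `osc a q = 0` (`InBall`, `Lumps.osc_le`).  For a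
finite `F₀` with small tail of `∑ 2 osc a * osc (r i)` take `F = F₀.filter (0 < ρ ·)`; `apx`,
`iso_smooth`. -/
theorem iso_branch (hM : Fam Λ M) (hC : CH Λ M) {a b : ℂ → ℝ} (B : Br Λ M b) (i : ℕ)
    (ha : Reg Λ a) (ha' : TT Λ M a) {c : Λ.E → ℂ} {ρ : Λ.E → ℝ} (hρ : ∀ q, 0 ≤ ρ q)
    (hb : ∀ q, InBall Λ a b q (c q) (ρ q)) {g : ℂ → ℝ} (hg : Measurable g) {C : ℝ}
    (h1 : ∀ y, |g y| ≤ C) (h0 : ∀ q, 0 < ρ q → ∀ y ∈ Metric.closedBall (c q) (ρ q), g y = 0) :
    ∫ z in U, wd a (B.r i) z * g ⟨a z, B.r i z⟩ = 0 := by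
  classical
  have hr : Reg Λ (B.r i) := (B.mono i).reg
  have hC0 : 0 < C + 1 := by linarith [(abs_nonneg _).trans (h1 0)]
  have hosc : ∀ q, ¬ 0 < ρ q → Λ.osc a q = 0 := by
    intro q hq
    have hq0 : ρ q = 0 := le_antisymm (not_lt.1 hq) (hρ q)
    refine le_antisymm (Λ.osc_le ha.bdd fun η hη => ?_) (Λ.osc_nonneg ha.bdd q)
    obtain ⟨n, hn⟩ := hb q (η / 2) (by positivity)
    refine ⟨n, fun z hz z' hz' => ?_⟩
    have e1 := abs_le.1 ((Complex.abs_re_le_norm _).trans (hn z hz))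
    have e2 := abs_le.1 ((Complex.abs_re_le_norm _).trans (hn z' hz'))
    simp only [Complex.sub_re, hq0] at e1 e2
    linarith [e1.2, e2.1]
  have hΦ : AEMeasurable (fun z => (⟨a z, B.r i z⟩ : ℂ)) (volume.restrict U) := by
    have e : (fun z => (⟨a z, B.r i z⟩ : ℂ)) =
        fun z => (a z : ℂ) + (B.r i z : ℂ) * Complex.I := by
      funext z; apply Complex.ext <;> simp
    rw [e]
    refine ContinuousOn.aemeasurable ?_ B.op.measurableSet
    exact (Complex.continuous_ofReal.comp_continuousOn ha.xx.lip.continuousOn).add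
      ((Complex.continuous_ofReal.comp_continuousOn hr.xx.lip.continuousOn).mul continuousOn_const)
  have key : ∀ ε > 0, |∫ z in U, wd a (B.r i) z * (g ⟨a z, B.r i z⟩ / (C + 1))| ≤ ε := by
    intro ε hε
    obtain ⟨F₀, hF₀⟩ := ((tendsto_tsum_compl_atTop_zero
      fun q => 2 * Λ.osc a q * Λ.osc (B.r i) q).eventually (ge_mem_nhds hε)).exists
    have hτ : (∑' q, if q ∈ F₀.filter (fun q => 0 < ρ q) then 0
        else 2 * Λ.osc a q * Λ.osc (B.r i) q) ≤ ε := by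
      refine le_trans (le_of_eq ?_) hF₀
      refine Eq.trans (tsum_congr fun q => ?_)
        (tsum_subtype {x | x ∉ F₀} fun q => 2 * Λ.osc a q * Λ.osc (B.r i) q).symm
      by_cases hq : q ∈ F₀
      · by_cases hq' : 0 < ρ q
        · simp [hq, hq']
        · simp [hq, hosc q hq']
      · simp [hq]
    refine apx (g := fun y => g y / (C + 1)) (wd_integrableOn ha.xx.en hr.xx.en) hΦ
      (V := (⋃ q ∈ F₀.filter (fun q => 0 < ρ q), Metric.closedBall (c q) (ρ q))ᶜ)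
      (isClosed_biUnion_finset fun q _ => Metric.isClosed_closedBall).isOpen_compl
      (fun g' k1 k2 k3 k4 => ?_) (hg.div_const _) (fun y => ?_) fun y hy => ?_
    · refine (iso_smooth hM hC B i ha ha' hb _ k1 k2 k3 k4).trans (le_trans (le_of_eq ?_) hτ)
      exact tsum_congr fun q => by congr
    · rw [abs_div, abs_of_pos hC0, div_le_one hC0]; linarith [h1 y]
    · rw [notMem_compl_iff] at hy
      obtain ⟨q, hq, hyq⟩ := mem_iUnion₂.1 hy
      rw [h0 q (Finset.mem_filter.1 hq).2 y hyq, zero_div]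
  have h2 : ∫ z in U, wd a (B.r i) z * (g ⟨a z, B.r i z⟩ / (C + 1)) = 0 :=
    abs_nonpos_iff.1 (le_of_forall_pos_le_add fun ε hε => by rw [zero_add]; exact key ε hε)
  simp only [← mul_div_assoc] at h2
  rw [integral_div] at h2
  exact (div_eq_zero_iff.1 h2).resolve_right hC0.ne'

/-- `Br.hasSum` for the density; `Br.int_D` and `iso_branch` for
`g' y = (T i).indicator 1 y.im * g y`. -/
theorem iso_of_br (hM : Fam Λ M) (hC : CH Λ M) {a b : ℂ → ℝ} (B : Br Λ M b)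
    (ha : Reg Λ a) (ha' : TT Λ M a) {c : Λ.E → ℂ} {ρ : Λ.E → ℝ} (hρ : ∀ q, 0 ≤ ρ q)
    (hb : ∀ q, InBall Λ a b q (c q) (ρ q)) {g : ℂ → ℝ} (hg : Measurable g) {C : ℝ}
    (h1 : ∀ y, |g y| ≤ C) (h0 : ∀ q, 0 < ρ q → ∀ y ∈ Metric.closedBall (c q) (ρ q), g y = 0) :
    ∫ z in U, wd a b z * g ⟨a z, b z⟩ = 0 := by
  sorry

end Crest.Agent.R105.Mx

namespace Crest.Agent.R105

theorem iso_of_maxFam {U : Set ℂ} (hU : Crest.AnalysisR.IsExteriorDomain U) {Λ : Lumps U}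
    {M : Set (ℂ → ℝ)} (hM : MaxFam Λ M) (hC : CH Λ M) : ISO Λ M := by
  intro a b c ρ ha ha' hb hb' hb1 hρ hB g hg ⟨C, hC'⟩ h0
  obtain ⟨B⟩ := Mx.exists_br hU.1 hU.2.1 hM hC hb hb' hb1
  exact Mx.iso_of_br hM.fam hC B ha ha' hρ.1 hB hg hC' h0

end Crest.Agent.R105
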