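import Crest.Agent.R105.MI2
import Crest.Agent.R105.MI3

/-! Row 105: isotropy for a maximal family of monotone generators. -/

set_option autoImplicit false

open MeasureTheory Set Filter Topology
open scoped ENNReal BoundedContinuousFunction

namespace Crest.Agent.R105

variable {U : Set ℂ}

/-- isotropy along one branch -/
theorem mi_branch (hU : IsOpen U) {Λ : Lumps U} {M : Set (ℂ → ℝ)} (hM : ∀ r ∈ M, Reg Λ r)
    (hC : CH Λ M) {a b r : ℂ → ℝ} (ha : Reg Λ a) (hTa : TT Λ M a) (hb : Reg Λ b)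
    (hTb : TT Λ M b) (hr : r ∈ M) {A : Set ℂ} (hA : IsOpen A) (hAU : A ⊆ U) (he : EqOn r b A)
    (h0 : ∀ᵐ z, z ∈ U → z ∉ A → fderiv ℝ r z = 0) {c : Λ.E → ℂ} {ρ : Λ.E → ℝ} (hρ : L2w ρ)
    (hB : ∀ q, InBall Λ a b q (c q) (ρ q)) {g : ℂ → ℝ} (hg : Measurable g) (h1 : ∀ y, |g y| ≤ 1)
    (hz : ∀ q, 0 < ρ q → ∀ y ∈ Metric.closedBall (c q) (ρ q), g y = 0) :
    ∫ z in U, wd a r z * g ⟨a z, r z⟩ = 0 := by
  classical
  have hR := hM r hr
  have la : L2w (Λ.osc a) := ⟨Λ.osc_nonneg ha.bdd, ha.sq⟩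
  have lr : L2w (Λ.osc r) := ⟨Λ.osc_nonneg hR.bdd, hR.sq⟩
  have hs := (la.summable_mul lr).1
  have hn : ∀ q, 0 ≤ Λ.osc a q * Λ.osc r q := fun q => mul_nonneg (la.1 q) (lr.1 q)
  refine abs_nonpos_iff.1 (le_of_forall_pos_le_add fun ε hε => ?_)
  rw [zero_add]
  obtain ⟨Y, hY⟩ := ((tendsto_tsum_compl_atTop_zero fun q => Λ.osc a q * Λ.osc r q).eventually
    (ge_mem_nhds hε)).exists
  set F := Y.filter fun q => 0 < ρ q with hF
  have hTs : Summable fun q => if q ∈ F then 0 else Λ.osc a q * Λ.osc r q :=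
    hs.of_nonneg_of_le (fun q => by split_ifs; exacts [le_rfl, hn q])
      fun q => by split_ifs; exacts [hn q, le_rfl]
  have hT : ∑' q, (if q ∈ F then 0 else Λ.osc a q * Λ.osc r q) ≤ ε := by
    refine le_trans ?_ ((tsum_subtype {q | q ∉ Y} fun q => Λ.osc a q * Λ.osc r q).symm.trans_le hY)
    refine hTs.tsum_le_tsum (fun q => ?_) (hs.indicator _)
    split_ifs with h
    · exact indicator_nonneg (fun _ _ => hn _) _
    · by_cases hq : q ∈ Y
      · have h2 : ρ q ≤ 0 := not_lt.1 fun h' => h (Finset.mem_filter.2 ⟨hq, h'⟩)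
        have h3 : Λ.osc a q = 0 :=
          le_antisymm (((End.osc_le_of_inBall (hB q)).1 ha.bdd).trans (by linarith)) (la.1 q)
        rw [h3, zero_mul]
        exact indicator_nonneg (fun _ _ => hn _) _
      · exact (indicator_of_mem (s := {q | q ∉ Y}) hq fun q => Λ.osc a q * Λ.osc r q).ge
  refine mi_norming (μ := volume.restrict U) (wd_integrableOn ha.xx.en hR.xx.en)
    (ha.xx.lip.continuousOn.aemeasurable hU.measurableSet)
    (hR.xx.lip.continuousOn.aemeasurable hU.measurableSet)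
    (Z := ⋃ q ∈ F, Metric.closedBall (c q) (ρ q))
    (F.finite_toSet.isClosed_biUnion fun _ _ => Metric.isClosed_closedBall) ?_ hg h1 ?_
  · intro ι _ g θ τ η hη hg1 hθ0 hθ1 hθ2 hg0
    have hle : ∀ q, ∑ j, ∫ t in Icc (Λ.lo r q) (Λ.hi r q), |θ j t| ≤ Λ.osc r q := fun q => by
      rw [← integral_finset_sum _ fun j _ => (θ j).continuous.abs.integrableOn_Icc]
      refine (setIntegral_mono_on (continuous_finset_sum _ fun j _ =>
        (θ j).continuous.abs).integrableOn_Icc continuous_const.integrableOn_Icc measurableSet_Icc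
        (g := fun _ => (1 : ℝ)) fun t _ => ?_).trans ?_
      · simpa only [abs_of_nonneg (hθ0 _ t)] using hθ1 t
      · simp [Lumps.osc, Λ.lo_le_hi hR.bdd q]
    have hp : ∀ j q, 0 ≤ ∫ t in Icc (Λ.lo r q) (Λ.hi r q), |θ j t| := fun j q =>
      integral_nonneg fun _ => abs_nonneg _
    have hsj : ∀ j, Summable fun q =>
        if q ∈ F then 0 else Λ.osc a q * ∫ t in Icc (Λ.lo r q) (Λ.hi r q), |θ j t| := fun j =>
      hs.of_nonneg_of_le (fun q => by split_ifs; exacts [le_rfl, mul_nonneg (la.1 q) (hp j q)])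
        fun q => by
          split_ifs
          exacts [hn q, mul_le_mul_of_nonneg_left ((Finset.single_le_sum (fun j _ => hp j q)
            (Finset.mem_univ j)).trans (hle q)) (la.1 q)]
    refine (Finset.abs_sum_le_sum_abs _ _).trans ((Finset.sum_le_sum fun j _ =>
      mi_one hU hM hC ha hTa hb hTb hr hA hAU he h0 hB F (g j) (θ j) hη (hg1 j) (hθ2 j)
        fun q hq y hy => hg0 j y ?_).trans ?_)
    · refine Metric.cthickening_subset_of_subset η (subset_biUnion_of_mem (u := fun q =>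
        Metric.closedBall (c q) (ρ q)) (Finset.mem_coe.2 hq)) ?_
      rwa [cthickening_closedBall hη.le (hρ.1 q), add_comm]
    · rw [← Summable.tsum_finsetSum fun j _ => hsj j]
      refine le_trans ((summable_sum fun j _ => hsj j).tsum_le_tsum (fun q => ?_) hTs) hT
      split_ifs
      · simp
      · rw [← Finset.mul_sum]
        exact mul_le_mul_of_nonneg_left (hle q) (la.1 q)
  · intro y hy
    obtain ⟨q, hq, hy⟩ := mem_iUnion₂.1 hy
    exact hz q (Finset.mem_filter.1 hq).2 y hy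

/-- isotropy for a maximal family -/
theorem isoF_of_maxFam (hU : IsOpen U) (hc : IsConnected U) {Λ : Lumps U} {M : Set (ℂ → ℝ)}
    (hM : MaxFam Λ M) (hC : CH Λ M) : ISO Λ M := by
  intro a b c ρ ha hTa hb hTb hb1 hρ hB g hg ⟨C, hgC⟩ hz
  obtain ⟨r, A, T, h1, h2, -, h4, h5, h6, h7⟩ := exists_branches hU hc hM hC hb hTb hb1
  have hC1 : 0 < |C| + 1 := by positivity
  have hm : AEStronglyMeasurable (fun z => g ⟨a z, b z⟩) (volume.restrict U) :=
    ((hg.comp Complex.measurableEquivRealProd.symm.measurable).comp_aemeasurable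
      ((ha.xx.lip.continuousOn.aemeasurable hU.measurableSet).prodMk
        (hb.xx.lip.continuousOn.aemeasurable hU.measurableSet))).aestronglyMeasurable
  have hs := branch_hasSum hU hb1.continuousOn (fun i => ⟨(h2 i).1, (h2 i).2.1⟩)
    (fun i => (h5 i).1) h6 h7 (w := fun z => wd a b z * g ⟨a z, b z⟩)
    ((wd_integrableOn ha.xx.en hb.xx.en).mul_bdd hm (Eventually.of_forall fun z => hgC _))
    fun z h => by rw [wd_eq_zero_right h, zero_mul]
  refine hs.unique ?_
  have h0 : ∀ i, ∫ z in A i ∩ b ⁻¹' T i, wd a b z * g ⟨a z, b z⟩ = 0 := fun i => by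
    rw [branch_int hU hb1.continuousOn (h2 i).1 (h2 i).2.1 (h5 i).1 (h2 i).2.2 (h4 i) a
      fun z t => g ⟨a z, t⟩]
    have key := mi_branch hU hM.fam.reg hC ha hTa hb hTb (h1 i) (h2 i).1 (h2 i).2.1 (h2 i).2.2 (h4 i)
      hρ hB (g := fun y => (|C| + 1)⁻¹ * (Complex.im ⁻¹' T i).indicator g y)
      ((hg.indicator (Complex.measurable_im (h5 i).1.measurableSet)).const_mul _) (fun y => ?_)
      fun q hq y hy => ?_
    · simp only [mul_left_comm _ (|C| + 1)⁻¹] at key
      rw [integral_const_mul, mul_eq_zero, or_iff_right (inv_ne_zero hC1.ne')] at key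
      rw [← key]
      refine integral_congr_ae (Eventually.of_forall fun z => ?_)
      by_cases h : r i z ∈ T i
      · simp only [indicator_of_mem h, indicator_of_mem (show (⟨a z, r i z⟩ : ℂ) ∈
          Complex.im ⁻¹' T i from h)]
      · simp only [indicator_of_notMem h, indicator_of_notMem (show (⟨a z, r i z⟩ : ℂ) ∉
          Complex.im ⁻¹' T i from h)]
    · rw [abs_mul, abs_of_pos (inv_pos.2 hC1), inv_mul_le_iff₀ hC1, mul_one]
      by_cases h : y ∈ Complex.im ⁻¹' T i
      · rw [indicator_of_mem h]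
        linarith [hgC y, le_abs_self C]
      · rw [indicator_of_notMem h, abs_zero]
        exact hC1.le
    · by_cases h : y ∈ Complex.im ⁻¹' T i
      · rw [indicator_of_mem h, hz q hq y hy, mul_zero]
      · rw [indicator_of_notMem h, mul_zero]
  simpa only [h0] using hasSum_zero

end Crest.Agent.R105
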