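import Crest.Agent.R105.MSig

/-! Row 105, block MAX/ISO: jump functions. -/

set_option autoImplicit false

open MeasureTheory Set Filter Topology
open scoped ENNReal

namespace Crest.Agent.R105.Mx

variable {U : Set ℂ} {Λ : Lumps U} {M : Set (ℂ → ℝ)}

/-- `w` is near every point of `U` a multiple `s f`, `|s| ≤ 1` (`EventuallyEq.fderiv_eq`,
`lintegral_mono`). -/
theorem XX_of_local (hU : IsOpen U) {f w : ℂ → ℝ} (hf : XX U f)
    (h : ∀ z ∈ U, ∃ s : ℝ, |s| ≤ 1 ∧ ∀ᶠ y in 𝓝 z, w y = s * f y)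
    (hi : ∃ R c : ℝ, ∀ z : ℂ, R ≤ ‖z‖ → w z = c) : XX U w := by
  refine ⟨fun z hz => ?_, hi, lt_of_le_of_lt ?_ hf.en⟩
  · obtain ⟨s, hs, he⟩ := h z hz
    obtain ⟨K, t, ht, hK⟩ := hf.lip hz
    refine ⟨K, t ∩ {y | w y = s * f y}, inter_mem ht (mem_nhdsWithin_of_mem_nhds he), ?_⟩
    refine LipschitzOnWith.of_dist_le_mul fun x hx y hy => ?_
    have h1 := hK.dist_le_mul x hx.1 y hy.1
    have e1 : w x = s * f x := hx.2
    have e2 : w y = s * f y := hy.2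
    rw [Real.dist_eq] at h1 ⊢
    rw [e1, e2, ← mul_sub, abs_mul]
    exact (mul_le_of_le_one_left (abs_nonneg _) hs).trans h1
  · refine setLIntegral_mono' hU.measurableSet fun z hz => ?_
    obtain ⟨s, hs, he⟩ := h z hz
    have e : fderiv ℝ w z = s • fderiv ℝ f z := by
      rw [Filter.EventuallyEq.fderiv_eq he]
      exact congrFun (fderiv_const_smul_field (𝕜 := ℝ) (f := f) s) z
    rw [e]
    gcongr
    rw [enorm_le_iff_norm_le, norm_smul, Real.norm_eq_abs]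
    exact mul_le_of_le_one_left (norm_nonneg _) hs

/-- One piece.  Take a compact `K ⊆ U` with `B.Q ⊆ interior K`, a level `N` with `W N q` disjoint
from `K` (`Lumps.exh`), `ξ` from `exists_Ind hU Λ N q`, and
`w z = ξ z * h (r z) * (σ z - 1/2)`.  `xx`: `XX_of_local` with `f = h (r) * ξ` (near `B.Q` `ξ = 0`;
where `r z ∉ tsupport h` the factor `h (r)` vanishes near `z`).  `ends`: `δ > 0` with
`cthickening δ (tsupport h) ⊆ Ioo α β`; `F = {p | δ ≤ osc r p}` (`L2w.finite_big`); for `p ∉ F`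
take `n` with `W n p` disjoint from `K`, `ξ` constant on it (`A0.eq_val`) and range of `r` shorter
than `δ` (`Lumps.near`): either `h (r) = 0` on `W n p`, or `W n p` lies in the strip and `σ` is
constant on it (preconnected, locally constant).  `flux`: `ξ = 1` on `W n q`; `wd ψ r = 0` a.e. on
`{ψ = 0}` (`ae_fderiv_eq_zero_of_eq`); `int_lev_zero` kills the term `1/2`. -/
theorem jmp_piece (hU : IsOpen U) {r : ℂ → ℝ} (hr : Reg Λ r) (q : Λ.E) (B : Box U r)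
    {α β : ℝ} {σ : ℂ → ℝ} (hσ : ∀ z, σ z = 0 ∨ σ z = 1)
    (hl : ∀ z ∈ U, z ∉ B.Q → α < r z → r z < β → ∀ᶠ y in 𝓝 z, σ y = σ z)
    (hf : ∀ ψ, A0 U ψ → (∃ O, IsOpen O ∧ B.Q ⊆ O ∧ ∀ z ∈ O, ψ z = 0) → Λ.val ψ q = 1 →
        ∀ h : ℝ → ℝ, Continuous h → tsupport h ⊆ Ioo α β →
          ∫ z in U, h (r z) * σ z * wd ψ r z = ∫ t, h t)
    {h : ℝ → ℝ} {L : ℝ} (hL : Lp1 L h) (h0 : ∀ t, 0 ≤ h t) (hs : tsupport h ⊆ Ioo α β) :
    ∃ w, Jmp Λ r q h w := by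
  have hL0 : 0 ≤ L := by
    have := (abs_nonneg _).trans (hL 1 0)
    simpa using this
  have hcont : Continuous h := (LipschitzWith.of_dist_le_mul (K := ⟨L, hL0⟩) fun s s' => by
    rw [Real.dist_eq, Real.dist_eq]; exact hL s s').continuous
  have hcs : HasCompactSupport h :=
    isCompact_Icc.of_isClosed_subset (isClosed_tsupport h) (hs.trans Ioo_subset_Icc_self)
  obtain ⟨C, hC⟩ := hcont.bounded_above_of_compact_support hcs
  obtain ⟨K, hK, hQK, hKU⟩ := exists_compact_between B.cpt hU B.sub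
  obtain ⟨N, hN⟩ := Λ.exh K hK hKU
  obtain ⟨ξ, hξ, -, hξ1, hξ0, -⟩ := exists_Ind hU Λ N q
  obtain ⟨N', hN'⟩ := A0.eq_val Λ hξ.1
  have hWK : ∀ n p, N ≤ n → ∀ z ∈ Λ.W n p, z ∉ K := fun n p hn z hz =>
    Set.disjoint_left.1 (hN p) (Λ.W_mono hn p hz)
  have hWQ : ∀ n p, N ≤ n → ∀ z ∈ Λ.W n p, z ∉ B.Q := fun n p hn z hz hQ =>
    hWK n p hn z hz (interior_subset (hQK hQ))
  have hone : ∀ z ∈ Λ.W (max N N') q, ξ z = 1 := by
    intro z hz
    rw [hN' _ (le_max_right _ _) q z hz, hξ.2 q, if_pos rfl]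
  have hhalf : ∀ z, |σ z - 1 / 2| = 1 / 2 := by
    intro z
    rcases hσ z with e | e <;> rw [e] <;> norm_num [abs_of_pos]
  have hG : ∀ s : ℝ, |s| ≤ 1 → Lp1 L (fun t => s * h t) := by
    intro s hs1 t t'
    rw [← mul_sub, abs_mul]
    exact (mul_le_mul hs1 (hL t t') (abs_nonneg _) zero_le_one).trans (le_of_eq (one_mul _))
  have hloc : ∀ z ∈ U, z ∉ B.Q → ∃ s : ℝ, |s| ≤ 1 ∧
      ∀ᶠ y in 𝓝 z, h (r y) * (σ y - 1 / 2) = s * h (r y) := by
    intro z hz hzQ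
    by_cases ht : r z ∈ tsupport h
    · refine ⟨σ z - 1 / 2, by rw [hhalf]; norm_num, ?_⟩
      filter_upwards [hl z hz hzQ (hs ht).1 (hs ht).2] with y hy
      rw [hy, mul_comm]
    · have hc : ContinuousAt r z := hr.xx.lip.continuousOn.continuousAt (hU.mem_nhds hz)
      refine ⟨0, by norm_num, ?_⟩
      filter_upwards [hc.eventually ((isClosed_tsupport h).isOpen_compl.mem_nhds ht)] with y hy
      rw [image_eq_zero_of_notMem_tsupport hy, zero_mul, zero_mul]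
  have hhr : XX U (fun z => h (r z)) := XX.comp_lip hU hL hr.xx
  have hxx : XX U (fun z => ξ z * (h (r z) * (σ z - 1 / 2))) := by
    refine XX_of_local hU (XX.mul_A0 hU Λ hhr hξ.1) (fun z hz => ?_) ⟨Λ.R, 0, fun z hz => ?_⟩
    · by_cases hzK : z ∈ interior K
      · refine ⟨0, by norm_num, ?_⟩
        filter_upwards [mem_interior_iff_mem_nhds.1 hzK] with y hy
        rw [hξ0 y fun hW => hWK N q le_rfl y hW hy, zero_mul, zero_mul]
      · obtain ⟨s, hs1, hs2⟩ := hloc z hz fun hQ => hzK (hQK hQ)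
        refine ⟨s, hs1, hs2.mono fun y hy => ?_⟩
        rw [hy]
        ring
    · rw [hξ0 z, zero_mul]
      intro hW
      have := mem_ball_zero_iff.1 (Λ.sub N q hW).2
      linarith
  have hle : ∀ z, |ξ z * (h (r z) * (σ z - 1 / 2))| ≤ h (r z) / 2 := by
    intro z
    rw [abs_mul, abs_mul, hhalf, abs_of_nonneg (hξ1 z).1, abs_of_nonneg (h0 _)]
    have := h0 (r z)
    nlinarith [(hξ1 z).2]
  refine ⟨fun z => ξ z * (h (r z) * (σ z - 1 / 2)), hxx,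
    hcont.integrable_of_hasCompactSupport hcs, fun z _ => hle z, ⟨max N N', fun z hz => ?_⟩, ?_,
    ⟨max N N', fun ψ hψ hψ0 hψ1 => ?_⟩⟩
  · obtain ⟨s, hs1, hs2⟩ := hloc z (Λ.sub _ q hz).1 (hWQ _ q (le_max_left _ _) z hz)
    refine ⟨L, fun t => s * h t, hG s hs1, ?_⟩
    filter_upwards [hs2, (Λ.op _ q).mem_nhds hz] with y hy hy'
    rw [hone y hy', one_mul, hy]
  · obtain ⟨δ, hδ, hδs⟩ := hcs.isCompact.exists_cthickening_subset_open isOpen_Ioo hs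
    refine ⟨(L2w.finite_big hr.sq (half_pos hδ)).toFinset, L, hL0, fun p hp => ?_⟩
    rw [Set.Finite.mem_toFinset, mem_ofPred_eq, not_le] at hp
    have hp' := (le_abs_self _).trans_lt hp
    obtain ⟨n₁, hn₁⟩ := Λ.near hr.bdd p (show 0 < δ / 4 by linarith)
    obtain ⟨n, hn⟩ : ∃ n, n = max (max N N') n₁ := ⟨_, rfl⟩
    have a1 : N ≤ n := hn ▸ (le_max_left _ _).trans (le_max_left _ _)
    have a2 : N' ≤ n := hn ▸ (le_max_right _ _).trans (le_max_left _ _)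
    have a3 : n₁ ≤ n := hn ▸ le_max_right _ _
    by_cases hex : ∃ z₀ ∈ Λ.W n p, r z₀ ∈ tsupport h
    · obtain ⟨z₀, hz₀, ht₀⟩ := hex
      have hstrip : ∀ z ∈ Λ.W n p, r z ∈ Ioo α β := by
        intro z hz
        refine hδs (Metric.mem_cthickening_of_dist_le _ _ _ _ ht₀ ?_)
        have b1 := hn₁ z (Λ.W_mono a3 p hz)
        have b2 := hn₁ z₀ (Λ.W_mono a3 p hz₀)
        unfold Lumps.osc at hp'
        rw [Real.dist_eq, abs_le]
        constructor <;> linarith [b1.1, b1.2, b2.1, b2.2]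
      have hσc : ∀ z ∈ Λ.W n p, σ z = σ z₀ := by
        intro z hz
        refine (Λ.conn n p).isPreconnected.induction₂' (fun x y => σ x = σ y) (fun x hx => ?_)
          (fun _ _ _ _ _ _ e1 e2 => e1.trans e2) hz hz₀
        refine eventually_nhdsWithin_of_eventually_nhds ?_
        filter_upwards [hl x (Λ.sub n p hx).1 (hWQ n p a1 x hx) (hstrip x hx).1 (hstrip x hx).2]
          with y hy
        exact ⟨hy.symm, hy⟩
      refine ⟨n, fun t => (ξ z₀ * (σ z₀ - 1 / 2)) * h t, hG _ ?_, fun z hz => ?_⟩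
      · rw [abs_mul, hhalf, abs_of_nonneg (hξ1 z₀).1]
        linarith [(hξ1 z₀).2]
      · rw [hσc z hz, hN' n a2 p z hz, hN' n a2 p z₀ hz₀]
        ring
    · refine ⟨n, fun t => 0 * h t, hG 0 (by norm_num), fun z hz => ?_⟩
      rw [image_eq_zero_of_notMem_tsupport fun ht => hex ⟨z, hz, ht⟩]
      ring
  · have hwd := wd_integrableOn hψ.xx.en hr.xx.en
    have i1 : IntegrableOn (fun z => ξ z * (h (r z) * (σ z - 1 / 2)) * wd ψ r z) U := by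
      refine Integrable.bdd_mul (c := C / 2) hwd
        (hxx.lip.continuousOn.aestronglyMeasurable hU.measurableSet) (ae_of_all _ fun z => ?_)
      have := (le_abs_self _).trans (hC (r z))
      rw [Real.norm_eq_abs]
      linarith [hle z]
    have i2 : IntegrableOn (fun z => h (r z) * wd ψ r z) U :=
      Integrable.bdd_mul (c := C) hwd
        (hhr.lip.continuousOn.aestronglyMeasurable hU.measurableSet) (ae_of_all _ fun z => hC _)
    have e1 := hf ψ hψ ⟨interior K, isOpen_interior, hQK, fun z hz =>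
      hψ0 z (hKU (interior_subset hz)) fun hW =>
        hWK _ q (le_max_left _ _) z hW (interior_subset hz)⟩ hψ1 h hcont hs
    have e2 := int_lev_zero hU hr.xx hψ hcont.measurable (C := C) hC
    have e3 : ∫ z in U, h (r z) * σ z * wd ψ r z =
        ∫ z in U, (ξ z * (h (r z) * (σ z - 1 / 2)) * wd ψ r z +
          1 / 2 * (h (r z) * wd ψ r z)) := by
      refine setIntegral_congr_ae hU.measurableSet ?_
      filter_upwards [ae_fderiv_eq_zero_of_eq hU hψ.xx.lip 0] with z hz hzU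
      by_cases hW : z ∈ Λ.W (max N N') q
      · rw [hone z hW]
        ring
      · have : wd ψ r z = 0 := by
          unfold wd
          rw [hz hzU (hψ0 z hzU hW)]
          simp
        rw [this]
        ring
    rw [e3, integral_add i1 (i2.const_mul _), integral_const_mul, e2, mul_zero, add_zero] at e1
    exact e1

theorem Jmp.zero (r : ℂ → ℝ) (q : Λ.E) : Jmp Λ r q (fun _ => 0) (fun _ => 0) := by
  have h0 : Lp1 0 (fun _ => 0) := fun s s' => by simp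
  exact ⟨XX.const 0, integrable_zero _ _ _, fun z _ => by simp,
    ⟨0, fun z _ => ⟨0, _, h0, Eventually.of_forall fun _ => rfl⟩⟩,
    ⟨∅, 0, le_rfl, fun p _ => ⟨0, _, h0, fun _ _ => rfl⟩⟩, ⟨0, fun ψ _ _ _ => by simp⟩⟩

/-- levels: take the maximum, `Lumps.W_mono`; `w₁, w₂` are bounded since `h₁, h₂ ≤ 1`, so the
densities are integrable (`wd_integrableOn`, `Integrable.bdd_mul`, continuity of `w` on `U`). -/
theorem Jmp.add (hU : IsOpen U) {r : ℂ → ℝ} (hr : XX U r) {q : Λ.E} {h₁ h₂ : ℝ → ℝ}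
    {w₁ w₂ : ℂ → ℝ} (b₁ : ∃ C, ∀ t, h₁ t ≤ C) (b₂ : ∃ C, ∀ t, h₂ t ≤ C) (j₁ : Jmp Λ r q h₁ w₁)
    (j₂ : Jmp Λ r q h₂ w₂) : Jmp Λ r q (fun t => h₁ t + h₂ t) (fun z => w₁ z + w₂ z) := by
  classical
  have hL : ∀ {L₁ L₂ : ℝ} {G₁ G₂ : ℝ → ℝ}, Lp1 L₁ G₁ → Lp1 L₂ G₂ →
      Lp1 (L₁ + L₂) (fun t => G₁ t + G₂ t) := fun {L₁ L₂ G₁ G₂} a b s s' => by
    have e : G₁ s + G₂ s - (G₁ s' + G₂ s') = (G₁ s - G₁ s') + (G₂ s - G₂ s') := by ring
    have := abs_add_le (G₁ s - G₁ s') (G₂ s - G₂ s')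
    have h1 := a s s'
    have h2 := b s s'
    change |G₁ s + G₂ s - (G₁ s' + G₂ s')| ≤ _
    rw [e]
    linarith
  have hI : ∀ {h : ℝ → ℝ} {w : ℂ → ℝ}, (∃ C, ∀ t, h t ≤ C) → Jmp Λ r q h w → ∀ ψ, A0 U ψ →
      IntegrableOn (fun z => w z * wd ψ r z) U := fun {h w} ⟨C, hC⟩ j ψ hψ => by
    refine Integrable.bdd_mul (c := C / 2) (wd_integrableOn hψ.xx.en hr.en)
      (j.xx.lip.continuousOn.aestronglyMeasurable hU.measurableSet) ?_
    refine (ae_restrict_iff' hU.measurableSet).2 (Eventually.of_forall fun z hz => ?_)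
    have h1 := j.le z hz
    have h2 := hC (r z)
    rw [Real.norm_eq_abs]
    linarith
  refine ⟨XX.add hU j₁.xx j₂.xx, j₁.int.add j₂.int, fun z hz => ?_, ?_, ?_, ?_⟩
  · have h1 := j₁.le z hz
    have h2 := j₂.le z hz
    have := abs_add_le (w₁ z) (w₂ z)
    linarith
  · obtain ⟨n₁, h1⟩ := j₁.loc
    obtain ⟨n₂, h2⟩ := j₂.loc
    refine ⟨max n₁ n₂, fun z hz => ?_⟩
    obtain ⟨L₁, G₁, a₁, e₁⟩ := h1 z (Λ.W_mono (le_max_left _ _) q hz)
    obtain ⟨L₂, G₂, a₂, e₂⟩ := h2 z (Λ.W_mono (le_max_right _ _) q hz)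
    refine ⟨_, _, hL a₁ a₂, ?_⟩
    filter_upwards [e₁, e₂] with y y₁ y₂
    rw [y₁, y₂]
  · obtain ⟨F₁, L₁, p₁, h1⟩ := j₁.ends
    obtain ⟨F₂, L₂, p₂, h2⟩ := j₂.ends
    refine ⟨F₁ ∪ F₂, L₁ + L₂, add_nonneg p₁ p₂, fun p hp => ?_⟩
    rw [Finset.mem_union, not_or] at hp
    obtain ⟨n₁, G₁, a₁, e₁⟩ := h1 p hp.1
    obtain ⟨n₂, G₂, a₂, e₂⟩ := h2 p hp.2
    refine ⟨max n₁ n₂, _, hL a₁ a₂, fun z hz => ?_⟩
    rw [e₁ z (Λ.W_mono (le_max_left _ _) p hz), e₂ z (Λ.W_mono (le_max_right _ _) p hz)]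
  · obtain ⟨n₁, h1⟩ := j₁.flux
    obtain ⟨n₂, h2⟩ := j₂.flux
    refine ⟨max n₁ n₂, fun ψ hψ h0 hv => ?_⟩
    rw [integral_add j₁.int j₂.int,
      ← h1 ψ hψ (fun z hz hn => h0 z hz fun hm => hn (Λ.W_mono (le_max_left _ _) q hm)) hv,
      ← h2 ψ hψ (fun z hz hn => h0 z hz fun hm => hn (Λ.W_mono (le_max_right _ _) q hm)) hv,
      ← integral_add (hI b₁ j₁ ψ hψ) (hI b₂ j₂ ψ hψ)]
    simp only [add_mul]

/-- a Lipschitz partition of a bump: `SmoothPartitionOfUnity.exists_isSubordinate` for a finite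
subcover of `K` by bounded members; `C¹` with compact support is Lipschitz
(`ContDiff.lipschitzWith_of_hasCompactSupport`). -/
theorem exists_part {K : Set ℝ} (hK : IsCompact K) {J : ℝ → Set ℝ} (hJ : ∀ t ∈ K, IsOpen (J t))
    (hm : ∀ t ∈ K, t ∈ J t) : ∃ (s : Finset ℝ) (ρ : ℝ → ℝ → ℝ), (∀ a ∈ s, a ∈ K) ∧
      (∀ a ∈ s, (∃ L, Lp1 L (ρ a)) ∧ (∀ t, 0 ≤ ρ a t) ∧ tsupport (ρ a) ⊆ J a) ∧
      (∀ t, ∑ a ∈ s, ρ a t ≤ 1) ∧ ∀ t ∈ K, ∑ a ∈ s, ρ a t = 1 := by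
  classical
  obtain ⟨s, hs, hcov⟩ := hK.elim_nhds_subcover (fun t => J t ∩ Metric.ball t 1) fun t ht =>
    inter_mem ((hJ t ht).mem_nhds (hm t ht)) (Metric.ball_mem_nhds t one_pos)
  obtain ⟨f, hf⟩ := SmoothPartitionOfUnity.exists_isSubordinate (modelWithCornersSelf ℝ ℝ)
    hK.isClosed (fun a : s => J a ∩ Metric.ball (a : ℝ) 1)
    (fun a => (hJ a (hs a a.2)).inter Metric.isOpen_ball) fun t ht => by
      obtain ⟨a, ha, h⟩ := mem_iUnion₂.1 (hcov ht)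
      exact mem_iUnion.2 ⟨⟨a, ha⟩, h⟩
  have e : ∀ t, ∑ a ∈ s, (if h : a ∈ s then (f ⟨a, h⟩ : ℝ → ℝ) else 0) t = ∑ᶠ a, f a t := fun t => by
    rw [finsum_eq_sum_of_fintype, ← Finset.sum_coe_sort s]
    exact Finset.sum_congr rfl fun a _ => by rw [dif_pos a.2]
  refine ⟨s, fun a => if h : a ∈ s then (f ⟨a, h⟩ : ℝ → ℝ) else 0, hs, fun a ha => ?_,
    fun t => (e t).trans_le (f.sum_le_one t), fun t ht => (e t).trans (f.sum_eq_one ht)⟩
  simp only [dif_pos ha]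
  refine ⟨?_, f.nonneg _, (hf ⟨a, ha⟩).trans inter_subset_left⟩
  have hc : HasCompactSupport (f ⟨a, ha⟩ : ℝ → ℝ) :=
    Metric.isCompact_of_isClosed_isBounded (isClosed_tsupport _)
      (Metric.isBounded_ball.subset ((hf ⟨a, ha⟩).trans inter_subset_right))
  obtain ⟨C, hC⟩ := ContDiff.lipschitzWith_of_hasCompactSupport hc
    (f ⟨a, ha⟩).contMDiff.contDiff (by simp)
  exact ⟨C, fun x y => hC.dist_le_mul x y⟩

/-- JMP.  For `t ∈ K` pick `z ∈ A` with `r z = t`, a box (`exists_box_at`) and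
`α < t < β` with `Ioo α β ⊆ O` inside both intervals; `J t = Ioo α β`; `exists_part`,
`exists_sig`, `jmp_piece`, `Jmp.add` by induction over the finset. -/
theorem exists_jmp (hU : IsOpen U) {r : ℂ → ℝ} (hr : Mono Λ r) (q : Λ.E) {A : Set ℂ}
    (hA : IsOpen A) (hAU : A ⊆ U) (hc : ContDiffOn ℝ 1 r A) (h0 : ∀ z ∈ A, fderiv ℝ r z ≠ 0)
    {O K : Set ℝ} (hO : IsOpen O) (hK : IsCompact K)
    (hKO : K ⊆ O ∩ r '' A ∩ Ioo (Λ.lo r q) (Λ.hi r q)) :
    ∃ h w, Jmp Λ r q h w ∧ (∀ t, 0 ≤ h t ∧ h t ≤ 1) ∧ (∀ t ∈ K, h t = 1) ∧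
      ∀ t, t ∉ O → h t = 0 := by
  classical
  have key : ∀ t ∈ K, ∃ α β : ℝ, t ∈ Ioo α β ∧ Ioo α β ⊆ O ∧ ∀ (h : ℝ → ℝ) (L : ℝ), Lp1 L h →
      (∀ t, 0 ≤ h t) → tsupport h ⊆ Ioo α β → ∃ w, Jmp Λ r q h w := by
    intro t ht
    obtain ⟨⟨h1, z, hz, rfl⟩, h2⟩ := hKO ht
    obtain ⟨B, hB⟩ := exists_box_at hA hAU hc hz (h0 z hz)
    obtain ⟨l, u, hlu, hsub⟩ := mem_nhds_iff_exists_Ioo_subset.1
      (inter_mem (hO.mem_nhds h1) (inter_mem (Ioo_mem_nhds hB.1 hB.2) (Ioo_mem_nhds h2.1 h2.2)))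
    obtain ⟨α, a1, a2⟩ := exists_between hlu.1
    obtain ⟨β, b1, b2⟩ := exists_between hlu.2
    have ha := (hsub ⟨a1, a2.trans hlu.2⟩).2
    have hb := (hsub ⟨hlu.1.trans b1, b2⟩).2
    obtain ⟨σ, s1, s2, s3⟩ := exists_sig hU hr q B ha.1.1 (a2.trans b1) hb.1.2 ha.2.1 hb.2.2
    exact ⟨α, β, ⟨a2, b1⟩, fun x hx => (hsub ⟨a1.trans hx.1, hx.2.trans b2⟩).1,
      fun h L hL hh hs => jmp_piece hU hr.reg q B s1 s2 s3 hL hh hs⟩
  choose! α β k1 k2 k3 using key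
  obtain ⟨s, ρ, hs, hρ, hle, hone⟩ :=
    exists_part hK (J := fun t => Ioo (α t) (β t)) (fun _ _ => isOpen_Ioo) k1
  have hb : ∀ s' ⊆ s, ∀ t, ∑ a ∈ s', ρ a t ≤ 1 := fun s' h t =>
    (Finset.sum_le_sum_of_subset_of_nonneg h fun a ha _ => (hρ a ha).2.1 t).trans (hle t)
  have ind : ∀ s' ⊆ s, ∃ w, Jmp Λ r q (fun t => ∑ a ∈ s', ρ a t) w := by
    intro s' hs'
    induction s' using Finset.induction_on with
    | empty => exact ⟨_, Jmp.zero r q⟩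
    | insert a s' ha ih =>
      have has := hs' (Finset.mem_insert_self a s')
      have hsub := (Finset.subset_insert a s').trans hs'
      obtain ⟨w, hw⟩ := ih hsub
      obtain ⟨⟨L, hL⟩, p0, ps⟩ := hρ a has
      obtain ⟨w', hw'⟩ := k3 a (hs a has) _ L hL p0 ps
      simp only [Finset.sum_insert ha]
      refine ⟨_, Jmp.add hU hr.reg.xx ⟨1, fun t => ?_⟩ ⟨1, hb s' hsub⟩ hw' hw⟩
      simpa using hb {a} (Finset.singleton_subset_iff.2 has) t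
  obtain ⟨w, hw⟩ := ind s subset_rfl
  refine ⟨_, w, hw, fun t => ⟨Finset.sum_nonneg fun a ha => (hρ a ha).2.1 t, hle t⟩, hone,
    fun t ht => Finset.sum_eq_zero fun a ha => ?_⟩
  exact image_eq_zero_of_notMem_tsupport fun h => ht (k2 a (hs a ha) ((hρ a ha).2.2 h))

/-- `Adm.loc` with `u = r` (`Fam.compat`), then `CH.remove`. -/
theorem Jmp.TT (hU : IsOpen U) (hM : Fam Λ M) (hC : CH Λ M) {r : ℂ → ℝ} (hr : r ∈ M) {q : Λ.E}
    {h : ℝ → ℝ} {w : ℂ → ℝ} (b : ∀ t, h t ≤ 1) (j : Jmp Λ r q h w) : TT Λ M w := by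
  obtain ⟨F, L, hL, hF⟩ := j.ends
  refine hC.remove hU j.xx ⟨1 / 2, fun z hz => ?_⟩
    (Adm.loc hU hM.reg hC (hM.reg r hr).xx j.xx (hM.compat r hr) hL hF)
  have h1 := j.le z hz
  have h2 := b (r z)
  linarith

end Crest.Agent.R105.Mx
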