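import Crest.Agent.R105.MVar

/-! Row 105, block MAX/ISO: maximality. -/

set_option autoImplicit false

open MeasureTheory Set Filter Topology
open scoped ENNReal

namespace Crest.Agent.R105.Mx

variable {U : Set ℂ} {Λ : Lumps U} {M : Set (ℂ → ℝ)}

/-- `volume.real (O i q) ≤ osc (r i) q` -/
theorem Br.O_l2 {β : ℂ → ℝ} (B : Br Λ M β) (i : ℕ) :
    L2w (fun q => volume.real (B.O i q)) := by
  have hr := (B.mono i).reg
  refine (L2w.of_le (k := Λ.osc (B.r i)) ⟨fun q => Λ.osc_nonneg hr.bdd q, hr.sq⟩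
    (fun q => measureReal_nonneg) fun q => ?_).1
  refine (measureReal_mono inter_subset_right measure_Ioo_lt_top.ne).trans_eq ?_
  exact Real.volume_real_Ioo_of_le (Λ.lo_le_hi hr.bdd q)

/-- continuous functions increasing to the indicator of an open set, e.g.
`min 1 (m * infDist t Oᶜ)` (and `1` when `O = univ`) -/
theorem exists_cont_ind {O : Set ℝ} (hO : IsOpen O) : ∃ h : ℕ → ℝ → ℝ, (∀ m, Continuous (h m)) ∧
    (∀ m t, 0 ≤ h m t ∧ h m t ≤ 1) ∧ (∀ m t, t ∉ O → h m t = 0) ∧
      ∀ t ∈ O, Tendsto (fun m => h m t) atTop (𝓝 1) := by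
  rcases eq_empty_or_nonempty Oᶜ with h | h
  · refine ⟨fun _ _ => 1, fun _ => continuous_const, fun _ _ => ⟨zero_le_one, le_rfl⟩,
      fun _ t ht => ?_, fun _ _ => tendsto_const_nhds⟩
    exact absurd (show t ∈ Oᶜ from ht) (by rw [h]; exact notMem_empty t)
  · refine ⟨fun m t => min 1 (m * Metric.infDist t Oᶜ), fun m => continuous_const.min
      (continuous_const.mul (Metric.continuous_infDist_pt _)), fun m t => ⟨le_min zero_le_one
        (mul_nonneg (Nat.cast_nonneg m) Metric.infDist_nonneg), min_le_left _ _⟩,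
      fun m t ht => ?_, fun t ht => ?_⟩
    · simp [Metric.infDist_zero_of_mem (show t ∈ Oᶜ from ht)]
    · have hd := (hO.isClosed_compl.notMem_iff_infDist_pos h).1 (notMem_compl_iff.2 ht)
      refine tendsto_const_nhds.congr' ?_
      filter_upwards [(tendsto_natCast_atTop_atTop.atTop_mul_const hd).eventually_ge_atTop 1]
        with m hm
      exact (min_eq_left hm).symm

/-- `O' = T i ∩ β '' A i` is open; `h m` from `exists_cont_ind`, `H m` a primitive
(`Ch.exists_prim`); `Adm.le` with `χ = 1` (`A0.const`, `val_eq`), `om_comp_right`;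
`∫_{Icc lo hi} |h m| ≤ volume.real (O i q)`; dominated convergence and `Br.wd_r`
(or `Br.int_D` with `g = 1`). -/
theorem branch_le {β : ℂ → ℝ} (B : Br Λ M β) (i : ℕ) {u : ℂ → ℝ} {n : Λ.E → ℝ} (hu : XX U u)
    (hn : Adm Λ M ∅ u n) :
    |∫ z in B.D i, wd u β z| ≤ ∑' q, n q * volume.real (B.O i q) := by
  classical
  have hU := B.op
  have hreg := (B.mono i).reg
  have hO : IsOpen (B.T i ∩ β '' B.A i) :=
    (B.Top i).inter (B.image_open i (B.Aop i) subset_rfl)
  obtain ⟨h, hc, h01, h0, h1⟩ := exists_cont_ind hO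
  have hprim : ∀ m, ∃ H : ℝ → ℝ, ContDiff ℝ 1 H ∧ deriv H = h m := by
    intro m
    have hd : ∀ t, HasDerivAt (fun u => ∫ x in (0 : ℝ)..u, h m x) (h m t) t := fun t =>
      ((hc m).integral_hasStrictDerivAt 0 t).hasDerivAt
    have e : deriv (fun u => ∫ x in (0 : ℝ)..u, h m x) = h m := funext fun t => (hd t).deriv
    refine ⟨fun u => ∫ x in (0 : ℝ)..u, h m x, ?_, e⟩
    rw [contDiff_one_iff_deriv, e]
    exact ⟨fun t => (hd t).differentiableAt, hc m⟩
  have hle : ∀ m, |∫ z in U, h m (B.r i z) * wd u (B.r i) z| ≤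
      ∑' q, n q * volume.real (B.O i q) := by
    intro m
    obtain ⟨H, hH, hH'⟩ := hprim m
    have a1 := hn.le (B.r i) (B.mem i) H hH (fun _ => 1) (A0.const 1) (by simp)
    simp only [mul_one] at a1
    rw [om_comp_right hU hH hreg.xx.lip, hH'] at a1
    refine a1.trans (Summable.tsum_le_tsum (fun q => ?_)
      (L2w.summable_mul hn.l2 (wt_l2 Λ hreg hH (A0.const 1))).1
      (L2w.summable_mul hn.l2 (B.O_l2 i)).1)
    refine mul_le_mul_of_nonneg_left ?_ (hn.l2.1 q)
    have hv : Λ.val (fun _ => (1 : ℝ)) q = 1 :=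
      (val_eq Λ (A0.bdd Λ (A0.const 1)) (n := 0) (fun _ _ => rfl)).1
    unfold wt
    rw [hv, abs_one, one_mul, hH', integral_Icc_eq_integral_Ioo]
    have hfin : volume (Ioo (Λ.lo (B.r i) q) (Λ.hi (B.r i) q)) ≠ ⊤ := by simp
    have a2 : ∫ t in Ioo (Λ.lo (B.r i) q) (Λ.hi (B.r i) q), |h m t| ≤
        ∫ t in Ioo (Λ.lo (B.r i) q) (Λ.hi (B.r i) q),
          (B.T i ∩ β '' B.A i).indicator (fun _ => (1 : ℝ)) t := by
      refine integral_mono_of_nonneg (Eventually.of_forall fun t => abs_nonneg _)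
        ((integrableOn_const hfin).indicator hO.measurableSet) (Eventually.of_forall fun t => ?_)
      by_cases ht : t ∈ B.T i ∩ β '' B.A i
      · simp only [indicator_of_mem ht]
        rw [abs_of_nonneg (h01 m t).1]
        exact (h01 m t).2
      · simp only [indicator_of_notMem ht, h0 m t ht, abs_zero, le_refl]
    refine a2.trans (le_of_eq ?_)
    rw [setIntegral_indicator hO.measurableSet, setIntegral_const, smul_eq_mul, mul_one, inter_comm]
    rfl
  have hint : IntegrableOn (wd u (B.r i)) U := wd_integrableOn hu.en hreg.xx.en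
  have hlim : Tendsto (fun m => ∫ z in U, h m (B.r i z) * wd u (B.r i) z) atTop
      (𝓝 (∫ z in U, (B.T i ∩ β '' B.A i).indicator (fun _ => (1 : ℝ)) (B.r i z) *
        wd u (B.r i) z)) := by
    refine tendsto_integral_of_dominated_convergence (fun z => ‖wd u (B.r i) z‖) (fun m => ?_)
      hint.norm (fun m => Eventually.of_forall fun z => ?_) (Eventually.of_forall fun z => ?_)
    · exact (((hc m).comp_continuousOn hreg.xx.lip.continuousOn).aestronglyMeasurable
        hU.measurableSet).mul hint.aestronglyMeasurable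
    · rw [norm_mul, Real.norm_eq_abs, abs_of_nonneg (h01 m _).1]
      exact mul_le_of_le_one_left (norm_nonneg _) (h01 m _).2
    · refine Tendsto.mul_const _ ?_
      by_cases ht : B.r i z ∈ B.T i ∩ β '' B.A i
      · rw [indicator_of_mem ht]
        exact h1 _ ht
      · rw [indicator_of_notMem ht]
        simp only [h0 _ _ ht]
        exact tendsto_const_nhds
  have hD := B.int_D i u (fun _ => 1)
    (fun z => (B.T i ∩ β '' B.A i).indicator (fun _ => (1 : ℝ)) (B.r i z)) (fun z hz => by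
      show (B.T i ∩ β '' B.A i).indicator (fun _ => (1 : ℝ)) (B.r i z) = _
      rw [B.eq i hz]
      by_cases ht : β z ∈ B.T i
      · rw [indicator_of_mem (show β z ∈ B.T i ∩ β '' B.A i from ⟨ht, z, hz, rfl⟩),
          indicator_of_mem (show z ∈ B.D i from ⟨hz, ht⟩)]
      · rw [indicator_of_notMem (fun h => ht h.1), indicator_of_notMem (fun h => ht h.2)])
  simp only [one_mul] at hD
  rw [hD]
  exact le_of_tendsto' hlim.abs hle

/-- `Br.hasSum` for `wd u β`; for each `I` the partial sum is at most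
`∑' q, n q * ∑ i < I, volume.real (O i q) ≤ ∑' q, n q * k q` (`Summable.tsum_finsetSum`, `var`). -/
theorem max_of_br (hM : Fam Λ M) (hC : CH Λ M) {β : ℂ → ℝ} (B : Br Λ M β) (hT : TT Λ M β)
    {k : Λ.E → ℝ} (hk : L2w k) (hB : B2 Λ M β k) {u : ℂ → ℝ} {n : Λ.E → ℝ} (hu : XX U u)
    (hn : Adm Λ M ∅ u n) : |om U u β| ≤ ∑' q, n q * k q := by
  have hs := (B.hasSum (wd_integrableOn hu.en B.reg.xx.en)
    fun z _ h => by simp [wd, h]).tendsto_sum_nat
  refine le_of_tendsto' hs.abs fun I => ?_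
  have h1 := fun i => (hn.l2.summable_mul (B.O_l2 i)).1
  calc |∑ i ∈ Finset.range I, ∫ z in B.D i, wd u β z|
      ≤ ∑ i ∈ Finset.range I, ∑' q, n q * volume.real (B.O i q) :=
        (Finset.abs_sum_le_sum_abs _ _).trans (Finset.sum_le_sum fun i _ => branch_le B i hu hn)
    _ = ∑' q, ∑ i ∈ Finset.range I, n q * volume.real (B.O i q) :=
        (Summable.tsum_finsetSum fun i _ => h1 i).symm
    _ ≤ ∑' q, n q * k q := by
        refine (summable_sum fun i _ => h1 i).tsum_le_tsum (fun q => ?_)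
          (hn.l2.summable_mul hk).1
        rw [← Finset.mul_sum]
        exact mul_le_mul_of_nonneg_left (var hM hC B hT hB I q) (hn.l2.1 q)

end Crest.Agent.R105.Mx

namespace Crest.Agent.R105

theorem max_of_maxFam {U : Set ℂ} (hU : Crest.AnalysisR.IsExteriorDomain U) {Λ : Lumps U}
    {M : Set (ℂ → ℝ)} (hM : MaxFam Λ M) (hC : CH Λ M) : MAX Λ M := by
  intro β k hr hT hβ hk hB u n hu hn
  obtain ⟨B⟩ := Mx.exists_br hU.1 hU.2.1 hM hC hr hT hβ
  exact Mx.max_of_br hM.fam hC B hT hk hB hu hn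

end Crest.Agent.R105
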