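import Crest.Agent.R105.MDefs
import Crest.Agent.R105.CBox
import Crest.Agent.R105.CLoop
import Crest.Agent.R105.GRIso

/-! Row 105, block MAX/ISO: the side function of an end. -/

set_option autoImplicit false

open MeasureTheory Set Filter Topology
open scoped ENNReal

namespace Crest.Agent.R105.Mx

variable {U : Set ℂ} {Λ : Lumps U} {M : Set (ℂ → ℝ)}

/-- `exists_chart`, then `Chart.exists_box` on a small closed square around `c.φ z`
(`c.φ.open_target`, `c.eq`); `B.lo, B.hi` are recovered from `B.range`, `B.r_pm`, `B.r_pp`,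
`B.seg`, or by strengthening: `r z` is an interior point of `r '' B.Q ⊆ Icc B.lo B.hi`. -/
theorem exists_box_at {A : Set ℂ} {r : ℂ → ℝ} (hA : IsOpen A) (hAU : A ⊆ U)
    (hr : ContDiffOn ℝ 1 r A) {z : ℂ} (hz : z ∈ A) (h0 : fderiv ℝ r z ≠ 0) :
    ∃ B : Box U r, B.lo < r z ∧ r z < B.hi := by
  obtain ⟨c, hc1, hc2⟩ := exists_chart hA hr hz h0
  obtain ⟨δ, hδ, hS⟩ := Metric.nhds_basis_closedBall.mem_iff.1
    (c.φ.open_target.mem_nhds (c.φ.map_source hc1))
  rw [c.eq, ← closedBall_prod_same, Real.closedBall_eq_Icc, Real.closedBall_eq_Icc] at hS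
  obtain ⟨B, hB⟩ := c.exists_box (hc2.trans hAU) hS (by linarith) (by linarith)
  have key : ∀ t ∈ Icc (r z - δ) (r z + δ), t ∈ Icc B.lo B.hi := fun t ht => by
    have hy : (perp c.v z, t) ∈ Icc (perp c.v z - δ) (perp c.v z + δ) ×ˢ Icc (r z - δ) (r z + δ) :=
      ⟨⟨by linarith, by linarith⟩, ht⟩
    have := B.range _ (hB ▸ mem_image_of_mem _ hy)
    rwa [c.r_symm (hS hy)] at this
  have k1 := (key (r z - δ) ⟨le_rfl, by linarith⟩).1
  have k2 := (key (r z + δ) ⟨by linarith, le_rfl⟩).2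
  exact ⟨B, by linarith, by linarith⟩


theorem h69_lev_cont (hU : IsOpen U) {r ψ : ℂ → ℝ} (hr : LocallyLipschitzOn U r) (hψ : A0 U ψ)
    {h : ℝ → ℝ} (hh : Continuous h) : ∫ z in U, h (r z) * wd ψ r z = 0 := by
  obtain ⟨H, hH, e⟩ := Ch.exists_prim hh
  have h1 := om_comp_right (u := ψ) hU hH hr
  rw [e, om_skew, om_A0 hU (h90_lip_comp hH hr) hψ, neg_zero] at h1
  exact h1.symm

/-- Z0.  For continuous `h` take a primitive `H` (`Ch.exists_prim`): `om ψ (H ∘ r) = 0` by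
`om_skew`, `om_A0`, and `om_comp_right`.  Then `gi_int_zero` with `a = b = r`. -/
theorem int_lev_zero (hU : IsOpen U) {r ψ : ℂ → ℝ} (hr : XX U r) (hψ : A0 U ψ) {h : ℝ → ℝ}
    (hh : Measurable h) {C : ℝ} (hC : ∀ t, |h t| ≤ C) : ∫ z in U, h (r z) * wd ψ r z = 0 := by
  have hm : AEMeasurable r (volume.restrict U) :=
    hr.lip.continuousOn.aemeasurable hU.measurableSet
  have key := gi_int_zero (μ := volume.restrict U) (w := wd ψ r) (a := r) (b := r)
    (wd_integrableOn hψ.xx.en hr.en) hm hm (fun f g => by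
      have := h69_lev_cont hU hr.lip hψ (h := fun t => f t * g t) (f.continuous.mul g.continuous)
      simpa only [mul_comm] using this) (g := fun p => h p.1) (hh.comp measurable_fst)
    (fun y => hC y.1)
  simpa only [mul_comm] using key

/-- The path: `B.pm` to a point of `W m q ∩ {r < α}` inside `{r < α}`, on inside `W m q` to a point
of `{β < r}`, on inside `{β < r}` to `B.pp` (`Lumps.exists_lt_lo`; open preconnected sets are path
connected: `IsOpen.isConnected_iff_isPathConnected`). -/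
theorem exists_path (hU : IsOpen U) {r : ℂ → ℝ} (hr : Mono Λ r) (q : Λ.E) (B : Box U r)
    {α β : ℝ} (h1 : B.lo < α) (h2 : β < B.hi) (h3 : Λ.lo r q < α) (h4 : β < Λ.hi r q) (m : ℕ) :
    ∃ γ : Path B.pm B.pp, ∀ z ∈ range γ, z ∈ U ∧ (r z < α ∨ β < r z ∨ z ∈ Λ.W m q) := by
  have hc : ContinuousOn r U := hr.reg.xx.lip.continuousOn
  have pc : ∀ {S : Set ℂ}, IsOpen S → IsPreconnected S → ∀ x ∈ S, ∀ y ∈ S, JoinedIn S x y :=
    fun hS hp x hx y hy => (hS.isConnected_iff_isPathConnected.1 ⟨⟨x, hx⟩, hp⟩).joinedIn x hx y hy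
  obtain ⟨z₁, hz₁, e₁⟩ := (Λ.exists_lt_lo hr.reg.bdd q m (sub_pos.2 h3)).1
  obtain ⟨z₂, hz₂, e₂⟩ := (Λ.exists_lt_lo hr.reg.bdd q m (sub_pos.2 h4)).2
  have hW : ∀ z ∈ Λ.W m q, z ∈ U := fun z hz => (Λ.sub m q hz).1
  have j₁ := pc (hc.isOpen_inter_preimage hU isOpen_Iio) (hr.down α) B.pm
    ⟨B.sub (B.seg (left_mem_segment _ _ _)), B.r_pm.trans_lt h1⟩ z₁
    ⟨hW _ hz₁, show r z₁ < α by linarith⟩
  have j₂ := pc (Λ.op m q) (Λ.conn m q).isPreconnected z₁ hz₁ z₂ hz₂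
  have j₃ := pc (hc.isOpen_inter_preimage hU isOpen_Ioi) (hr.up β) z₂
    ⟨hW _ hz₂, show β < r z₂ by linarith⟩ B.pp
    ⟨B.sub (B.seg (right_mem_segment _ _ _)), h2.trans_eq B.r_pp.symm⟩
  obtain ⟨γ, hγ⟩ : JoinedIn {z | z ∈ U ∧ (r z < α ∨ β < r z ∨ z ∈ Λ.W m q)} B.pm B.pp :=
    JoinedIn.trans (JoinedIn.trans (j₁.mono fun z hz => ⟨hz.1, Or.inl hz.2⟩)
      (j₂.mono fun z hz => ⟨hW z hz, Or.inr (Or.inr hz)⟩))
      (j₃.mono fun z hz => ⟨hz.1, Or.inr (Or.inl hz.2)⟩)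
  refine ⟨γ, ?_⟩
  rintro _ ⟨t, rfl⟩
  exact hγ t


/-- The cut function of the loop.  `Ch.loop_cut γ` gives `ν`, a `Ch.Cut` with
`J = range γ ∪ segment ℝ B.pm B.pp`; `Ch.Cut.bump` with the open set
`N = (U ∩ {r < α}) ∪ (U ∩ {β < r}) ∪ W m q ∪ interior B.Q`; `a = ρ 1_{ν = ν (B.x α)}`.
`ν (B.x t)` is constant on `[α, β]` (`Ch.Cut.eq_of_curve`), `ν (B.x t) ≠ ν (B.e t)` by the chord
`B.chord t`, `B.side`, `B.ray`.  Off the compact `C ⊆ N` we have `ρ = 1`. -/
theorem exists_cut (hU : IsOpen U) {r : ℂ → ℝ} (hr : Mono Λ r) (q : Λ.E) (B : Box U r)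
    {α β : ℝ} (h1 : B.lo < α) (h12 : α < β) (h2 : β < B.hi) (h3 : Λ.lo r q < α)
    (h4 : β < Λ.hi r q) (m : ℕ) (hm : Disjoint (Λ.W m q) B.Q) :
    ∃ a : ℂ → ℝ, A0 U a ∧ (∀ t ∈ Icc α β, a (B.x t) = 1 ∧ a (B.e t) = 0) ∧
      ∀ z ∈ U, z ∉ B.Q → z ∉ Λ.W m q → α ≤ r z → r z ≤ β →
        (a z = 0 ∨ a z = 1) ∧ ∀ᶠ y in 𝓝 z, a y = a z := by
  classical
  obtain ⟨γ, hγ⟩ := exists_path hU hr q B h1 h2 h3 h4 m
  obtain ⟨ν, hloc, hjump⟩ := Ch.loop_cut γ
  have hrc : ContinuousOn r U := hr.reg.xx.lip.continuousOn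
  have hseg : IsCompact (segment ℝ B.pm B.pp) := by
    rw [segment_eq_image_lineMap]
    exact isCompact_Icc.image AffineMap.lineMap_continuous
  have hcut : Ch.Cut U (range γ ∪ segment ℝ B.pm B.pp) ν :=
    ⟨(isCompact_range γ.continuous).union hseg,
      union_subset (fun z hz => (hγ z hz).1) (B.seg.trans B.sub),
      fun z _ hz => hloc z (fun h => hz (Or.inl h)) (fun h => hz (Or.inr h))⟩
  set N : Set ℂ := (U ∩ r ⁻¹' Iio α) ∪ (U ∩ r ⁻¹' Ioi β) ∪ Λ.W m q ∪ interior B.Q with hN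
  have hNo : IsOpen N :=
    (((hrc.isOpen_inter_preimage hU isOpen_Iio).union
      (hrc.isOpen_inter_preimage hU isOpen_Ioi)).union (Λ.op m q)).union isOpen_interior
  have hJN : range γ ∪ segment ℝ B.pm B.pp ⊆ N := by
    rintro z (hz | hz)
    · obtain ⟨hzU, h | h | h⟩ := hγ z hz
      · exact Or.inl (Or.inl (Or.inl ⟨hzU, h⟩))
      · exact Or.inl (Or.inl (Or.inr ⟨hzU, h⟩))
      · exact Or.inl (Or.inr h)
    · have hzU := B.sub (B.seg hz)
      by_cases ha : r z < α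
      · exact Or.inl (Or.inl (Or.inl ⟨hzU, ha⟩))
      by_cases hb : β < r z
      · exact Or.inl (Or.inl (Or.inr ⟨hzU, hb⟩))
      exact Or.inr (B.seg_int z hz (by linarith [not_lt.1 ha]) (by linarith [not_lt.1 hb]))
  have hNU : N ⊆ U :=
    union_subset (union_subset (union_subset inter_subset_left inter_subset_left)
      fun z hz => (Λ.sub m q hz).1) (interior_subset.trans B.sub)
  obtain ⟨ρ, C, hC, hJC, hCN, -, hρ, hA⟩ := hcut.bump hU Λ.far hNo hJN hNU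
  have hnot : ∀ z, z ∉ interior B.Q → z ∉ Λ.W m q → α ≤ r z → r z ≤ β → z ∉ C := by
    intro z hi hw ha hb hz
    rcases hCN hz with ((h | h) | h) | h
    · exact absurd h.2 (not_lt.2 ha)
    · exact absurd h.2 (not_lt.2 hb)
    · exact hw h
    · exact hi h
  have hsub : Icc α β ⊆ Icc B.lo B.hi := Icc_subset_Icc h1.le h2.le
  have hQW : ∀ z ∈ B.Q, z ∉ Λ.W m q := fun z hz h => disjoint_left.1 hm h hz
  have hxC : ∀ t ∈ Icc α β, B.x t ∉ C := fun t ht => by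
    obtain ⟨a1, a2, a3⟩ := B.x_mem t (hsub ht)
    exact hnot _ a3 (hQW _ a1) (a2.symm ▸ ht.1) (a2.symm ▸ ht.2)
  refine ⟨fun z => if ν z = ν (B.x α) then ρ z else 0, by convert hA (ν (B.x α)), fun t ht => ?_,
    fun z hz hzQ hzW ha hb => ?_⟩
  · have e1 : ν (B.x t) = ν (B.x α) :=
      hcut.eq_of_curve (B.cx.mono hsub)
        (fun s hs => ⟨B.sub (B.x_mem s (hsub hs)).1, fun h => hxC s hs (hJC h)⟩) ht
        ⟨le_rfl, h12.le⟩
    have hlo : B.lo < t := h1.trans_le ht.1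
    have hhi : t < B.hi := ht.2.trans_lt h2
    obtain ⟨a1, a2, -⟩ := B.x_mem t (hsub ht)
    obtain ⟨b1, b2, -⟩ := B.e_mem t (hsub ht)
    have e2 : ν (B.x t) ≠ ν (B.e t) := by
      refine hjump _ (B.chord t) (disjoint_left.2 fun z hz hzγ => ?_)
        (fun z hz => B.ray z hz.1 ?_ ?_) _ ⟨b1, b2⟩ _ ⟨a1, a2⟩ (B.side t ⟨hlo, hhi⟩)
      · have e : r z = t := hz.2
        rcases (hγ z hzγ).2 with h | h | h
        · linarith [ht.1]
        · linarith [ht.2]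
        · exact hQW z hz.1 h
      · have e : r z = t := hz.2
        linarith
      · have e : r z = t := hz.2
        linarith
    refine ⟨?_, ?_⟩
    · simp only [e1, if_true]
      exact hρ _ (hxC t ht)
    · exact if_neg fun h => e2 (e1.trans h.symm)
  · have hzC : z ∉ C := hnot z (fun h => hzQ (interior_subset h)) hzW ha hb
    refine ⟨?_, ?_⟩
    · by_cases h : ν z = ν (B.x α)
      · exact Or.inr (by simp only [h, if_true]; exact hρ z hzC)
      · exact Or.inl (if_neg h)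
    · filter_upwards [hcut.2.2 z hz fun h => hzC (hJC h),
        hC.isClosed.isOpen_compl.mem_nhds hzC] with y hy hy'
      rw [hy, hρ y hy', hρ z hzC]

/-- Flux of the cut function.  `int_lev_zero` for `a ψ` and for `a` (`h` is bounded on the range of
`r`; or use `om_comp_right` with a primitive), product rule a.e. (`h90_fderiv_mul`, `ae_diff`):
`∫ h a wd ψ r = -∫ h ψ wd a r`.  The density `h (r z) * wd a r z` vanishes off `B.Q ∪ W m q`,
`ψ = 0` on `B.Q`, `ψ = 1` on `W m q`, so this is `∫_{B.Q} h wd a r = ∫ h` (`B.formula`). -/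
theorem cut_flux (hU : IsOpen U) {r : ℂ → ℝ} (hr : XX U r) (hb : Bdd U r) (q : Λ.E) (B : Box U r)
    {α β : ℝ} (h1 : B.lo < α) (h2 : β < B.hi) {m : ℕ} (hm : Disjoint (Λ.W m q) B.Q)
    {a : ℂ → ℝ} (ha : A0 U a) (hx : ∀ t ∈ Icc α β, a (B.x t) = 1 ∧ a (B.e t) = 0)
    (hl : ∀ z ∈ U, z ∉ B.Q → z ∉ Λ.W m q → α ≤ r z → r z ≤ β → ∀ᶠ y in 𝓝 z, a y = a z)
    {ψ : ℂ → ℝ} (hψ : A0 U ψ) (h0 : ∀ z ∈ B.Q, ψ z = 0) (h1' : ∀ z ∈ Λ.W m q, ψ z = 1)
    {h : ℝ → ℝ} (hh : Continuous h) (hs : tsupport h ⊆ Ioo α β) :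
    ∫ z in U, h (r z) * a z * wd ψ r z = ∫ t, h t := by
  classical
  have haψ : A0 U fun z => a z * ψ z := (ha.mul hU Λ hψ).1
  have hz : ∀ t, t ∉ Ioo α β → h t = 0 := fun t ht =>
    image_eq_zero_of_notMem_tsupport fun h' => ht (hs h')
  obtain ⟨R, hR⟩ := hb
  obtain ⟨C, hC⟩ := (isCompact_Icc (a := -R) (b := R)).exists_bound_of_continuousOn hh.continuousOn
  have hint : ∀ u : ℂ → ℝ, A0 U u → IntegrableOn (fun z => h (r z) * wd u r z) U := fun u hu => by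
    refine Integrable.bdd_mul (c := C) (wd_integrableOn hu.xx.en hr.en) ?_ ?_
    · exact (hh.comp_continuousOn hr.lip.continuousOn).aestronglyMeasurable hU.measurableSet
    · refine (ae_restrict_iff' hU.measurableSet).2 (Eventually.of_forall fun z hz => ?_)
      exact hC _ (abs_le.1 (hR z hz))
  have hQ : MeasurableSet B.Q := B.cpt.measurableSet
  have e1 : ∫ z in U, h (r z) * a z * wd ψ r z =
      ∫ z in U, (h (r z) * wd (fun z => a z * ψ z) r z - h (r z) * wd a r z +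
        B.Q.indicator (fun z => h (r z) * wd a r z) z) := by
    refine setIntegral_congr_ae hU.measurableSet ?_
    filter_upwards [ae_diff hU ha.xx.lip, ae_diff hU hψ.xx.lip] with z d1 d2 hzU
    have e : wd (fun z => a z * ψ z) r z = a z * wd ψ r z + ψ z * wd a r z := by
      simp only [wd, h90_fderiv_mul (d1 hzU) (d2 hzU)]
      ring
    rw [e]
    by_cases hq : z ∈ B.Q
    · rw [indicator_of_mem hq, h0 z hq]
      ring
    rw [indicator_of_notMem hq]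
    by_cases hw : z ∈ Λ.W m q
    · rw [h1' z hw]
      ring
    by_cases hi : r z ∈ Ioo α β
    · have h3 : fderiv ℝ a z = 0 := by
        rw [Filter.EventuallyEq.fderiv_eq (f := fun _ => a z) (hl z hzU hq hw hi.1.le hi.2.le)]
        exact fderiv_const_apply _
      have h4 : wd a r z = 0 := by simp [wd, h3]
      rw [h4]
      ring
    · rw [hz _ hi]
      ring
  have hsub : Integrable (fun z => h (r z) * wd (fun z => a z * ψ z) r z - h (r z) * wd a r z)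
      (volume.restrict U) := (hint _ haψ).sub (hint _ ha)
  rw [e1, integral_add hsub ((hint _ ha).indicator hQ),
    integral_sub (hint _ haψ) (hint _ ha), h69_lev_cont hU hr.lip haψ hh,
    h69_lev_cont hU hr.lip ha hh, sub_zero, zero_add, setIntegral_indicator hQ,
    inter_eq_right.2 B.sub, (B.formula a ha.xx.lip h hh).2]
  have e2 : ∀ t, h t * (a (B.x t) - a (B.e t)) = h t := fun t => by
    by_cases hi : t ∈ Ioo α β
    · obtain ⟨p1, p2⟩ := hx t (Ioo_subset_Icc_self hi)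
      rw [p1, p2]
      ring
    · rw [hz _ hi]
      ring
  simp only [e2]
  refine intervalIntegral.integral_eq_integral_of_support_subset fun t ht => ?_
  have := hs (subset_tsupport _ ht)
  exact ⟨h1.trans this.1, (this.2.trans h2).le⟩

/-- SIG.  Take `a m` from `exists_cut` for `m ≥ m₀` and put `σ z = 1` iff
`{m | a m z = 1} ∈ hyperfilter ℕ`.  A closed ball around `z` inside the open set
`U ∩ {α < r < β} \ B.Q` misses `W m q` for large `m` (`Lumps.exh`, `W_mono`), so `a m` is constant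
with value `0` or `1` on it: for almost all `m`, `a m = σ` on the ball.  The compact set
`K = C ∩ r ⁻¹' tsupport h \ O` (`C` from `hψ.loc`) is covered by finitely many such balls, so
`a m = σ` on `K` for some large `m`; off `K` the density `h (r z) * wd ψ r z` vanishes;
`cut_flux`, `A0.eq_val`. -/
theorem exists_sig (hU : IsOpen U) {r : ℂ → ℝ} (hr : Mono Λ r) (q : Λ.E) (B : Box U r)
    {α β : ℝ} (h1 : B.lo < α) (h12 : α < β) (h2 : β < B.hi) (h3 : Λ.lo r q < α)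
    (h4 : β < Λ.hi r q) : ∃ σ : ℂ → ℝ, (∀ z, σ z = 0 ∨ σ z = 1) ∧
      (∀ z ∈ U, z ∉ B.Q → α < r z → r z < β → ∀ᶠ y in 𝓝 z, σ y = σ z) ∧
      ∀ ψ, A0 U ψ → (∃ O, IsOpen O ∧ B.Q ⊆ O ∧ ∀ z ∈ O, ψ z = 0) → Λ.val ψ q = 1 →
        ∀ h : ℝ → ℝ, Continuous h → tsupport h ⊆ Ioo α β →
          ∫ z in U, h (r z) * σ z * wd ψ r z = ∫ t, h t := by
  classical
  obtain ⟨m₀, hm₀⟩ := Λ.exh B.Q B.cpt B.sub
  have hd : ∀ m, Disjoint (Λ.W (m + m₀) q) B.Q := fun m =>
    (hm₀ q).mono_left (Λ.W_mono (Nat.le_add_left _ _) q)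
  choose a ha hx hl using fun m => exists_cut hU hr q B h1 h12 h2 h3 h4 (m + m₀) (hd m)
  have hc : ContinuousOn r U := hr.reg.xx.lip.continuousOn
  let σ : ℂ → ℝ := fun z => if ∀ᶠ m in (hyperfilter ℕ : Filter ℕ), a m z = 1 then 1 else 0
  have key : ∀ z ∈ U, z ∉ B.Q → α < r z → r z < β → ∃ N ∈ 𝓝 z,
      (∀ᶠ m in (hyperfilter ℕ : Filter ℕ), ∀ y ∈ N, a m y = σ y) ∧ ∀ y ∈ N, σ y = σ z := by
    intro z hz hzQ hα hβ
    have hV : (U ∩ r ⁻¹' Ioo α β) ∩ B.Qᶜ ∈ 𝓝 z :=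
      ((hc.isOpen_inter_preimage hU isOpen_Ioo).inter B.cpt.isClosed.isOpen_compl).mem_nhds
        ⟨⟨hz, hα, hβ⟩, hzQ⟩
    obtain ⟨ε, hε, hb⟩ := Metric.nhds_basis_closedBall.mem_iff.1 hV
    obtain ⟨n, hn⟩ := Λ.exh _ (isCompact_closedBall z ε) fun y hy => (hb hy).1.1
    have hz' : z ∈ Metric.closedBall z ε := Metric.mem_closedBall_self hε.le
    have e1 : ∀ᶠ m in (hyperfilter ℕ : Filter ℕ), (a m z = 0 ∨ a m z = 1) ∧
        ∀ y ∈ Metric.closedBall z ε, a m y = a m z := by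
      filter_upwards [Nat.hyperfilter_le_atTop (eventually_ge_atTop n)] with m hm
      have h5 : ∀ y ∈ Metric.closedBall z ε,
          (a m y = 0 ∨ a m y = 1) ∧ ∀ᶠ w in 𝓝 y, a m w = a m y := fun y hy =>
        hl m y (hb hy).1.1 (hb hy).2 (fun hW => disjoint_left.1 (hn q)
          (Λ.W_mono (hm.trans (Nat.le_add_right _ _)) q hW) hy) (hb hy).1.2.1.le (hb hy).1.2.2.le
      exact ⟨(h5 z hz').1, fun y hy => Ch.Cut.eq_of_preconnected (U := Metric.closedBall z ε)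
        (J := ∅) ⟨isCompact_empty, empty_subset _, fun y hy _ => (h5 y hy).2⟩
        (convex_closedBall z ε).isPreconnected Subset.rfl (disjoint_empty _) hy hz'⟩
    have e2 : ∀ y ∈ Metric.closedBall z ε, σ y = σ z := fun y hy =>
      if_congr (eventually_congr (e1.mono fun m hm => by rw [hm.2 y hy])) rfl rfl
    have e3 : ∀ᶠ m in (hyperfilter ℕ : Filter ℕ), a m z = σ z := by
      by_cases h : ∀ᶠ m in (hyperfilter ℕ : Filter ℕ), a m z = 1
      · simpa only [σ, if_pos h] using h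
      · filter_upwards [e1, Ultrafilter.eventually_not.2 h] with m hm hm'
        simpa only [σ, if_neg h] using hm.1.resolve_right hm'
    refine ⟨_, Metric.closedBall_mem_nhds z hε, ?_, e2⟩
    filter_upwards [e1, e3] with m hm hm' y hy
    rw [hm.2 y hy, hm', e2 y hy]
  refine ⟨σ, fun z => ?_, fun z hz hzQ hα hβ => ?_, ?_⟩
  · simp only [σ]
    split_ifs <;> simp
  · obtain ⟨N, hN, -, h⟩ := key z hz hzQ hα hβ
    exact Filter.eventually_of_mem hN h
  rintro ψ hψ ⟨O, hO, hQO, hO0⟩ hv h hh hs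
  obtain ⟨C, hC, hCU, hloc⟩ := hψ.loc
  have hK : IsCompact ((C ∩ r ⁻¹' tsupport h) ∩ Oᶜ) :=
    hC.of_isClosed_subset (((hc.mono hCU).preimage_isClosed_of_isClosed hC.isClosed
      (isClosed_tsupport h)).inter hO.isClosed_compl) fun z hz => hz.1.1
  have hKe : ∀ᶠ m in (hyperfilter ℕ : Filter ℕ),
      ∀ y ∈ (C ∩ r ⁻¹' tsupport h) ∩ Oᶜ, a m y = σ y := by
    refine hK.induction_on (p := fun s => ∀ᶠ m in (hyperfilter ℕ : Filter ℕ),
      ∀ y ∈ s, a m y = σ y) (by simp) (fun s t hst ht => ht.mono fun m hm y hy => hm y (hst hy))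
      (fun s t hs ht => (hs.and ht).mono fun m hm y hy => hy.elim (hm.1 y) (hm.2 y))
      fun z hz => ?_
    obtain ⟨N, hN, h, -⟩ := key z (hCU hz.1.1) (fun hq => hz.2 (hQO hq)) (hs hz.1.2).1
      (hs hz.1.2).2
    exact ⟨N, mem_nhdsWithin_of_mem_nhds hN, h⟩
  obtain ⟨N, hN⟩ := hψ.eq_val Λ
  obtain ⟨m, hm, hmN⟩ := (hKe.and (Nat.hyperfilter_le_atTop (eventually_ge_atTop N))).exists
  rw [← cut_flux hU hr.reg.xx hr.reg.bdd q B h1 h2 (hd m) (ha m) (hx m)
    (fun z hz h5 h6 h7 h8 => (hl m z hz h5 h6 h7 h8).2) hψ (fun z hz => hO0 z (hQO hz))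
    (fun z hz => (hN _ (le_trans hmN (Nat.le_add_right _ _)) q z hz).trans hv) hh hs]
  refine setIntegral_congr_fun hU.measurableSet fun z hz => ?_
  have hw : (∀ᶠ w in 𝓝 z, ψ w = ψ z) → wd ψ r z = 0 := fun e => by
    have : fderiv ℝ ψ z = 0 := by
      rw [Filter.EventuallyEq.fderiv_eq (f := fun _ => ψ z) e, fderiv_fun_const, Pi.zero_apply]
    simp [wd, this]
  by_cases hzC : z ∈ C
  swap
  · simp [hw (hloc z hz hzC)]
  by_cases hzO : z ∈ O
  · simp [hw (Filter.eventually_of_mem (hO.mem_nhds hzO) fun w hw => by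
      rw [hO0 w hw, hO0 z hzO])]
  by_cases hzs : r z ∈ tsupport h
  · simp only [hm z ⟨⟨hzC, hzs⟩, hzO⟩]
  · simp [image_eq_zero_of_notMem_tsupport hzs]

end Crest.Agent.R105.Mx
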