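import Crest.Agent.R105.MSig

/-! Row 105, block MAX/ISO: functions of the branches have no flux. -/

set_option autoImplicit false

open MeasureTheory Set Filter Topology
open scoped ENNReal

namespace Crest.Agent.R105.Mx

variable {U : Set ℂ} {Λ : Lumps U} {M : Set (ℂ → ℝ)}

theorem Br.D_open {β : ℂ → ℝ} (B : Br Λ M β) (i : ℕ) : IsOpen (B.D i) := by
  exact (B.c1.continuousOn.mono (B.Asub i)).isOpen_inter_preimage (B.Aop i) (B.Top i)

/-- on the open set `A i` the functions `r i` and `β` agree; off it `fderiv (r i) = 0` a.e. -/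
theorem Br.wd_r {β : ℂ → ℝ} (B : Br Λ M β) (i : ℕ) (u : ℂ → ℝ) :
    ∀ᵐ z, z ∈ U → wd u (B.r i) z = (B.A i).indicator (wd u β) z := by
  filter_upwards [B.ae i] with z h hz
  by_cases hA : z ∈ B.A i
  · simp only [indicator_of_mem hA, wd,
      ((B.eq i).eventuallyEq_of_mem ((B.Aop i).mem_nhds hA)).fderiv_eq (𝕜 := ℝ)]
  · simp [indicator_of_notMem hA, wd, h hz hA]

/-- DEC: the sets `D i` are disjoint (`B.disj`) and cover `{fderiv β ≠ 0}` a.e. (`B.cov`);
`hasSum_integral_iUnion`, `setIntegral_eq_of_subset_of_ae_diff_eq_zero`. -/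
theorem Br.hasSum {β : ℂ → ℝ} (B : Br Λ M β) {F : ℂ → ℝ} (hF : IntegrableOn F U)
    (h0 : ∀ z ∈ U, fderiv ℝ β z = 0 → F z = 0) :
    HasSum (fun i => ∫ z in B.D i, F z) (∫ z in U, F z) := by
  have hs : (⋃ i, B.D i) ⊆ U := iUnion_subset fun i => inter_subset_left.trans (B.Asub i)
  rw [setIntegral_eq_of_subset_of_ae_sdiff_eq_zero B.op.measurableSet.nullMeasurableSet hs
    (B.cov.mono fun z h hz => h0 z hz.1 (by_contra fun hne => hz.2 (mem_iUnion.2 (h hz.1 hne))))]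
  exact hasSum_integral_iUnion (fun i => (B.D_open i).measurableSet)
    (fun i j hij => Set.disjoint_left.2 fun z hi hj => B.disj i j hij z ⟨hi.1, hj.1⟩ hi.2 hj.2)
    (hF.mono_set hs)

/-- transfer to the branch: `Br.wd_r`; no integrability is needed (`integral_indicator`,
`setIntegral_congr_ae`). -/
theorem Br.int_D {β : ℂ → ℝ} (B : Br Λ M β) (i : ℕ) (u g g' : ℂ → ℝ)
    (h : ∀ z ∈ B.A i, g' z = (B.D i).indicator g z) :
    ∫ z in B.D i, g z * wd u β z = ∫ z in U, g' z * wd u (B.r i) z := by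
  have hs : B.D i ⊆ U := inter_subset_left.trans (B.Asub i)
  rw [← inter_eq_self_of_subset_right hs, ← setIntegral_indicator (B.D_open i).measurableSet]
  refine setIntegral_congr_ae B.op.measurableSet ((B.wd_r i u).mono fun z hw hz => ?_)
  rw [hw hz]
  by_cases hA : z ∈ B.A i
  · rw [indicator_of_mem hA, h z hA, indicator_mul_left]
  · rw [indicator_of_notMem hA, indicator_of_notMem fun hD => hA hD.1, mul_zero]

/-- a `C¹` function with nonzero derivative is open (`HasStrictFDerivAt.map_nhds_eq_of_surj`,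
or monotonicity along a direction) -/
theorem Br.image_open {β : ℂ → ℝ} (B : Br Λ M β) (i : ℕ) {V : Set ℂ} (hV : IsOpen V)
    (hVA : V ⊆ B.A i) : IsOpen (β '' V) := by
  rw [isOpen_iff_mem_nhds]
  rintro _ ⟨z, hz, rfl⟩
  have h1 := (B.c1.contDiffAt (B.op.mem_nhds (B.Asub i (hVA hz)))).hasStrictFDerivAt one_ne_zero
  have h2 : (fderiv ℝ β z : ℂ →ₗ[ℝ] ℝ) ≠ 0 := fun h =>
    B.ne i z (hVA hz) (ContinuousLinearMap.coe_injective h)
  rw [← h1.map_nhds_eq_of_surj (LinearMap.range_eq_top.2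
    (surjective_of_nonzero_of_finrank_eq_one (Module.finrank_self ℝ) h2))]
  exact image_mem_map (hV.mem_nhds hz)

/-- Put `h t = f z` for some `z ∈ A j` with `β z = t` when `t ∈ β '' A j \ S`, else `0`.  For open
`V` the preimage inside `β '' A j \ S` is `β '' (A j ∩ f ⁻¹' V) \ S` (`Br.image_open`);
`measurable_of_isOpen`.  The finitely many levels in `S` are null where `fderiv β ≠ 0`
(`ae_fderiv_eq_zero_of_eq`). -/
theorem Fib.exists_fun {β f : ℂ → ℝ} {B : Br Λ M β} (hf : Fib B f) (j : ℕ) :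
    ∃ (h : ℝ → ℝ) (C : ℝ), Measurable h ∧ (∀ t, |h t| ≤ C) ∧
      ∀ᵐ z, z ∈ B.A j → f z = h (β z) := by
  classical
  obtain ⟨S, hS, hc⟩ := hf.cst j
  obtain ⟨C, hC⟩ := hf.bdd
  let h : ℝ → ℝ := fun t => if ht : t ∈ β '' B.A j \ S then f ht.1.choose else 0
  have hh : ∀ z ∈ B.A j, β z ∉ S → h (β z) = f z := by
    intro z hz hzS
    have ht : β z ∈ β '' B.A j \ S := ⟨mem_image_of_mem β hz, hzS⟩
    simp only [h, dif_pos ht]
    exact (hc z hz _ ht.1.choose_spec.1 ht.1.choose_spec.2.symm hzS).symm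
  have h0 : ∀ t, t ∉ β '' B.A j \ S → h t = 0 := fun t ht => dif_neg ht
  have hT : MeasurableSet (β '' B.A j \ S) :=
    (B.image_open j (B.Aop j) subset_rfl).measurableSet.diff hS.measurableSet
  refine ⟨h, max C 0, measurable_of_isOpen fun V hV => ?_, fun t => ?_, ?_⟩
  · have h1 : IsOpen (B.A j ∩ f ⁻¹' V) :=
      (hf.xx.lip.continuousOn.mono (B.Asub j)).isOpen_inter_preimage (B.Aop j) hV
    have h2 : h ⁻¹' V = (β '' (B.A j ∩ f ⁻¹' V) \ S) ∪
        ((β '' B.A j \ S)ᶜ ∩ (fun _ => (0 : ℝ)) ⁻¹' V) := by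
      ext t
      by_cases ht : t ∈ β '' B.A j \ S
      · obtain ⟨⟨z, hz, rfl⟩, hzS⟩ := id ht
        refine ⟨fun h3 => Or.inl ⟨⟨z, ⟨hz, ?_⟩, rfl⟩, hzS⟩, ?_⟩
        · rwa [mem_preimage, hh z hz hzS] at h3
        · rintro (⟨⟨w, hw, e⟩, -⟩ | h3)
          · rw [mem_preimage, ← e, hh w hw.1 (e ▸ hzS)]
            exact hw.2
          · exact absurd ht h3.1
      · rw [mem_preimage, h0 t ht]
        refine ⟨fun h3 => Or.inr ⟨ht, h3⟩, ?_⟩
        rintro (h3 | h3)
        · exact absurd ⟨image_mono inter_subset_left h3.1, h3.2⟩ ht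
        · exact h3.2
    rw [h2]
    exact ((B.image_open j h1 inter_subset_left).measurableSet.diff hS.measurableSet).union
      (hT.compl.inter (measurable_const hV.measurableSet))
  · by_cases ht : t ∈ β '' B.A j \ S
    · obtain ⟨⟨z, hz, rfl⟩, hzS⟩ := ht
      rw [hh z hz hzS]
      exact (hC z (B.Asub j hz)).trans (le_max_left _ _)
    · rw [h0 t ht, abs_zero]
      exact le_max_right _ _
  · filter_upwards [(ae_ball_iff hS.countable).2 fun s _ =>
      ae_fderiv_eq_zero_of_eq B.op B.reg.xx.lip s] with z hz hzA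
    exact (hh z hzA fun hzS => B.ne j z hzA (hz _ hzS (B.Asub j hzA) rfl)).symm

/-- Z.  Product rule a.e. gives `om (f ψ) β = ∫ f wd ψ β`; `Br.hasSum`; on `D j` replace `f` by
`h ∘ β` (`Fib.exists_fun`), `Br.int_D` with `g' = (T j).indicator h ∘ r j`, `int_lev_zero`. -/
theorem Fib.om_zero {β f ψ : ℂ → ℝ} {B : Br Λ M β} (hf : Fib B f) (hψ : A0 U ψ) :
    om U (fun z => f z * ψ z) β = 0 := by
  have hU := B.op
  have e1 : om U (fun z => f z * ψ z) β = ∫ z in U, f z * wd ψ β z := by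
    refine setIntegral_congr_ae hU.measurableSet ?_
    filter_upwards [ae_diff hU hf.xx.lip, ae_diff hU hψ.xx.lip, hf.wd0] with z h1 h2 h3 hz
    have h4 := h3 hz
    simp only [wd, fderiv_fun_mul (h1 hz) (h2 hz), add_apply,
      smul_apply, smul_eq_mul] at h4 ⊢
    linear_combination ψ z * h4
  obtain ⟨C₀, hC₀⟩ := hf.bdd
  have hI : IntegrableOn (fun z => f z * wd ψ β z) U :=
    (wd_integrableOn hψ.xx.en B.reg.xx.en).bdd_mul (c := C₀)
      (hf.xx.lip.continuousOn.aestronglyMeasurable hU.measurableSet)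
      ((ae_restrict_mem hU.measurableSet).mono fun z hz => hC₀ z hz)
  have hS := B.hasSum hI fun z _ h0 => by simp [wd, h0]
  have e2 : ∀ j, ∫ z in B.D j, f z * wd ψ β z = 0 := fun j => by
    obtain ⟨h, C, hh, hC, he⟩ := hf.exists_fun j
    rw [setIntegral_congr_ae (g := fun z => h (β z) * wd ψ β z) (B.D_open j).measurableSet
      (he.mono fun z hz hD => by rw [hz hD.1]),
      B.int_D j ψ (fun z => h (β z)) (fun z => (B.T j).indicator h (B.r j z)) fun z hz => ?_]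
    · refine int_lev_zero hU (B.mono j).reg.xx hψ (hh.indicator (B.Top j).measurableSet)
        (C := C) fun t => ?_
      by_cases ht : t ∈ B.T j
      · rw [indicator_of_mem ht]; exact hC t
      · rw [indicator_of_notMem ht, abs_zero]; exact (abs_nonneg _).trans (hC 0)
    · rw [B.eq j hz]
      by_cases ht : β z ∈ B.T j
      · rw [indicator_of_mem ht, indicator_of_mem (show z ∈ B.D j from ⟨hz, ht⟩)]
      · rw [indicator_of_notMem ht, indicator_of_notMem fun hD : z ∈ B.D j => ht hD.2]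
  rw [e1, ← hS.tsum_eq]
  simp only [e2, tsum_zero]

theorem Fib.self {β : ℂ → ℝ} (B : Br Λ M β) : Fib B β :=
  ⟨B.reg.xx, B.reg.bdd, Eventually.of_forall fun z _ => by simp only [wd]; ring,
    fun _ => ⟨∅, finite_empty, fun _ _ _ _ e _ => e⟩⟩

/-- `om_skew`-type symmetry of `wd` and `Br.wd_r`, `B.cst` -/
theorem Fib.branch {β : ℂ → ℝ} (B : Br Λ M β) (i : ℕ) : Fib B (B.r i) := by
  refine ⟨(B.mono i).reg.xx, (B.mono i).reg.bdd, ?_, fun j => ?_⟩
  · filter_upwards [B.wd_r i β] with z h hz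
    have h1 : wd β β z = 0 := by simp only [wd]; ring
    have h2 : wd β (B.r i) z = 0 := by
      rw [h hz]
      by_cases hA : z ∈ B.A i
      · rw [indicator_of_mem hA, h1]
      · exact indicator_of_notMem hA _
    simp only [wd] at h2 ⊢
    linear_combination -h2
  · obtain ⟨t₀, ht⟩ := B.cst i j
    exact ⟨{t₀}, finite_singleton _, ht⟩

theorem Fib.const {β : ℂ → ℝ} (B : Br Λ M β) (c : ℝ) : Fib B (fun _ => c) :=
  ⟨XX.const c, ⟨|c|, fun _ _ => le_rfl⟩, Eventually.of_forall fun z _ => by simp [wd],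
    fun _ => ⟨∅, finite_empty, fun _ _ _ _ _ _ => rfl⟩⟩

theorem h40_wd_eq (f β : ℂ → ℝ) (z : ℂ) :
    wd f β z = fderiv ℝ f z (fderiv ℝ β z Complex.I • (1 : ℂ) - fderiv ℝ β z 1 • Complex.I) := by
  rw [map_sub, map_smul, map_smul, wd, smul_eq_mul, smul_eq_mul]
  ring

/-- `XX.comp2`; `wd f β z = fderiv f z v` for a vector `v` depending only on `β`, so
`norm_fderiv_comp2_le` applies (or `Ch.wd_comp_le`). -/
theorem Fib.comp2 {β u v : ℂ → ℝ} {B : Br Λ M β} (hu : Fib B u) (hv : Fib B v) {G : ℝ → ℝ → ℝ}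
    {L₁ L₂ : ℝ} (hG : ∀ s t s' t', |G s t - G s' t'| ≤ L₁ * |s - s'| + L₂ * |t - t'|) :
    Fib B (fun z => G (u z) (v z)) := by
  obtain ⟨h1, h2⟩ := h18_nonneg hG
  refine ⟨XX.comp2 B.op hG hu.xx hv.xx, ?_, ?_, fun j => ?_⟩
  · obtain ⟨C, hC⟩ := hu.bdd
    obtain ⟨C', hC'⟩ := hv.bdd
    refine ⟨|G 0 0| + (L₁ * C + L₂ * C'), fun z hz => ?_⟩
    have h := hG (u z) (v z) 0 0
    rw [sub_zero, sub_zero] at h
    have a1 := mul_le_mul_of_nonneg_left (hC z hz) h1
    have a2 := mul_le_mul_of_nonneg_left (hC' z hz) h2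
    have a3 := abs_sub_abs_le_abs_sub (G (u z) (v z)) (G 0 0)
    linarith
  · filter_upwards [ae_diff B.op hu.xx.lip, ae_diff B.op hv.xx.lip, hu.wd0, hv.wd0]
      with z du dv wu wv hz
    have h := norm_fderiv_comp2_le hG (du hz) (dv hz)
      (fderiv ℝ β z Complex.I • (1 : ℂ) - fderiv ℝ β z 1 • Complex.I)
    rw [← h40_wd_eq, ← h40_wd_eq, ← h40_wd_eq, wu hz, wv hz] at h
    simpa using h
  · obtain ⟨S, hS, e⟩ := hu.cst j
    obtain ⟨S', hS', e'⟩ := hv.cst j
    refine ⟨S ∪ S', hS.union hS', fun z hz z' hz' hβ hn => ?_⟩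
    show G (u z) (v z) = G (u z') (v z')
    rw [e z hz z' hz' hβ fun h => hn (Or.inl h), e' z hz z' hz' hβ fun h => hn (Or.inr h)]

theorem Fib.sum {β : ℂ → ℝ} {B : Br Λ M β} {ι : Type} (s : Finset ι) {u : ι → ℂ → ℝ}
    (hu : ∀ i ∈ s, Fib B (u i)) : Fib B (fun z => ∑ i ∈ s, u i z) := by
  classical
  induction s using Finset.induction_on with
  | empty => simpa using Fib.const B 0
  | insert i s hi ih =>
    have h1 := Fib.comp2 (G := fun a b => a + b) (L₁ := 1) (L₂ := 1)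
      (hu i (Finset.mem_insert_self i s)) (ih fun j hj => hu j (Finset.mem_insert_of_mem hj))
      (fun a b a' b' => by
        rw [one_mul, one_mul, add_sub_add_comm]
        exact abs_add_le _ _)
    simpa only [Finset.sum_insert hi] using h1

/-- Z'.  `Lumps.koenig'` with `P s := (∀ z ∈ s, ψ z = 0) ∨ ∃ f', Fib B f' ∧ EqOn f f' s` gives a
level `n`; `exists_reps`, `exists_Ind`, `om_eq_sum_lumps`; on each lump `om_germ` resp.
`om_germ_congr` and `Fib.om_zero` for `ψ χ ∈ A0` (`A0.mul`). -/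
theorem om_zero_of_loc {β f ψ : ℂ → ℝ} (B : Br Λ M β) (hf : XX U f) (hψ : A0 U ψ)
    (h : ∀ p, Λ.val ψ p = 0 ∨ ∃ n f', Fib B f' ∧ EqOn f f' (Λ.W n p)) :
    om U (fun z => f z * ψ z) β = 0 := by
  obtain ⟨N₀, hN₀⟩ := hψ.eq_val Λ
  obtain ⟨N, hN⟩ := Λ.koenig' (fun s => (∀ z ∈ s, ψ z = 0) ∨ ∃ f', Fib B f' ∧ EqOn f f' s)
    (fun s t hst hP => hP.imp (fun h z hz => h z (hst hz))
      fun ⟨f', h1, h2⟩ => ⟨f', h1, h2.mono hst⟩)
    (fun p => (h p).elim (fun h0 => ⟨N₀, Or.inl fun z hz => (hN₀ N₀ le_rfl p z hz).trans h0⟩)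
      fun ⟨n, f', h1, h2⟩ => ⟨n, Or.inr ⟨f', h1, h2⟩⟩)
  obtain ⟨Q, hQ, hQd⟩ := Λ.exists_reps N
  choose χ hχ _ _ hχ0 _ using exists_Ind B.op Λ N
  rw [om_eq_sum_lumps B.op hQ hQd (fun p _ => hχ p) (hf.mul_A0 B.op Λ hψ) B.reg.xx]
  refine Finset.sum_eq_zero fun p _ => ?_
  rcases hN N le_rfl p with h0 | ⟨f', h1, h2⟩
  · have e : (fun z => f z * ψ z * χ p z) = fun _ => (0 : ℝ) := by
      funext z
      by_cases hz : z ∈ Λ.W N p
      · rw [h0 z hz, mul_zero, zero_mul]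
      · rw [hχ0 p z hz, mul_zero]
    rw [e]
    simp [om, wd]
  · have e : (fun z => f z * ψ z * χ p z) = fun z => f' z * (ψ z * χ p z) := by
      funext z
      by_cases hz : z ∈ Λ.W N p
      · rw [h2 hz, mul_assoc]
      · rw [hχ0 p z hz, mul_zero, mul_zero, mul_zero]
    rw [e]
    exact h1.om_zero (A0.mul B.op Λ hψ (hχ p).1).1

end Crest.Agent.R105.Mx
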