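import Crest.Agent.R105.MJmp
import Crest.Agent.R105.MZ

/-! Row 105, block MAX/ISO: the total variation at an end is at most `k q`. -/

set_option autoImplicit false

open MeasureTheory Set Filter Topology
open scoped ENNReal

namespace Crest.Agent.R105.Mx

variable {U : Set ℂ} {Λ : Lumps U} {M : Set (ℂ → ℝ)}

/-- tent of width `g` -/
noncomputable def kap (g x : ℝ) : ℝ := max 0 (1 - |x| / g)

/-- clip to `[-1/2, 1/2]` -/
noncomputable def clp (s : ℝ) : ℝ := max (-(1 / 2)) (min s (1 / 2))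

/-- the test function -/
noncomputable def tst {β : ℂ → ℝ} (B : Br Λ M β) (I : ℕ) (w : ℕ → ℂ → ℝ) (g : ℝ) (z : ℂ) : ℝ :=
  clp (∑ i ∈ Finset.range I, clp (w i z) * kap g (β z - B.r i z))

/-- the active levels of the branch `i` at the end `q` -/
def Br.O {β : ℂ → ℝ} (B : Br Λ M β) (i : ℕ) (q : Λ.E) : Set ℝ :=
  B.T i ∩ β '' B.A i ∩ Ioo (Λ.lo (B.r i) q) (Λ.hi (B.r i) q)

theorem clp_lip : Lp1 1 clp := by
  intro s s'
  rw [one_mul]
  exact h18_clamp (1 / 2) s s'

theorem abs_clp_le (s : ℝ) : |clp s| ≤ 1 / 2 := by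
  exact abs_le.2 (h18_clamp_mem (by norm_num) s)

theorem clp_eq {s : ℝ} (h : |s| ≤ 1 / 2) : clp s = s := by
  exact h18_clamp_eq h

theorem ck_lip {g : ℝ} (hg : 0 < g) (s t s' t' : ℝ) :
    |clp s * kap g t - clp s' * kap g t'| ≤ 1 * |s - s'| + (1 / g) * |t - t'| := by
  have k0 : ∀ x, 0 ≤ kap g x := fun x => le_max_left _ _
  have k1 : ∀ x, kap g x ≤ 1 := fun x =>
    max_le zero_le_one (sub_le_self _ (div_nonneg (abs_nonneg _) hg.le))
  have k2 : |kap g t - kap g t'| ≤ (1 / g) * |t - t'| := by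
    unfold kap
    rw [max_comm 0, max_comm 0]
    refine (abs_max_sub_max_le_abs _ _ _).trans ?_
    have e : 1 - |t| / g - (1 - |t'| / g) = (1 / g) * (|t'| - |t|) := by ring
    rw [e, abs_mul, abs_of_pos (one_div_pos.2 hg), abs_sub_comm t]
    exact mul_le_mul_of_nonneg_left (abs_abs_sub_abs_le_abs_sub _ _) (one_div_pos.2 hg).le
  have c1 := clp_lip s s'
  have c2 := abs_clp_le s'
  calc |clp s * kap g t - clp s' * kap g t'|
      = |(clp s - clp s') * kap g t + clp s' * (kap g t - kap g t')| := by ring_nf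
    _ ≤ |clp s - clp s'| * kap g t + |clp s'| * |kap g t - kap g t'| := by
        refine (abs_add_le _ _).trans ?_
        rw [abs_mul, abs_mul, abs_of_nonneg (k0 t)]
    _ ≤ |clp s - clp s'| * 1 + 1 * |kap g t - kap g t'| :=
        add_le_add (mul_le_mul_of_nonneg_left (k1 t) (abs_nonneg _))
          (mul_le_mul_of_nonneg_right (by linarith) (abs_nonneg _))
    _ ≤ _ := by linarith

theorem h88_sub_lip (s t s' t' : ℝ) : |s - t - (s' - t')| ≤ 1 * |s - s'| + 1 * |t - t'| := by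
  rw [one_mul, one_mul, show s - t - (s' - t') = (s - s') - (t - t') by ring]
  exact abs_sub _ _

theorem h88_fst_lip {L : ℝ} {G : ℝ → ℝ} (hG : Lp1 L G) (s t s' t' : ℝ) :
    |G s - G s'| ≤ L * |s - s'| + 0 * |t - t'| := by
  rw [zero_mul, add_zero]
  exact hG s s'

/-- `TT_comp2` (for `β - r i`, for `ck_lip`, for `clp`), `TT.sum`; `r i ∈ T` by `Fam.compat`. -/
theorem tst_TT (hM : Fam Λ M) (hC : CH Λ M) {β : ℂ → ℝ} (B : Br Λ M β) (hT : TT Λ M β) (I : ℕ)
    {w : ℕ → ℂ → ℝ} (hw : ∀ i, TT Λ M (w i)) {g : ℝ} (hg : 0 < g) : TT Λ M (tst B I w g) := by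
  have h1 : ∀ i, TT Λ M (fun z => β z - B.r i z) := fun i =>
    TT_comp2 (G := fun s t => s - t) B.op hC h88_sub_lip hT
      ⟨(hM.reg _ (B.mem i)).xx, _, hM.compat _ (B.mem i)⟩
  have h2 := TT.sum B.op hM.reg (Finset.range I)
    (u := fun i z => clp (w i z) * kap g (β z - B.r i z)) fun i _ =>
      TT_comp2 (G := fun s t => clp s * kap g t) B.op hC (ck_lip hg) (hw i) (h1 i)
  exact TT_comp2 (G := fun s _ => clp s) B.op hC (h88_fst_lip clp_lip) h2 h2

/-- `Fib.comp2`, `Fib.sum`, `Fib.self`, `Fib.branch` -/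
theorem tst_fib {β : ℂ → ℝ} (B : Br Λ M β) (I : ℕ) {L : ℕ → ℝ} {G : ℕ → ℝ → ℝ}
    (hG : ∀ i, Lp1 (L i) (G i)) {g : ℝ} (hg : 0 < g) :
    Fib B (tst B I (fun i z => G i (B.r i z)) g) := by
  have h1 : ∀ i, Fib B (fun z => β z - B.r i z) := fun i =>
    Fib.comp2 (G := fun s t => s - t) (Fib.self B) (Fib.branch B i) h88_sub_lip
  have h3 : ∀ i, Fib B (fun z => G i (B.r i z)) := fun i =>
    Fib.comp2 (G := fun s _ => G i s) (Fib.branch B i) (Fib.branch B i) (h88_fst_lip (hG i))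
  have h2 := Fib.sum (B := B) (Finset.range I)
    (u := fun i z => clp (G i (B.r i z)) * kap g (β z - B.r i z)) fun i _ =>
      Fib.comp2 (G := fun s t => clp s * kap g t) (h3 i) (h1 i) (ck_lip hg)
  exact Fib.comp2 (G := fun s _ => clp s) h2 h2 (h88_fst_lip clp_lip)

/-- `F` = union over `i < I` of the sets of `Jmp.ends`; `N` separates `q` from the other points of
`F` (`Lumps.sep`, `W_mono`); `om_zero_of_loc` for `ψ = χ - χ'` (`A0.sub`), `tst_fib`,
`om_sub_left`. -/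
theorem tst_indep {β : ℂ → ℝ} (B : Br Λ M β) (I : ℕ) (q : Λ.E) {h : ℕ → ℝ → ℝ}
    {w : ℕ → ℂ → ℝ} (hw : ∀ i, Jmp Λ (B.r i) q (h i) (w i)) :
    ∃ N, ∀ g : ℝ, 0 < g → XX U (tst B I w g) → ∀ n ≥ N, ∀ n' ≥ N, ∀ χ χ', Ind Λ n q χ →
      Ind Λ n' q χ' → om U (fun z => tst B I w g z * χ z) β =
        om U (fun z => tst B I w g z * χ' z) β := by
  classical
  choose F L hL hF using fun i => (hw i).ends
  obtain ⟨N, hN⟩ := Λ.exists_reps_of (insert q ((Finset.range I).biUnion F))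
  refine ⟨N, fun g hg hx n hn n' hn' χ χ' hχ hχ' => ?_⟩
  have hsep : ∀ m ≥ N, ∀ p ∈ insert q ((Finset.range I).biUnion F), p ≠ q →
      Λ.W m p ≠ Λ.W m q := by
    intro m hm p hp hpq e
    obtain ⟨Q, hQ, -, hd⟩ := hN m hm
    have := hd p (hQ hp) q (hQ (Finset.mem_insert_self _ _)) hpq
    rw [e, disjoint_self] at this
    exact (Λ.conn m q).nonempty.ne_empty this
  obtain ⟨ha, hv⟩ := A0.sub B.op Λ hχ.1 hχ'.1
  have h0 := om_zero_of_loc B hx ha fun p => by
    by_cases hp : p ∈ insert q ((Finset.range I).biUnion F)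
    · left
      rw [hv, hχ.2, hχ'.2]
      by_cases hpq : p = q
      · subst hpq; simp
      · rw [if_neg (hsep n hn p hp hpq), if_neg (hsep n' hn' p hp hpq), sub_zero]
    · right
      have : ∀ i, ∃ m G, Lp1 (L i) G ∧ (i < I → ∀ z ∈ Λ.W m p, w i z = G (B.r i z)) := by
        intro i
        by_cases hi : i < I
        · obtain ⟨m, G, h1, h2⟩ := hF i p fun hpF => hp (Finset.mem_insert_of_mem
            (Finset.mem_biUnion.2 ⟨i, Finset.mem_range.2 hi, hpF⟩))
          exact ⟨m, G, h1, fun _ => h2⟩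
        · exact ⟨0, fun _ => 0, fun s s' => by
            rw [sub_zero, abs_zero]; exact mul_nonneg (hL i) (abs_nonneg _), fun h => absurd h hi⟩
      choose m G hG hm using this
      refine ⟨(Finset.range I).sup m, _, tst_fib B I hG hg, fun z hz => ?_⟩
      unfold tst
      congr 1
      refine Finset.sum_congr rfl fun i hi => ?_
      rw [hm i (Finset.mem_range.1 hi) z (Λ.W_mono (Finset.le_sup hi) p hz)]
  have h1 := om_sub_left B.op (XX.mul_A0 B.op Λ hx hχ.1) (XX.mul_A0 B.op Λ hx hχ'.1) B.reg.xx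
  simp only [← mul_sub] at h1
  rw [h0] at h1
  linarith

/-- Product rule a.e.  On `W n q` the test function is locally a `Fib` function (`Jmp.loc`,
`tst_fib`), so `wd (tst) β = 0` a.e. there (`measure_null_of_locally_null`,
`EventuallyEq.fderiv_eq`); off `W n q` the factor `χ` vanishes. -/
theorem tst_formula {β : ℂ → ℝ} (B : Br Λ M β) (I : ℕ) (q : Λ.E) {h : ℕ → ℝ → ℝ}
    {w : ℕ → ℂ → ℝ} (hw : ∀ i, Jmp Λ (B.r i) q (h i) (w i)) :
    ∃ N, ∀ g : ℝ, 0 < g → XX U (tst B I w g) → ∀ n ≥ N, ∀ χ, A0 U χ →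
      (∀ z, z ∉ Λ.W n q → χ z = 0) →
      om U (fun z => tst B I w g z * χ z) β = ∫ z in U, tst B I w g z * wd χ β z := by
  choose m hm using fun i => (hw i).loc
  refine ⟨(Finset.range I).sup m, fun g hg hx n hn χ hχ h0 => ?_⟩
  have key : volume {z | z ∈ Λ.W n q ∧ wd (tst B I w g) β z ≠ 0} = 0 := by
    refine measure_null_of_locally_null _ fun x hx' => ?_
    have : ∀ i, ∃ L G, Lp1 L G ∧ (i < I → ∀ᶠ y in 𝓝 x, w i y = G (B.r i y)) := by
      intro i
      by_cases hi : i < I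
      · obtain ⟨L, G, h1, h2⟩ := hm i x
          (Λ.W_mono ((Finset.le_sup (Finset.mem_range.2 hi)).trans hn) q hx'.1)
        exact ⟨L, G, h1, fun _ => h2⟩
      · exact ⟨0, fun _ => 0, fun s s' => by simp, fun h => absurd h hi⟩
    choose L G hG hL using this
    have hf := tst_fib B I hG hg
    have he : tst B I w g =ᶠ[𝓝 x] tst B I (fun i z => G i (B.r i z)) g := by
      filter_upwards [(Filter.eventually_all_finset (Finset.range I)).2
        fun i hi => hL i (Finset.mem_range.1 hi)] with y hy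
      unfold tst
      congr 1
      exact Finset.sum_congr rfl fun i hi => by rw [hy i hi]
    refine ⟨{y | ¬ (y ∈ U → wd (tst B I (fun i z => G i (B.r i z)) g) β y = 0)}, ?_,
      ae_iff.1 hf.wd0⟩
    filter_upwards [nhdsWithin_le_nhds he.eventuallyEq_nhds, self_mem_nhdsWithin] with y hy hy'
    intro h
    apply hy'.2
    have h2 := h (Λ.sub n q hy'.1).1
    unfold wd at h2 ⊢
    rw [hy.fderiv_eq]
    exact h2
  refine setIntegral_congr_ae B.op.measurableSet ?_
  filter_upwards [ae_diff B.op hx.lip, ae_diff B.op hχ.xx.lip, measure_eq_zero_iff_ae_notMem.1 key]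
    with z h1 h2 h3 hz
  have h4 : χ z * wd (tst B I w g) β z = 0 := by
    by_cases hzW : z ∈ Λ.W n q
    · have : wd (tst B I w g) β z = 0 := by
        by_contra hne
        exact h3 ⟨hzW, hne⟩
      rw [this, mul_zero]
    · rw [h0 z hzW, zero_mul]
  unfold wd at h4 ⊢
  rw [h90_fderiv_mul (h1 hz) (h2 hz), h90_fderiv_mul (h1 hz) (h2 hz)]
  linear_combination h4

theorem h74_kap_lim {x : ℝ} (hx : x ≠ 0) :
    Tendsto (fun k : ℕ => kap (1 / ((k : ℝ) + 1)) x) atTop (𝓝 0) := by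
  refine tendsto_const_nhds.congr' ?_
  have h0 := abs_pos.2 hx
  filter_upwards [tendsto_natCast_atTop_atTop.eventually_ge_atTop (1 / |x|)] with k hk
  rw [div_le_iff₀ h0] at hk
  rw [kap, max_eq_left]
  rw [div_div_eq_mul_div, div_one]
  nlinarith

theorem h74_clp_cont : Continuous clp := by unfold clp; fun_prop

theorem h74_kap_cont (g : ℝ) : Continuous (kap g) := by unfold kap; fun_prop

/-- Dominated convergence (`|tst| ≤ 1/2`).  For a.e. `z ∈ U` with `fderiv β z ≠ 0`: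
`r i z = β z ↔ z ∈ A i` (`ae_fderiv_eq_of_eq`, `B.ae`), so `kap g (β z - r i z) → 1_{A i} z`;
`w i z ≠ 0` and `z ∈ A i` force `β z ∈ T i`, so at most one term survives (`B.disj`) and the
outer clip is the identity.  Then `Br.wd_r`. -/
theorem tst_tendsto {β : ℂ → ℝ} (B : Br Λ M β) (I : ℕ) (q : Λ.E) {h : ℕ → ℝ → ℝ}
    {w : ℕ → ℂ → ℝ} (hw : ∀ i, Jmp Λ (B.r i) q (h i) (w i)) (h1 : ∀ i t, h i t ≤ 1)
    (hT : ∀ i t, t ∉ B.T i → h i t = 0) {χ : ℂ → ℝ} (hχ : A0 U χ) :
    Tendsto (fun k : ℕ => ∫ z in U, tst B I w (1 / ((k : ℝ) + 1)) z * wd χ β z) atTop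
      (𝓝 (∑ i ∈ Finset.range I, ∫ z in U, w i z * wd χ (B.r i) z)) := by
  have hUm := B.op.measurableSet
  have hwb : ∀ i, ∀ z ∈ U, |w i z| ≤ 1 / 2 := fun i z hz =>
    ((hw i).le z hz).trans (by linarith [h1 i (B.r i z)])
  have hrx : ∀ i, XX U (B.r i) := fun i => (B.mono i).reg.xx
  rw [← integral_finsetSum _ fun i _ => (wd_integrableOn hχ.xx.en (hrx i).en).bdd_mul (c := 1 / 2)
    ((hw i).xx.lip.continuousOn.aestronglyMeasurable hUm)
    ((ae_restrict_iff' hUm).2 (Eventually.of_forall (hwb i)))]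
  refine tendsto_integral_of_dominated_convergence (fun z => |wd χ β z|) (fun k => ?_)
    (wd_integrableOn hχ.xx.en B.reg.xx.en).abs (fun k => Eventually.of_forall fun z => ?_) ?_
  · refine (ContinuousOn.aestronglyMeasurable ?_ hUm).mul
      (h99_meas_wd χ β).aestronglyMeasurable
    exact h74_clp_cont.comp_continuousOn (continuousOn_finsetSum _ fun i _ =>
      (h74_clp_cont.comp_continuousOn (hw i).xx.lip.continuousOn).mul
        ((h74_kap_cont _).comp_continuousOn (B.c1.continuousOn.sub (hrx i).lip.continuousOn)))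
  · rw [Real.norm_eq_abs, abs_mul]
    exact mul_le_of_le_one_left (abs_nonneg _) ((abs_clp_le _).trans (by norm_num))
  rw [ae_restrict_iff' hUm]
  filter_upwards [ae_all_iff.2 fun i => B.wd_r i χ, ae_all_iff.2 B.ae,
    ae_all_iff.2 fun i => ae_fderiv_eq_of_eq B.op (hrx i).lip B.reg.xx.lip] with z a1 a2 a3 hz
  have e : ∑ i ∈ Finset.range I, w i z * wd χ (B.r i) z =
      (∑ i ∈ Finset.range I, w i z * (B.A i).indicator 1 z) * wd χ β z := by
    rw [Finset.sum_mul]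
    refine Finset.sum_congr rfl fun i _ => ?_
    rw [a1 i hz]
    by_cases hA : z ∈ B.A i <;> simp [hA]
  rw [e]
  by_cases hd : fderiv ℝ β z = 0
  · simp [wd, hd]
  refine Tendsto.mul_const _ ?_
  have hz0 : ∀ j, β z ∉ B.T j → w j z * (B.A j).indicator 1 z = 0 := fun j hj => by
    by_cases hA : z ∈ B.A j
    · have := (hw j).le z hz
      rw [B.eq j hA, hT j _ hj, zero_div, abs_nonpos_iff] at this
      rw [this, zero_mul]
    · simp [hA]
  have hS : |∑ i ∈ Finset.range I, w i z * (B.A i).indicator 1 z| ≤ 1 / 2 := by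
    by_cases hex : ∃ i, z ∈ B.A i ∧ β z ∈ B.T i
    · obtain ⟨i, hi, hi'⟩ := hex
      have h0 : ∀ j, j ≠ i → w j z * (B.A j).indicator 1 z = 0 := fun j hj => by
        by_cases hA : z ∈ B.A j
        · exact hz0 j (B.disj i j hj.symm z ⟨hi, hA⟩ hi')
        · simp [hA]
      by_cases hiI : i ∈ Finset.range I
      · rw [Finset.sum_eq_single_of_mem i hiI fun j _ hj => h0 j hj]
        simpa [hi] using hwb i z hz
      · rw [Finset.sum_eq_zero fun j hj => h0 j fun e => hiI (e ▸ hj)]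
        norm_num
    · rw [Finset.sum_eq_zero fun j _ => ?_]
      · norm_num
      · by_cases hA : z ∈ B.A j
        · exact hz0 j fun h' => hex ⟨j, hA, h'⟩
        · simp [hA]
  rw [← clp_eq hS]
  refine (h74_clp_cont.tendsto _).comp (tendsto_finsetSum _ fun i _ => ?_)
  rw [clp_eq (hwb i z hz)]
  refine Tendsto.const_mul _ ?_
  by_cases hA : z ∈ B.A i
  · simp [hA, kap, B.eq i hA]
  · rw [indicator_of_notMem hA]
    exact h74_kap_lim fun h0 => hd (by rw [← a3 i hz (sub_eq_zero.1 h0).symm, a2 i hz hA])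

theorem var_jmp (hM : Fam Λ M) (hC : CH Λ M) {β : ℂ → ℝ} (B : Br Λ M β) (hT : TT Λ M β)
    {k : Λ.E → ℝ} (hB : B2 Λ M β k) (I : ℕ) (q : Λ.E) {h : ℕ → ℝ → ℝ} {w : ℕ → ℂ → ℝ}
    (hw : ∀ i, Jmp Λ (B.r i) q (h i) (w i)) (h1 : ∀ i t, h i t ≤ 1)
    (h0 : ∀ i t, t ∉ B.T i → h i t = 0) : ∑ i ∈ Finset.range I, ∫ t, h i t ≤ k q := by
  classical
  have hU := B.op
  have hwT : ∀ i, TT Λ M (w i) := fun i => (hw i).TT hU hM hC (B.mem i) (h1 i)
  obtain ⟨N₁, hN₁⟩ := tst_indep B I q hw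
  obtain ⟨N₂, hN₂⟩ := tst_formula B I q hw
  choose nf hnf using fun i => (hw i).flux
  set n := max (max N₁ N₂) ((Finset.range I).sup nf) with hn
  obtain ⟨χ, hχ, -, -, hχ0, -⟩ := exists_Ind hU Λ n q
  have hval : Λ.val χ q = 1 := by rw [hχ.2 q, if_pos rfl]
  have hsum : ∑ i ∈ Finset.range I, ∫ z in U, w i z * wd χ (B.r i) z =
      ∑ i ∈ Finset.range I, ∫ t, h i t := by
    refine Finset.sum_congr rfl fun i hi => hnf i χ hχ.1 (fun z _ hz => hχ0 z fun hz' => hz ?_) hval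
    exact Λ.W_mono ((Finset.le_sup hi).trans (le_max_right _ _)) q hz'
  have hlim := tst_tendsto B I q hw h1 h0 hχ.1
  rw [hsum] at hlim
  refine le_of_tendsto' hlim fun j => ?_
  have hg : (0 : ℝ) < 1 / ((j : ℝ) + 1) := by positivity
  have hv := tst_TT hM hC B hT I hwT hg
  rw [← hN₂ _ hg hv.1 n ((le_max_right _ _).trans (le_max_left _ _)) χ hχ.1 hχ0]
  refine le_of_forall_pos_le_add fun η hη => ?_
  obtain ⟨m, hm, hle⟩ := hB q _ 1 hv (fun z _ => abs_clp_le _) η hη N₁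
  obtain ⟨χ', hχ', -⟩ := exists_Ind hU Λ m q
  rw [hN₁ _ hg hv.1 n ((le_max_left _ _).trans (le_max_left _ _)) m hm χ χ' hχ hχ']
  have := (abs_le.1 (hle χ' hχ')).2
  linarith

theorem Br.O_open {β : ℂ → ℝ} (B : Br Λ M β) (i : ℕ) (q : Λ.E) : IsOpen (B.O i q) := by
  exact ((B.Top i).inter (B.image_open i (B.Aop i) subset_rfl)).inter isOpen_Ioo

/-- VAR.  Inner regularity gives compact `K i ⊆ O i q` of almost full measure
(`IsOpen.exists_lt_isCompact` / `MeasurableSet.exists_isCompact_lt_add`); `exists_jmp` for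
`r i` with `A = A i` (there `r i = β`, so `r i '' A i = β '' A i`, `r i` is `C¹` with nonzero
derivative), `O = T i`; `volume.real (K i) ≤ ∫ h i`; `var_jmp`. -/
theorem var (hM : Fam Λ M) (hC : CH Λ M) {β : ℂ → ℝ} (B : Br Λ M β) (hT : TT Λ M β)
    {k : Λ.E → ℝ} (hB : B2 Λ M β k) (I : ℕ) (q : Λ.E) :
    ∑ i ∈ Finset.range I, volume.real (B.O i q) ≤ k q := by
  refine le_of_forall_pos_le_add fun ε hε => ?_
  have hδ : 0 < ε / (I + 1) := by positivity
  have key : ∀ i, ∃ h w, Jmp Λ (B.r i) q h w ∧ (∀ t, h t ≤ 1) ∧ (∀ t, t ∉ B.T i → h t = 0) ∧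
      volume.real (B.O i q) ≤ (∫ t, h t) + ε / (I + 1) := by
    intro i
    have hfin : volume (B.O i q) ≠ ⊤ :=
      ((measure_mono inter_subset_right).trans_lt measure_Ioo_lt_top).ne
    obtain ⟨K, hKO, hK, hlt⟩ := (B.O_open i q).measurableSet.exists_isCompact_lt_add hfin
      (ENNReal.ofReal_pos.2 hδ).ne'
    have he : ∀ z ∈ B.A i, B.r i =ᶠ[𝓝 z] β := fun z hz =>
      (B.eq i).eventuallyEq_of_mem ((B.Aop i).mem_nhds hz)
    obtain ⟨h, w, hj, h01, h1, h0⟩ := exists_jmp B.op (B.mono i) q (B.Aop i) (B.Asub i)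
      ((B.c1.mono (B.Asub i)).congr (B.eq i))
      (fun z hz => by rw [(he z hz).fderiv_eq]; exact B.ne i z hz) (B.Top i) hK
      (by rw [(B.eq i).image_eq]; exact hKO)
    refine ⟨h, w, hj, fun t => (h01 t).2, h0, ?_⟩
    have e1 : volume.real K ≤ ∫ t, h t := by
      have e2 : ∫ t in K, h t = volume.real K := by
        rw [setIntegral_congr_fun hK.isClosed.measurableSet (g := fun _ => (1 : ℝ)) h1]
        simp
      rw [← e2]
      exact setIntegral_le_integral hj.int (Eventually.of_forall fun t => (h01 t).1)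
    have e3 := ENNReal.toReal_mono
      (ENNReal.add_ne_top.2 ⟨hK.measure_lt_top.ne, ENNReal.ofReal_ne_top⟩) hlt.le
    rw [ENNReal.toReal_add hK.measure_lt_top.ne ENNReal.ofReal_ne_top,
      ENNReal.toReal_ofReal hδ.le] at e3
    exact e3.trans (add_le_add e1 le_rfl)
  choose h w hj h1 h0 hle using key
  refine (Finset.sum_le_sum fun i _ => hle i).trans ?_
  rw [Finset.sum_add_distrib, Finset.sum_const, Finset.card_range, nsmul_eq_mul]
  refine add_le_add (var_jmp hM hC B hT hB I q hj h1 h0) ?_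
  rw [← mul_div_assoc, div_le_iff₀ (by positivity)]
  nlinarith

end Crest.Agent.R105.Mx
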