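import Crest.Agent.R105.NT3

/-! Row 105: corollaries of the chain lemma (monotonicity, locality, oscillation weight,
uniform limits). -/

set_option autoImplicit false

open MeasureTheory Set Filter Topology
open scoped ENNReal

namespace Crest.Agent.R105

variable {U : Set ℂ}

/-- larger weights and larger exclusion sets (`tsum_le_tsum`, `wt_l2`, `L2w.summable_mul`) -/
theorem Adm.mono {Λ : Lumps U} {M : Set (ℂ → ℝ)} (hM : ∀ r ∈ M, Reg Λ r) {F F' : Finset Λ.E}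
    {u : ℂ → ℝ} {e e' : Λ.E → ℝ} (h : Adm Λ M F u e) (hF : F ⊆ F') (he' : L2w e')
    (hle : ∀ q, q ∉ F' → e q ≤ e' q) : Adm Λ M F' u e' := by
  refine ⟨he', fun r hr H hH χ hχ h0 => (h.le r hr H hH χ hχ fun p hp => h0 p (hF hp)).trans ?_⟩
  have hw := wt_l2 Λ (hM r hr) hH hχ
  refine Summable.tsum_le_tsum (fun q => ?_) (h.l2.summable_mul hw).1 (he'.summable_mul hw).1
  by_cases hq : q ∈ F'
  · simp [wt, h0 q hq]
  · exact mul_le_mul_of_nonneg_right (hle q hq) (hw.1 q)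

/-- one-variable chain lemma without exclusion (`CH` with `G s t = T s`, `L₂ = 0`) -/
theorem CH.lip {Λ : Lumps U} {M : Set (ℂ → ℝ)} (hC : CH Λ M) {u : ℂ → ℝ} {e : Λ.E → ℝ}
    (hu : XX U u) (h : Adm Λ M ∅ u e) {T : ℝ → ℝ} {L : ℝ} (hL : 0 ≤ L)
    (hT : ∀ s s', |T s - T s'| ≤ L * |s - s'|) :
    Adm Λ M ∅ (fun z => T (u z)) (fun q => L * e q) := by
  simpa using hC ∅ u u e e (fun s _ => T s) L 0 0 hu hu h h hL le_rfl le_rfl
    (fun s t s' t' => by simpa using hT s s') (Or.inl rfl)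

/-- a bounded function that is admissible off a finite set lies in `T`
(`CH` with `G s t = max (-B) (min B s)`, which fixes `u` on `U`; `om_congr`) -/
theorem CH.remove (hU : IsOpen U) {Λ : Lumps U} {M : Set (ℂ → ℝ)} (hC : CH Λ M)
    {F : Finset Λ.E} {u : ℂ → ℝ} {e : Λ.E → ℝ} (hu : XX U u) (hb : Bdd U u)
    (h : Adm Λ M F u e) : TT Λ M u := by
  obtain ⟨B, hB⟩ := hb
  have h1 := hC F u u e e (fun s _ => max (-|B|) (min s |B|)) 1 0 (2 * |B|) hu hu h h zero_le_one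
    le_rfl (by positivity) (fun s t s' t' => by simpa using h18_clamp |B| s s')
    (Or.inr fun s t => by
      rw [mul_div_cancel_left₀ _ two_ne_zero]
      exact abs_le.2 (h18_clamp_mem (abs_nonneg B) s))
  refine ⟨hu, _, h1.l2, fun r hr H hH χ hχ h0 => ?_⟩
  rw [om_congr hU (u' := fun z => max (-|B|) (min (u z) |B|) * χ z) (fun z hz => by
    simp only [h18_clamp_eq ((hB z hz).trans (le_abs_self B))]) (eqOn_refl _ _)]
  exact h1.le r hr H hH χ hχ h0

open Classical in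
/-- Splitting an admissibility estimate into lumps.  Take representatives `Q` of level `n`
(`exists_reps`) and cutoffs `χ_p` (`exists_Ind`); `u χ = Σ_p u (χ χ_p) + u χ (1 - Σ χ_p)`, the last
term vanishes on deep lumps so pairs to zero (`om_germ`); apply the hypothesis to `χ χ_p ∈ A0`
whose value is `val χ q` for `q` in the lump of `p` and `0` otherwise, so that
`Σ_p wt (χ χ_p) = wt χ`; exchange the finite sum with the `tsum`. -/
theorem om_le_of_lumps (hU : IsOpen U) {Λ : Lumps U} {r : ℂ → ℝ} (hr : Reg Λ r) {H : ℝ → ℝ}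
    (hH : ContDiff ℝ 1 H) {u χ : ℂ → ℝ} (hu : XX U u) (hχ : A0 U χ) {e : Λ.E → ℝ} (he : L2w e)
    (n : ℕ) (h : ∀ p ψ, A0 U ψ →
      (∀ q, Λ.val ψ q = if Λ.W n q = Λ.W n p then Λ.val χ q else 0) →
      |om U (fun z => u z * ψ z) (fun z => H (r z))| ≤ ∑' q, e q * wt Λ r H ψ q) :
    |om U (fun z => u z * χ z) (fun z => H (r z))| ≤ ∑' q, e q * wt Λ r H χ q := by
  obtain ⟨Q, hQ1, hQ2⟩ := Λ.exists_reps n
  choose I hI using fun p => exists_Ind hU Λ n p
  have hc : XX U (fun z => H (r z)) := XX.comp_C1 hU hH hr.xx hr.bdd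
  have hψ : ∀ p, A0 U (fun z => χ z * I p z) := fun p => (A0.mul hU Λ hχ (hI p).1.1).1
  have hval : ∀ p q, Λ.val (fun z => χ z * I p z) q =
      if Λ.W n q = Λ.W n p then Λ.val χ q else 0 := by
    intro p q
    rw [(A0.mul hU Λ hχ (hI p).1.1).2 q, (hI p).1.2 q]
    split_ifs <;> simp
  have hone : ∀ (q) (a : ℝ), ∑ p ∈ Q, (if Λ.W n q = Λ.W n p then a else 0) = a := by
    intro q a
    obtain ⟨p0, hp0, hq⟩ := hQ1 q
    rw [Finset.sum_eq_single p0, if_pos hq]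
    · intro p hp hne
      rw [if_neg]
      intro hp'
      obtain ⟨z, hz⟩ := (Λ.conn n q).nonempty
      exact Set.disjoint_left.1 (hQ2 p hp p0 hp0 hne) (hp' ▸ hz) (hq ▸ hz)
    · intro h'
      exact absurd hp0 h'
  have hx : ∀ p, XX U (fun z => u z * (χ z * I p z)) := fun p => XX.mul_A0 hU Λ hu (hψ p)
  have hS := A0.sum hU Λ Q (fun _ => (1 : ℝ)) (χ := I) fun p _ => (hI p).1.1
  have hsplit : om U (fun z => u z * χ z) (fun z => H (r z)) =
      om U (fun z => ∑ p ∈ Q, u z * (χ z * I p z)) (fun z => H (r z)) := by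
    refine om_germ_congr hU Λ (XX.mul_A0 hU Λ hu hχ) (XX.sum hU Q fun p _ => hx p) hc hc
      fun q => ?_
    obtain ⟨N, hN⟩ := A0.eq_val Λ hS.1
    refine ⟨N, 0, 0, fun z hz => ?_, fun z _ => (add_zero _).symm⟩
    have h1 := hN N le_rfl q z hz
    rw [hS.2 q] at h1
    simp only [one_mul, (hI _).1.2 q, hone] at h1
    rw [add_zero, ← Finset.mul_sum, ← Finset.mul_sum, h1, mul_one]
  rw [hsplit, om_sum_left hU Q (fun p _ => hx p) hc]
  refine (Finset.abs_sum_le_sum_abs _ _).trans ?_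
  refine (Finset.sum_le_sum fun p _ => h p _ (hψ p) (hval p)).trans (le_of_eq ?_)
  rw [← Summable.tsum_finsetSum fun p _ => (L2w.summable_mul he (wt_l2 Λ hr hH (hψ p))).1]
  refine tsum_congr fun q => ?_
  rw [← Finset.mul_sum]
  congr 1
  unfold wt
  rw [← Finset.sum_mul]
  congr 1
  rw [← hone q |Λ.val χ q|]
  refine Finset.sum_congr rfl fun p _ => ?_
  rw [hval]
  split_ifs <;> simp

/-- LOCALITY.  Given `χ` vanishing at `F`, `koenig'` with
`P s := (∀ z ∈ s, χ z = 0) ∨ ∃ T L-Lipschitz, ∀ z ∈ s, g z = T (u z)` (for `q ∈ F` use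
`A0.eq_val`) gives a level `n`; use `om_le_of_lumps`.  For a lump with `χ = 0` all values of `ψ`
vanish, `g ψ` vanishes on deep lumps, `om_germ`.  Otherwise `om (g ψ) = om (T(u) ψ)` by
`om_germ_congr` (at ends outside the lump `ψ = 0` on deep lumps) and `CH.lip` applies. -/
theorem Adm.loc (hU : IsOpen U) {Λ : Lumps U} {M : Set (ℂ → ℝ)} (hM : ∀ r ∈ M, Reg Λ r)
    (hC : CH Λ M) {F : Finset Λ.E} {u g : ℂ → ℝ} {e : Λ.E → ℝ} (hu : XX U u) (hg : XX U g)
    (h : Adm Λ M ∅ u e) {L : ℝ} (hL : 0 ≤ L)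
    (hq : ∀ q, q ∉ F → ∃ (n : ℕ) (T : ℝ → ℝ), (∀ s s', |T s - T s'| ≤ L * |s - s'|) ∧
      ∀ z ∈ Λ.W n q, g z = T (u z)) : Adm Λ M F g (fun q => L * e q) := by
  classical
  have hl2 : L2w (fun q => L * e q) := (L2w.smul h.l2 hL).1
  refine ⟨hl2, fun r hr H hH χ hχ hF => ?_⟩
  have hc : XX U (fun z => H (r z)) := XX.comp_C1 hU hH (hM r hr).xx (hM r hr).bdd
  obtain ⟨N, hN⟩ := Λ.koenig' (fun s => (∀ z ∈ s, χ z = 0) ∨ ∃ T : ℝ → ℝ,
      (∀ s s', |T s - T s'| ≤ L * |s - s'|) ∧ ∀ z ∈ s, g z = T (u z))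
    (fun s t hst ht => ht.imp (fun h0 z hz => h0 z (hst hz))
      fun ⟨T, hT, h0⟩ => ⟨T, hT, fun z hz => h0 z (hst hz)⟩) (by
      intro q
      by_cases hqF : q ∈ F
      · obtain ⟨N, hN⟩ := A0.eq_val Λ hχ
        exact ⟨N, Or.inl fun z hz => (hN N le_rfl q z hz).trans (hF q hqF)⟩
      · obtain ⟨n, T, hT⟩ := hq q hqF
        exact ⟨n, Or.inr ⟨T, hT⟩⟩)
  refine om_le_of_lumps hU (hM r hr) hH hg hχ hl2 N fun p ψ hψ hval => ?_
  obtain ⟨N', hN'⟩ := A0.eq_val Λ hψ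
  rcases hN N le_rfl p with h0 | ⟨T, hT, h0⟩
  · have hz : ∀ q, Λ.val ψ q = 0 := by
      intro q
      rw [hval]
      split_ifs with hqp
      · exact (val_eq Λ (A0.bdd Λ hχ) (n := N) (fun z hz => h0 z (hqp ▸ hz))).1
      · rfl
    rw [om_germ hU Λ (XX.mul_A0 hU Λ hg hψ) hc fun q => ⟨N', 0, Or.inl fun z hz' => by
      rw [hN' N' le_rfl q z hz', hz, mul_zero]⟩, abs_zero]
    exact tsum_nonneg fun q => mul_nonneg (hl2.1 q) ((wt_l2 Λ (hM r hr) hH hψ).1 q)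
  · have h1 := (CH.lip hC hu h hL hT).le r hr H hH ψ hψ (by simp)
    rw [om_germ_congr hU Λ (XX.mul_A0 hU Λ hg hψ) (XX.mul_A0 hU Λ (XX.comp_lip hU hT hu) hψ)
      hc hc fun q => ?_]
    · exact h1
    · by_cases hqp : Λ.W N q = Λ.W N p
      · exact ⟨N, 0, 0, fun z hz => by rw [h0 z (hqp ▸ hz), add_zero],
          fun z _ => (add_zero _).symm⟩
      · refine ⟨N', 0, 0, fun z hz => ?_, fun z _ => (add_zero _).symm⟩
        rw [hN' N' le_rfl q z hz, hval, if_neg hqp]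
        simp

theorem h67_clip_lip (m b s s' : ℝ) :
    |max (-b) (min b (s - m)) - max (-b) (min b (s' - m))| ≤ |s - s'| := by
  refine (abs_max_sub_max_le_max _ _ _ _).trans (max_le (by simp) ?_)
  refine (abs_min_sub_min_le_max _ _ _ _).trans (max_le (by simp) (le_of_eq ?_))
  congr 1; ring

open Classical in
theorem h67_osc_aux (hU : IsOpen U) {Λ : Lumps U} {M : Set (ℂ → ℝ)} (hM : ∀ r ∈ M, Reg Λ r)
    (hC : CH Λ M) {u : ℂ → ℝ} (hu : Reg Λ u) {e₀ e : Λ.E → ℝ} (h₀ : Adm Λ M ∅ u e₀) (he : L2w e)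
    (F : Finset Λ.E) {η : ℝ} (hη : 0 < η) (h1 : ∀ q ∈ F, Λ.osc u q + 2 * η ≤ e q)
    (h2 : ∀ q, q ∉ F → e₀ q ≤ e q) {r : ℂ → ℝ} (hr : r ∈ M) {H : ℝ → ℝ} (hH : ContDiff ℝ 1 H)
    {χ : ℂ → ℝ} (hχ : A0 U χ) :
    |om U (fun z => u z * χ z) (fun z => H (r z))| ≤ ∑' q, e q * wt Λ r H χ q := by
  obtain ⟨N, hN⟩ := Λ.exists_reps_of F
  choose f hf using fun q => Λ.near hu.bdd q hη
  set n := max N (F.sup f) with hn
  obtain ⟨Q, hFQ, -, hQ⟩ := hN n (le_max_left _ _)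
  have hnear : ∀ p ∈ F, ∀ z ∈ Λ.W n p, u z ∈ Icc (Λ.lo u p - η) (Λ.hi u p + η) :=
    fun p hp z hz => hf p z (Λ.W_mono ((Finset.le_sup hp).trans (le_max_right _ _)) p hz)
  refine om_le_of_lumps hU (hM r hr) hH hu.xx hχ he n fun p ψ hψ hv => ?_
  have hw := wt_l2 Λ (hM r hr) hH hψ
  have hw0 : ∀ q, Λ.W n q ≠ Λ.W n p → wt Λ r H ψ q = 0 := fun q hq => by
    rw [wt, hv q, if_neg hq, abs_zero, zero_mul]
  by_cases hp : ∃ p₀ ∈ F, Λ.W n p₀ = Λ.W n p
  · obtain ⟨p₀, hp₀, hp⟩ := hp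
    have ho := Λ.osc_nonneg hu.bdd p₀
    set m := (Λ.lo u p₀ + Λ.hi u p₀) / 2 with hm
    set B := Λ.osc u p₀ + 2 * η with hB
    have hB0 : 0 ≤ B := by positivity
    have hG : ∀ s t s' t' : ℝ, |max (-(B / 2)) (min (B / 2) (s - m)) -
        max (-(B / 2)) (min (B / 2) (s' - m))| ≤ 1 * |s - s'| + 0 * |t - t'| := by
      intro s t s' t'
      rw [one_mul, zero_mul, add_zero]
      exact h67_clip_lip _ _ _ _
    have hF : Adm Λ M F u e₀ := h₀.mono hM (Finset.empty_subset _) h₀.l2 fun _ _ => le_rfl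
    have hA := hC F u u e₀ e₀ (fun s _ => max (-(B / 2)) (min (B / 2) (s - m))) 1 0 B hu.xx hu.xx
      hF hF zero_le_one le_rfl hB0 hG (Or.inr fun s _ => abs_le.2
        ⟨le_max_left _ _, max_le (by linarith) (min_le_left _ _)⟩)
    have hX := XX.comp2 (G := fun s _ => max (-(B / 2)) (min (B / 2) (s - m))) hU hG hu.xx hu.xx
    have hc := XX.comp_C1 hU hH (hM r hr).xx (hM r hr).bdd
    obtain ⟨N', hN'⟩ := hψ.eq_val Λ
    rw [om_germ_congr hU Λ (hu.xx.mul_A0 hU Λ hψ) (hX.mul_A0 hU Λ hψ) hc hc fun q =>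
      ⟨max N' n, m * Λ.val ψ q, 0, fun z hz => ?_, fun z _ => (add_zero _).symm⟩]
    · refine (hA.le r hr H hH ψ hψ (by simp)).trans (Summable.tsum_le_tsum (fun q => ?_)
        (hA.l2.summable_mul hw).1 (he.summable_mul hw).1)
      by_cases hq : Λ.W n q = Λ.W n p
      · refine mul_le_mul_of_nonneg_right ?_ (hw.1 q)
        split_ifs with hqF
        · have : q = p₀ := by
            by_contra hne
            have h3 := hQ q (hFQ hqF) p₀ (hFQ hp₀) hne
            rw [hq, hp, disjoint_self] at h3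
            exact (Λ.conn n p).nonempty.ne_empty h3
          rw [this]
          exact h1 p₀ hp₀
        · rw [one_mul, zero_mul, add_zero]
          exact h2 q hqF
      · rw [hw0 q hq, mul_zero, mul_zero]
    · rw [hN' _ (le_max_left _ _) q z hz]
      by_cases hq : Λ.W n q = Λ.W n p
      · have h3 := hnear p₀ hp₀ z (by
          rw [hp, ← hq]; exact Λ.W_mono (le_max_right _ _) q hz)
        have h4 : Λ.osc u p₀ = Λ.hi u p₀ - Λ.lo u p₀ := rfl
        rw [min_eq_right (by linarith [h3.2]), max_eq_right (by linarith [h3.1])]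
        ring
      · rw [hv q, if_neg hq]
        ring
  · refine (h₀.le r hr H hH ψ hψ (by simp)).trans (Summable.tsum_le_tsum (fun q => ?_)
      (h₀.l2.summable_mul hw).1 (he.summable_mul hw).1)
    by_cases hqF : q ∈ F
    · rw [hw0 q fun h => hp ⟨q, hqF, h⟩, mul_zero, mul_zero]
    · exact mul_le_mul_of_nonneg_right (h2 q hqF) (hw.1 q)

/-- The oscillation is an admissible weight on `Reg ∩ T`.  Let `e₀` be admissible, `η > 0`,
`F` finite with tail `nrm (e₀ off F) ≤ η` (`L2w.tail`).  Take a level `n` that separates `F`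
(`exists_reps_of` or `Lumps.sep`) and with `u ∈ [lo p - η', hi p + η']` on `W n p`, `p ∈ F`
(`Lumps.near`).  Apply `om_le_of_lumps` with `e = if q ∈ F then osc q + 2η' else e₀ q`: on the lump
of `p ∈ F`, `u = m + G(u)` with `m` the midpoint and `G` the clipped function bounded by
`(osc p + 2η')/2`; `om (u ψ) = om (G(u) ψ)` (`om_germ_congr`, or subtract and use `om_A0` with
`om_skew` for `m ψ` and `om_germ`), `CH` with exclusion `F` and `B = osc p + 2η'`; the other ends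
of `F` have `wt ψ = 0`.  On lumps without a point of `F` use `e₀`.  Finally
`Σ e wt ≤ Σ osc wt + 2η' Σ_F wt + η nrm wt`; let `η' → 0`, then `η → 0`. -/
theorem Adm.osc (hU : IsOpen U) {Λ : Lumps U} {M : Set (ℂ → ℝ)} (hM : ∀ r ∈ M, Reg Λ r)
    (hC : CH Λ M) {u : ℂ → ℝ} (hu : Reg Λ u) (hT : TT Λ M u) : Adm Λ M ∅ u (Λ.osc u) := by
  classical
  obtain ⟨-, e₀, h₀⟩ := hT
  have ho : L2w (Λ.osc u) := ⟨Λ.osc_nonneg hu.bdd, hu.sq⟩
  refine ⟨ho, fun r hr H hH χ hχ _ => ?_⟩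
  have hw := wt_l2 Λ (hM r hr) hH hχ
  have hn : 0 ≤ nrm (wt Λ r H χ) := Real.sqrt_nonneg _
  refine le_of_forall_pos_le_add fun ε hε => ?_
  have hθ : 0 < ε / (2 * (nrm (wt Λ r H χ) + 1)) := by positivity
  obtain ⟨F, hF⟩ := h₀.l2.tail hθ
  have ht : L2w fun q => if q ∈ F then 0 else e₀ q :=
    (h₀.l2.of_le (fun q => by split_ifs; exacts [le_rfl, h₀.l2.1 q])
      fun q => by split_ifs; exacts [h₀.l2.1 q, le_rfl]).1
  have hi : L2w fun q => if q ∈ F then (1 : ℝ) else 0 :=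
    ⟨fun q => by dsimp only; split_ifs; exacts [zero_le_one, le_rfl],
      summable_of_ne_finset_zero (s := F) fun q hq => by simp [hq]⟩
  have hi0 : 0 ≤ nrm fun q => if q ∈ F then (1 : ℝ) else 0 := Real.sqrt_nonneg _
  set θ := ε / (2 * (nrm (wt Λ r H χ) + 1)) with hθe
  set a := θ / ((nrm fun q => if q ∈ F then (1 : ℝ) else 0) + 1) with ha
  have ha0 : 0 < a := by positivity
  obtain ⟨hf, hfn⟩ := hi.smul ha0.le
  obtain ⟨hs, hsn⟩ := ht.add hf
  have h1 := h67_osc_aux hU hM hC hu h₀ (ho.add hs).1 F (half_pos ha0)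
    (fun q hq => by simp only [if_pos hq]; linarith)
    (fun q hq => by simp only [if_neg hq]; linarith [ho.1 q]) hr hH hχ
  refine h1.trans ?_
  simp only [add_mul _ _ (wt Λ r H χ _)] at h1 ⊢
  have h2 := hs.summable_mul hw
  simp only [add_mul _ _ (wt Λ r H χ _)] at h2
  rw [(ho.summable_mul hw).1.tsum_add h2.1]
  refine add_le_add le_rfl (h2.2.trans ?_)
  have h3 : a * (nrm fun q => if q ∈ F then (1 : ℝ) else 0) ≤ θ := by
    rw [ha, div_mul_eq_mul_div, div_le_iff₀ (by positivity)]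
    nlinarith
  have h4 := hF F (Finset.Subset.refl _)
  have h5 : θ * (2 * (nrm (wt Λ r H χ) + 1)) = ε := div_mul_cancel₀ _ (by positivity)
  have h6 := mul_le_mul_of_nonneg_right (hsn.trans (add_le_add h4 (hfn.trans_le h3))) hn
  nlinarith

/-- uniform limits with bounded energy keep a common weight: `om_tendsto_weak` for `uk χ`,
whose energies are bounded since `uk` is eventually uniformly bounded and `χ ∈ A0` is bounded
(`norm_fderiv` of a product, or `En_add_le` and `XX.mul`-type estimates). -/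
theorem Adm.limit (hU : IsOpen U) {Λ : Lumps U} {M : Set (ℂ → ℝ)} (hM : ∀ r ∈ M, Reg Λ r)
    {F : Finset Λ.E} {u : ℂ → ℝ} {uk : ℕ → ℂ → ℝ} {e : Λ.E → ℝ} (hu : XX U u) (hb : Bdd U u)
    (huk : ∀ k, XX U (uk k)) {D : ℝ≥0∞} (hD : D < ⊤) (hE : ∀ k, En U (uk k) ≤ D)
    (hl : TendstoUniformlyOn uk u atTop U) (h : ∀ k, Adm Λ M F (uk k) e) : Adm Λ M F u e := by
  refine ⟨(h 0).l2, fun r hr H hH χ hχ h0 => ?_⟩
  have hc : XX U fun z => H (r z) := XX.comp_C1 hU hH (hM r hr).xx (hM r hr).bdd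
  have h1 := (om_tendsto_weak hU hu (XX.mul_A0 hU Λ hc hχ) huk hD hE hl).abs
  rw [om_mul_swap hU Λ hu hc hχ]
  refine le_of_tendsto' h1 fun k => ?_
  rw [← om_mul_swap hU Λ (huk k) hc hχ]
  exact (h k).le r hr H hH χ hχ h0

end Crest.Agent.R105
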