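import Crest.Agent.R105.NSt

/-! Row 105: monotone branches of a `C¹` element of `Reg ∩ T`. -/

set_option autoImplicit false

open MeasureTheory Set Filter Topology
open scoped ENNReal

namespace Crest.Agent.R105

variable {U : Set ℂ}

/-- two pass straightening with lower pole `m` and upper pole `p` -/
noncomputable def Str (U : Set ℂ) (β : ℂ → ℝ) (m p : ℂ) : ℂ → ℝ := Dn U (Up U β m) p

/-- the open set on which the straightening is the given function -/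
def SA (U : Set ℂ) (β : ℂ → ℝ) (m p : ℂ) : Set ℂ :=
  interior {z | Up U β m z = β z ∧ Str U β m p z = β z} ∩ {z | z ∈ U ∧ fderiv ℝ β z ≠ 0}

/-- levels near which the two straightenings agree -/
def SK (U : Set ℂ) (β : ℂ → ℝ) (m p m' p' : ℂ) : Set ℝ :=
  {t | ∃ s, s < t ∧ ∃ z ∈ U, Up U β m z < s ∧ Up U β m' z < s} ∩
    {t | ∃ s, t < s ∧ ∃ z ∈ U, s < Str U β m p z ∧ s < Str U β m' p' z}

/-- from `StH.neg`, `Dn_bdd`, `Dn_lip` -/
theorem StH.up {β : ℂ → ℝ} {m p : ℂ} (h : StH U β m) (hl : LocallyLipschitzOn U β) (hp : p ∈ U) :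
    StH U (Up U β m) p ∧ LocallyLipschitzOn U (Up U β m) := by
  have h1 : LocallyLipschitzOn U (Up U β m) := (h.neg.Dn_lip hl.neg).neg
  refine ⟨⟨h.op, h.conn, h1.continuousOn, ?_, hp⟩, h1⟩
  obtain ⟨B, hB⟩ := h.neg.Dn_bdd
  exact ⟨B, fun z hz => by rw [Up, abs_neg]; exact hB z hz⟩

/-- `Dn_local` twice: `Up = max β s'` on `N`, its superlevel sets in `N` are `N` or those of `β` -/
theorem Str_local {β : ℂ → ℝ} {m p : ℂ} (h : StH U β m) (hl : LocallyLipschitzOn U β) (hp : p ∈ U)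
    {N : Set ℂ} (hN : N ⊆ U) (h0 : IsPreconnected N)
    (h1 : ∀ t, IsPreconnected {w | w ∈ N ∧ t < β w})
    (h2 : ∀ t, IsPreconnected {w | w ∈ N ∧ β w < t}) :
    ∃ s' s, ∀ z ∈ N, Up U β m z = max (β z) s' ∧ Str U β m p z = min (max (β z) s') s := by
  obtain ⟨s₁, hs₁⟩ := h.neg.Dn_local hN fun t => by
    have e : {z | z ∈ N ∧ t < -β z} = {w | w ∈ N ∧ β w < -t} := by
      ext z; simp only [mem_ofPred_eq, lt_neg]
    rw [e]; exact h2 _
  have hU : ∀ z ∈ N, Up U β m z = max (β z) (-s₁) := by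
    intro z hz
    rw [Up, hs₁ z hz, neg_inf, neg_neg]
  obtain ⟨s, hs⟩ := (h.up hl hp).1.Dn_local hN fun t => by
    by_cases ht : t < -s₁
    · have e : {z | z ∈ N ∧ t < Up U β m z} = N := by
        ext z
        exact ⟨fun hz => hz.1, fun hz => ⟨hz, by rw [hU z hz]; exact lt_max_of_lt_right ht⟩⟩
      rw [e]; exact h0
    · have e : {z | z ∈ N ∧ t < Up U β m z} = {w | w ∈ N ∧ t < β w} := by
        ext z
        refine and_congr_right fun hz => ?_
        rw [hU z hz, lt_max_iff]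
        exact ⟨fun h' => h'.resolve_right ht, Or.inl⟩
      rw [e]; exact h1 t
  exact ⟨-s₁, s, fun z hz => ⟨hU z hz, by rw [Str, hs z hz, hU z hz]⟩⟩

theorem SA_open (hU : IsOpen U) {β : ℂ → ℝ} (hβ : ContDiffOn ℝ 1 β U) (m p : ℂ) :
    IsOpen (SA U β m p) ∧ SA U β m p ⊆ U ∧ EqOn (Str U β m p) β (SA U β m p) := by
  refine ⟨isOpen_interior.inter ?_, fun z hz => hz.2.1, fun z hz => (interior_subset hz.1).2⟩
  exact (hβ.continuousOn_fderiv_of_isOpen hU le_rfl).isOpen_inter_preimage hU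
    (isOpen_compl_singleton (x := 0))

/-- Where `fderiv β = 0` use `Dn_fderiv` twice.  The open set `{fderiv β ≠ 0} ∩ U` is covered by
the interiors of countably many boxes (`exists_box`, Lindelöf:
`TopologicalSpace.countable_cover_nhdsWithin` or `eq_open_union_countable`); on a box with
constants `s', s` (`Str_local`) discard the null sets `{β = s'}`, `{β = s}`
(`ae_fderiv_eq_zero_of_eq`); otherwise `s' < β z < s` gives `z ∈ SA`, and in the other cases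
`Str` is constant near `z`. -/
theorem SA_ae {β : ℂ → ℝ} {m p : ℂ} (h : StH U β m) (hβ : ContDiffOn ℝ 1 β U) (hp : p ∈ U) :
    ∀ᵐ z, z ∈ U → z ∉ SA U β m p → fderiv ℝ (Str U β m p) z = 0 := by
  have hU := h.op
  have hl : LocallyLipschitzOn U β := fun z hz => by
    obtain ⟨K, t, ht, hK⟩ := (hβ.contDiffAt (hU.mem_nhds hz)).exists_lipschitzOnWith
    exact ⟨K, t, mem_nhdsWithin_of_mem_nhds ht, hK⟩
  have hl' : LocallyLipschitzOn U (fun w => - β w) := fun z hz => by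
    obtain ⟨K, t, ht, hK⟩ := hl hz
    exact ⟨K, t, ht, fun a ha b hb => by simpa only [edist_neg_neg] using hK ha hb⟩
  obtain ⟨hup, hupl⟩ := h.up hl hp
  have hbox : ∀ z, ∃ (N : Set ℂ) (s' s : ℝ), z ∈ U → fderiv ℝ β z ≠ 0 → N ∈ 𝓝 z ∧
      ∀ w ∈ N, Up U β m w = max (β w) s' ∧ Str U β m p w = min (max (β w) s') s := fun z => by
    by_cases hz : z ∈ U ∧ fderiv ℝ β z ≠ 0
    · obtain ⟨N, hN, hNU, h0, h1, h2⟩ := exists_box hU hβ hz.1 hz.2
      obtain ⟨s', s, hs⟩ := Str_local h hl hp hNU h0 h1 h2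
      exact ⟨N, s', s, fun _ _ => ⟨hN, hs⟩⟩
    · exact ⟨∅, 0, 0, fun h1 h2 => absurd ⟨h1, h2⟩ hz⟩
  choose N s' s hN using hbox
  obtain ⟨t, ht, htc, hcov⟩ := TopologicalSpace.countable_cover_nhdsWithin
    (f := fun z => interior (N z)) (s := {z | z ∈ U ∧ fderiv ℝ β z ≠ 0})
    fun z hz => mem_nhdsWithin_of_mem_nhds (interior_mem_nhds.2 (hN z hz.1 hz.2).1)
  have a1 := h.neg.Dn_fderiv hl'
  have a2 := hup.Dn_fderiv hupl
  have a3 : ∀ᵐ z, ∀ x ∈ t, z ∈ U → β z = s' x → fderiv ℝ β z = 0 :=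
    (ae_ball_iff htc).2 fun x _ => ae_fderiv_eq_zero_of_eq hU hl _
  have a4 : ∀ᵐ z, ∀ x ∈ t, z ∈ U → β z = s x → fderiv ℝ β z = 0 :=
    (ae_ball_iff htc).2 fun x _ => ae_fderiv_eq_zero_of_eq hU hl _
  filter_upwards [a1, a2, a3, a4] with z a1 a2 a3 a4 hz hzS
  by_cases hd : fderiv ℝ β z = 0
  · rcases a2 hz with e | e
    · change fderiv ℝ (Dn U (Up U β m) p) z = 0
      have e' : Up U β m = fun w => - Dn U (fun w => - β w) m w := rfl
      rw [e, e', fderiv_fun_neg]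
      rcases a1 hz with e | e
      · rw [e, fderiv_fun_neg, hd, neg_neg]
      · rw [e, neg_zero]
    · exact e
  · obtain ⟨x, hx, hzx⟩ := mem_iUnion₂.1 (hcov ⟨hz, hd⟩)
    obtain ⟨-, hE⟩ := hN x (ht hx).1 (ht hx).2
    have n1 : β z ≠ s' x := fun e => hd (a3 x hx hz e)
    have n2 : β z ≠ s x := fun e => hd (a4 x hx hz e)
    have hNz : N x ∈ 𝓝 z := mem_interior_iff_mem_nhds.1 hzx
    have hc : ContinuousAt β z := h.cont.continuousAt (hU.mem_nhds hz)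
    rcases lt_or_gt_of_ne n1 with l1 | l1
    · have : Str U β m p =ᶠ[𝓝 z] fun _ => min (s' x) (s x) := by
        filter_upwards [hNz, hc.eventually (gt_mem_nhds l1)] with w hw hw'
        rw [(hE w hw).2, max_eq_right hw'.le]
      rw [this.fderiv_eq]; simp
    · rcases lt_or_gt_of_ne n2 with l2 | l2
      · refine absurd ⟨mem_interior_iff_mem_nhds.2 ?_, hz, hd⟩ hzS
        filter_upwards [hNz, hc.eventually (lt_mem_nhds l1), hc.eventually (gt_mem_nhds l2)]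
          with w hw h1 h2
        exact ⟨by rw [(hE w hw).1, max_eq_left h1.le],
          by rw [(hE w hw).2, max_eq_left h1.le, min_eq_left h2.le]⟩
      · have : Str U β m p =ᶠ[𝓝 z] fun _ => s x := by
          filter_upwards [hNz, hc.eventually (lt_mem_nhds l2)] with w hw hw'
          rw [(hE w hw).2, min_eq_right (hw'.le.trans (le_max_left _ _))]
        rw [this.fderiv_eq]; simp

/-- `Dn_reg`, `Reg.neg`, `SA_open`, `SA_ae`, `Dn_up`, `Dn_down` -/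
theorem Str_mono {β : ℂ → ℝ} {m p : ℂ} (h : StH U β m) (hβ : ContDiffOn ℝ 1 β U) (hp : p ∈ U)
    (Λ : Lumps U) (hr : Reg Λ β) : Mono Λ (Str U β m p) := by
  have hu := (h.up hr.xx.lip hp).1
  have hru : Reg Λ (Up U β m) := (h.neg.Dn_reg Λ hr.neg).1.neg
  obtain ⟨ho, hs, he⟩ := SA_open h.op hβ m p
  refine ⟨(hu.Dn_reg Λ hru).1, ⟨SA U β m p, ho, hs, (hβ.mono hs).congr he, fun z hz => ?_,
    SA_ae h hβ hp⟩, fun t => ?_, fun t => hu.Dn_down t ?_⟩
  · have : Str U β m p =ᶠ[𝓝 z] β := by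
      filter_upwards [ho.mem_nhds hz] with w hw using he hw
    rw [this.fderiv_eq]
    exact hz.2.2
  · have e := hu.Dn_up t
    rw [show {z | z ∈ U ∧ t < Str U β m p z} = Oc U (Up U β m) p t from e]
    exact isPreconnected_connectedComponentIn
  · have e : {z | z ∈ U ∧ Up U β m z < t} = Oc U (fun w => -β w) m (-t) := by
      rw [← h.neg.Dn_up (-t)]
      ext z
      simp only [mem_ofPred_eq, Up, neg_lt]
    rw [e]
    exact isPreconnected_connectedComponentIn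

/-- `Dn_TT`, `Dn_reg`, `TT.neg`, `Reg.neg` -/
theorem Str_TT {β : ℂ → ℝ} {m p : ℂ} (h : StH U β m) (hp : p ∈ U) {Λ : Lumps U}
    {M : Set (ℂ → ℝ)} (hM : ∀ r ∈ M, Reg Λ r) (hC : CH Λ M) (hr : Reg Λ β) (hT : TT Λ M β) :
    TT Λ M (Str U β m p) := by
  have hru : Reg Λ (Up U β m) := (h.neg.Dn_reg Λ hr.neg).1.neg
  have hTu : TT Λ M (Up U β m) := (h.neg.Dn_TT hM hC hr.neg hT.neg).neg
  exact (h.up hr.xx.lip hp).1.Dn_TT hM hC hru hTu

theorem exists_SA (hU : IsOpen U) (hc : IsPreconnected U) {β : ℂ → ℝ} (hβ : ContDiffOn ℝ 1 β U)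
    (hb : Bdd U β) {D : Set ℂ} (hD : Dense D) {z : ℂ} (hz : z ∈ U) (hd : fderiv ℝ β z ≠ 0) :
    ∃ m ∈ D ∩ U, ∃ p ∈ D ∩ U, z ∈ SA U β m p := by
  obtain ⟨N, hN, hNU, h0, h1, h2⟩ := exists_box hU hβ hz hd
  have hiU : interior N ⊆ U := interior_subset.trans hNU
  have hco : ContinuousOn β (interior N) := hβ.continuousOn.mono hiU
  obtain ⟨⟨w₁, hw₁, hw₁'⟩, w₂, hw₂, hw₂'⟩ := exists_lt_gt hU hβ hz hd (interior_mem_nhds.2 hN)
  obtain ⟨m, hmD, hm, hm'⟩ := hD.exists_mem_open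
    (hco.isOpen_inter_preimage isOpen_interior (isOpen_Iio (a := β z))) ⟨w₁, hw₁, hw₁'⟩
  obtain ⟨p, hpD, hp, hp'⟩ := hD.exists_mem_open
    (hco.isOpen_inter_preimage isOpen_interior (isOpen_Ioi (a := β z))) ⟨w₂, hw₂, hw₂'⟩
  have hmz : β m < β z := hm'
  have hpz : β z < β p := hp'
  have hS : StH U β m := ⟨hU, hc, hβ.continuousOn, hb, hiU hm⟩
  have hl : LocallyLipschitzOn U β := by
    intro x hx
    obtain ⟨K, t, ht, hK⟩ := (hβ.contDiffAt (hU.mem_nhds hx)).exists_lipschitzOnWith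
    exact ⟨K, t, mem_nhdsWithin_of_mem_nhds ht, hK⟩
  obtain ⟨s', s, hs⟩ := Str_local hS hl (hiU hp) hNU h0 h1 h2
  have e1 : Up U β m m = β m := by
    unfold Up
    rw [hS.neg.Dn_pole, neg_neg]
  have e2 : Str U β m p p = Up U β m p := (hS.up hl (hiU hp)).1.Dn_pole
  have a1 : s' < β z := by
    have := (hs m (interior_subset hm)).1
    rw [e1] at this
    have := le_max_right (β m) s'
    linarith
  have a2 : β z < s := by
    obtain ⟨b1, b2⟩ := hs p (interior_subset hp)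
    rw [e2, b1] at b2
    have b3 := min_le_right (max (β p) s') s
    have b4 := le_max_left (β p) s'
    linarith
  refine ⟨m, ⟨hmD, hiU hm⟩, p, ⟨hpD, hiU hp⟩, mem_interior_iff_mem_nhds.2 ?_, hz, hd⟩
  have hca : ContinuousAt β z := hβ.continuousOn.continuousAt (hU.mem_nhds hz)
  filter_upwards [hN, hca.eventually (Ioo_mem_nhds a1 a2)] with w hw hw'
  obtain ⟨b1, b2⟩ := hs w hw
  rw [max_eq_left hw'.1.le] at b1 b2
  rw [min_eq_left hw'.2.le] at b2
  exact ⟨b1, b2⟩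

theorem SK_of_mem (hU : IsOpen U) {β : ℂ → ℝ} (hβ : ContDiffOn ℝ 1 β U) {m p m' p' z : ℂ}
    (h : z ∈ SA U β m p) (h' : z ∈ SA U β m' p') : β z ∈ SK U β m p m' p' := by
  have hN := inter_mem (inter_mem (mem_interior_iff_mem_nhds.1 h.1)
    (mem_interior_iff_mem_nhds.1 h'.1)) (hU.mem_nhds h.2.1)
  obtain ⟨⟨w₁, ⟨⟨a1, a2⟩, a3⟩, hw₁⟩, w₂, ⟨⟨b1, b2⟩, b3⟩, hw₂⟩ := exists_lt_gt hU hβ h.2.1 h.2.2 hN
  refine ⟨⟨(β w₁ + β z) / 2, by linarith, w₁, a3, ?_, ?_⟩, (β w₂ + β z) / 2, by linarith, w₂, b3, ?_, ?_⟩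
  · rw [a1.1]; linarith
  · rw [a2.1]; linarith
  · rw [b1.2]; linarith
  · rw [b2.2]; linarith

theorem h57_Dn_iff {σ σ' : ℂ → ℝ} {p p' : ℂ} (h : StH U σ p) (h' : StH U σ' p') {t : ℝ}
    (hS : ∀ w ∈ U, t < σ w ↔ t < σ' w) {y : ℂ} (hy : y ∈ U) (h1 : t < Dn U σ p y)
    (h2 : t < Dn U σ' p' y) {w : ℂ} (hw : w ∈ U) : t < Dn U σ p w ↔ t < Dn U σ' p' w := by
  have hE : {z | z ∈ U ∧ t < σ z} = {z | z ∈ U ∧ t < σ' z} := by
    ext x
    constructor
    · rintro ⟨a, b⟩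
      exact ⟨a, (hS x a).1 b⟩
    · rintro ⟨a, b⟩
      exact ⟨a, (hS x a).2 b⟩
  rw [h.lt_Dn hy] at h1
  rw [h'.lt_Dn hy] at h2
  rw [h.lt_Dn hw, h'.lt_Dn hw]
  unfold Oc at *
  rw [← hE] at h2 ⊢
  rw [connectedComponentIn_eq h1, connectedComponentIn_eq h2]

/-- ALL OR NOTHING.  Let `s₀ < t < s₁` be the witnesses.  For `s ≥ s₀` the sets `{Up m < s}` and
`{Up m' < s}` are components of `{β < s}` with a common point (`lt_Dn` for `-β`,
`connectedComponentIn_eq`), so equal; hence `max (Up m) s₀ = max (Up m') s₀` on `U`.  For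
`s₀ ≤ s ≤ s₁` the sets `{s < Str}`, `{s < Str'}` are components of the same set
`{s < Up m} = {s < Up m'}` with a common point, so equal.  Near `z` we have
`s₀ < β < s₁`, so the primed functions agree with the unprimed ones. -/
theorem SA_of_SK {β : ℂ → ℝ} {m p m' p' z : ℂ} (h : StH U β m) (hβ : ContDiffOn ℝ 1 β U)
    (hp : p ∈ U) (hm' : m' ∈ U) (hp' : p' ∈ U) (hK : β z ∈ SK U β m p m' p')
    (hz : z ∈ SA U β m p) : z ∈ SA U β m' p' := by
  obtain ⟨⟨s₀, hs₀, y₀, hy₀, ha₀, hb₀⟩, ⟨s₁, hs₁, y₁, hy₁, ha₁, hb₁⟩⟩ := hK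
  obtain ⟨hzi, hzU, hzd⟩ := hz
  have h' : StH U β m' := ⟨h.op, h.conn, h.cont, h.bdd, hm'⟩
  have hl : LocallyLipschitzOn U β := by
    intro x hx
    obtain ⟨K, t, ht, hf⟩ := (hβ.contDiffAt (h.op.mem_nhds hx)).exists_lipschitzOnWith
    exact ⟨K, t, mem_nhdsWithin_of_mem_nhds ht, hf⟩
  have hA : ∀ s, s₀ ≤ s → ∀ w ∈ U, (Up U β m w < s ↔ Up U β m' w < s) := by
    intro s hs w hw
    have key := h57_Dn_iff h.neg h'.neg (t := -s) (fun _ _ => Iff.rfl) hy₀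
      (by unfold Up at ha₀; linarith) (by unfold Up at hb₀; linarith) hw
    unfold Up
    constructor
    · intro a
      have := key.1 (by linarith)
      linarith
    · intro a
      have := key.2 (by linarith)
      linarith
  have hB : ∀ s, s₀ ≤ s → ∀ w ∈ U, (s < Up U β m w ↔ s < Up U β m' w) := by
    intro s hs w hw
    constructor
    · intro a
      by_contra b
      have := (hA (Up U β m w) (by linarith) w hw).2 (by linarith [not_lt.1 b])
      exact lt_irrefl _ this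
    · intro a
      by_contra b
      have := (hA (Up U β m' w) (by linarith) w hw).1 (by linarith [not_lt.1 b])
      exact lt_irrefl _ this
  have hC : ∀ s, s₀ ≤ s → s ≤ s₁ → ∀ w ∈ U, (s < Str U β m p w ↔ s < Str U β m' p' w) := by
    intro s hs hs' w hw
    exact h57_Dn_iff (h.up hl hp).1 (h'.up hl hp').1 (hB s hs) hy₁
      (lt_of_le_of_lt hs' ha₁) (lt_of_le_of_lt hs' hb₁) hw
  refine ⟨?_, hzU, hzd⟩
  rw [mem_interior_iff_mem_nhds] at hzi ⊢
  have hc : ContinuousAt β z := h.cont.continuousAt (h.op.mem_nhds hzU)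
  filter_upwards [hzi, h.op.mem_nhds hzU, hc.eventually (lt_mem_nhds hs₀),
    hc.eventually (gt_mem_nhds hs₁)] with w hw hwU h0 h1
  obtain ⟨e1, e2⟩ := hw
  refine ⟨le_antisymm ?_ ?_, le_antisymm ?_ ?_⟩
  · by_contra b
    have := (hB (β w) h0.le w hwU).2 (not_le.1 b)
    linarith
  · by_contra b
    have := (hA (β w) h0.le w hwU).2 (not_le.1 b)
    linarith
  · by_contra b
    have := (hC (β w) h0.le h1.le w hwU).2 (not_le.1 b)
    linarith
  · by_contra b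
    have b' := not_le.1 b
    have hm : max (Str U β m' p' w) s₀ < β w := max_lt b' h0
    have := (hC (max (Str U β m' p' w) s₀) (le_max_right _ _) (by linarith) w hwU).1
      (by rw [e2]; exact hm)
    exact absurd (le_max_left _ _) (not_le.2 this)

theorem h99_ord_frontier {S : Set ℝ} (hS : S.OrdConnected) : (closure S \ S).Finite := by
  refine ((finite_singleton (sSup S)).insert (sInf S)).subset ?_
  rintro x ⟨hx, hx'⟩
  have hne : S.Nonempty := closure_nonempty_iff.1 ⟨x, hx⟩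
  by_cases h : ∃ a ∈ S, a ≤ x
  · obtain ⟨a, ha, hax⟩ := h
    have : x ∈ upperBounds S := fun b hb => by
      by_contra hc
      exact hx' (hS.out ha hb ⟨hax, (not_le.1 hc).le⟩)
    exact Or.inr ((isLUB_of_mem_closure this hx).csSup_eq hne).symm
  · push Not at h
    have : x ∈ lowerBounds S := fun b hb => (h b hb).le
    exact Or.inl ((isGLB_of_mem_closure this hx).csInf_eq hne).symm

theorem SK_frontier (β : ℂ → ℝ) (m p m' p' : ℂ) :
    (closure (SK U β m p m' p') \ SK U β m p m' p').Finite := by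
  refine h99_ord_frontier ⟨?_⟩
  rintro a ⟨⟨s, hs, h1⟩, -⟩ b ⟨-, t, ht, h2⟩ x hx
  exact ⟨⟨s, hs.trans_le hx.1, h1⟩, t, hx.2.trans_lt ht, h2⟩

theorem h4_SK_open (β : ℂ → ℝ) (m p m' p' : ℂ) : IsOpen (SK U β m p m' p') := by
  refine IsOpen.inter (isOpen_iff_mem_nhds.2 ?_) (isOpen_iff_mem_nhds.2 ?_)
  · rintro t ⟨s, hs, h⟩
    exact mem_of_superset (Ioi_mem_nhds hs) fun t' ht' => ⟨s, ht', h⟩
  · rintro t ⟨s, hs, h⟩
    exact mem_of_superset (Iio_mem_nhds hs) fun t' ht' => ⟨s, ht', h⟩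

theorem h4_frontier_fin {K : ℕ → Set ℝ} (ho : ∀ j, IsOpen (K j))
    (hf : ∀ j, (closure (K j) \ K j).Finite) (i : ℕ) :
    IsClosed (⋃ j ∈ Finset.range i, closure (K j)) ∧
      (frontier (⋃ j ∈ Finset.range i, closure (K j))).Finite := by
  have hcl : IsClosed (⋃ j ∈ Finset.range i, closure (K j)) :=
    isClosed_biUnion_finset fun j _ => isClosed_closure
  refine ⟨hcl, ((Finset.range i).finite_toSet.biUnion fun j _ => hf j).subset fun t ht => ?_⟩
  rw [hcl.frontier_eq] at ht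
  obtain ⟨j, hj, htj⟩ := mem_iUnion₂.1 ht.1
  refine mem_iUnion₂.2 ⟨j, hj, htj, fun h => ht.2 ?_⟩
  exact mem_interior.2 ⟨K j, fun x hx => mem_iUnion₂.2 ⟨j, hj, subset_closure hx⟩, ho j, h⟩

/-- BRANCHES.  Enumerate the pairs `(m i, p i)` of points of `D ∩ U`, `D` countable dense;
`r i = Str β (m i) (p i) ∈ M` by `MaxFam.max`, `A i = SA`,
`T i = (⋃ j < i, closure (SK i j))ᶜ`.  Disjointness: `SK_of_mem`.  Cover: discard the countably
many levels of `SK_frontier` (`ae_fderiv_eq_zero_of_eq`), take the least `i` with `z ∈ A i`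
(`exists_SA`), `SA_of_SK`.  The frontier of `T i` lies in the finite union of the finite sets. -/
theorem exists_branches (hU : IsOpen U) (hc : IsConnected U) {Λ : Lumps U} {M : Set (ℂ → ℝ)}
    (hM : MaxFam Λ M) (hC : CH Λ M) {β : ℂ → ℝ} (hr : Reg Λ β) (hT : TT Λ M β)
    (hβ : ContDiffOn ℝ 1 β U) : ∃ (r : ℕ → ℂ → ℝ) (A : ℕ → Set ℂ) (T : ℕ → Set ℝ),
      (∀ i, r i ∈ M) ∧ (∀ i, IsOpen (A i) ∧ A i ⊆ U ∧ EqOn (r i) β (A i)) ∧
      (∀ i, ∀ z ∈ A i, fderiv ℝ β z ≠ 0) ∧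
      (∀ i, ∀ᵐ z, z ∈ U → z ∉ A i → fderiv ℝ (r i) z = 0) ∧
      (∀ i, IsOpen (T i) ∧ (frontier (T i)).Finite) ∧
      (∀ i j, i ≠ j → ∀ z ∈ A i ∩ A j, β z ∈ T i → β z ∉ T j) ∧
      ∀ᵐ z, z ∈ U → fderiv ℝ β z ≠ 0 → ∃ i, z ∈ A i ∧ β z ∈ T i := by
  classical
  obtain ⟨D, hDc, hD⟩ := TopologicalSpace.exists_countable_dense ℂ
  have hne : (D ∩ U).Nonempty := by
    obtain ⟨x, h1, h2⟩ := hD.inter_open_nonempty U hU hc.nonempty
    exact ⟨x, h2, h1⟩
  have hcnt : (D ∩ U).Countable := hDc.mono inter_subset_left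
  obtain ⟨f, hf⟩ := (hcnt.prod hcnt).exists_eq_range (hne.prod hne)
  have hfm : ∀ i, f i ∈ (D ∩ U) ×ˢ (D ∩ U) := fun i => hf ▸ mem_range_self i
  have hm : ∀ i, (f i).1 ∈ U := fun i => (hfm i).1.2
  have hp : ∀ i, (f i).2 ∈ U := fun i => (hfm i).2.2
  have hS : ∀ i, StH U β (f i).1 := fun i =>
    ⟨hU, hc.isPreconnected, hβ.continuousOn, hr.bdd, hm i⟩
  set K : ℕ → ℕ → Set ℝ := fun i j => SK U β (f i).1 (f i).2 (f j).1 (f j).2 with hK
  have hF := fun i => h4_frontier_fin (K := K i) (fun j => h4_SK_open β _ _ _ _)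
    (fun j => SK_frontier β _ _ _ _) i
  refine ⟨fun i => Str U β (f i).1 (f i).2, fun i => SA U β (f i).1 (f i).2,
    fun i => (⋃ j ∈ Finset.range i, closure (K i j))ᶜ,
    fun i => hM.max _ (Str_mono (hS i) hβ (hp i) Λ hr)
      (Str_TT (hS i) (hp i) hM.fam.reg hC hr hT),
    fun i => SA_open hU hβ _ _, fun i z hz => hz.2.2, fun i => SA_ae (hS i) hβ (hp i),
    fun i => ⟨(hF i).1.isOpen_compl, by rw [frontier_compl]; exact (hF i).2⟩, ?_, ?_⟩
  · intro i j hij z hz h1 h2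
    rcases lt_or_gt_of_ne hij with h | h
    · exact h2 (mem_iUnion₂.2 ⟨i, Finset.mem_range.2 h,
        subset_closure (SK_of_mem hU hβ hz.2 hz.1)⟩)
    · exact h1 (mem_iUnion₂.2 ⟨j, Finset.mem_range.2 h,
        subset_closure (SK_of_mem hU hβ hz.1 hz.2)⟩)
  · have hae : ∀ᵐ z, ∀ i j, ∀ a ∈ closure (K i j) \ K i j,
        z ∈ U → β z = a → fderiv ℝ β z = 0 := by
      refine ae_all_iff.2 fun i => ae_all_iff.2 fun j => ?_
      exact (ae_ball_iff (SK_frontier β _ _ _ _).countable).2 fun a _ =>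
        ae_fderiv_eq_zero_of_eq hU hr.xx.lip a
    filter_upwards [hae] with z hz hzU hd
    have hex : ∃ i, z ∈ SA U β (f i).1 (f i).2 := by
      obtain ⟨m, hm', p, hp', h⟩ := exists_SA hU hc.isPreconnected hβ hr.bdd hD hzU hd
      obtain ⟨i, hi⟩ : (m, p) ∈ range f := hf ▸ (⟨hm', hp'⟩ : (m, p) ∈ (D ∩ U) ×ˢ (D ∩ U))
      exact ⟨i, by rw [hi]; exact h⟩
    refine ⟨Nat.find hex, Nat.find_spec hex, fun h => ?_⟩
    obtain ⟨j, hj, hzj⟩ := mem_iUnion₂.1 h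
    by_cases hk : β z ∈ K (Nat.find hex) j
    · exact Nat.find_min hex (Finset.mem_range.1 hj)
        (SA_of_SK (hS _) hβ (hp _) (hm j) (hp j) hk (Nat.find_spec hex))
    · exact hd (hz _ j _ ⟨hzj, hk⟩ hzU rfl)

end Crest.Agent.R105
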