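import Mathlib
import Crest.Prelude.Def_CircleDomain

/-! Row 105: shared definitions (Dirichlet class, ends, admissible weights, block hypotheses). -/

set_option autoImplicit false

open MeasureTheory Set Filter Topology
open scoped ENNReal

namespace Crest.Agent.R105

noncomputable section

/-- density of `du ∧ dc` -/
def wd (u c : ℂ → ℝ) (z : ℂ) : ℝ :=
  fderiv ℝ u z 1 * fderiv ℝ c z Complex.I - fderiv ℝ u z Complex.I * fderiv ℝ c z 1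

/-- the pairing `ω(u,c) = ∫_U du ∧ dc` -/
def om (U : Set ℂ) (u c : ℂ → ℝ) : ℝ := ∫ z in U, wd u c z

/-- Dirichlet energy on `U` -/
def En (U : Set ℂ) (u : ℂ → ℝ) : ℝ≥0∞ := ∫⁻ z in U, ‖fderiv ℝ u z‖ₑ ^ 2

/-- bounded on `U` -/
def Bdd (U : Set ℂ) (u : ℂ → ℝ) : Prop := ∃ B : ℝ, ∀ z ∈ U, |u z| ≤ B

/-- the class `X`: locally Lipschitz on `U`, constant near infinity, finite energy -/
structure XX (U : Set ℂ) (u : ℂ → ℝ) : Prop where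
  lip : LocallyLipschitzOn U u
  inf : ∃ R c : ℝ, ∀ z : ℂ, R ≤ ‖z‖ → u z = c
  en : En U u < ⊤

/-- the class `A₀`: locally constant off a compact subset of `U` -/
structure A0 (U : Set ℂ) (χ : ℂ → ℝ) : Prop where
  xx : XX U χ
  loc : ∃ C : Set ℂ, IsCompact C ∧ C ⊆ U ∧ ∀ z ∈ U, z ∉ C → ∀ᶠ w in 𝓝 z, χ w = χ z

/-- Freudenthal ends of `U` other than infinity; `W n q` is the level `n` lump of the end `q`. -/
structure Lumps (U : Set ℂ) where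
  R : ℝ
  E : Type
  W : ℕ → E → Set ℂ
  C : ℕ → Set ℂ
  far : ∀ z : ℂ, R ≤ ‖z‖ → z ∈ U
  op : ∀ n q, IsOpen (W n q)
  conn : ∀ n q, IsConnected (W n q)
  sub : ∀ n q, W n q ⊆ U ∩ Metric.ball 0 R
  part : ∀ n q q', W n q = W n q' ∨ Disjoint (W n q) (W n q')
  fin : ∀ n, (Set.range (W n)).Finite
  anti : ∀ n q, W (n + 1) q ⊆ W n q
  sep : ∀ q q', q ≠ q' → ∃ n, Disjoint (W n q) (W n q')
  koenig : ∀ f : E → ℕ, ∃ N, ∀ q, ∃ q', f q' ≤ N ∧ W (f q') q = W (f q') q'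
  cpt : ∀ n, IsCompact (C n)
  csub : ∀ n, C n ⊆ U
  cover : ∀ n, ∀ z ∈ U, z ∉ C n → R ≤ ‖z‖ ∨ ∃ q, z ∈ W n q
  bd : ∀ n q, ∀ z ∈ U, z ∈ closure (W n q) → z ∈ W n q ∨ z ∈ C n
  exh : ∀ K : Set ℂ, IsCompact K → K ⊆ U → ∃ n, ∀ q, Disjoint (W n q) K

variable {U : Set ℂ}

/-- lower end of the cluster interval (for functions bounded near the end) -/
def Lumps.lo (Λ : Lumps U) (u : ℂ → ℝ) (q : Λ.E) : ℝ := ⨆ n, sInf (u '' Λ.W n q)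

/-- upper end of the cluster interval -/
def Lumps.hi (Λ : Lumps U) (u : ℂ → ℝ) (q : Λ.E) : ℝ := ⨅ n, sSup (u '' Λ.W n q)

/-- oscillation at an end -/
def Lumps.osc (Λ : Lumps U) (u : ℂ → ℝ) (q : Λ.E) : ℝ := Λ.hi u q - Λ.lo u q

/-- value of an `A₀` function at an end -/
def Lumps.val (Λ : Lumps U) (χ : ℂ → ℝ) (q : Λ.E) : ℝ := Λ.lo χ q

/-- nonnegative square summable weight -/
def L2w {E : Type} (e : E → ℝ) : Prop := (∀ q, 0 ≤ e q) ∧ Summable fun q => e q ^ 2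

/-- its norm -/
def nrm {E : Type} (e : E → ℝ) : ℝ := Real.sqrt (∑' q, e q ^ 2)

/-- regular functions -/
structure Reg (Λ : Lumps U) (u : ℂ → ℝ) : Prop where
  xx : XX U u
  bdd : Bdd U u
  sq : Summable fun q => Λ.osc u q ^ 2

/-- weight of the test function `(H ∘ r) * χ` -/
def wt (Λ : Lumps U) (r : ℂ → ℝ) (H : ℝ → ℝ) (χ : ℂ → ℝ) (q : Λ.E) : ℝ :=
  |Λ.val χ q| * ∫ t in Icc (Λ.lo r q) (Λ.hi r q), |deriv H t|

/-- `e` is an admissible weight for `u` off the finite set `F` of ends -/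
structure Adm (Λ : Lumps U) (M : Set (ℂ → ℝ)) (F : Finset Λ.E) (u : ℂ → ℝ) (e : Λ.E → ℝ) :
    Prop where
  l2 : L2w e
  le : ∀ r ∈ M, ∀ H : ℝ → ℝ, ContDiff ℝ 1 H → ∀ χ, A0 U χ → (∀ p ∈ F, Λ.val χ p = 0) →
    |om U (fun z => u z * χ z) (fun z => H (r z))| ≤ ∑' q, e q * wt Λ r H χ q

/-- the test algebra `T` -/
def TT (Λ : Lumps U) (M : Set (ℂ → ℝ)) (u : ℂ → ℝ) : Prop := XX U u ∧ ∃ e, Adm Λ M ∅ u e

/-- a compatible family of regular generators -/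
structure Fam (Λ : Lumps U) (M : Set (ℂ → ℝ)) : Prop where
  reg : ∀ r ∈ M, Reg Λ r
  compat : ∀ r ∈ M, Adm Λ M ∅ r (Λ.osc r)

open Classical in
/-- chain lemma (contractivity of admissible weights, with removal of a finite exclusion) -/
def CH (Λ : Lumps U) (M : Set (ℂ → ℝ)) : Prop :=
  ∀ (F : Finset Λ.E) (u₁ u₂ : ℂ → ℝ) (e₁ e₂ : Λ.E → ℝ) (G : ℝ → ℝ → ℝ) (L₁ L₂ B : ℝ),
    XX U u₁ → XX U u₂ → Adm Λ M F u₁ e₁ → Adm Λ M F u₂ e₂ → 0 ≤ L₁ → 0 ≤ L₂ → 0 ≤ B →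
    (∀ s t s' t', |G s t - G s' t'| ≤ L₁ * |s - s'| + L₂ * |t - t'|) →
    (F = ∅ ∨ ∀ s t, |G s t| ≤ B / 2) →
    Adm Λ M ∅ (fun z => G (u₁ z) (u₂ z))
      (fun q => if q ∈ F then B else L₁ * e₁ q + L₂ * e₂ q)

/-- the cone `L` with its weights: finite sums of `(H ∘ r) * χ` and of `A₀` functions -/
inductive LL (Λ : Lumps U) (M : Set (ℂ → ℝ)) : (ℂ → ℝ) → (Λ.E → ℝ) → Prop
  | a0 (χ : ℂ → ℝ) : A0 U χ → LL Λ M χ (fun _ => 0)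
  | gen (r : ℂ → ℝ) (H : ℝ → ℝ) (χ : ℂ → ℝ) : r ∈ M → ContDiff ℝ 1 H → A0 U χ →
      LL Λ M (fun z => H (r z) * χ z) (wt Λ r H χ)
  | add (l l' : ℂ → ℝ) (k k' : Λ.E → ℝ) : LL Λ M l k → LL Λ M l' k' →
      LL Λ M (fun z => l z + l' z) (fun q => k q + k' q)

open Classical in
/-- `χ` is an `A₀` indicator of the lump `W n q` -/
def Ind (Λ : Lumps U) (n : ℕ) (q : Λ.E) (χ : ℂ → ℝ) : Prop :=
  A0 U χ ∧ ∀ q', Λ.val χ q' = if Λ.W n q' = Λ.W n q then 1 else 0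

/-- superadditive nonnegative set function on lumps -/
def Super (Λ : Lumps U) (ν : Set ℂ → ℝ) : Prop :=
  ∀ (n m : ℕ) (p : Λ.E) (Q : Finset Λ.E), n ≤ m → (∀ q ∈ Q, Λ.W m q ⊆ Λ.W n p) →
    (∀ q ∈ Q, ∀ q' ∈ Q, q ≠ q' → Disjoint (Λ.W m q) (Λ.W m q')) →
    ∑ q ∈ Q, ν (Λ.W m q) ≤ ν (Λ.W n p)

/-- atom of `ν` at an end -/
def atom (Λ : Lumps U) (ν : Set ℂ → ℝ) (q : Λ.E) : ℝ := ⨅ n, ν (Λ.W n q)

open Classical in
/-- the class `S(ν,t,Y)` -/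
structure Cls (Λ : Lumps U) (M : Set (ℂ → ℝ)) (c : ℂ → ℝ) (ν : Set ℂ → ℝ) (t : Λ.E → ℝ)
    (Y : Finset Λ.E) : Prop where
  xx : XX U c
  sup : Super Λ ν
  l2 : L2w t
  zero : ∀ p ∈ Y, t p = 0
  le : ∀ n q χ, Ind Λ n q χ → ∀ v e B, TT Λ M v → (∀ z ∈ U, |v z| ≤ B / 2) → Adm Λ M Y v e →
    |om U (fun z => v z * χ z) c| ≤
      ν (Λ.W n q) * B + ∑' q', if Λ.W n q' = Λ.W n q then t q' * e q' else 0

/-- property (b2): the variation of `β` at the end `q`, tested on `T`, is at most `k q` -/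
def B2 (Λ : Lumps U) (M : Set (ℂ → ℝ)) (β : ℂ → ℝ) (k : Λ.E → ℝ) : Prop :=
  ∀ q v B, TT Λ M v → (∀ z ∈ U, |v z| ≤ B / 2) → ∀ η > 0, ∀ N, ∃ n ≥ N, ∀ χ, Ind Λ n q χ →
    |om U (fun z => v z * χ z) β| ≤ k q * B + η

/-- maximality, in the form used by the Hahn-Banach step -/
def MAX (Λ : Lumps U) (M : Set (ℂ → ℝ)) : Prop :=
  ∀ β k, Reg Λ β → TT Λ M β → ContDiffOn ℝ 1 β U → L2w k → B2 Λ M β k →
    ∀ u n, XX U u → Adm Λ M ∅ u n → |om U u β| ≤ ∑' q, n q * k q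

/-- the cluster set of `(a,b)` at `q` lies in the closed disc of centre `c` and radius `ρ` -/
def InBall (Λ : Lumps U) (a b : ℂ → ℝ) (q : Λ.E) (c : ℂ) (ρ : ℝ) : Prop :=
  ∀ η > 0, ∃ n, ∀ z ∈ Λ.W n q, ‖(⟨a z, b z⟩ : ℂ) - c‖ ≤ ρ + η

/-- isotropy: the degree of a regular pair vanishes off the discs containing its cluster sets -/
def ISO (Λ : Lumps U) (M : Set (ℂ → ℝ)) : Prop :=
  ∀ a b (c : Λ.E → ℂ) (ρ : Λ.E → ℝ), Reg Λ a → TT Λ M a → Reg Λ b → TT Λ M b →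
    ContDiffOn ℝ 1 b U → L2w ρ → (∀ q, InBall Λ a b q (c q) (ρ q)) →
    ∀ g : ℂ → ℝ, Measurable g → (∃ C, ∀ y, |g y| ≤ C) →
      (∀ q, 0 < ρ q → ∀ y ∈ Metric.closedBall (c q) (ρ q), g y = 0) →
      ∫ z in U, wd a b z * g ⟨a z, b z⟩ = 0

/-- conclusion of the main approximation theorem -/
def MAIN (Λ : Lumps U) (M : Set (ℂ → ℝ)) : Prop :=
  ∀ u n (A B : ℝ) (N : ℕ) (ε : ℝ), TT Λ M u → (∀ z ∈ U, u z ∈ Icc A B) → Adm Λ M ∅ u n → 0 < ε →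
    ∃ r e, Reg Λ r ∧ TT Λ M r ∧ (∀ z ∈ U, r z ∈ Icc A B) ∧ L2w e ∧ nrm e ≤ ε ∧
      (∀ q, Λ.osc r q ≤ n q + e q) ∧ En U (fun z => r z - u z) ≤ ENNReal.ofReal ε ∧
      ∀ z ∈ U, (∀ q, z ∉ Λ.W N q) → r z = u z

/-- monotone generators -/
structure Mono (Λ : Lumps U) (r : ℂ → ℝ) : Prop where
  reg : Reg Λ r
  smooth : ∃ A : Set ℂ, IsOpen A ∧ A ⊆ U ∧ ContDiffOn ℝ 1 r A ∧ (∀ z ∈ A, fderiv ℝ r z ≠ 0) ∧
    ∀ᵐ z, z ∈ U → z ∉ A → fderiv ℝ r z = 0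
  up : ∀ t, IsPreconnected {z | z ∈ U ∧ t < r z}
  down : ∀ t, IsPreconnected {z | z ∈ U ∧ r z < t}

/-- a family of monotone generators containing every monotone element of its test algebra -/
structure MaxFam (Λ : Lumps U) (M : Set (ℂ → ℝ)) : Prop where
  fam : Fam Λ M
  mono : ∀ r ∈ M, Mono Λ r
  max : ∀ r, Mono Λ r → TT Λ M r → r ∈ M

/-- cluster set of a map at an end -/
def clus (Λ : Lumps U) (f : ℂ → ℂ) (q : Λ.E) : Set ℂ := ⋂ n, closure (f '' Λ.W n q)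

/-- output of the final minimisation -/
structure EndOut (Λ : Lumps U) (M : Set (ℂ → ℝ)) (f : ℂ → ℂ) (c : Λ.E → ℂ) (ρ : Λ.E → ℝ) :
    Prop where
  hol : DifferentiableOn ℂ f U
  inj : InjOn f U
  inf : ∃ b : ℂ, Tendsto (fun z => f z - z) (cocompact ℂ) (𝓝 b)
  l2 : L2w ρ
  clus : ∀ q, clus Λ f q ⊆ Metric.closedBall (c q) (ρ q)
  compl : (f '' U)ᶜ = ⋃ q, Metric.closedBall (c q) (ρ q)
  disj : ∀ q q', q ≠ q' →
    Disjoint (Metric.closedBall (c q) (ρ q)) (Metric.closedBall (c q') (ρ q'))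
  sepa : ∀ n q, IsClosed (⋃ q' ∈ {q' | Λ.W n q' = Λ.W n q}, Metric.closedBall (c q') (ρ q'))
  /-- when regular elements of `T` are limits of continuous ones there are no discs, and
  elements of `T` have no singular derivative in the picture -/
  nonode : (∀ r, Reg Λ r → TT Λ M r → ∀ ε > 0, ∃ r', Reg Λ r' ∧ TT Λ M r' ∧
      (∀ q, Λ.osc r' q = 0) ∧ En U (fun z => r' z - r z) ≤ ENNReal.ofReal ε) →
    (∀ q, ρ q = 0) ∧ ∀ v, TT Λ M v → Bdd U v → ∀ φ : ℂ → ℝ, ContDiff ℝ 1 φ → HasCompactSupport φ →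
      om U (fun z => v z * φ (f z)) (fun z => (f z).im) = 0 ∧
      om U (fun z => v z * φ (f z)) (fun z => (f z).re) = 0

end

end Crest.Agent.R105
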