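import Crest.Agent.R105.NAdm

/-! Row 105: straightening of a function along two poles. -/

set_option autoImplicit false

open MeasureTheory Set Filter Topology
open scoped ENNReal

namespace Crest.Agent.R105

variable {U : Set ℂ}

/-- component of the pole in the superlevel set -/
def Oc (U : Set ℂ) (σ : ℂ → ℝ) (p : ℂ) (t : ℝ) : Set ℂ :=
  connectedComponentIn {z | z ∈ U ∧ t < σ z} p

/-- cut all components of superlevel sets that miss the pole `p` -/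
noncomputable def Dn (U : Set ℂ) (σ : ℂ → ℝ) (p : ℂ) (z : ℂ) : ℝ := sSup {t | z ∈ Oc U σ p t}

/-- cut all components of sublevel sets that miss the pole `p` -/
noncomputable def Up (U : Set ℂ) (σ : ℂ → ℝ) (p : ℂ) (z : ℂ) : ℝ := - Dn U (fun w => - σ w) p z

/-- standing hypotheses -/
structure StH (U : Set ℂ) (σ : ℂ → ℝ) (p : ℂ) : Prop where
  op : IsOpen U
  conn : IsPreconnected U
  cont : ContinuousOn σ U
  bdd : Bdd U σ
  mem : p ∈ U

theorem StH.neg {σ : ℂ → ℝ} {p : ℂ} (h : StH U σ p) : StH U (fun w => - σ w) p := by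
  obtain ⟨B, hB⟩ := h.bdd
  exact ⟨h.op, h.conn, h.cont.neg, ⟨B, fun z hz => by rw [abs_neg]; exact hB z hz⟩, h.mem⟩

theorem Oc_anti (σ : ℂ → ℝ) (p : ℂ) {s t : ℝ} (h : s ≤ t) : Oc U σ p t ⊆ Oc U σ p s := by
  exact connectedComponentIn_mono p fun z hz => ⟨hz.1, h.trans_lt hz.2⟩

/-- a component of an open subset of the plane is open -/
theorem StH.Oc_open {σ : ℂ → ℝ} {p : ℂ} (h : StH U σ p) (t : ℝ) : IsOpen (Oc U σ p t) := by
  exact (h.cont.isOpen_inter_preimage h.op (isOpen_Ioi (a := t))).connectedComponentIn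

/-- `V = ⋃_{s > t} Oc s` is open, contains `p` when `Oc t` is nonempty, and is relatively closed
in `Oc t` (a small ball around a point of `Oc t` lies in `{σ > s₁}`, `s₁ > t`; if it meets `Oc s`
it lies in `Oc (min s s₁)`); `Oc t` is preconnected. -/
theorem StH.Oc_eq_iUnion {σ : ℂ → ℝ} {p : ℂ} (h : StH U σ p) {t : ℝ} {z : ℂ}
    (hz : z ∈ Oc U σ p t) : ∃ s, t < s ∧ z ∈ Oc U σ p s := by
  have hp : p ∈ {z | z ∈ U ∧ t < σ z} := connectedComponentIn_nonempty_iff.1 ⟨z, hz⟩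
  have key : Oc U σ p t ⊆ ⋃ s ∈ Ioi t, Oc U σ p s := by
    refine IsPreconnected.subset_of_closure_inter_subset isPreconnected_connectedComponentIn
      (isOpen_biUnion fun s _ => h.Oc_open s) ⟨p, mem_connectedComponentIn hp, ?_⟩ ?_
    · obtain ⟨s, h1, h2⟩ := exists_between hp.2
      exact mem_biUnion h1 (mem_connectedComponentIn ⟨hp.1, h2⟩)
    · rintro w ⟨hw1, hw2⟩
      have hw := connectedComponentIn_subset _ _ hw2
      obtain ⟨s₁, h1, h2⟩ := exists_between hw.2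
      obtain ⟨r, hr, hB⟩ := Metric.isOpen_iff.1
        (h.cont.isOpen_inter_preimage h.op (isOpen_Ioi (a := s₁))) w ⟨hw.1, h2⟩
      obtain ⟨y, hy1, hy2⟩ := mem_closure_iff.1 hw1 _ Metric.isOpen_ball (Metric.mem_ball_self hr)
      obtain ⟨s, hs, hy⟩ := mem_iUnion₂.1 hy2
      have hy' : y ∈ Oc U σ p (min s s₁) := Oc_anti σ p (min_le_left _ _) hy
      refine mem_biUnion (lt_min hs h1 : min s s₁ ∈ Ioi t) ?_
      rw [Oc, connectedComponentIn_eq hy']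
      exact (convex_ball w r).isPreconnected.subset_connectedComponentIn hy1
        (F := {z | z ∈ U ∧ min s s₁ < σ z})
        (fun x hx => ⟨(hB hx).1, (min_le_right _ _).trans_lt (hB hx).2⟩) (Metric.mem_ball_self hr)
  obtain ⟨s, hs, hz'⟩ := mem_iUnion₂.1 (key hz)
  exact ⟨s, hs, hz'⟩

/-- the set of levels is nonempty (`t < -B` gives `Oc t = U`), bounded above by `σ z`,
a lower set (`Oc_anti`) without maximum (`Oc_eq_iUnion`) -/
theorem StH.lt_Dn {σ : ℂ → ℝ} {p : ℂ} (h : StH U σ p) {t : ℝ} {z : ℂ} (hz : z ∈ U) :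
    t < Dn U σ p z ↔ z ∈ Oc U σ p t := by
  obtain ⟨B, hB⟩ := h.bdd
  have hne : {t | z ∈ Oc U σ p t}.Nonempty := ⟨-B - 1, h.conn.subset_connectedComponentIn h.mem
    (F := {z | z ∈ U ∧ -B - 1 < σ z}) (fun x hx => ⟨hx, by linarith [(abs_le.1 (hB x hx)).1]⟩) hz⟩
  have hbd : BddAbove {t | z ∈ Oc U σ p t} :=
    ⟨σ z, fun s hs => (connectedComponentIn_subset _ _ hs).2.le⟩
  rw [Dn, lt_csSup_iff hbd hne]
  exact ⟨fun ⟨s, h1, h2⟩ => Oc_anti σ p h2.le h1, fun h1 =>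
    let ⟨s, h2, h3⟩ := h.Oc_eq_iUnion h1; ⟨s, h3, h2⟩⟩

private theorem h14_spread {σ : ℂ → ℝ} {p : ℂ} {t : ℝ} {W : Set ℂ} (hc : IsPreconnected W)
    (hW : ∀ z ∈ W, z ∈ U ∧ t < σ z) {z z' : ℂ} (hz : z ∈ W) (hz' : z' ∈ W)
    (h : z ∈ Oc U σ p t) : z' ∈ Oc U σ p t := by
  unfold Oc at h ⊢
  rw [connectedComponentIn_eq h]
  exact hc.subset_connectedComponentIn hz hW hz'

theorem StH.Dn_le {σ : ℂ → ℝ} {p : ℂ} (h : StH U σ p) {z : ℂ} (hz : z ∈ U) :
    Dn U σ p z ≤ σ z ∧ Dn U σ p z ≤ σ p := by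
  refine ⟨le_of_forall_lt fun t ht => ?_, le_of_forall_lt fun t ht => ?_⟩
  · exact (connectedComponentIn_subset _ _ ((h.lt_Dn hz).1 ht)).2
  · exact (connectedComponentIn_nonempty_iff.1 ⟨z, (h.lt_Dn hz).1 ht⟩).2

theorem StH.Dn_pole {σ : ℂ → ℝ} {p : ℂ} (h : StH U σ p) : Dn U σ p p = σ p := by
  refine le_antisymm (h.Dn_le h.mem).1 (le_of_forall_lt fun t ht => ?_)
  exact (h.lt_Dn h.mem).2 (mem_connectedComponentIn ⟨h.mem, ht⟩)

theorem StH.Dn_bdd {σ : ℂ → ℝ} {p : ℂ} (h : StH U σ p) : Bdd U (Dn U σ p) := by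
  obtain ⟨B, hB⟩ := h.bdd
  refine ⟨B, fun z hz => abs_le.2 ⟨le_of_forall_lt fun t ht => (h.lt_Dn hz).2 ?_,
    (h.Dn_le hz).1.trans (abs_le.1 (hB z hz)).2⟩⟩
  exact h.conn.subset_connectedComponentIn (F := {z | z ∈ U ∧ t < σ z}) h.mem
    (fun w hw => ⟨hw, ht.trans_le (abs_le.1 (hB w hw)).1⟩) hz

/-- DICHOTOMY: for `t < a` the set `W` lies in `Oc t` or is disjoint from it -/
theorem StH.dich {σ : ℂ → ℝ} {p : ℂ} (h : StH U σ p) {W : Set ℂ} (hW : W ⊆ U)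
    (hc : IsPreconnected W) {a : ℝ} (ha : ∀ z ∈ W, a ≤ σ z) :
    (∃ c, ∀ z ∈ W, Dn U σ p z = c) ∨ ∀ z ∈ W, a ≤ Dn U σ p z := by
  by_cases h1 : ∀ z ∈ W, a ≤ Dn U σ p z
  · exact Or.inr h1
  push Not at h1
  obtain ⟨z₀, hz₀, hlt⟩ := h1
  have key : ∀ t < a, ∀ z ∈ W, ∀ z' ∈ W, t < Dn U σ p z → t < Dn U σ p z' :=
    fun t ht z hz z' hz' h2 => (h.lt_Dn (hW hz')).2 (h14_spread hc
      (fun w hw => ⟨hW hw, ht.trans_le (ha w hw)⟩) hz hz' ((h.lt_Dn (hW hz)).1 h2))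
  refine Or.inl ⟨Dn U σ p z₀, fun z hz => le_antisymm (not_lt.1 fun h2 => ?_)
    (not_lt.1 fun h2 => ?_)⟩
  · exact lt_irrefl _ (key _ hlt z hz z₀ hz₀ h2)
  · exact lt_irrefl _ (key _ (h2.trans hlt) z₀ hz₀ z hz h2)

/-- `dich` on a small ball on which `σ > Dn z` -/
theorem StH.Dn_locconst {σ : ℂ → ℝ} {p : ℂ} (h : StH U σ p) {z : ℂ} (hz : z ∈ U)
    (hlt : Dn U σ p z < σ z) : ∀ᶠ w in 𝓝 z, Dn U σ p w = Dn U σ p z := by
  obtain ⟨a, ha1, ha2⟩ := exists_between hlt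
  have h1 : ∀ᶠ w in 𝓝 z, w ∈ U ∧ a < σ w :=
    (show ∀ᶠ w in 𝓝 z, w ∈ U from h.op.mem_nhds hz).and
      ((h.cont.continuousAt (h.op.mem_nhds hz)).eventually (lt_mem_nhds ha2))
  obtain ⟨ε, hε, hb⟩ := Metric.eventually_nhds_iff_ball.1 h1
  rcases h.dich (W := Metric.ball z ε) (fun w hw => (hb w hw).1)
    (convex_ball z ε).isPreconnected (fun w hw => (hb w hw).2.le) with ⟨c, hc⟩ | hc
  · filter_upwards [Metric.ball_mem_nhds z hε] with w hw
    rw [hc w hw, hc z (Metric.mem_ball_self hε)]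
  · exact absurd (hc z (Metric.mem_ball_self hε)) (not_le.2 ha1)

/-- on a ball where `σ` is `L`-Lipschitz, `dich` on the segment `[z, z']` with
`a = σ z - L * dist z z'` gives `Dn z - L * dist z z' ≤ Dn z'` -/
theorem StH.Dn_lip {σ : ℂ → ℝ} {p : ℂ} (h : StH U σ p) (hl : LocallyLipschitzOn U σ) :
    LocallyLipschitzOn U (Dn U σ p) := by
  intro x hx
  obtain ⟨K, t, ht, hK⟩ := hl hx
  rw [h.op.nhdsWithin_eq hx] at ht
  obtain ⟨r, hr, hb⟩ := Metric.mem_nhds_iff.1 (inter_mem ht (h.op.mem_nhds hx))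
  refine ⟨Real.toNNReal K, Metric.ball x r, mem_nhdsWithin_of_mem_nhds (Metric.ball_mem_nhds x hr),
    LipschitzOnWith.of_le_add_mul' (K : ℝ) fun z hz z' hz' => ?_⟩
  have hseg : segment ℝ z z' ⊆ Metric.ball x r := (convex_ball x r).segment_subset hz hz'
  have hK0 : (0 : ℝ) ≤ K := K.2
  have hd : (0 : ℝ) ≤ K * dist z z' := mul_nonneg hK0 dist_nonneg
  have ha : ∀ w ∈ segment ℝ z z', σ z - K * dist z z' ≤ σ w := by
    intro w hw
    have h1 := hK.dist_le_mul z (hb hz).1 w (hb (hseg hw)).1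
    have h2 : dist z w ≤ dist z z' := by
      have := dist_add_dist_of_mem_segment hw
      linarith [dist_nonneg (x := w) (y := z')]
    rw [Real.dist_eq] at h1
    have h3 := mul_le_mul_of_nonneg_left h2 hK0
    linarith [le_abs_self (σ z - σ w)]
  rcases h.dich (fun w hw => (hb (hseg hw)).2) (convex_segment z z').isPreconnected ha with
    ⟨c, hc⟩ | h2
  · rw [hc z (left_mem_segment ℝ z z'), hc z' (right_mem_segment ℝ z z')]
    linarith
  · have h3 := h2 z' (right_mem_segment ℝ z z')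
    have h4 := (h.Dn_le (hb hz).2).1
    linarith

/-- `ae_fderiv_eq_of_eq` on `{Dn = σ}`, `Dn_locconst` elsewhere -/
theorem StH.Dn_fderiv {σ : ℂ → ℝ} {p : ℂ} (h : StH U σ p) (hl : LocallyLipschitzOn U σ) :
    ∀ᵐ z, z ∈ U → fderiv ℝ (Dn U σ p) z = fderiv ℝ σ z ∨ fderiv ℝ (Dn U σ p) z = 0 := by
  filter_upwards [ae_fderiv_eq_of_eq h.op (h.Dn_lip hl) hl] with z hz hU
  rcases (h.Dn_le hU).1.eq_or_lt with h1 | h1
  · exact Or.inl (hz hU h1)
  · right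
    have h2 : Dn U σ p =ᶠ[𝓝 z] fun _ => Dn U σ p z := h.Dn_locconst hU h1
    rw [h2.fderiv_eq]
    exact fderiv_const_apply _

theorem h55_ext_conn (R : ℝ) : IsPreconnected {z : ℂ | R ≤ ‖z‖} := by
  have he : {z : ℂ | R ≤ ‖z‖} =
      (fun q : ℝ × ℝ => (q.1 : ℂ) * Complex.exp (q.2 * Complex.I)) '' (Ici R ×ˢ univ) := by
    ext z
    constructor
    · intro hz
      exact ⟨(‖z‖, Complex.arg z), ⟨hz, mem_univ _⟩, Complex.norm_mul_exp_arg_mul_I z⟩
    · rintro ⟨⟨r, θ⟩, ⟨hr, -⟩, rfl⟩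
      have hr' : R ≤ r := hr
      show R ≤ ‖(r : ℂ) * Complex.exp (θ * Complex.I)‖
      rw [norm_mul, Complex.norm_exp_ofReal_mul_I, mul_one, Complex.norm_real, Real.norm_eq_abs]
      exact hr'.trans (le_abs_self r)
  rw [he]
  refine (isPreconnected_Ici.prod isPreconnected_univ).image _ ?_
  exact Continuous.continuousOn (by fun_prop)

/-- constant near infinity by `dich` on the preconnected set `{R ≤ ‖z‖}`, `R > 0` large (second
alternative: `c ≤ Dn ≤ σ = c`); energy by `Dn_fderiv`; oscillation by `Lumps.near`, `dich` on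
`W n q` and `Lumps.osc_le`. -/
theorem StH.Dn_reg {σ : ℂ → ℝ} {p : ℂ} (h : StH U σ p) (Λ : Lumps U) (hσ : Reg Λ σ) :
    Reg Λ (Dn U σ p) ∧ En U (Dn U σ p) ≤ En U σ ∧ ∀ q, Λ.osc (Dn U σ p) q ≤ Λ.osc σ q := by
  have hen : En U (Dn U σ p) ≤ En U σ := by
    unfold En
    refine lintegral_mono_ae ?_
    rw [ae_restrict_iff' h.op.measurableSet]
    filter_upwards [h.Dn_fderiv hσ.xx.lip] with z hz hU
    rcases hz hU with h1 | h1
    · rw [h1]
    · rw [h1, ← ofReal_norm, norm_zero, ENNReal.ofReal_zero, zero_pow two_ne_zero]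
      exact zero_le
  have hosc : ∀ q, Λ.osc (Dn U σ p) q ≤ Λ.osc σ q := by
    intro q
    refine Λ.osc_le h.Dn_bdd fun η hη => ?_
    obtain ⟨n, hn⟩ := Λ.near hσ.bdd q (η := η / 2) (by positivity)
    refine ⟨n, fun z hz z' hz' => ?_⟩
    have hW : Λ.W n q ⊆ U := fun w hw => (Λ.sub n q hw).1
    have h0 := Λ.osc_nonneg hσ.bdd q
    rcases h.dich hW (Λ.conn n q).isPreconnected (fun w hw => (hn w hw).1) with ⟨c, hc⟩ | h2
    · rw [hc z hz, hc z' hz']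
      linarith
    · have h3 := h2 z' hz'
      have h4 := (h.Dn_le (hW hz)).1
      have h5 := (hn z hz).2
      rw [Lumps.osc]
      linarith
  refine ⟨⟨⟨h.Dn_lip hσ.xx.lip, ?_, hen.trans_lt hσ.xx.en⟩, h.Dn_bdd, ?_⟩, hen, hosc⟩
  · obtain ⟨R, c, hc⟩ := hσ.xx.inf
    have hW : {z : ℂ | max (max R Λ.R) 1 ≤ ‖z‖} ⊆ U := fun z hz =>
      Λ.far z (((le_max_right _ _).trans (le_max_left _ _)).trans hz)
    have hs : ∀ z ∈ {z : ℂ | max (max R Λ.R) 1 ≤ ‖z‖}, σ z = c := fun z hz =>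
      hc z (((le_max_left _ _).trans (le_max_left _ _)).trans hz)
    rcases h.dich hW (h55_ext_conn _) (a := c) (fun z hz => (hs z hz).ge) with ⟨c', hc'⟩ | h2
    · exact ⟨_, c', fun z hz => hc' z hz⟩
    · exact ⟨_, c, fun z hz => le_antisymm ((h.Dn_le (hW hz)).1.trans (hs z hz).le) (h2 z hz)⟩
  · refine Summable.of_nonneg_of_le (fun q => sq_nonneg _) (fun q => ?_) hσ.sq
    exact pow_le_pow_left₀ (Λ.osc_nonneg h.Dn_bdd q) (hosc q) 2

theorem StH.Dn_up {σ : ℂ → ℝ} {p : ℂ} (h : StH U σ p) (t : ℝ) :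
    {z | z ∈ U ∧ t < Dn U σ p z} = Oc U σ p t := by
  ext z
  refine ⟨fun hz => (h.lt_Dn hz.1).1 hz.2, fun hz => ?_⟩
  have hzU : z ∈ U := (connectedComponentIn_subset _ _ hz).1
  exact ⟨hzU, (h.lt_Dn hzU).2 hz⟩

/-- `{Dn < t} ⊇ {σ < t}`.  If `z` has `Dn z < s < t ≤ σ z`, the component `Q` of `z` in
`{σ > s}` misses `Oc s`, so `Dn ≤ s` on `Q`.  If `Q = U` then `p ∈ Q`, `z ∈ Oc s`, impossible; so
(`U` preconnected, `Q` open) `Q` has a limit point `w ∈ U \ Q`, `σ w ≤ s < t`, hence `Q` meets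
`{σ < t}`.  Conclude with `isPreconnected_of_forall` / unions of preconnected sets through a
common preconnected set. -/
theorem StH.Dn_down {σ : ℂ → ℝ} {p : ℂ} (h : StH U σ p) (t : ℝ)
    (hd : IsPreconnected {z | z ∈ U ∧ σ z < t}) :
    IsPreconnected {z | z ∈ U ∧ Dn U σ p z < t} := by
  have key : ∀ z, z ∈ U → Dn U σ p z < t → ∃ Q ⊆ {z | z ∈ U ∧ Dn U σ p z < t},
      IsPreconnected Q ∧ z ∈ Q ∧ ∃ w ∈ Q, w ∈ {z | z ∈ U ∧ σ z < t} := by
    intro z hz hzt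
    obtain ⟨s, hs, hst⟩ := exists_between hzt
    by_cases h0 : σ z < t
    · exact ⟨{z}, singleton_subset_iff.2 ⟨hz, hzt⟩, isPreconnected_singleton, rfl, z, rfl, hz, h0⟩
    have hO : IsOpen {w | w ∈ U ∧ s < σ w} := h.cont.isOpen_inter_preimage h.op isOpen_Ioi
    have hzO : z ∈ {w | w ∈ U ∧ s < σ w} := ⟨hz, hst.trans_le (not_lt.1 h0)⟩
    have hzQ := mem_connectedComponentIn hzO
    have hsub := connectedComponentIn_subset {w | w ∈ U ∧ s < σ w} z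
    have hzc : z ∉ Oc U σ p s := fun h1 => lt_asymm hs ((h.lt_Dn hz).2 h1)
    refine ⟨connectedComponentIn {w | w ∈ U ∧ s < σ w} z, fun w hw => ⟨(hsub hw).1, ?_⟩,
      isPreconnected_connectedComponentIn, hzQ, ?_⟩
    · refine lt_of_le_of_lt (not_lt.1 fun h1 => hzc ?_) hst
      have h2 := (h.lt_Dn (hsub hw).1).1 h1
      rw [Oc, connectedComponentIn_eq h2, ← connectedComponentIn_eq hw]
      exact hzQ
    · by_contra hn
      have h1 : ∀ w ∈ connectedComponentIn {w | w ∈ U ∧ s < σ w} z, t ≤ σ w := fun w hw =>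
        not_lt.1 fun h2 => hn ⟨w, hw, (hsub hw).1, h2⟩
      have h2 : U ⊆ connectedComponentIn {w | w ∈ U ∧ s < σ w} z := by
        refine h.conn.subset_of_closure_inter_subset hO.connectedComponentIn ⟨z, hz, hzQ⟩ ?_
        rintro w ⟨hw, hwU⟩
        have h3 : t ≤ σ w := ContinuousWithinAt.closure_le hw continuousWithinAt_const
          (h.cont.continuousAt (h.op.mem_nhds hwU)).continuousWithinAt h1
        have h4 := mem_connectedComponentIn
          (show w ∈ {w | w ∈ U ∧ s < σ w} from ⟨hwU, hst.trans_le h3⟩)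
        obtain ⟨y, hy, hy'⟩ := mem_closure_iff.1 hw _ hO.connectedComponentIn h4
        rw [connectedComponentIn_eq hy', ← connectedComponentIn_eq hy]
        exact h4
      refine hzc ?_
      rw [Oc, ← connectedComponentIn_eq (h2 h.mem)]
      exact hzQ
  refine isPreconnected_of_forall_pair fun x hx y hy => ?_
  obtain ⟨Q, h1, h2, h3, w, h4, h5⟩ := key x hx.1 hx.2
  obtain ⟨Q', h1', h2', h3', w', h4', h5'⟩ := key y hy.1 hy.2
  exact ⟨Q ∪ {z | z ∈ U ∧ σ z < t} ∪ Q',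
    union_subset (union_subset h1 fun z hz => ⟨hz.1, (h.Dn_le hz.1).1.trans_lt hz.2⟩) h1',
    Or.inl (Or.inl h3), Or.inr h3', (h2.union w h4 h5 hd).union w' (Or.inr h5') h4' h2'⟩

/-- `s = sSup (Dn '' N)` -/
theorem StH.Dn_local {σ : ℂ → ℝ} {p : ℂ} (h : StH U σ p) {N : Set ℂ} (hN : N ⊆ U)
    (hc : ∀ t, IsPreconnected {z | z ∈ N ∧ t < σ z}) :
    ∃ s, ∀ z ∈ N, Dn U σ p z = min (σ z) s := by
  refine ⟨sSup (Dn U σ p '' N), fun z hz => le_antisymm (le_min (h.Dn_le (hN hz)).1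
    (le_csSup ⟨σ p, ?_⟩ (mem_image_of_mem _ hz))) (le_of_forall_lt fun t ht => ?_)⟩
  · rintro _ ⟨w, hw, rfl⟩
    exact (h.Dn_le (hN hw)).2
  · obtain ⟨h1, h2⟩ := lt_min_iff.1 ht
    obtain ⟨_, ⟨w, hw, rfl⟩, h3⟩ := exists_lt_of_lt_csSup ⟨_, mem_image_of_mem _ hz⟩ h2
    exact (h.lt_Dn (hN hz)).2 (h14_spread (hc t) (fun v hv => ⟨hN hv.1, hv.2⟩)
      ⟨hw, h3.trans_le (h.Dn_le (hN hw)).1⟩ ⟨hz, h1⟩ ((h.lt_Dn (hN hw)).1 h3))

/-- `Dn σ ∈ T`.  For `γ > 0` let `ρ = min σ (Dn + γ)`: regular (`XX.comp2`, `osc_comp2_le`) with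
`osc ρ ≤ 2 osc σ`, energy `≤ 4 En σ` (`norm_fderiv_comp2_le`/`En_add_le`, or a.e. the gradient is
that of `σ` or of `Dn`), `Dn ≤ ρ ≤ Dn + γ`.  For `q` outside the finite set
`F = {γ ≤ osc σ q}` (`L2w.finite_big`) take a lump with `σ ∈ [a, a + γ]` (`Lumps.near`); by
`dich`, `ρ = min σ (c + γ)` or `ρ = σ` there.  `Adm.loc`, `CH.remove`, `Adm.osc`, `Adm.mono` give
`Adm ∅ ρ (2 osc σ)`; `Adm.limit` with `γ = 1/(k+1)`. -/
theorem StH.Dn_TT {σ : ℂ → ℝ} {p : ℂ} (h : StH U σ p) {Λ : Lumps U} {M : Set (ℂ → ℝ)}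
    (hM : ∀ r ∈ M, Reg Λ r) (hC : CH Λ M) (hσ : Reg Λ σ) (hT : TT Λ M σ) :
    TT Λ M (Dn U σ p) := by
  have hU := h.op
  obtain ⟨hD, -, hosc⟩ := h.Dn_reg Λ hσ
  obtain ⟨e, he⟩ := hT.2
  have hl2 : L2w fun q => 2 * Λ.osc σ q :=
    (L2w.smul ⟨Λ.osc_nonneg hσ.bdd, hσ.sq⟩ zero_le_two).1
  have hG : ∀ γ s t s' t' : ℝ, |min s (t + γ) - min s' (t' + γ)| ≤ 1 * |s - s'| + 1 * |t - t'| := by
    intro γ s t s' t'
    refine (abs_min_sub_min_le_max _ _ _ _).trans ?_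
    rw [add_sub_add_right_eq_sub, one_mul, one_mul]
    exact max_le (le_add_of_nonneg_right (abs_nonneg _)) (le_add_of_nonneg_left (abs_nonneg _))
  have hX : ∀ γ : ℝ, XX U fun z => min (σ z) (Dn U σ p z + γ) := fun γ =>
    XX.comp2 hU (G := fun s t => min s (t + γ)) (hG γ) hσ.xx hD.xx
  have hlo : ∀ γ : ℝ, 0 < γ → ∀ z ∈ U, Dn U σ p z ≤ min (σ z) (Dn U σ p z + γ) :=
    fun γ hγ z hz => le_min (h.Dn_le hz).1 (by linarith)
  have hA : ∀ γ : ℝ, 0 < γ →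
      Adm Λ M ∅ (fun z => min (σ z) (Dn U σ p z + γ)) fun q => 2 * Λ.osc σ q := by
    intro γ hγ
    have hb : Bdd U fun z => min (σ z) (Dn U σ p z + γ) := by
      obtain ⟨B₁, h₁⟩ := hσ.bdd
      obtain ⟨B₂, h₂⟩ := hD.bdd
      refine ⟨max B₁ B₂, fun z hz => abs_le.2 ⟨?_, ?_⟩⟩
      · linarith [hlo γ hγ z hz, (abs_le.1 (h₂ z hz)).1, le_max_right B₁ B₂]
      · linarith [min_le_left (σ z) (Dn U σ p z + γ), (abs_le.1 (h₁ z hz)).2, le_max_left B₁ B₂]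
    have ho : ∀ q, Λ.osc (fun z => min (σ z) (Dn U σ p z + γ)) q ≤ 2 * Λ.osc σ q := fun q => by
      have := Λ.osc_comp2_le hσ.bdd hD.bdd (G := fun s t => min s (t + γ)) zero_le_one zero_le_one
        (hG γ) q
      linarith [hosc q]
    have hr : Reg Λ fun z => min (σ z) (Dn U σ p z + γ) :=
      ⟨hX γ, hb, (hl2.of_le (Λ.osc_nonneg hb) ho).1.2⟩
    have h1 := Adm.loc hU hM hC (F := (L2w.finite_big hσ.sq hγ).toFinset) hσ.xx (hX γ) he
      zero_le_one fun q hq => by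
        have h2 : Λ.hi σ q - Λ.lo σ q < γ := by
          rw [Finite.mem_toFinset, mem_ofPred_eq, not_le] at hq
          exact (le_abs_self _).trans_lt hq
        obtain ⟨n, hn⟩ := Λ.near hσ.bdd q (η := (γ - (Λ.hi σ q - Λ.lo σ q)) / 2) (by linarith)
        rcases h.dich (fun z hz => (Λ.sub n q hz).1) (Λ.conn n q).isPreconnected
          (fun z hz => (hn z hz).1) with ⟨c, hc⟩ | hc
        · refine ⟨n, fun s => min s (c + γ), fun s s' => ?_, fun z hz => by rw [hc z hz]⟩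
          simpa using hG γ s c s' c
        · exact ⟨n, fun s => s, fun s s' => by rw [one_mul], fun z hz =>
            min_eq_left (by linarith [hc z hz, (hn z hz).2])⟩
    exact (Adm.osc hU hM hC hr (hC.remove hU (hX γ) hb h1)).mono hM (Finset.Subset.refl _) hl2
      fun q _ => ho q
  have hs := hD.xx.sub hU hσ.xx
  refine ⟨hD.xx, _, Adm.limit hU hM (uk := fun k z => min (σ z) (Dn U σ p z + 1 / ((k : ℝ) + 1)))
    hD.xx hD.bdd (fun k => hX _)
    (D := (En U σ ^ (1 / 2 : ℝ) + En U (fun z => Dn U σ p z - σ z) ^ (1 / 2 : ℝ)) ^ (2 : ℝ))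
    ?_ (fun k => ?_) ?_ fun k => hA _ (by positivity)⟩
  · exact ENNReal.rpow_lt_top_of_nonneg (by norm_num) (ENNReal.add_ne_top.2
      ⟨ENNReal.rpow_ne_top_of_nonneg (by norm_num) hσ.xx.en.ne,
        ENNReal.rpow_ne_top_of_nonneg (by norm_num) hs.en.ne⟩)
  · have hT' : ∀ s s' : ℝ, |min 0 (s + 1 / ((k : ℝ) + 1)) - min 0 (s' + 1 / ((k : ℝ) + 1))| ≤
        1 * |s - s'| := fun s s' => by simpa using hG (1 / ((k : ℝ) + 1)) 0 s 0 s'
    have h1 := En_comp_lip_le hU zero_le_one hT' hs.lip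
    rw [one_pow, ENNReal.ofReal_one, one_mul] at h1
    have h2 := En_add_le hU hσ.xx.lip (XX.comp_lip hU hT' hs).lip
    have h3 : (fun z => σ z + min 0 (Dn U σ p z - σ z + 1 / ((k : ℝ) + 1))) =
        fun z => min (σ z) (Dn U σ p z + 1 / ((k : ℝ) + 1)) := by
      funext z
      rw [← min_add_add_left]
      congr 1 <;> ring
    rw [h3] at h2
    have h4 := ENNReal.rpow_le_rpow (h2.trans (add_le_add le_rfl
      (ENNReal.rpow_le_rpow h1 (by norm_num)))) (z := 2) (by norm_num)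
    rwa [← ENNReal.rpow_mul, show (1 / 2 : ℝ) * 2 = 1 by norm_num, ENNReal.rpow_one] at h4
  · rw [Metric.tendstoUniformlyOn_iff]
    intro ε hε
    filter_upwards [tendsto_one_div_add_atTop_nhds_zero_nat.eventually (gt_mem_nhds hε)]
      with k hk z hz
    rw [Real.dist_eq, abs_lt]
    constructor <;> linarith [hlo (1 / ((k : ℝ) + 1)) (by positivity) z hz,
      min_le_right (σ z) (Dn U σ p z + 1 / ((k : ℝ) + 1))]

theorem Reg.neg {Λ : Lumps U} {σ : ℂ → ℝ} (hσ : Reg Λ σ) : Reg Λ (fun z => - σ z) := by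
  have hb : Bdd U fun z => - σ z := hσ.bdd.imp fun B hB z hz => by rw [abs_neg]; exact hB z hz
  refine ⟨hσ.xx.neg, hb, hσ.sq.of_nonneg_of_le (fun q => sq_nonneg _) fun q =>
    pow_le_pow_left₀ (Λ.osc_nonneg hb q) ?_ 2⟩
  have := Λ.osc_comp2_le hσ.bdd hσ.bdd (G := fun s _ => - s) zero_le_one le_rfl
    (fun s t s' t' => by rw [neg_sub_neg, abs_sub_comm]; simp) q
  simpa using this

theorem TT.neg {Λ : Lumps U} {M : Set (ℂ → ℝ)} {σ : ℂ → ℝ} (hσ : TT Λ M σ) :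
    TT Λ M (fun z => - σ z) := by
  obtain ⟨h1, e, h2⟩ := hσ
  refine ⟨h1.neg, e, h2.l2, fun r hr H hH χ hχ hF => ?_⟩
  have h3 := om_smul_left (U := U) (-1) (fun z => σ z * χ z) fun z => H (r z)
  simp only [neg_mul, one_mul] at h3 ⊢
  rw [h3, abs_neg]
  exact h2.le r hr H hH χ hχ hF

theorem h22_equiv {L : ℂ →L[ℝ] ℝ} (hL : L ≠ 0) : ∃ (ℓ : ℂ →L[ℝ] ℝ) (e : ℂ ≃L[ℝ] ℝ × ℝ),
    (e : ℂ →L[ℝ] ℝ × ℝ) = L.prod ℓ := by
  let ℓ : ℂ →L[ℝ] ℝ := L.comp ((ContinuousLinearMap.mul ℝ ℂ) Complex.I)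
  have hinj : Function.Injective (L.prod ℓ : ℂ →ₗ[ℝ] ℝ × ℝ) := by
    rw [injective_iff_map_eq_zero]
    intro w hw
    by_contra hw0
    apply hL
    have h1 : L w = 0 := congrArg Prod.fst hw
    have h2 : L (Complex.I * w) = 0 := congrArg Prod.snd hw
    ext u
    have hu : u = (u / w).re • w + (u / w).im • (Complex.I * w) := by
      have h3 : u = (u / w) * w := by field_simp
      conv_lhs => rw [h3, ← Complex.re_add_im (u / w)]
      simp only [Complex.real_smul]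
      ring
    rw [hu, map_add, map_smul, map_smul, h1, h2]
    simp
  have hdim : Module.finrank ℝ ℂ = Module.finrank ℝ (ℝ × ℝ) := by simp
  refine ⟨ℓ, (LinearMap.linearEquivOfInjective _ hinj hdim).toContinuousLinearEquiv, ?_⟩
  ext u <;> rfl

/-- Near a regular point of a `C¹` function there is a neighbourhood that is preconnected with all
its super- and sublevel sets.  Either the image of an open rectangle under a local inverse of
`z ↦ (β z, ℓ z)`, or a closed rhombus `{z + s v + t w : |t| ≤ ε (a - |s|)}` on which `β`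
increases in all directions `v + θ w`, `|θ| ≤ ε`: superlevel sets are star shaped about the top. -/
theorem exists_box (hU : IsOpen U) {β : ℂ → ℝ} (hβ : ContDiffOn ℝ 1 β U) {z : ℂ} (hz : z ∈ U)
    (hd : fderiv ℝ β z ≠ 0) : ∃ N ∈ 𝓝 z, N ⊆ U ∧ IsPreconnected N ∧
      (∀ t, IsPreconnected {w | w ∈ N ∧ t < β w}) ∧ ∀ t, IsPreconnected {w | w ∈ N ∧ β w < t} := by
  obtain ⟨ℓ, e, he⟩ := h22_equiv hd
  have hs : HasStrictFDerivAt β (fderiv ℝ β z) z :=
    (hβ.contDiffAt (hU.mem_nhds hz)).hasStrictFDerivAt one_ne_zero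
  have hΦ : HasStrictFDerivAt (fun w => (β w, ℓ w)) (e : ℂ →L[ℝ] ℝ × ℝ) z := by
    rw [he]
    exact hs.prodMk ℓ.hasStrictFDerivAt
  set E := hΦ.toOpenPartialHomeomorph _ with hE
  have hzs : z ∈ E.source := hΦ.mem_toOpenPartialHomeomorph_source
  have hEc : ∀ w, E w = (β w, ℓ w) := fun w => rfl
  have hO : IsOpen (E.target ∩ E.symm ⁻¹' U) := E.isOpen_inter_preimage_symm hU
  have hzt : E z ∈ E.target ∩ E.symm ⁻¹' U :=
    ⟨E.map_source hzs, by rw [mem_preimage, E.left_inv hzs]; exact hz⟩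
  obtain ⟨ρ, hρ, hb⟩ := Metric.isOpen_iff.1 hO _ hzt
  have hβs : ∀ y ∈ Metric.ball (E z) ρ, β (E.symm y) = y.1 := fun y hy => by
    have := E.right_inv (hb hy).1
    rw [hEc] at this
    exact congrArg Prod.fst this
  have hcv : ∀ C : Set (ℝ × ℝ), Convex ℝ C →
      IsPreconnected (E.symm '' (Metric.ball (E z) ρ ∩ C)) := fun C hC =>
    ((convex_ball _ _).inter hC).isPreconnected.image _
      (E.continuousOn_symm.mono fun y hy => (hb hy.1).1)
  refine ⟨E.symm '' Metric.ball (E z) ρ, ?_, ?_, ?_, fun t => ?_, fun t => ?_⟩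
  · have := E.symm.image_mem_nhds (x := E z) (E.map_source hzs) (Metric.ball_mem_nhds _ hρ)
    rwa [E.left_inv hzs] at this
  · rintro _ ⟨y, hy, rfl⟩
    exact (hb hy).2
  · simpa using hcv univ convex_univ
  · have h1 : Convex ℝ {y : ℝ × ℝ | t < y.1} :=
      convex_halfSpace_gt (LinearMap.fst ℝ ℝ ℝ).isLinear t
    convert hcv _ h1 using 1
    ext w
    constructor
    · rintro ⟨⟨y, hy, rfl⟩, ht⟩
      exact ⟨y, ⟨hy, by rw [hβs y hy] at ht; exact ht⟩, rfl⟩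
    · rintro ⟨y, ⟨hy, ht⟩, rfl⟩
      exact ⟨⟨y, hy, rfl⟩, by rw [hβs y hy]; exact ht⟩
  · have h1 : Convex ℝ {y : ℝ × ℝ | y.1 < t} :=
      convex_halfSpace_lt (LinearMap.fst ℝ ℝ ℝ).isLinear t
    convert hcv _ h1 using 1
    ext w
    constructor
    · rintro ⟨⟨y, hy, rfl⟩, ht⟩
      exact ⟨y, ⟨hy, by rw [hβs y hy] at ht; exact ht⟩, rfl⟩
    · rintro ⟨y, ⟨hy, ht⟩, rfl⟩
      exact ⟨⟨y, hy, rfl⟩, by rw [hβs y hy]; exact ht⟩

/-- at a regular point the function takes smaller and larger values nearby -/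
theorem exists_lt_gt (hU : IsOpen U) {β : ℂ → ℝ} (hβ : ContDiffOn ℝ 1 β U) {z : ℂ} (hz : z ∈ U)
    (hd : fderiv ℝ β z ≠ 0) {N : Set ℂ} (hN : N ∈ 𝓝 z) :
    (∃ w ∈ N, β w < β z) ∧ ∃ w ∈ N, β z < β w := by
  constructor
  · by_contra hc
    push Not at hc
    exact hd (IsLocalMin.fderiv_eq_zero (f := β) (mem_of_superset hN fun w hw => hc w hw))
  · by_contra hc
    push Not at hc
    exact hd (IsLocalMax.fderiv_eq_zero (f := β) (mem_of_superset hN fun w hw => hc w hw))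

end Crest.Agent.R105
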