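import Crest.Agent.R105.NDefs

/-! Row 105 toolkit 1: algebra of `XX` and of the pairing `om`. -/

set_option autoImplicit false

open MeasureTheory Set Filter Topology
open scoped ENNReal

namespace Crest.Agent.R105

variable {U : Set ℂ}

/-- Rademacher, localised (countable cover of the open set by balls). -/
theorem ae_diff (hU : IsOpen U) {u : ℂ → ℝ} (hu : LocallyLipschitzOn U u) :
    ∀ᵐ z, z ∈ U → DifferentiableAt ℝ u z := by
  classical
  have h1 : ∀ x : ℂ, ∃ (K : NNReal) (t : Set ℂ), x ∈ U →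
      IsOpen t ∧ x ∈ t ∧ LipschitzOnWith K u t := by
    intro x
    by_cases hx : x ∈ U
    · obtain ⟨K, t, ht, hK⟩ := hu hx
      rw [hU.nhdsWithin_eq hx] at ht
      obtain ⟨t', ht', ho, hxt⟩ := mem_nhds_iff.1 ht
      exact ⟨K, t', fun _ => ⟨ho, hxt, hK.mono ht'⟩⟩
    · exact ⟨0, ∅, fun h => absurd h hx⟩
  choose K t ht using h1
  obtain ⟨S, hSU, hSc, hcov⟩ := TopologicalSpace.countable_cover_nhdsWithin (f := t) (s := U)
    (fun x hx => mem_nhdsWithin_of_mem_nhds ((ht x hx).1.mem_nhds (ht x hx).2.1))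
  have h2 : ∀ᵐ z, ∀ x ∈ S, z ∈ t x → DifferentiableWithinAt ℝ u (t x) z := by
    rw [ae_ball_iff hSc]
    intro x hx
    exact (ht x (hSU hx)).2.2.ae_differentiableWithinAt_of_mem
  filter_upwards [h2] with z hz hzU
  obtain ⟨x, hx, hzx⟩ := mem_iUnion₂.1 (hcov hzU)
  exact (hz x hx hzx).differentiableAt ((ht x (hSU hx)).1.mem_nhds hzx)

theorem XX.const (c : ℝ) : XX U (fun _ => c) := by
  refine ⟨(LipschitzWith.const c).locallyLipschitz.locallyLipschitzOn, ⟨0, c, fun _ _ => rfl⟩, ?_⟩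
  have h : En U (fun _ => c) = 0 := by
    unfold En
    have : (fun z : ℂ => ‖fderiv ℝ (fun _ : ℂ => c) z‖ₑ ^ 2) = fun _ => 0 := by
      funext z
      rw [fderiv_fun_const, Pi.zero_apply, enorm_eq_nnnorm, nnnorm_zero]
      simp
    rw [this, lintegral_zero]
  rw [h]
  exact ENNReal.zero_lt_top

theorem XX.add (hU : IsOpen U) {u v : ℂ → ℝ} (hu : XX U u) (hv : XX U v) :
    XX U (fun z => u z + v z) := by
  refine ⟨hu.lip.add hv.lip, ?_, ?_⟩
  · obtain ⟨R, c, hc⟩ := hu.inf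
    obtain ⟨R', c', hc'⟩ := hv.inf
    refine ⟨max R R', c + c', fun z hz => ?_⟩
    rw [hc z ((le_max_left _ _).trans hz), hc' z ((le_max_right _ _).trans hz)]
  · have hm : AEMeasurable (fun z => 2 * ‖fderiv ℝ u z‖ₑ ^ 2) (volume.restrict U) :=
      (((measurable_fderiv ℝ u).enorm.pow_const 2).const_mul 2).aemeasurable
    have hle : En U (fun z => u z + v z) ≤
        ∫⁻ z in U, (2 * ‖fderiv ℝ u z‖ₑ ^ 2 + 2 * ‖fderiv ℝ v z‖ₑ ^ 2) := by
      refine lintegral_mono_ae ?_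
      rw [ae_restrict_iff' hU.measurableSet]
      filter_upwards [ae_diff hU hu.lip, ae_diff hU hv.lip] with z h1 h2 hz
      rw [fderiv_fun_add (h1 hz) (h2 hz)]
      set a := fderiv ℝ u z
      set b := fderiv ℝ v z
      have h3 : ‖a + b‖ ^ 2 ≤ 2 * ‖a‖ ^ 2 + 2 * ‖b‖ ^ 2 := by
        have h4 := norm_add_le a b
        have h5 : ‖a + b‖ ^ 2 ≤ (‖a‖ + ‖b‖) ^ 2 := pow_le_pow_left₀ (norm_nonneg _) h4 2
        nlinarith [sq_nonneg (‖a‖ - ‖b‖)]
      have h6 : ‖a + b‖₊ ^ 2 ≤ 2 * ‖a‖₊ ^ 2 + 2 * ‖b‖₊ ^ 2 := by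
        rw [← NNReal.coe_le_coe]
        push_cast
        exact h3
      simp only [enorm_eq_nnnorm]
      exact_mod_cast h6
    refine hle.trans_lt ?_
    rw [lintegral_add_left' hm, lintegral_const_mul' _ _ (by norm_num),
      lintegral_const_mul' _ _ (by norm_num)]
    exact ENNReal.add_lt_top.2 ⟨ENNReal.mul_lt_top (by norm_num) hu.en,
      ENNReal.mul_lt_top (by norm_num) hv.en⟩

theorem XX.smul {u : ℂ → ℝ} (a : ℝ) (hu : XX U u) : XX U (fun z => a * u z) := by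
  refine ⟨?_, ?_, ?_⟩
  · intro x hx
    obtain ⟨K, t, ht, hK⟩ := hu.lip hx
    exact ⟨_, t, ht, (lipschitzWith_smul (β := ℝ) a).comp_lipschitzOnWith hK⟩
  · obtain ⟨R, c, hc⟩ := hu.inf
    exact ⟨R, a * c, fun z hz => by rw [hc z hz]⟩
  · have h1 : fderiv ℝ (fun z => a * u z) = a • fderiv ℝ u := fderiv_const_smul_field (f := u) a
    have h2 : En U (fun z => a * u z) = ‖a‖ₑ ^ 2 * En U u := by
      unfold En
      rw [h1, ← lintegral_const_mul' _ _ (by simp)]
      refine lintegral_congr fun z => ?_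
      rw [Pi.smul_apply, enorm_smul, mul_pow]
    rw [h2]
    exact ENNReal.mul_lt_top (by simp [lt_top_iff_ne_top]) hu.en

theorem XX.neg {u : ℂ → ℝ} (hu : XX U u) : XX U (fun z => - u z) := by
  simpa using hu.smul (-1)

theorem XX.sub (hU : IsOpen U) {u v : ℂ → ℝ} (hu : XX U u) (hv : XX U v) :
    XX U (fun z => u z - v z) := by
  simpa [sub_eq_add_neg] using hu.add hU hv.neg

theorem XX.sum (hU : IsOpen U) {ι : Type*} (s : Finset ι) {u : ι → ℂ → ℝ}
    (hu : ∀ i ∈ s, XX U (u i)) : XX U (fun z => ∑ i ∈ s, u i z) := by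
  classical
  induction s using Finset.induction_on with
  | empty => simpa using XX.const (U := U) 0
  | insert i s hi ih =>
    have h1 := (hu i (Finset.mem_insert_self i s)).add hU
      (ih fun j hj => hu j (Finset.mem_insert_of_mem hj))
    simpa [Finset.sum_insert hi] using h1

theorem h18_nonneg {G : ℝ → ℝ → ℝ} {L₁ L₂ : ℝ}
    (hG : ∀ s t s' t', |G s t - G s' t'| ≤ L₁ * |s - s'| + L₂ * |t - t'|) : 0 ≤ L₁ ∧ 0 ≤ L₂ :=
  ⟨by simpa using (abs_nonneg _).trans (hG 1 0 0 0), by simpa using (abs_nonneg _).trans (hG 0 1 0 0)⟩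

theorem h18_XX_congr (hU : IsOpen U) {u u' : ℂ → ℝ} (h : XX U u) (e : EqOn u' u U)
    (hi : ∃ R c : ℝ, ∀ z : ℂ, R ≤ ‖z‖ → u' z = c) : XX U u' := by
  refine ⟨fun x hx => ?_, hi, ?_⟩
  · obtain ⟨K, t, ht, hK⟩ := h.lip hx
    refine ⟨K, t ∩ U, inter_mem ht self_mem_nhdsWithin, fun a ha b hb => ?_⟩
    rw [e ha.2, e hb.2]
    exact hK ha.1 hb.1
  · refine lt_of_eq_of_lt (setLIntegral_congr_fun hU.measurableSet fun z hz => ?_) h.en
    have : u' =ᶠ[𝓝 z] u := Filter.eventuallyEq_of_mem (hU.mem_nhds hz) e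
    simp only [this.fderiv_eq]

theorem h18_clamp (B s s' : ℝ) : |max (-B) (min s B) - max (-B) (min s' B)| ≤ |s - s'| := by
  have := ((LipschitzWith.id.min_const B).const_max (-B)).dist_le_mul s s'
  simpa [Real.dist_eq] using this

theorem h18_clamp_mem {B : ℝ} (hB : 0 ≤ B) (s : ℝ) : max (-B) (min s B) ∈ Icc (-B) B :=
  ⟨le_max_left _ _, max_le (by linarith) (min_le_right _ _)⟩

theorem h18_clamp_eq {B s : ℝ} (h : |s| ≤ B) : max (-B) (min s B) = s := by
  rw [min_eq_left (abs_le.1 h).2, max_eq_right (abs_le.1 h).1]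

/-- pointwise gradient bound for a Lipschitz function of two functions (difference quotients) -/
theorem norm_fderiv_comp2_le {u v : ℂ → ℝ} {G : ℝ → ℝ → ℝ} {L₁ L₂ : ℝ} {z : ℂ}
    (hG : ∀ s t s' t', |G s t - G s' t'| ≤ L₁ * |s - s'| + L₂ * |t - t'|)
    (hu : DifferentiableAt ℝ u z) (hv : DifferentiableAt ℝ v z) (w : ℂ) :
    |fderiv ℝ (fun z => G (u z) (v z)) z w| ≤ L₁ * |fderiv ℝ u z w| + L₂ * |fderiv ℝ v z w| := by
  obtain ⟨h1, h2⟩ := h18_nonneg hG
  by_cases hd : DifferentiableAt ℝ (fun z => G (u z) (v z)) z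
  swap
  · rw [fderiv_zero_of_not_differentiableAt hd, zero_apply, abs_zero]
    positivity
  refine le_of_tendsto_of_tendsto' (hd.hasFDerivAt.hasLineDerivAt w).tendsto_slope_zero.abs
    (((hu.hasFDerivAt.hasLineDerivAt w).tendsto_slope_zero.abs.const_mul L₁).add
      ((hv.hasFDerivAt.hasLineDerivAt w).tendsto_slope_zero.abs.const_mul L₂)) fun t => ?_
  simp only [smul_eq_mul, abs_mul]
  have := mul_le_mul_of_nonneg_left (hG (u (z + t • w)) (v (z + t • w)) (u z) (v z))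
    (abs_nonneg t⁻¹)
  linarith

theorem XX.comp2 (hU : IsOpen U) {u v : ℂ → ℝ} {G : ℝ → ℝ → ℝ} {L₁ L₂ : ℝ}
    (hG : ∀ s t s' t', |G s t - G s' t'| ≤ L₁ * |s - s'| + L₂ * |t - t'|)
    (hu : XX U u) (hv : XX U v) : XX U (fun z => G (u z) (v z)) := by
  obtain ⟨h1, h2⟩ := h18_nonneg hG
  refine ⟨fun x hx => ?_, ?_, ?_⟩
  · obtain ⟨K, t, ht, hK⟩ := hu.lip hx
    obtain ⟨K', t', ht', hK'⟩ := hv.lip hx
    refine ⟨⟨L₁ * K + L₂ * K', by positivity⟩, t ∩ t', inter_mem ht ht',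
      LipschitzOnWith.of_dist_le_mul fun a ha b hb => ?_⟩
    have e1 := mul_le_mul_of_nonneg_left (hK.dist_le_mul a ha.1 b hb.1) h1
    have e2 := mul_le_mul_of_nonneg_left (hK'.dist_le_mul a ha.2 b hb.2) h2
    have e3 := hG (u a) (v a) (u b) (v b)
    rw [Real.dist_eq] at e1 e2 ⊢
    change _ ≤ (L₁ * K + L₂ * K') * _
    linarith
  · obtain ⟨R, c, hc⟩ := hu.inf
    obtain ⟨R', c', hc'⟩ := hv.inf
    exact ⟨max R R', G c c', fun z hz => by
      rw [hc z ((le_max_left _ _).trans hz), hc' z ((le_max_right _ _).trans hz)]⟩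
  · have e : ∀ x : ℂ →L[ℝ] ℝ, ‖x‖ₑ ^ 2 = ENNReal.ofReal (‖x‖ ^ 2) := fun x => by
      rw [← ofReal_norm, ENNReal.ofReal_pow (norm_nonneg _)]
    have hle : En U (fun z => G (u z) (v z)) ≤ ∫⁻ z in U,
        (ENNReal.ofReal (2 * L₁ ^ 2) * ‖fderiv ℝ u z‖ₑ ^ 2 +
          ENNReal.ofReal (2 * L₂ ^ 2) * ‖fderiv ℝ v z‖ₑ ^ 2) := by
      refine lintegral_mono_ae ((ae_restrict_iff' hU.measurableSet).2 ?_)
      filter_upwards [ae_diff hU hu.lip, ae_diff hU hv.lip] with z hz hz' hzU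
      have hn : ‖fderiv ℝ (fun z => G (u z) (v z)) z‖ ≤
          L₁ * ‖fderiv ℝ u z‖ + L₂ * ‖fderiv ℝ v z‖ := by
        refine ContinuousLinearMap.opNorm_le_bound _ (by positivity) fun w => ?_
        have a1 := mul_le_mul_of_nonneg_left ((fderiv ℝ u z).le_opNorm w) h1
        have a2 := mul_le_mul_of_nonneg_left ((fderiv ℝ v z).le_opNorm w) h2
        have a3 := norm_fderiv_comp2_le hG (hz hzU) (hz' hzU) w
        rw [Real.norm_eq_abs] at a1 a2 ⊢
        linarith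
      rw [e, e, e, ← ENNReal.ofReal_mul (by positivity), ← ENNReal.ofReal_mul (by positivity),
        ← ENNReal.ofReal_add (by positivity) (by positivity)]
      refine ENNReal.ofReal_le_ofReal ((pow_le_pow_left₀ (norm_nonneg _) hn 2).trans ?_)
      nlinarith [sq_nonneg (L₁ * ‖fderiv ℝ u z‖ - L₂ * ‖fderiv ℝ v z‖)]
    refine hle.trans_lt ?_
    rw [lintegral_add_left (((measurable_fderiv ℝ u).enorm.pow_const 2).const_mul _),
      lintegral_const_mul' _ _ ENNReal.ofReal_ne_top, lintegral_const_mul' _ _ ENNReal.ofReal_ne_top]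
    exact ENNReal.add_lt_top.2 ⟨ENNReal.mul_lt_top ENNReal.ofReal_lt_top hu.en,
      ENNReal.mul_lt_top ENNReal.ofReal_lt_top hv.en⟩

theorem XX.comp_lip (hU : IsOpen U) {u : ℂ → ℝ} {T : ℝ → ℝ} {L : ℝ}
    (hT : ∀ s s', |T s - T s'| ≤ L * |s - s'|) (hu : XX U u) : XX U (fun z => T (u z)) := by
  exact XX.comp2 hU (G := fun s _ => T s) (L₁ := L) (L₂ := 0)
    (fun s t s' t' => by simpa using hT s s') hu hu

/-- a `C¹` function is Lipschitz on the bounded range of `u` -/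
theorem XX.comp_C1 (hU : IsOpen U) {u : ℂ → ℝ} {H : ℝ → ℝ} (hH : ContDiff ℝ 1 H)
    (hu : XX U u) (hb : Bdd U u) : XX U (fun z => H (u z)) := by
  obtain ⟨B, hB⟩ := hb
  obtain ⟨K, hK⟩ := (hH.contDiffOn (s := Icc (-|B|) |B|)).exists_lipschitzOnWith one_ne_zero
    (convex_Icc _ _) isCompact_Icc
  refine h18_XX_congr hU (XX.comp_lip hU (T := fun s => H (max (-|B|) (min s |B|))) (L := K)
    (fun s s' => ?_) hu) (fun z hz => ?_) ?_
  · have := hK.dist_le_mul _ (h18_clamp_mem (abs_nonneg B) s) _ (h18_clamp_mem (abs_nonneg B) s')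
    rw [Real.dist_eq, Real.dist_eq] at this
    exact this.trans (mul_le_mul_of_nonneg_left (h18_clamp _ s s') K.2)
  · simp only [h18_clamp_eq ((hB z hz).trans (le_abs_self B))]
  · obtain ⟨R, c, hc⟩ := hu.inf
    exact ⟨R, H c, fun z hz => by rw [hc z hz]⟩

theorem XX.mul (hU : IsOpen U) {u v : ℂ → ℝ} (hu : XX U u) (hv : XX U v) (hub : Bdd U u)
    (hvb : Bdd U v) : XX U (fun z => u z * v z) := by
  obtain ⟨B, hB⟩ := hub
  obtain ⟨B', hB'⟩ := hvb
  refine h18_XX_congr hU (XX.comp2 hU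
    (G := fun s t => max (-|B|) (min s |B|) * max (-|B'|) (min t |B'|)) (L₁ := |B'|) (L₂ := |B|)
    (fun s t s' t' => ?_) hu hv) (fun z hz => ?_) ?_
  · have a1 := mul_le_mul (abs_le.2 (h18_clamp_mem (abs_nonneg B') t)) (h18_clamp |B| s s')
      (abs_nonneg _) (abs_nonneg _)
    have a2 := mul_le_mul (abs_le.2 (h18_clamp_mem (abs_nonneg B) s')) (h18_clamp |B'| t t')
      (abs_nonneg _) (abs_nonneg _)
    rw [← abs_mul] at a1 a2
    refine le_trans (le_of_eq (congrArg _ (by ring))) ((abs_add_le _ _).trans (add_le_add a1 a2))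
  · simp only [h18_clamp_eq ((hB z hz).trans (le_abs_self B)),
      h18_clamp_eq ((hB' z hz).trans (le_abs_self B'))]
  · obtain ⟨R, c, hc⟩ := hu.inf
    obtain ⟨R', c', hc'⟩ := hv.inf
    exact ⟨max R R', c * c', fun z hz => by
      rw [hc z ((le_max_left _ _).trans hz), hc' z ((le_max_right _ _).trans hz)]⟩

theorem h99_En_eq (U : Set ℂ) (u : ℂ → ℝ) :
    En U u = ∫⁻ z in U, ‖fderiv ℝ u z‖ₑ ^ (2 : ℝ) := by
  unfold En
  simp only [ENNReal.rpow_two]

theorem h99_meas (U : Set ℂ) (u : ℂ → ℝ) :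
    AEMeasurable (fun z => ‖fderiv ℝ u z‖ₑ) (volume.restrict U) :=
  (measurable_fderiv ℝ u).enorm.aemeasurable

theorem En_add_le (hU : IsOpen U) {u v : ℂ → ℝ} (hu : LocallyLipschitzOn U u)
    (hv : LocallyLipschitzOn U v) :
    En U (fun z => u z + v z) ^ (1 / 2 : ℝ) ≤ En U u ^ (1 / 2 : ℝ) + En U v ^ (1 / 2 : ℝ) := by
  rw [h99_En_eq, h99_En_eq, h99_En_eq]
  refine le_trans ?_ (ENNReal.lintegral_Lp_add_le (h99_meas U u) (h99_meas U v) (p := 2)
    (by norm_num))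
  refine ENNReal.rpow_le_rpow (lintegral_mono_ae ?_) (by norm_num)
  rw [ae_restrict_iff' hU.measurableSet]
  filter_upwards [ae_diff hU hu, ae_diff hU hv] with z h1 h2 hz
  refine ENNReal.rpow_le_rpow ?_ (by norm_num)
  rw [fderiv_fun_add (h1 hz) (h2 hz)]
  exact enorm_add_le (fderiv ℝ u z) (fderiv ℝ v z)

theorem h99_sqrt_toReal (a : ℝ≥0∞) : Real.sqrt a.toReal = (a ^ (1 / 2 : ℝ)).toReal := by
  rw [Real.sqrt_eq_rpow, ENNReal.toReal_rpow]

theorem sqrt_En_add_le (hU : IsOpen U) {u v : ℂ → ℝ} (hu : XX U u) (hv : XX U v) :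
    Real.sqrt (En U (fun z => u z + v z)).toReal ≤
      Real.sqrt (En U u).toReal + Real.sqrt (En U v).toReal := by
  have h1 : En U u ^ (1 / 2 : ℝ) ≠ ⊤ := ENNReal.rpow_ne_top_of_nonneg (by norm_num) hu.en.ne
  have h2 : En U v ^ (1 / 2 : ℝ) ≠ ⊤ := ENNReal.rpow_ne_top_of_nonneg (by norm_num) hv.en.ne
  rw [h99_sqrt_toReal, h99_sqrt_toReal, h99_sqrt_toReal, ← ENNReal.toReal_add h1 h2]
  exact ENNReal.toReal_mono (ENNReal.add_ne_top.2 ⟨h1, h2⟩) (En_add_le hU hu.lip hv.lip)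

theorem En_comp_lip_le (hU : IsOpen U) {u : ℂ → ℝ} {T : ℝ → ℝ} {L : ℝ} (hL : 0 ≤ L)
    (hT : ∀ s s', |T s - T s'| ≤ L * |s - s'|) (hu : LocallyLipschitzOn U u) :
    En U (fun z => T (u z)) ≤ ENNReal.ofReal (L ^ 2) * En U u := by
  unfold En
  rw [← lintegral_const_mul' _ _ ENNReal.ofReal_ne_top]
  refine lintegral_mono_ae ?_
  rw [ae_restrict_iff' hU.measurableSet]
  filter_upwards [ae_diff hU hu] with z h1 hz
  have hb : ‖fderiv ℝ (fun z => T (u z)) z‖ ≤ L * ‖fderiv ℝ u z‖ := by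
    refine ContinuousLinearMap.opNorm_le_bound _ (by positivity) fun w => ?_
    have := norm_fderiv_comp2_le (G := fun s _ => T s) (L₁ := L) (L₂ := 0)
      (fun s t s' t' => by simpa using hT s s') (h1 hz) (h1 hz) w
    rw [zero_mul, add_zero] at this
    rw [Real.norm_eq_abs, mul_assoc]
    refine this.trans (mul_le_mul_of_nonneg_left ?_ hL)
    rw [← Real.norm_eq_abs]
    exact (fderiv ℝ u z).le_opNorm w
  rw [← ofReal_norm, ← ofReal_norm, ← ENNReal.ofReal_pow (norm_nonneg _),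
    ← ENNReal.ofReal_pow (norm_nonneg _), ← ENNReal.ofReal_mul (by positivity), ← mul_pow]
  exact ENNReal.ofReal_le_ofReal (by gcongr)

theorem h99_clm_apply (a : ℂ →L[ℝ] ℝ) (x y : ℝ) :
    a ((x : ℂ) + (y : ℂ) * Complex.I) = x * a 1 + y * a Complex.I := by
  have : (x : ℂ) + (y : ℂ) * Complex.I = x • (1 : ℂ) + y • Complex.I := by simp
  rw [this, map_add, map_smul, map_smul, smul_eq_mul, smul_eq_mul]

theorem abs_wd_le (u c : ℂ → ℝ) (z : ℂ) : |wd u c z| ≤ ‖fderiv ℝ u z‖ * ‖fderiv ℝ c z‖ := by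
  unfold wd
  set a := fderiv ℝ u z
  set b := fderiv ℝ c z
  set w : ℂ := ((b 1 : ℝ) : ℂ) + ((b Complex.I : ℝ) : ℂ) * Complex.I with hw
  set w' : ℂ := ((b Complex.I : ℝ) : ℂ) + ((-b 1 : ℝ) : ℂ) * Complex.I with hw'
  have hn : ‖w‖ ^ 2 = b 1 ^ 2 + b Complex.I ^ 2 := by
    rw [Complex.sq_norm, hw, Complex.normSq_add_mul_I]
  have hn' : ‖w'‖ ^ 2 = b 1 ^ 2 + b Complex.I ^ 2 := by
    rw [Complex.sq_norm, hw', Complex.normSq_add_mul_I]; ring
  have hww : ‖w'‖ = ‖w‖ := by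
    rw [← sq_eq_sq₀ (norm_nonneg _) (norm_nonneg _), hn, hn']
  have h1 : ‖w‖ ≤ ‖b‖ := by
    have h2 := b.le_opNorm w
    have h3 : b w = ‖w‖ ^ 2 := by rw [hn, hw, h99_clm_apply]; ring
    rw [h3, Real.norm_eq_abs, abs_of_nonneg (by positivity)] at h2
    by_contra hc
    push Not at hc
    have : 0 < ‖w‖ := lt_of_le_of_lt (norm_nonneg _) hc
    nlinarith
  have h4 := a.le_opNorm w'
  have h5 : a w' = a 1 * b Complex.I - a Complex.I * b 1 := by rw [hw', h99_clm_apply]; ring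
  rw [h5, Real.norm_eq_abs, hww] at h4
  exact h4.trans (by gcongr)

theorem h99_lint_wd (U : Set ℂ) (u c : ℂ → ℝ) :
    ∫⁻ z in U, ‖wd u c z‖ₑ ≤ En U u ^ (1 / 2 : ℝ) * En U c ^ (1 / 2 : ℝ) := by
  rw [h99_En_eq, h99_En_eq]
  refine le_trans ?_ (ENNReal.lintegral_mul_le_Lp_mul_Lq _ Real.HolderConjugate.two_two
    (h99_meas U u) (h99_meas U c))
  refine lintegral_mono fun z => ?_
  simp only [Pi.mul_apply]
  rw [← ofReal_norm, ← ofReal_norm, ← ofReal_norm, ← ENNReal.ofReal_mul (norm_nonneg _)]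
  exact ENNReal.ofReal_le_ofReal (abs_wd_le u c z)

theorem h99_meas_wd (u c : ℂ → ℝ) : Measurable (wd u c) := by
  unfold wd
  exact ((measurable_fderiv_apply_const ℝ u _).mul (measurable_fderiv_apply_const ℝ c _)).sub
    ((measurable_fderiv_apply_const ℝ u _).mul (measurable_fderiv_apply_const ℝ c _))

theorem wd_integrableOn {u c : ℂ → ℝ} (hu : En U u < ⊤) (hc : En U c < ⊤) :
    IntegrableOn (wd u c) U := by
  refine ⟨(h99_meas_wd u c).aestronglyMeasurable, ?_⟩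
  refine lt_of_le_of_lt (h99_lint_wd U u c) (ENNReal.mul_lt_top ?_ ?_)
  · exact ENNReal.rpow_lt_top_of_nonneg (by norm_num) hu.ne
  · exact ENNReal.rpow_lt_top_of_nonneg (by norm_num) hc.ne

theorem abs_om_le {u c : ℂ → ℝ} (hu : En U u < ⊤) (hc : En U c < ⊤) :
    |om U u c| ≤ Real.sqrt (En U u).toReal * Real.sqrt (En U c).toReal := by
  have h1 : En U u ^ (1 / 2 : ℝ) ≠ ⊤ := ENNReal.rpow_ne_top_of_nonneg (by norm_num) hu.ne
  have h2 : En U c ^ (1 / 2 : ℝ) ≠ ⊤ := ENNReal.rpow_ne_top_of_nonneg (by norm_num) hc.ne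
  rw [h99_sqrt_toReal, h99_sqrt_toReal, ← ENNReal.toReal_mul]
  have h3 : ‖om U u c‖ₑ ≤ En U u ^ (1 / 2 : ℝ) * En U c ^ (1 / 2 : ℝ) :=
    (enorm_integral_le_lintegral_enorm _).trans (h99_lint_wd U u c)
  have h4 := ENNReal.toReal_mono (ENNReal.mul_ne_top h1 h2) h3
  rwa [toReal_enorm, Real.norm_eq_abs] at h4

theorem om_skew (u c : ℂ → ℝ) : om U u c = - om U c u := by
  rw [om, om, ← integral_neg]
  exact integral_congr_ae (Eventually.of_forall fun z => by simp only [wd]; ring)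

theorem om_add_left (hU : IsOpen U) {u v c : ℂ → ℝ} (hu : XX U u) (hv : XX U v) (hc : XX U c) :
    om U (fun z => u z + v z) c = om U u c + om U v c := by
  rw [om, om, om, ← integral_add (wd_integrableOn hu.en hc.en) (wd_integrableOn hv.en hc.en)]
  refine setIntegral_congr_ae hU.measurableSet ?_
  filter_upwards [ae_diff hU hu.lip, ae_diff hU hv.lip] with z h1 h2 hz
  simp only [wd, fderiv_fun_add (h1 hz) (h2 hz), add_apply]
  ring

theorem om_sub_left (hU : IsOpen U) {u v c : ℂ → ℝ} (hu : XX U u) (hv : XX U v) (hc : XX U c) :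
    om U (fun z => u z - v z) c = om U u c - om U v c := by
  rw [om, om, om, ← integral_sub (wd_integrableOn hu.en hc.en) (wd_integrableOn hv.en hc.en)]
  refine setIntegral_congr_ae hU.measurableSet ?_
  filter_upwards [ae_diff hU hu.lip, ae_diff hU hv.lip] with z h1 h2 hz
  simp only [wd, fderiv_fun_sub (h1 hz) (h2 hz), sub_apply]
  ring

theorem om_smul_left (a : ℝ) (u c : ℂ → ℝ) : om U (fun z => a * u z) c = a * om U u c := by
  rw [om, om, ← integral_const_mul]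
  refine integral_congr_ae (Eventually.of_forall fun z => ?_)
  have h : fderiv ℝ (fun z => a * u z) z = a • fderiv ℝ u z :=
    congrFun (fderiv_const_smul_field (𝕜 := ℝ) (f := u) a) z
  simp only [wd, h, smul_apply, smul_eq_mul]
  ring

theorem om_sum_left (hU : IsOpen U) {ι : Type*} (s : Finset ι) {u : ι → ℂ → ℝ} {c : ℂ → ℝ}
    (hu : ∀ i ∈ s, XX U (u i)) (hc : XX U c) :
    om U (fun z => ∑ i ∈ s, u i z) c = ∑ i ∈ s, om U (u i) c := by
  classical
  induction s using Finset.induction_on with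
  | empty => simp [om, wd]
  | insert i s hi ih =>
    simp only [Finset.sum_insert hi]
    rw [om_add_left hU (hu i (Finset.mem_insert_self _ _))
      (XX.sum hU s fun j hj => hu j (Finset.mem_insert_of_mem hj)) hc,
      ih fun j hj => hu j (Finset.mem_insert_of_mem hj)]

theorem om_add_right (hU : IsOpen U) {u c d : ℂ → ℝ} (hu : XX U u) (hc : XX U c) (hd : XX U d) :
    om U u (fun z => c z + d z) = om U u c + om U u d := by
  rw [om_skew, om_add_left hU hc hd hu, om_skew u c, om_skew u d]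
  ring

theorem om_sub_right (hU : IsOpen U) {u c d : ℂ → ℝ} (hu : XX U u) (hc : XX U c) (hd : XX U d) :
    om U u (fun z => c z - d z) = om U u c - om U u d := by
  rw [om_skew, om_sub_left hU hc hd hu, om_skew u c, om_skew u d]
  ring

theorem om_smul_right (a : ℝ) (u c : ℂ → ℝ) : om U u (fun z => a * c z) = a * om U u c := by
  rw [om_skew, om_smul_left, om_skew u c]
  ring

theorem om_congr (hU : IsOpen U) {u u' c c' : ℂ → ℝ} (hu : EqOn u u' U) (hc : EqOn c c' U) :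
    om U u c = om U u' c' := by
  refine setIntegral_congr_fun hU.measurableSet fun z hz => ?_
  have h1 := (hu.eventuallyEq_of_mem (hU.mem_nhds hz)).fderiv_eq (𝕜 := ℝ)
  have h2 := (hc.eventuallyEq_of_mem (hU.mem_nhds hz)).fderiv_eq (𝕜 := ℝ)
  simp only [wd, h1, h2]

theorem En_congr (hU : IsOpen U) {u u' : ℂ → ℝ} (hu : EqOn u u' U) : En U u = En U u' := by
  refine setLIntegral_congr_fun hU.measurableSet fun z hz => ?_
  have h1 := (hu.eventuallyEq_of_mem (hU.mem_nhds hz)).fderiv_eq (𝕜 := ℝ)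
  simp only [h1]

/-- chain rule in the second slot -/
theorem om_comp_right (hU : IsOpen U) {u c : ℂ → ℝ} {H : ℝ → ℝ} (hH : ContDiff ℝ 1 H)
    (hc : LocallyLipschitzOn U c) :
    om U u (fun z => H (c z)) = ∫ z in U, deriv H (c z) * wd u c z := by
  refine setIntegral_congr_ae hU.measurableSet ?_
  filter_upwards [ae_diff hU hc] with z h1 hz
  have h : fderiv ℝ (fun z => H (c z)) z = deriv H (c z) • fderiv ℝ c z :=
    (((hH.differentiable one_ne_zero) (c z)).hasDerivAt.comp_hasFDerivAt z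
      (h1 hz).hasFDerivAt).fderiv
  simp only [wd, h, smul_apply, smul_eq_mul]
  ring

end Crest.Agent.R105
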