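import Crest.Agent.R105.NAdm

/-! Row 105: a maximal compatible family of monotone generators. -/

set_option autoImplicit false

open MeasureTheory Set Filter Topology
open scoped ENNReal

namespace Crest.Agent.R105

variable {U : Set ℂ}

/-- self pairing (`om_self` with `G = id`); the right side is nonnegative -/
theorem adm_self (hU : IsOpen U) {Λ : Lumps U} {r : ℂ → ℝ} (hr : Reg Λ r) :
    Adm Λ {r} ∅ r (Λ.osc r) := by
  refine ⟨⟨fun q => Λ.osc_nonneg hr.bdd q, hr.sq⟩, ?_⟩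
  intro r₀ hr₀ H hH χ hχ _
  rw [Set.mem_singleton_iff] at hr₀
  subst hr₀
  have h := om_self hU Λ hr.xx hr.bdd hχ (G := fun s => s) contDiff_id hH
  rw [h, abs_zero]
  exact tsum_nonneg fun q => mul_nonneg (Λ.osc_nonneg hr.bdd q) ((wt_l2 Λ hr hH hχ).1 q)

theorem h51_lip_clamp {H : ℝ → ℝ} (hH : ContDiff ℝ 1 H) {B : ℝ} (hB : 0 ≤ B) :
    ∃ L : ℝ, 0 ≤ L ∧ ∀ s s' : ℝ,
      |H (max (-B) (min s B)) - H (max (-B) (min s' B))| ≤ L * |s - s'| := by
  have hc : ContinuousOn (fun t => deriv H t) (Icc (-B) B) :=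
    (hH.continuous_deriv le_rfl).continuousOn
  obtain ⟨L, hL⟩ := isCompact_Icc.exists_bound_of_continuousOn hc
  have hL0 : 0 ≤ L := le_trans (norm_nonneg _) (hL 0 ⟨by linarith, hB⟩)
  refine ⟨L, hL0, fun s s' => ?_⟩
  have hd : ∀ x ∈ Icc (-B) B, DifferentiableAt ℝ H x := fun x _ =>
    (hH.differentiable (by norm_num)) x
  have h := Convex.norm_image_sub_le_of_norm_deriv_le hd hL (convex_Icc _ _)
    (h18_clamp_mem hB s') (h18_clamp_mem hB s)
  rw [Real.norm_eq_abs, Real.norm_eq_abs] at h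
  exact h.trans (mul_le_mul_of_nonneg_left (h18_clamp B s s') hL0)

theorem h51_wt_id (Λ : Lumps U) {r : ℂ → ℝ} (hr : Bdd U r) (χ : ℂ → ℝ) (q : Λ.E) :
    wt Λ r (fun s => s) χ q = |Λ.val χ q| * Λ.osc r q := by
  have h := Λ.lo_le_hi hr q
  unfold wt Lumps.osc
  simp [h]

/-- Skew symmetry: `|om (r' χ) (H r)| = |om r' (H(r) χ)| = |om (H(r) χ) r'|` (`om_mul_swap`,
`om_skew`).  `H(r) = H₁(r)` on `U` with `H₁ = H ∘ clip` Lipschitz, so `H(r) ∈ Reg ∩ T`
(`CH.lip`, `osc_comp2_le`), `Adm.osc` tested with `r'`, `id`, `χ` bounds it by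
`Σ osc (H r) q * (|val χ q| * osc r' q)`, and `osc_comp_C1_le`. -/
theorem adm_swap (hU : IsOpen U) {Λ : Lumps U} {M : Set (ℂ → ℝ)} (hM : ∀ r ∈ M, Reg Λ r)
    (hC : CH Λ M) {r r' : ℂ → ℝ} (hr : Reg Λ r) (hT : TT Λ M r) (hr' : r' ∈ M) :
    Adm Λ {r} ∅ r' (Λ.osc r') := by
  have hR' := hM r' hr'
  have hl2' : L2w (Λ.osc r') := ⟨fun q => Λ.osc_nonneg hR'.bdd q, hR'.sq⟩
  have hl2 : L2w (Λ.osc r) := ⟨fun q => Λ.osc_nonneg hr.bdd q, hr.sq⟩
  refine ⟨hl2', ?_⟩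
  intro r₀ hr₀ H hH χ hχ _
  rw [Set.mem_singleton_iff] at hr₀
  subst hr₀
  obtain ⟨B₀, hB₀⟩ := hr.bdd
  set B : ℝ := max B₀ 0 with hBdef
  have hB : 0 ≤ B := le_max_right _ _
  have hBr : ∀ z ∈ U, |r₀ z| ≤ B := fun z hz => (hB₀ z hz).trans (le_max_left _ _)
  obtain ⟨L, hL0, hL⟩ := h51_lip_clamp hH hB
  set T : ℝ → ℝ := fun s => H (max (-B) (min s B)) with hTdef
  have hgeq : EqOn (fun z => T (r₀ z)) (fun z => H (r₀ z)) U := fun z hz => by
    simp only [hTdef, h18_clamp_eq (hBr z hz)]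
  have hgx : XX U (fun z => T (r₀ z)) := XX.comp_lip hU hL hr.xx
  have hHx : XX U (fun z => H (r₀ z)) := XX.comp_C1 hU hH hr.xx hr.bdd
  have hgb : Bdd U (fun z => T (r₀ z)) := by
    refine ⟨|T 0| + L * B, fun z hz => ?_⟩
    have h1 := hL (r₀ z) 0
    have h2 : L * |r₀ z - 0| ≤ L * B := by
      rw [sub_zero]; exact mul_le_mul_of_nonneg_left (hBr z hz) hL0
    have h3 : |T (r₀ z)| ≤ |T 0| + |T (r₀ z) - T 0| := by
      have := abs_add_le (T 0) (T (r₀ z) - T 0)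
      rwa [add_sub_cancel] at this
    have h4 : |T (r₀ z) - T 0| ≤ L * B := h1.trans h2
    linarith
  have hHb : Bdd U (fun z => H (r₀ z)) := by
    obtain ⟨C, hC'⟩ := hgb
    exact ⟨C, fun z hz => by have := hC' z hz; rwa [hgeq hz] at this⟩
  have hosc : ∀ q, Λ.osc (fun z => T (r₀ z)) q ≤ L * Λ.osc r₀ q := fun q => by
    have := Λ.osc_comp2_le hr.bdd hr.bdd (G := fun s _ => T s) hL0 le_rfl
      (fun s t s' t' => by simpa using hL s s') q
    simpa using this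
  have hgl2 : L2w (Λ.osc fun z => T (r₀ z)) :=
    (L2w.of_le (L2w.smul hl2 hL0).1 (fun q => Λ.osc_nonneg hgb q) hosc).1
  have hgR : Reg Λ (fun z => T (r₀ z)) := ⟨hgx, hgb, hgl2.2⟩
  obtain ⟨e, he⟩ := hT.2
  have hgT : TT Λ M (fun z => T (r₀ z)) := ⟨hgx, _, CH.lip hC hr.xx he hL0 hL⟩
  have hA := (Adm.osc hU hM hC hgR hgT).le r' hr' (fun s => s) contDiff_id χ hχ (by simp)
  have e1 : om U (fun z => r' z * χ z) (fun z => H (r₀ z)) =
      - om U (fun z => T (r₀ z) * χ z) (fun z => r' z) := by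
    rw [om_mul_swap hU Λ hR'.xx hHx hχ, om_skew]
    congr 1
    exact om_congr hU (fun z hz => by simp only [← hgeq hz]) (fun z _ => rfl)
  rw [e1, abs_neg]
  refine hA.trans (Summable.tsum_le_tsum (fun q => ?_)
    (L2w.summable_mul hgl2 (wt_l2 Λ hR' contDiff_id hχ)).1
    (L2w.summable_mul hl2' (wt_l2 Λ hr hH hχ)).1)
  have h1 : Λ.osc (fun z => T (r₀ z)) q = Λ.osc (fun z => H (r₀ z)) q := by
    have := Λ.lo_congr hgb hHb (q := q) (fun η hη => ⟨0, fun z hz => by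
      have hz' := (Λ.sub 0 q hz).1
      have := hgeq hz'
      simp only at this
      simp only [this, sub_self, abs_zero]; exact hη.le⟩)
    unfold Lumps.osc
    rw [this.1, this.2]
  rw [h51_wt_id Λ hR'.bdd, h1]
  have h2 := Λ.osc_comp_C1_le hr.bdd hH q
  unfold wt
  have h3 := hl2'.1 q
  have h4 := abs_nonneg (Λ.val χ q)
  calc Λ.osc (fun z => H (r₀ z)) q * (|Λ.val χ q| * Λ.osc r' q)
      ≤ (∫ t in Icc (Λ.lo r₀ q) (Λ.hi r₀ q), |deriv H t|) * (|Λ.val χ q| * Λ.osc r' q) :=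
        mul_le_mul_of_nonneg_right h2 (mul_nonneg h4 h3)
    _ = _ := by ring

/-- `zorn_subset` on `{M | (∀ r ∈ M, Mono Λ r) ∧ Fam Λ M}` (the conditions concern pairs of
members); for a monotone `r ∈ T` the family `insert r M` is compatible by `Adm.osc`, `adm_self`,
`adm_swap`. -/
theorem exists_maxFam (hU : IsOpen U) (Λ : Lumps U)
    (hCH : ∀ M : Set (ℂ → ℝ), (∀ r ∈ M, Mono Λ r) → Fam Λ M → CH Λ M) :
    ∃ M, MaxFam Λ M := by
  obtain ⟨M, hM⟩ := zorn_subset {M : Set (ℂ → ℝ) | (∀ r ∈ M, Mono Λ r) ∧ Fam Λ M} (by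
    intro c hc hch
    refine ⟨⋃₀ c, ⟨?_, ?_, ?_⟩, fun s hs => subset_sUnion_of_mem hs⟩
    · rintro r ⟨M, hM, hr⟩
      exact (hc hM).1 r hr
    · rintro r ⟨M, hM, hr⟩
      exact (hc hM).2.reg r hr
    · rintro r ⟨M, hM, hr⟩
      refine ⟨((hc hM).2.compat r hr).l2, ?_⟩
      rintro r' ⟨M', hM', hr'⟩
      rcases hch.total hM hM' with h | h
      · exact ((hc hM').2.compat r (h hr)).le r' hr'
      · exact ((hc hM).2.compat r hr).le r' (h hr'))
  have h1 := hM.prop.1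
  have h2 := hM.prop.2
  have hC := hCH M h1 h2
  refine ⟨M, h2, h1, fun r hr hT => ?_⟩
  have hins : insert r M ∈ {M : Set (ℂ → ℝ) | (∀ r ∈ M, Mono Λ r) ∧ Fam Λ M} := by
    refine ⟨?_, ?_, ?_⟩
    · rintro s (rfl | hs)
      · exact hr
      · exact h1 s hs
    · rintro s (rfl | hs)
      · exact hr.reg
      · exact h2.reg s hs
    · rintro s (rfl | hs)
      · refine ⟨(adm_self hU hr.reg).l2, ?_⟩
        rintro t (rfl | ht)
        · exact (adm_self hU hr.reg).le t rfl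
        · exact (Adm.osc hU h2.reg hC hr.reg hT).le t ht
      · refine ⟨(h2.compat s hs).l2, ?_⟩
        rintro t (rfl | ht)
        · exact (adm_swap hU h2.reg hC hr.reg hT hs).le t rfl
        · exact (h2.compat s hs).le t ht
  exact hM.le_of_ge hins (subset_insert r M) (mem_insert r M)

end Crest.Agent.R105
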