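import Crest.Agent.R105.HGr
import Crest.Agent.R105.LL1
import Crest.Agent.R105.E1a

/-! Row 105, block RX: the split functional on functions of small oscillation, and the
minimisation over a cone. -/

set_option autoImplicit false

open MeasureTheory Set Filter Topology
open scoped ENNReal

namespace Crest.Agent.R105

variable {U : Set ℂ} {Λ : Lumps U} {M : Set (ℂ → ℝ)}

/-- a functional bounded by `ν osc_U` that kills `A₀` is bounded by `ν sup_q osc_q` -/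
theorem mu_osc (hU : IsOpen U) (hM : ∀ r ∈ M, Reg Λ r) {μ : (ℂ → ℝ) → ℝ} {ν : ℝ} (hν : 0 ≤ ν)
    (μadd : ∀ v w, TT Λ M v → Bdd U v → TT Λ M w → Bdd U w →
      μ (fun z => v z + w z) = μ v + μ w)
    (μA : ∀ a, A0 U a → μ a = 0)
    (μle : ∀ v B, TT Λ M v → (∀ z ∈ U, |v z| ≤ B / 2) → |μ v| ≤ ν * B)
    {v : ℂ → ℝ} (hv : TT Λ M v) (hb : Bdd U v) {B : ℝ} (hB0 : 0 ≤ B)
    (hB : ∀ q, Λ.osc v q ≤ B) : |μ v| ≤ ν * B := by
  classical
  refine le_of_forall_pos_le_add fun ε hε => ?_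
  set δ : ℝ := ε / (ν + 1) with hδ
  have hδ0 : 0 < δ := by positivity
  have hδe : ν * δ ≤ ε := by
    rw [hδ, mul_div_assoc', div_le_iff₀ (by positivity)]
    nlinarith
  obtain ⟨N, hN⟩ := Λ.osc_unif hb univ (δ := B + δ) (fun q _ => by linarith [hB q]) 0
    (fun _ _ _ _ => mem_univ _)
  obtain ⟨Q, hQ, hd⟩ := Λ.exists_reps N
  choose χ hχ _ h01 h0 _ using fun p => exists_Ind hU Λ N p
  have hm : ∀ p, ∃ m, ∀ z ∈ Λ.W N p, |v z - m| ≤ (B + δ) / 2 := fun p => by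
    obtain ⟨C, hC⟩ := hb
    have hne : (v '' Λ.W N p).Nonempty := (Λ.conn N p).nonempty.image v
    have hbb : BddBelow (v '' Λ.W N p) := ⟨-C, by
      rintro _ ⟨z, hz, rfl⟩
      exact (abs_le.1 (hC z (Λ.sub N p hz).1)).1⟩
    refine ⟨sInf (v '' Λ.W N p) + (B + δ) / 2, fun z hz => ?_⟩
    have h1 : sInf (v '' Λ.W N p) ≤ v z := csInf_le hbb ⟨z, hz, rfl⟩
    have h2 : v z - (B + δ) ≤ sInf (v '' Λ.W N p) := le_csInf hne (by
      rintro _ ⟨z', hz', rfl⟩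
      linarith [hN N le_rfl p (mem_univ _) z hz z' hz'])
    rw [abs_le]
    constructor <;> linarith
  choose m hm using hm
  set l : ℂ → ℝ := fun z => ∑ p ∈ Q, (v z + -m p) * χ p z with hl
  have hlT : TT Λ M l := TT.sum hU hM Q fun p _ =>
    (hv.add hU hM (TT.of_A0 hU hM (A0.const (-m p)))).mul_A0 hU (hχ p).1
  have hlb : ∀ z ∈ U, |l z| ≤ (B + δ) / 2 := by
    intro z _
    by_cases hz : ∃ p ∈ Q, z ∈ Λ.W N p
    · obtain ⟨p, hp, hzp⟩ := hz
      have : l z = (v z + -m p) * χ p z := by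
        refine Finset.sum_eq_single p (fun p' hp' hne => ?_) (fun h => absurd hp h)
        rw [h0 p' z fun h => Set.disjoint_left.1 (hd p' hp' p hp hne) h hzp, mul_zero]
      rw [this, abs_mul, abs_of_nonneg (h01 p z).1, ← sub_eq_add_neg]
      have h1 := hm p z hzp
      have h2 := h01 p z
      nlinarith [abs_nonneg (v z - m p)]
    · have : l z = 0 := Finset.sum_eq_zero fun p hp => by
        rw [h0 p z fun h => hz ⟨p, hp, h⟩, mul_zero]
      rw [this, abs_zero]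
      positivity
  have hA : A0 U fun z => v z - l z := by
    refine A0.of_lumps hU Λ (hv.1.sub hU hlT.1) fun q => ?_
    obtain ⟨p, hp, hqp⟩ := hQ q
    choose n hn using fun p => (hχ p).1.eq_val Λ
    refine ⟨Q.sup n, m p, fun z hz => ?_⟩
    have h1 : ∀ p' ∈ Q, χ p' z = if Λ.W N q = Λ.W N p' then 1 else 0 := fun p' hp' => by
      rw [hn p' _ (Finset.le_sup hp') q z hz, (hχ p').2]
    have : l z = (v z + -m p) * χ p z := by
      refine Finset.sum_eq_single p (fun p' hp' hne => ?_) (fun h => absurd hp h)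
      rw [h1 p' hp', if_neg, mul_zero]
      intro h
      have h2 := hd p' hp' p hp hne
      rw [← h, ← hqp, disjoint_self] at h2
      exact (Λ.conn N q).nonempty.ne_empty h2
    rw [this, h1 p hp, if_pos hqp]
    ring
  have e : v = fun z => l z + (v z - l z) := by funext z; ring
  have h1 := μadd l _ hlT ⟨_, hlb⟩ (TT.of_A0 hU hM hA) (hA.bdd Λ)
  rw [← e, μA _ hA, add_zero] at h1
  rw [h1]
  have := μle l (B + δ) hlT hlb
  nlinarith

theorem mu_LL (hU : IsOpen U) (hF : Fam Λ M) (hC : CH Λ M) {μ : (ℂ → ℝ) → ℝ} {ν : ℝ}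
    (hν : 0 ≤ ν)
    (μadd : ∀ v w, TT Λ M v → Bdd U v → TT Λ M w → Bdd U w →
      μ (fun z => v z + w z) = μ v + μ w)
    (μA : ∀ a, A0 U a → μ a = 0)
    (μle : ∀ v B, TT Λ M v → (∀ z ∈ U, |v z| ≤ B / 2) → |μ v| ≤ ν * B)
    {l : ℂ → ℝ} {k : Λ.E → ℝ} (h : LL Λ M l k) : |μ l| ≤ ν * nrm k :=
  mu_osc hU hF.reg hν μadd μA μle (h.tt hU hF hC) (h.bdd hF.reg) (L2w.nrm_nonneg k) fun q =>
    (h.osc_le hF.reg q).trans ((h.l2 hF.reg).le_nrm q)

theorem xm_ip_eq {u v : ℂ → ℝ} (hu : En U u < ⊤) (hv : En U v < ⊤) :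
    ip U u v = inner ℝ (gL U u) (gL U v) := by
  rw [ip, L2.inner_def]
  refine integral_congr_ae ?_
  filter_upwards [gL_ae hu, gL_ae hv] with z h1 h2
  rw [h1, h2]
  simp [gz, Complex.inner]
  ring

theorem En_smul_gL (a : ℝ) {u : ℂ → ℝ} (hu : En U u < ⊤) :
    En U (fun z => a * u z) = ENNReal.ofReal (a ^ 2 * ‖gL U u‖ ^ 2) := by
  have h : En U (fun z => a * u z) = ENNReal.ofReal (‖a • gL U u‖ ^ 2) := by
    refine (En_of_ae ?_).1
    filter_upwards [gL_ae hu, Lp.coeFn_smul a (gL U u)] with z h1 h2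
    rw [h2, Pi.smul_apply, h1, gz_smul]
  rw [h, norm_smul, mul_pow, Real.norm_eq_abs, sq_abs]

theorem En_toReal_gL {u : ℂ → ℝ} (hu : En U u < ⊤) : (En U u).toReal = ‖gL U u‖ ^ 2 := by
  rw [En_eq_gL hu, ENNReal.toReal_ofReal (by positivity)]

theorem sqrt_En_gL {u : ℂ → ℝ} (hu : En U u < ⊤) :
    Real.sqrt (En U u).toReal = ‖gL U u‖ := by
  rw [En_toReal_gL hu, Real.sqrt_sq (norm_nonneg _)]

theorem gL_near (hU : IsOpen U) {u v : ℂ → ℝ} (hu : LocallyLipschitzOn U u)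
    (hv : LocallyLipschitzOn U v) (hu' : En U u < ⊤) (hv' : En U v < ⊤) {δ : ℝ} (hδ : 0 ≤ δ) :
    En U (fun z => u z - v z) ≤ ENNReal.ofReal (δ ^ 2) ↔ ‖gL U u - gL U v‖ ≤ δ := by
  rw [(gL_sub hU hu hv hu' hv').1, ENNReal.ofReal_le_ofReal_iff (by positivity)]
  exact pow_le_pow_iff_left₀ (norm_nonneg _) hδ two_ne_zero

/-- a square summable weight as an element of `ℓ²` -/
noncomputable def lv {E : Type} {e : E → ℝ} (h : L2w e) : lp (fun _ : E => ℝ) 2 :=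
  ⟨e, h70_memlp h.2⟩

theorem lv_norm {E : Type} {e : E → ℝ} (h : L2w e) : nrm e = ‖lv h‖ := (h70_lp_norm (lv h)).2

theorem lv_inner {E : Type} {e k : E → ℝ} (h : L2w e) (h' : L2w k) :
    ∑' q, e q * k q = inner ℝ (lv h) (lv h') := (h70_lp_inner (lv h) (lv h')).symm

theorem lv_sub {E : Type} {e k : E → ℝ} (h : L2w e) (h' : L2w k) :
    nrm (fun q => e q - k q) = ‖lv h - lv h'‖ := (h70_lp_norm (lv h - lv h')).2

/-- Minimisation of `|x|² / 2 - μ x` over a cone of pairs (function, weight). -/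
theorem cone_min (hU : IsOpen U) (hc : IsPreconnected U) (Λ : Lumps U)
    (P : Set ((ℂ → ℝ) × (Λ.E → ℝ))) (μ : (ℂ → ℝ) → ℝ) {C₁ C₂ : ℝ} (h₁ : 0 ≤ C₁) (h₂ : 0 ≤ C₂)
    (h0 : ((fun _ => 0), fun _ => 0) ∈ P) (hX : ∀ x ∈ P, XX U x.1 ∧ L2w x.2)
    (hadd : ∀ x ∈ P, ∀ y ∈ P, ((fun z => x.1 z + y.1 z), fun q => x.2 q + y.2 q) ∈ P ∧
      μ (fun z => x.1 z + y.1 z) = μ x.1 + μ y.1)
    (hsm : ∀ x ∈ P, ∀ a : ℝ, 0 ≤ a → ((fun z => a * x.1 z), fun q => a * x.2 q) ∈ P ∧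
      μ (fun z => a * x.1 z) = a * μ x.1)
    (hA : ∀ x ∈ P, ∀ a, A0 U a → ((fun z => x.1 z + a z), x.2) ∈ P ∧
      μ (fun z => x.1 z + a z) = μ x.1)
    (hle : ∀ x ∈ P, μ x.1 ≤ C₁ * Real.sqrt (En U x.1).toReal + C₂ * nrm x.2) :
    ∃ (F : ℂ → ℂ) (b : ℂ → ℝ) (s : Λ.E → ℝ), DifferentiableOn ℂ F U ∧
      En U (fun z => (F z).re) < ⊤ ∧ XX U b ∧ ContDiffOn ℝ (⊤ : ℕ∞) b U ∧
      (∀ z, ‖z‖ ≤ Λ.R → b z = (F z).im) ∧
      (∀ w, XX U w → om U w b = ip U w (fun z => (F z).re)) ∧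
      L2w s ∧ (∀ q, (∀ x ∈ P, x.2 q = 0) → s q = 0) ∧
      (∀ x ∈ P, μ x.1 ≤ om U x.1 b + ∑' q, s q * x.2 q) ∧
      ∀ η > 0, ∃ x ∈ P, En U (fun z => x.1 z - (F z).re) ≤ ENNReal.ofReal η ∧
        nrm (fun q => x.2 q - s q) ≤ η ∧
        μ x.1 = (En U (fun z => (F z).re)).toReal + nrm s ^ 2 := by
  have hz : En U (fun _ => (0 : ℝ)) = 0 := by
    have h3 : ‖(0 : ℂ →L[ℝ] ℝ)‖ₑ = 0 := by rw [← ofReal_norm, norm_zero, ENNReal.ofReal_zero]
    simp [En, h3]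
  have hl0 : L2w (fun _ : Λ.E => (0 : ℝ)) := ⟨fun _ => le_rfl, by simp⟩
  by_cases hK : ∃ x ∈ P, 0 < μ x.1
  swap
  · push Not at hK
    have ho : ∀ w : ℂ → ℝ, om U w (fun _ => (0 : ℝ)) = 0 := fun w => by simp [om, wd]
    refine ⟨fun _ => 0, fun _ => 0, fun _ => 0, differentiableOn_const _, ?_, XX.const 0,
      contDiffOn_const, fun _ _ => rfl, fun w _ => ?_, hl0, fun _ _ => rfl, fun x hx => ?_,
      fun η hη => ⟨_, h0, ?_, ?_, ?_⟩⟩
    · simp [hz]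
    · simp [ho, ip]
    · simpa [ho] using hK x hx
    · simp [hz]
    · simpa [nrm] using hη.le
    · have := (hsm _ h0 0 le_rfl).2
      simpa [hz, nrm] using this
  obtain ⟨x₀, hx₀, hμ₀⟩ := hK
  have hscale : ∀ x ∈ P, 0 < μ x.1 →
      ((fun z => (μ x.1)⁻¹ * x.1 z), fun q => (μ x.1)⁻¹ * x.2 q) ∈ {x ∈ P | μ x.1 = 1} :=
    fun x hx h => ⟨(hsm x hx _ (inv_pos.2 h).le).1, by
      show μ (fun z => (μ x.1)⁻¹ * x.1 z) = 1
      rw [(hsm x hx _ (inv_pos.2 h).le).2, inv_mul_cancel₀ h.ne']⟩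
  obtain ⟨F, c, t, hF, hE, hcx, hcs, hcR, hom, ht, ht0, hvar, happ⟩ :=
    hb_nearest hU hc Λ {x ∈ P | μ x.1 = 1} ⟨_, hscale x₀ hx₀ hμ₀⟩ (fun x hx => hX x hx.1)
      (fun x hx y hy θ a0 a1 => by
        obtain ⟨p1, e1⟩ := hsm x hx.1 θ a0
        obtain ⟨p2, e2⟩ := hsm y hy.1 (1 - θ) (by linarith)
        obtain ⟨p3, e3⟩ := hadd _ p1 _ p2
        refine ⟨p3, ?_⟩
        simp only at e3 ⊢
        rw [e3, e1, e2, hx.2, hy.2]
        ring)
      (fun x hx a ha => ⟨(hA x hx.1 a ha).1, by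
        show μ (fun z => x.1 z + a z) = 1
        rw [(hA x hx.1 a ha).2, hx.2]⟩)
  set a : ℂ → ℝ := fun z => (F z).re with ha
  have hal : LocallyLipschitzOn U a := locLip_re hU hF
  set N : ℝ := (En U a).toReal + nrm t ^ 2 with hN
  have hNe : N = ‖gL U a‖ ^ 2 + ‖lv ht‖ ^ 2 := by rw [hN, En_toReal_gL hE, lv_norm ht]
  have happ' : ∀ δ > 0, ∃ x, ∃ hx : x ∈ P, μ x.1 = 1 ∧ ‖gL U x.1 - gL U a‖ ≤ δ ∧
      ‖lv (hX x hx).2 - lv ht‖ ≤ δ := fun δ hδ => by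
    obtain ⟨x, hx, e1, e2⟩ := happ (min δ (δ ^ 2)) (lt_min hδ (by positivity))
    refine ⟨x, hx.1, hx.2, (gL_near hU (hX x hx.1).1.lip hal (hX x hx.1).1.en hE hδ.le).1
      (e1.trans (ENNReal.ofReal_le_ofReal (min_le_right _ _))), ?_⟩
    rw [← lv_sub]
    exact e2.trans (min_le_left _ _)
  have hN0 : 0 < N := by
    by_contra hn
    have hA0 : ‖gL U a‖ = 0 := by nlinarith [norm_nonneg (gL U a), sq_nonneg ‖lv ht‖]
    have hT0 : ‖lv ht‖ = 0 := by nlinarith [norm_nonneg (lv ht), sq_nonneg ‖gL U a‖]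
    obtain ⟨x, hx, e0, e1, e2⟩ := happ' (1 / (2 * (C₁ + C₂ + 1))) (by positivity)
    rw [norm_eq_zero.1 hA0, sub_zero] at e1
    rw [norm_eq_zero.1 hT0, sub_zero] at e2
    have h3 := hle x hx
    rw [e0, sqrt_En_gL (hX x hx).1.en, lv_norm (hX x hx).2] at h3
    have h4 := mul_le_mul_of_nonneg_left e1 h₁
    have h5 := mul_le_mul_of_nonneg_left e2 h₂
    have h6 : (C₁ + C₂ + 1) * (1 / (2 * (C₁ + C₂ + 1))) = 1 / 2 := by field_simp
    have h7 : 0 < 1 / (2 * (C₁ + C₂ + 1)) := by positivity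
    nlinarith
  have hvar' : ∀ y ∈ P, N * μ y.1 ≤ om U y.1 c + ∑' q, t q * y.2 q := by
    intro y hy
    refine le_of_forall_pos_le_add fun ε hε => ?_
    set l : ℝ := |μ y.1| + 1 with hl
    have hl0 : 0 < l := by positivity
    have hl1 : 0 < μ y.1 + l := by linarith [neg_abs_le (μ y.1)]
    set S : ℝ := ‖gL U a‖ + ‖lv ht‖ + 1 with hS
    have hS0 : 0 < S := by positivity
    obtain ⟨x, hx, e0, e1, e2⟩ := happ' (ε / (l * S)) (by positivity)
    obtain ⟨p1, q1⟩ := hsm x hx l hl0.le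
    obtain ⟨p2, q2⟩ := hadd y hy _ p1
    simp only at p2 q2
    rw [q1, e0, mul_one] at q2
    have p3 := hscale _ p2 (by simp only; rw [q2]; exact hl1)
    have h3 := hvar _ p3
    simp only at h3
    rw [q2, om_smul_left, om_add_left hU (hX y hy).1 ((hX x hx).1.smul l) hcx, om_smul_left] at h3
    have h4 : ∑' q, t q * ((μ y.1 + l)⁻¹ * (y.2 q + l * x.2 q)) =
        (μ y.1 + l)⁻¹ * (∑' q, t q * y.2 q + l * ∑' q, t q * x.2 q) := by
      rw [← tsum_mul_left, ← (ht.summable_mul (hX y hy).2).1.tsum_add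
        ((ht.summable_mul (hX x hx).2).1.mul_left l), ← tsum_mul_left]
      exact tsum_congr fun q => by ring
    rw [h4, ← mul_add, ← div_eq_inv_mul, le_div_iff₀ hl1] at h3
    have h5 : om U x.1 c ≤ ‖gL U a‖ ^ 2 + ε / (l * S) * ‖gL U a‖ := by
      rw [hom _ (hX x hx).1, xm_ip_eq (hX x hx).1.en hE]
      have e : gL U x.1 = gL U a + (gL U x.1 - gL U a) := by abel
      rw [e, inner_add_left, real_inner_self_eq_norm_sq]
      have := (real_inner_le_norm (gL U x.1 - gL U a) (gL U a)).trans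
        (mul_le_mul_of_nonneg_right e1 (norm_nonneg _))
      linarith
    have h6 : ∑' q, t q * x.2 q ≤ ‖lv ht‖ ^ 2 + ε / (l * S) * ‖lv ht‖ := by
      rw [lv_inner ht (hX x hx).2]
      have e : lv (hX x hx).2 = lv ht + (lv (hX x hx).2 - lv ht) := by abel
      rw [e, inner_add_right, real_inner_self_eq_norm_sq, real_inner_comm]
      have := (real_inner_le_norm (lv (hX x hx).2 - lv ht) (lv ht)).trans
        (mul_le_mul_of_nonneg_right e2 (norm_nonneg _))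
      linarith
    have h7 : l * (ε / (l * S) * S) = ε := by field_simp
    have h8 : 0 < ε / (l * S) := by positivity
    have h9 : l * (om U x.1 c + ∑' q, t q * x.2 q) ≤ l * (N + ε / (l * S) * S) :=
      mul_le_mul_of_nonneg_left (by rw [hNe, hS]; nlinarith) hl0.le
    nlinarith
  have hre : (fun z => (((N⁻¹ : ℝ) : ℂ) * F z).re) = fun z => N⁻¹ * a z := by
    funext z; simp [ha]
  have hNi : 0 < N⁻¹ := inv_pos.2 hN0
  refine ⟨fun z => ((N⁻¹ : ℝ) : ℂ) * F z, fun z => N⁻¹ * c z, fun q => N⁻¹ * t q,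
    hF.const_mul _, ?_, hcx.smul _, contDiffOn_const.mul hcs, fun z hz => ?_, fun w hw => ?_,
    (ht.smul hNi.le).1, fun q hq => ?_, fun x hx => ?_, fun η hη => ?_⟩
  · rw [hre, En_smul_gL _ hE]
    exact ENNReal.ofReal_lt_top
  · simp [hcR z hz]
  · rw [hre, om_smul_right, hom w hw, xm_ip_eq hw.en hE, xm_ip_eq hw.en
      (by rw [En_smul_gL _ hE]; exact ENNReal.ofReal_lt_top), gL_smul _ hE, inner_smul_right]
  · simp only
    rw [ht0 q fun x hx => hq x hx.1, mul_zero]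
  · have h3 := mul_le_mul_of_nonneg_left (hvar' x hx) hNi.le
    rw [← mul_assoc, inv_mul_cancel₀ hN0.ne', one_mul, mul_add, ← tsum_mul_left] at h3
    rw [om_smul_right]
    simpa only [mul_assoc] using h3
  · obtain ⟨x, hx, e0, e1, e2⟩ := happ' (N * min η (Real.sqrt η))
      (mul_pos hN0 (lt_min hη (Real.sqrt_pos.2 hη)))
    obtain ⟨p1, q1⟩ := hsm x hx N⁻¹ hNi.le
    refine ⟨_, p1, ?_, ?_, ?_⟩
    · have e : (fun z => N⁻¹ * x.1 z - (((N⁻¹ : ℝ) : ℂ) * F z).re) =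
          fun z => N⁻¹ * (x.1 z - a z) := by
        funext z; rw [congrFun hre z]; ring
      obtain ⟨g1, g2⟩ := gL_sub hU (hX x hx).1.lip hal (hX x hx).1.en hE
      simp only
      rw [e, En_smul_gL _ (by rw [g1]; exact ENNReal.ofReal_lt_top), g2, ← mul_pow]
      refine ENNReal.ofReal_le_ofReal ?_
      have h3 : N⁻¹ * ‖gL U x.1 - gL U a‖ ≤ Real.sqrt η := by
        rw [inv_mul_le_iff₀ hN0]
        exact e1.trans (mul_le_mul_of_nonneg_left (min_le_right _ _) hN0.le)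
      calc _ ≤ Real.sqrt η ^ 2 := pow_le_pow_left₀ (by positivity) h3 2
        _ = η := Real.sq_sqrt hη.le
    · simp only
      rw [lv_sub ((hX x hx).2.smul hNi.le).1 (ht.smul hNi.le).1]
      have e : lv ((hX x hx).2.smul hNi.le).1 - lv (ht.smul hNi.le).1 =
          N⁻¹ • (lv (hX x hx).2 - lv ht) := by
        ext q
        simp [lv, mul_sub]
      rw [e, norm_smul, Real.norm_eq_abs, abs_of_pos hNi, inv_mul_le_iff₀ hN0]
      exact e2.trans (mul_le_mul_of_nonneg_left (min_le_left _ _) hN0.le)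
    · simp only
      rw [q1, e0, hre, En_smul_gL _ hE, ENNReal.toReal_ofReal (by positivity),
        (ht.smul hNi.le).2, lv_norm ht, mul_pow, ← mul_add, ← hNe]
      field_simp

end Crest.Agent.R105
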