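import Crest.Agent.R105.XDefs
import Crest.Agent.R105.XMu

/-! Row 105, block RX: the cone of test pairs and the functional `μ`. -/

set_option autoImplicit false

open MeasureTheory Set Filter Topology
open scoped ENNReal Classical ContDiff

namespace Crest.Agent.R105

variable {U : Set ℂ} {Λ : Lumps U} {M : Set (ℂ → ℝ)} {Y Z : Finset Λ.E}

theorem h49_bdd_smul {v : ℂ → ℝ} (h : Bdd U v) (a : ℝ) : Bdd U (fun z => a * v z) := by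
  obtain ⟨B, hB⟩ := h
  exact ⟨|a| * B, fun z hz => by
    rw [abs_mul]; exact mul_le_mul_of_nonneg_left (hB z hz) (abs_nonneg a)⟩

theorem h49_bdd_add {v w : ℂ → ℝ} (h : Bdd U v) (h' : Bdd U w) : Bdd U (fun z => v z + w z) := by
  obtain ⟨B, hB⟩ := h
  obtain ⟨B', hB'⟩ := h'
  exact ⟨B + B', fun z hz => (abs_add_le _ _).trans (add_le_add (hB z hz) (hB' z hz))⟩

/-- `TT.smul`, `TT.add`, `Adm.smul`, `Adm.add`, `Lumps.osc_lin_le` -/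
theorem PZ.lin (hU : IsOpen U) (hM : ∀ r ∈ M, Reg Λ r) {v w : ℂ → ℝ} {e e' : Λ.E → ℝ}
    (h : PZ Λ M Y Z v e) (h' : PZ Λ M Y Z w e') (a b : ℝ) :
    PZ Λ M Y Z (fun z => a * v z + b * w z) (fun q => |a| * e q + |b| * e' q) :=
  ⟨(h.tt.smul a).add hU hM (h'.tt.smul b),
    h49_bdd_add (h49_bdd_smul h.bdd a) (h49_bdd_smul h'.bdd b),
    (h.adm.smul a).add hU hM (h.tt.1.smul a) (h'.tt.1.smul b) (h'.adm.smul b), fun q hq =>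
    (Λ.osc_lin_le h.bdd h'.bdd a b q).trans (add_le_add
      (mul_le_mul_of_nonneg_left (h.osc q hq) (abs_nonneg a))
      (mul_le_mul_of_nonneg_left (h'.osc q hq) (abs_nonneg b)))⟩

/-- `TT.of_A0`, `A0.bdd`, `Adm.of_A0`, `A0.osc_eq` -/
theorem PZ.of_A0 (hU : IsOpen U) (hM : ∀ r ∈ M, Reg Λ r) {a : ℂ → ℝ} (ha : A0 U a) :
    PZ Λ M Y Z a (fun _ => 0) :=
  ⟨TT.of_A0 hU hM ha, ha.bdd Λ, Adm.of_A0 hU hM Y ha, fun q _ => (A0.osc_eq Λ ha q).le⟩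

/-- `Adm.mono` -/
theorem PZ.off (hM : ∀ r ∈ M, Reg Λ r) (hd : Disjoint Y Z) {v : ℂ → ℝ} {e : Λ.E → ℝ}
    (h : PZ Λ M Y Z v e) : PZ Λ M Y Z v (fun q => if q ∈ Y then 0 else e q) := by
  refine ⟨h.tt, h.bdd, h.adm.mono hM Finset.Subset.rfl (L2w.of_le h.adm.l2 (fun q => ?_)
    fun q => ?_).1 fun q hq => by rw [if_neg hq], fun q hq => ?_⟩
  · split_ifs
    · exact le_rfl
    · exact h.adm.l2.1 q
  · split_ifs
    · exact h.adm.l2.1 q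
    · exact le_rfl
  · rw [if_neg (Finset.disjoint_right.1 hd hq)]
    exact h.osc q hq

theorem PZ.anti {Z' : Finset Λ.E} (hZ : Z ⊆ Z') {v : ℂ → ℝ} {e : Λ.E → ℝ}
    (h : PZ Λ M Y Z' v e) : PZ Λ M Y Z v e :=
  ⟨h.tt, h.bdd, h.adm, fun q hq => h.osc q (hZ hq)⟩

/-- `LL.tt`, `LL.bdd`, `LL.adm`, `Adm.mono`, `LL.osc_le` -/
theorem PZ.of_LL (hU : IsOpen U) (hF : Fam Λ M) (hC : CH Λ M) {l : ℂ → ℝ} {k : Λ.E → ℝ}
    (h : LL Λ M l k) : PZ Λ M Y Z l k :=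
  ⟨h.tt hU hF hC, h.bdd hF.reg, (h.adm hU hF hC).mono hF.reg (Finset.empty_subset _)
    (h.l2 hF.reg) fun _ _ => le_rfl, fun q _ => h.osc_le hF.reg q⟩

variable {c : ℂ → ℝ} {ν θ : ℝ} {t : Λ.E → ℝ} {μ : (ℂ → ℝ) → ℝ}

theorem Mu.lin (hμ : Mu Λ M Y c ν t μ) {v w : ℂ → ℝ} {e e' : Λ.E → ℝ}
    (h : PZ Λ M Y Z v e) (h' : PZ Λ M Y Z w e') (a b : ℝ) :
    μ (fun z => a * v z + b * w z) = a * μ v + b * μ w := by
  rw [hμ.add _ _ (h.tt.smul a) (h49_bdd_smul h.bdd a) (h'.tt.smul b) (h49_bdd_smul h'.bdd b),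
    hμ.smul a v h.tt h.bdd, hμ.smul b w h'.tt h'.bdd]

/-- `Mu.tau`, `abs_om_le`, `L2w.summable_mul` -/
theorem Mu.le_pair (hμ : Mu Λ M Y c ν t μ) {v : ℂ → ℝ} {e : Λ.E → ℝ} (h : PZ Λ M Y Z v e) :
    μ v ≤ Real.sqrt (En U v).toReal * Real.sqrt (En U c).toReal + nrm t * nrm e := by
  have h1 := abs_le.1 (hμ.tau v e h.tt h.bdd h.adm)
  have h2 := abs_le.1 (abs_om_le h.tt.1.en hμ.xx.en)
  have h3 := (hμ.l2.summable_mul h.adm.l2).2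
  linarith [h1.1, h2.2]

/-- `μ` sees only the oscillation at the ends -/
theorem Mu.le_LL (hU : IsOpen U) (hF : Fam Λ M) (hC : CH Λ M) (hμ : Mu Λ M Y c ν t μ)
    {l : ℂ → ℝ} {k : Λ.E → ℝ} (h : LL Λ M l k) : |μ l| ≤ 2 * ν * nrm k := by
  have h1 := mu_LL hU hF hC hμ.nn hμ.add hμ.a0 hμ.le h
  have h2 := mul_nonneg hμ.nn (L2w.nrm_nonneg k)
  linarith

end Crest.Agent.R105
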