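import Crest.Agent.R105.HAdm

/-! Row 105, block RX: Hahn-Banach splitting of the class functional. -/

set_option autoImplicit false

open MeasureTheory Set Filter Topology
open scoped ENNReal

namespace Crest.Agent.R105

variable {U : Set ℂ} {Λ : Lumps U} {M : Set (ℂ → ℝ)}

/-- abstract sandwich: `P x a` means that `a` is an admissible bound of the first kind for `x`,
`Q x a` of the second kind -/
theorem xs_sandwich {S : Type*} [AddCommGroup S] [Module ℝ S] (f : S →ₗ[ℝ] ℝ)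
    (P Q : S → ℝ → Prop) (Pne : ∀ x, ∃ a, P x a) (Qne : ∀ x, ∃ a, Q x a)
    (Padd : ∀ x y a b, P x a → P y b → P (x + y) (a + b))
    (Qadd : ∀ x y a b, Q x a → Q y b → Q (x + y) (a + b))
    (Psm : ∀ (c : ℝ) x a, P x a → P (c • x) (|c| * a))
    (Qsm : ∀ (c : ℝ) x a, Q x a → Q (c • x) (|c| * a))
    (h : ∀ x a b, P x a → Q x b → f x ≤ a + b) :
    ∃ g : S →ₗ[ℝ] ℝ, (∀ x a, P x a → |g x| ≤ a) ∧ ∀ x b, Q x b → |f x - g x| ≤ b := by
  set A : S → Set ℝ := fun v => {y | ∃ w a b, P (v + w) a ∧ Q w b ∧ y = a + b - f w} with hA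
  have Ane : ∀ v, (A v).Nonempty := fun v => by
    obtain ⟨a, ha⟩ := Pne (v + 0); obtain ⟨b, hb⟩ := Qne 0
    exact ⟨_, 0, a, b, ha, hb, rfl⟩
  have Abd : ∀ v, BddBelow (A v) := fun v => by
    obtain ⟨a0, ha0⟩ := Pne (-v)
    refine ⟨-a0, ?_⟩
    rintro y ⟨w, a, b, ha, hb, rfl⟩
    have h1 := Padd _ _ _ _ ha ha0
    rw [show v + w + -v = w by abel] at h1
    have := h w _ _ h1 hb
    linarith
  set N : S → ℝ := fun v => sInf (A v) with hN
  have Nle : ∀ v w a b, P (v + w) a → Q w b → N v ≤ a + b - f w := fun v w a b ha hb =>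
    csInf_le (Abd v) ⟨w, a, b, ha, hb, rfl⟩
  have Nsm : ∀ c : ℝ, 0 < c → ∀ v, N (c • v) ≤ c * N v := by
    intro c hc v
    have : N (c • v) / c ≤ N v := by
      refine le_csInf (Ane v) ?_
      rintro y ⟨w, a, b, ha, hb, rfl⟩
      have h1 := Psm c _ _ ha
      have h2 := Qsm c _ _ hb
      rw [smul_add] at h1
      have := Nle _ _ _ _ h1 h2
      rw [map_smul, smul_eq_mul, abs_of_pos hc] at this
      rw [div_le_iff₀ hc]; linarith
    rw [div_le_iff₀ hc] at this; linarith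
  have Nhom : ∀ c : ℝ, 0 < c → ∀ v, N (c • v) = c * N v := by
    intro c hc v
    refine le_antisymm (Nsm c hc v) ?_
    have := Nsm c⁻¹ (inv_pos.2 hc) (c • v)
    rw [smul_smul, inv_mul_cancel₀ hc.ne', one_smul] at this
    have h2 := mul_le_mul_of_nonneg_left this hc.le
    rwa [← mul_assoc, mul_inv_cancel₀ hc.ne', one_mul] at h2
  have Nadd : ∀ x y, N (x + y) ≤ N x + N y := by
    intro x y
    have : ∀ p ∈ A x, ∀ q ∈ A y, N (x + y) ≤ p + q := by
      rintro p ⟨w, a, b, ha, hb, rfl⟩ q ⟨w', a', b', ha', hb', rfl⟩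
      have h1 := Padd _ _ _ _ ha ha'
      rw [show x + w + (y + w') = x + y + (w + w') by abel] at h1
      have := Nle _ _ _ _ h1 (Qadd _ _ _ _ hb hb')
      rw [map_add] at this
      linarith
    have h1 : ∀ q ∈ A y, N (x + y) - q ≤ N x := fun q hq =>
      le_csInf (Ane x) fun p hp => by linarith [this p hp q hq]
    have h2 : N (x + y) - N x ≤ N y := le_csInf (Ane y) fun q hq => by linarith [h1 q hq]
    linarith
  have N0 : 0 ≤ N 0 := by
    have := Nadd 0 0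
    rw [add_zero] at this; linarith
  obtain ⟨g, -, hg⟩ := exists_extension_of_le_sublinear ((0 : S →ₗ[ℝ] ℝ).toPMap ⊥) N Nhom Nadd
    (fun x => by
      have hx : (x : S) = 0 := (Submodule.mem_bot ℝ).1 x.2
      rw [hx]; exact N0)
  have Q0 : Q 0 0 := by
    obtain ⟨b, hb⟩ := Qne 0
    simpa using Qsm 0 0 b hb
  have P0 : P 0 0 := by
    obtain ⟨b, hb⟩ := Pne 0
    simpa using Psm 0 0 b hb
  have g1 : ∀ x a, P x a → g x ≤ a := fun x a ha => by
    have := Nle x 0 a 0 (by simpa using ha) Q0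
    have h2 := hg x
    simp at this; linarith
  have g2 : ∀ x b, Q x b → f x - g x ≤ b := fun x b hb => by
    have := Nle (-x) x 0 b (by simpa using P0) hb
    have h2 := hg (-x)
    rw [map_neg] at h2; linarith
  refine ⟨g, fun x a ha => abs_le.2 ⟨?_, g1 x a ha⟩, fun x b hb => abs_le.2 ⟨?_, g2 x b hb⟩⟩
  · have := g1 _ _ (Psm (-1) x a ha)
    simp at this; linarith
  · have := g2 _ _ (Qsm (-1) x b hb)
    simp at this; linarith

/-- bounded elements of the test algebra -/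
def xsSub (hU : IsOpen U) (hM : ∀ r ∈ M, Reg Λ r) : Submodule ℝ (ℂ → ℝ) where
  carrier := {v | TT Λ M v ∧ Bdd U v}
  add_mem' := by
    rintro v w ⟨h1, B1, b1⟩ ⟨h2, B2, b2⟩
    exact ⟨h1.add hU hM h2, B1 + B2, fun z hz =>
      (abs_add_le _ _).trans (add_le_add (b1 z hz) (b2 z hz))⟩
  zero_mem' := ⟨TT.of_A0 hU hM (A0.const 0), 0, fun _ _ => by simp⟩
  smul_mem' := by
    rintro a v ⟨h1, B1, b1⟩
    refine ⟨h1.smul a, |a| * B1, fun z hz => ?_⟩
    show |a * v z| ≤ _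
    rw [abs_mul]; exact mul_le_mul_of_nonneg_left (b1 z hz) (abs_nonneg _)

/-- Hahn-Banach splitting `ω(·,c) = μ + τ` -/
theorem exists_mu (hU : IsOpen U) (hM : ∀ r ∈ M, Reg Λ r) {c : ℂ → ℝ} {ν : ℝ} {t : Λ.E → ℝ}
    {Y : Finset Λ.E} (hc : XX U c) (hν : 0 ≤ ν) (ht : L2w t)
    (h : ∀ v e B, TT Λ M v → (∀ z ∈ U, |v z| ≤ B / 2) → Adm Λ M Y v e →
      |om U v c| ≤ ν * B + ∑' q, t q * e q) :
    ∃ μ : (ℂ → ℝ) → ℝ,
      (∀ v w, TT Λ M v → Bdd U v → TT Λ M w → Bdd U w →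
        μ (fun z => v z + w z) = μ v + μ w) ∧
      (∀ (a : ℝ) v, TT Λ M v → Bdd U v → μ (fun z => a * v z) = a * μ v) ∧
      (∀ a, A0 U a → μ a = 0) ∧
      (∀ v B, TT Λ M v → (∀ z ∈ U, |v z| ≤ B / 2) → |μ v| ≤ ν * B) ∧
      ∀ v e, TT Λ M v → Bdd U v → Adm Λ M Y v e → |om U v c - μ v| ≤ ∑' q, t q * e q := by
  classical
  let f : xsSub hU hM →ₗ[ℝ] ℝ :=
    { toFun := fun v => om U v.1 c
      map_add' := fun v w => om_add_left hU v.2.1.1 w.2.1.1 hc
      map_smul' := fun a v => om_smul_left a v.1 c }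
  obtain ⟨g, g1, g2⟩ := xs_sandwich f
    (fun v a => ∃ B, (∀ z ∈ U, |v.1 z| ≤ B / 2) ∧ a = ν * B)
    (fun v a => ∃ e, Adm Λ M Y v.1 e ∧ a = ∑' q, t q * e q)
    (fun v => by
      obtain ⟨B, hB⟩ := v.2.2
      exact ⟨_, 2 * B, fun z hz => by linarith [hB z hz], rfl⟩)
    (fun v => by
      obtain ⟨e, he⟩ := v.2.1.2
      exact ⟨_, e, he.mono hM (Finset.empty_subset _) he.l2 fun _ _ => le_rfl, rfl⟩)
    (by
      rintro x y _ _ ⟨B, hB, rfl⟩ ⟨B', hB', rfl⟩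
      refine ⟨B + B', fun z hz => ?_, by ring⟩
      show |x.1 z + y.1 z| ≤ _
      linarith [abs_add_le (x.1 z) (y.1 z), hB z hz, hB' z hz])
    (by
      rintro x y _ _ ⟨e, he, rfl⟩ ⟨e', he', rfl⟩
      refine ⟨_, he.add hU hM x.2.1.1 y.2.1.1 he', ?_⟩
      rw [← (ht.summable_mul he.l2).1.tsum_add (ht.summable_mul he'.l2).1]
      exact tsum_congr fun q => by ring)
    (by
      rintro a x _ ⟨B, hB, rfl⟩
      refine ⟨|a| * B, fun z hz => ?_, by ring⟩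
      show |a * x.1 z| ≤ _
      rw [abs_mul, mul_div_assoc]
      exact mul_le_mul_of_nonneg_left (hB z hz) (abs_nonneg _))
    (by
      rintro a x _ ⟨e, he, rfl⟩
      refine ⟨_, he.smul a, ?_⟩
      rw [← tsum_mul_left]
      exact tsum_congr fun q => by ring)
    (by
      rintro x _ _ ⟨B, hB, rfl⟩ ⟨e, he, rfl⟩
      exact (le_abs_self _).trans (h x.1 e B x.2.1 hB he))
  have hτ : ∀ v e (hv : TT Λ M v ∧ Bdd U v), Adm Λ M Y v e →
      |om U v c - g ⟨v, hv⟩| ≤ ∑' q, t q * e q := fun v e hv he => g2 ⟨v, hv⟩ _ ⟨e, he, rfl⟩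
  refine ⟨fun v => if hv : TT Λ M v ∧ Bdd U v then g ⟨v, hv⟩ else 0, ?_, ?_, ?_, ?_, ?_⟩
  · intro v w h1 h2 h3 h4
    have h5 := (xsSub hU hM).add_mem (x := v) (y := w) ⟨h1, h2⟩ ⟨h3, h4⟩
    have h5' : TT Λ M (fun z => v z + w z) ∧ Bdd U (fun z => v z + w z) := h5
    simp only [dif_pos h5', dif_pos (And.intro h1 h2), dif_pos (And.intro h3 h4)]
    rw [← map_add]; rfl
  · intro a v h1 h2
    have h5 := (xsSub hU hM).smul_mem a (x := v) ⟨h1, h2⟩
    have h5' : TT Λ M (fun z => a * v z) ∧ Bdd U (fun z => a * v z) := h5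
    simp only [dif_pos h5', dif_pos (And.intro h1 h2)]
    rw [← smul_eq_mul, ← map_smul]; rfl
  · intro a ha
    have h1 : TT Λ M a ∧ Bdd U a := ⟨TT.of_A0 hU hM ha, ha.bdd Λ⟩
    have := hτ a _ h1 (Adm.of_A0 hU hM Y ha)
    rw [om_skew, om_A0 hU hc.lip ha] at this
    simp only [dif_pos h1]
    simpa using this
  · intro v B h1 h2
    have h3 : TT Λ M v ∧ Bdd U v := ⟨h1, _, h2⟩
    simp only [dif_pos h3]
    exact g1 ⟨v, h3⟩ _ ⟨B, h2, rfl⟩
  · intro v e h1 h2 he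
    simp only [dif_pos (And.intro h1 h2)]
    exact hτ v e ⟨h1, h2⟩ he

end Crest.Agent.R105
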