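import Crest.Agent.R105.HAdm

/-! Row 105, block RX: the positivity step. -/

set_option autoImplicit false

open MeasureTheory Set Filter Topology
open scoped ENNReal

namespace Crest.Agent.R105

variable {U : Set ℂ} {Λ : Lumps U} {M : Set (ℂ → ℝ)}

theorem xp_cont {F : ℝ → ℝ} {L : ℝ} (hF : ∀ s s', |F s - F s'| ≤ L * |s - s'|) :
    Continuous F := by
  have : LipschitzWith (Real.toNNReal L) F := LipschitzWith.of_dist_le_mul fun s s' => by
    rw [Real.dist_eq, Real.dist_eq]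
    exact (hF s s').trans (mul_le_mul_of_nonneg_right (Real.le_coe_toNNReal L) (abs_nonneg _))
  exact this.continuous

/-- `ω(F(β) χ, β) = 0` for Lipschitz `F` -/
theorem om_self_lip (hU : IsOpen U) {β χ : ℂ → ℝ} (hβ : XX U β) (hχ : A0 U χ) {F : ℝ → ℝ}
    {L : ℝ} (hF : ∀ s s', |F s - F s'| ≤ L * |s - s'|) :
    om U (fun z => F (β z) * χ z) β = 0 := by
  have hFc : Continuous F := xp_cont hF
  let Ft : ℝ → ℝ := fun t => ∫ s in (0 : ℝ)..t, F s
  have hd : ∀ t, HasDerivAt Ft (F t) t := fun t => (hFc.integral_hasStrictDerivAt 0 t).hasDerivAt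
  have hd' : deriv Ft = F := funext fun t => (hd t).deriv
  have hFt : ContDiff ℝ 1 Ft :=
    contDiff_one_iff_deriv.2 ⟨fun t => (hd t).differentiableAt, by rw [hd']; exact hFc⟩
  have h1 := om_comp_right (u := χ) hU hFt hβ.lip
  rw [om_skew, om_A0 hU (h90_lip_comp hFt hβ.lip) hχ, neg_zero, hd'] at h1
  rw [om, h1]
  refine setIntegral_congr_ae hU.measurableSet ?_
  filter_upwards [ae_diff hU hβ.lip, ae_diff hU hχ.xx.lip,
    ae_diff hU (XX.comp_lip hU hF hβ).lip] with z h2 h3 h5 hz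
  have h6 := norm_fderiv_comp2_le (u := β) (v := β) (G := fun s _ => F s) (L₁ := L) (L₂ := 0)
    (z := z) (fun s t s' t' => by simpa using hF s s') (h2 hz) (h2 hz)
    ((fderiv ℝ β z Complex.I) • (1 : ℂ) - (fderiv ℝ β z 1) • Complex.I)
  simp only [map_sub, map_smul, smul_eq_mul] at h6
  have h7 : fderiv ℝ β z Complex.I * fderiv ℝ β z 1 - fderiv ℝ β z 1 * fderiv ℝ β z Complex.I
      = 0 := by ring
  rw [h7, abs_zero, mul_zero, mul_zero, add_zero] at h6
  have h8 := abs_nonpos_iff.1 h6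
  simp only [wd]
  rw [h90_fderiv_mul (h5 hz) (h3 hz), h90_fderiv_mul (h5 hz) (h3 hz)]
  linear_combination (χ z) * h8

theorem xp_clamp_lip (A B s s' : ℝ) : |max A (min s B) - max A (min s' B)| ≤ |s - s'| := by
  have h1 := abs_max_sub_max_le_max A (min s B) A (min s' B)
  have h2 := abs_min_sub_min_le_max s B s' B
  simp only [sub_self, abs_zero] at h1 h2
  exact h1.trans (max_le (abs_nonneg _) (h2.trans (max_le le_rfl (abs_nonneg _))))

/-- `s - φ s t` is 1-Lipschitz in `s` -/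
theorem xp_Phi {φ : ℝ → ℝ → ℝ}
    (h1 : ∀ s s' t, s ≤ s' → 0 ≤ φ s' t - φ s t ∧ φ s' t - φ s t ≤ s' - s) (s s' t : ℝ) :
    |(s - φ s t) - (s' - φ s' t)| ≤ |s - s'| ∧ |φ s t - φ s' t| ≤ |s - s'| := by
  rcases le_total s s' with h | h
  · obtain ⟨a, b⟩ := h1 s s' t h
    rw [abs_of_nonpos (by linarith : s - s' ≤ 0)]
    constructor <;> rw [abs_le] <;> constructor <;> linarith
  · obtain ⟨a, b⟩ := h1 s' s t h
    rw [abs_of_nonneg (by linarith : 0 ≤ s - s')]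
    constructor <;> rw [abs_le] <;> constructor <;> linarith

open Classical in
/-- the piece of the remainder on the lump of a node -/
theorem xp_piece (hU : IsOpen U) (hM : ∀ r ∈ M, Reg Λ r) (hC : CH Λ M) {Y : Finset Λ.E}
    {b v : ℂ → ℝ} {eb e : Λ.E → ℝ} (hb : XX U b) (heb : Adm Λ M ∅ b eb) (hv : XX U v)
    (he : Adm Λ M Y v e) {φ : ℝ → ℝ → ℝ} {L : ℝ} (hL : 0 ≤ L)
    (h1 : ∀ s s' t, s ≤ s' → 0 ≤ φ s' t - φ s t ∧ φ s' t - φ s t ≤ s' - s)
    (h2 : ∀ s t t', |φ s t - φ s t'| ≤ L * |t - t'|)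
    {n : ℕ} {q : Λ.E} {χ : ℂ → ℝ} (hχ : Ind Λ n q χ) (h0 : ∀ z, z ∉ Λ.W n q → χ z = 0)
    (hY : ∀ p ∈ Y, Λ.W n p ≠ Λ.W n q) {m δ η : ℝ} (hδ : 0 ≤ δ) (hη : 0 ≤ η)
    (hr : ∀ z ∈ Λ.W n q, v z ∈ Icc (m - η) (m + δ + η)) :
    Adm Λ M ∅ (fun z => ((v z - φ (v z) (b z)) - (m - φ m (b z))) * χ z)
      (fun q' => |Λ.val χ q'| * (if q' = q then δ + 2 * η else e q' + 2 * L * eb q')) := by
  set cl : ℝ → ℝ := fun s => max (m - η) (min s (m + δ + η)) with hcl
  have hcl1 : ∀ s, m - η ≤ cl s ∧ cl s ≤ m + δ + η := fun s =>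
    ⟨le_max_left _ _, max_le (by linarith) (min_le_right _ _)⟩
  set G : ℝ → ℝ → ℝ := fun s t => ((cl s - φ (cl s) t) - (m - φ m t)) - δ / 2 with hG
  have hGl : ∀ s t s' t', |G s t - G s' t'| ≤ 1 * |s - s'| + (2 * L) * |t - t'| := by
    intro s t s' t'
    have a1 := (xp_Phi h1 (cl s) (cl s') t).1
    have a2 := xp_clamp_lip (m - η) (m + δ + η) s s'
    have a3 := h2 (cl s') t t'
    have a4 := h2 m t t'
    have e1 : G s t - G s' t' = ((cl s - φ (cl s) t) - (cl s' - φ (cl s') t))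
        - (φ (cl s') t - φ (cl s') t') + (φ m t - φ m t') := by simp only [hG]; ring
    rw [e1]
    rw [abs_le] at a1 a3 a4 ⊢
    constructor <;> nlinarith [a1.1, a1.2, a2, a3.1, a3.2, a4.1, a4.2]
  have hGb : ∀ s t, |G s t| ≤ (δ + 2 * η) / 2 := by
    intro s t
    obtain ⟨c1, c2⟩ := hcl1 s
    rw [abs_le]
    rcases le_total m (cl s) with h | h
    · obtain ⟨a, a'⟩ := h1 m (cl s) t h
      simp only [hG]; constructor <;> linarith
    · obtain ⟨a, a'⟩ := h1 (cl s) m t h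
      simp only [hG]; constructor <;> linarith
  have hA := hC (insert q Y) v b e eb G 1 (2 * L) (δ + 2 * η) hv hb
    (he.mono hM (Finset.subset_insert _ _) he.l2 fun _ _ => le_rfl)
    (heb.mono hM (Finset.empty_subset _) heb.l2 fun _ _ => le_rfl) zero_le_one (by linarith)
    (by linarith) hGl (Or.inr hGb)
  have hXG : XX U (fun z => G (v z) (b z)) := XX.comp2 hU hGl hv hb
  have hA2 := (hA.add hU hM hXG (XX.const (δ / 2)) (Adm.of_A0 hU hM ∅ (A0.const (δ / 2)))).mul_A0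
    hU hχ.1
  have hl2 : L2w (fun q' => |Λ.val χ q'| * (if q' = q then δ + 2 * η else e q' + 2 * L * eb q')) := by
    refine (L2w.of_le hA2.l2 (fun q' => ?_) fun q' => ?_).1
    · refine mul_nonneg (abs_nonneg _) ?_
      split_ifs
      · linarith
      · have := he.l2.1 q'; have := heb.l2.1 q'; positivity
    · by_cases hq : q' ∈ Y
      · have : Λ.val χ q' = 0 := by rw [hχ.2 q', if_neg (hY q' hq)]
        simp [this]
      · by_cases hq' : q' = q
        · simp [hq']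
        · simp [hq, hq']
  refine (hA2.mono hM (subset_refl _) hl2 fun q' _ => ?_).congr hU fun z _ => ?_
  · by_cases hq : q' ∈ Y
    · have : Λ.val χ q' = 0 := by rw [hχ.2 q', if_neg (hY q' hq)]
      simp [this]
    · by_cases hq' : q' = q
      · simp [hq']
      · simp [hq, hq']
  · by_cases hz : z ∈ Λ.W n q
    · have : cl (v z) = v z := by
        obtain ⟨a, a'⟩ := hr z hz
        simp only [hcl]; rw [min_eq_left a', max_eq_right a]
      simp only [hG, this]; ring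
    · simp [h0 z hz]

open Classical in
/-- the piece of the remainder away from the nodes -/
theorem xp_piece0 (hU : IsOpen U) (hM : ∀ r ∈ M, Reg Λ r) (hC : CH Λ M) {Y : Finset Λ.E}
    {b v : ℂ → ℝ} {eb e : Λ.E → ℝ} (hb : XX U b) (heb : Adm Λ M ∅ b eb) (hv : XX U v)
    (hvb : Bdd U v) (he : Adm Λ M Y v e) {φ : ℝ → ℝ → ℝ} {L o : ℝ} (hL : 0 ≤ L)
    (h1 : ∀ s s' t, s ≤ s' → 0 ≤ φ s' t - φ s t ∧ φ s' t - φ s t ≤ s' - s)
    (h2 : ∀ s t t', |φ s t - φ s t'| ≤ L * |t - t'|) (h3 : ∀ s t, |φ s t| ≤ o / 2) :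
    Adm Λ M Y (fun z => v z - φ (v z) (b z)) (fun q' => e q' + 2 * L * eb q') := by
  obtain ⟨B, hB⟩ := hvb
  set cl : ℝ → ℝ := fun s => max (-|B|) (min s |B|) with hcl
  have hcl1 : ∀ s, -|B| ≤ cl s ∧ cl s ≤ |B| := fun s =>
    ⟨le_max_left _ _, max_le (by linarith [abs_nonneg B]) (min_le_right _ _)⟩
  set G : ℝ → ℝ → ℝ := fun s t => cl s - φ (cl s) t with hG
  have hGl : ∀ s t s' t', |G s t - G s' t'| ≤ 1 * |s - s'| + (2 * L) * |t - t'| := by
    intro s t s' t'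
    have a1 := (xp_Phi h1 (cl s) (cl s') t).1
    have a2 := xp_clamp_lip (-|B|) |B| s s'
    have a3 := h2 (cl s') t t'
    have a4 : 0 ≤ L * |t - t'| := by positivity
    have e1 : G s t - G s' t' = ((cl s - φ (cl s) t) - (cl s' - φ (cl s') t))
        - (φ (cl s') t - φ (cl s') t') := by simp only [hG]; ring
    rw [e1]
    rw [abs_le] at a1 a3 ⊢
    constructor <;> nlinarith [a1.1, a1.2, a2, a3.1, a3.2]
  have ho : 0 ≤ o := by have := (abs_nonneg _).trans (h3 0 0); linarith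
  have hGb : ∀ s t, |G s t| ≤ (2 * |B| + o) / 2 := by
    intro s t
    obtain ⟨c1, c2⟩ := hcl1 s
    have := h3 (cl s) t
    rw [abs_le] at this ⊢
    simp only [hG]; constructor <;> linarith [this.1, this.2]
  have hA := hC Y v b e eb G 1 (2 * L) (2 * |B| + o) hv hb he
    (heb.mono hM (Finset.empty_subset _) heb.l2 fun _ _ => le_rfl) zero_le_one (by linarith)
    (by positivity) hGl (Or.inr hGb)
  have hl2 : L2w (fun q' => e q' + 2 * L * eb q') :=
    (he.l2.add (heb.l2.smul (a := 2 * L) (by linarith)).1).1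
  refine (hA.mono hM (Finset.empty_subset Y) hl2 fun q' hq => ?_).congr hU fun z hz => ?_
  · simp [hq]
  · have : cl (v z) = v z := by
      have a := abs_le.1 ((hB z hz).trans (le_abs_self B))
      simp only [hcl]; rw [min_eq_left a.2, max_eq_right a.1]
    simp only [hG, this]

theorem xp_sep (Λ : Lumps U) (Q : Finset Λ.E) :
    ∃ N, ∀ n ≥ N, ∀ p ∈ Q, ∀ q ∈ Q, p ≠ q → Disjoint (Λ.W n p) (Λ.W n q) := by
  obtain ⟨N, hN⟩ := Λ.exists_reps_of Q
  refine ⟨N, fun n hn p hp q hq hpq => ?_⟩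
  obtain ⟨Q', h1, -, h3⟩ := hN n hn
  exact h3 p (h1 hp) q (h1 hq) hpq

theorem xp_ne {n : ℕ} {p q : Λ.E} (h : Disjoint (Λ.W n p) (Λ.W n q)) : Λ.W n p ≠ Λ.W n q := by
  intro e
  rw [e, disjoint_self] at h
  exact (Λ.conn n q).nonempty.ne_empty h

open Classical in
/-- decomposition of `v - φ(v,b)` at the nodes of `Z` -/
theorem xp_dec (hU : IsOpen U) (hM : ∀ r ∈ M, Reg Λ r) (hC : CH Λ M) {Y Z : Finset Λ.E}
    (hZY : ∀ q ∈ Z, q ∉ Y) {b v : ℂ → ℝ} {eb e : Λ.E → ℝ} (hb : XX U b) (heb : Adm Λ M ∅ b eb)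
    (hv : XX U v) (hvb : Bdd U v) (he : Adm Λ M Y v e) (heZ : ∀ q ∈ Z, Λ.osc v q ≤ e q)
    {φ : ℝ → ℝ → ℝ} {L o : ℝ} (hL : 0 ≤ L)
    (h1 : ∀ s s' t, s ≤ s' → 0 ≤ φ s' t - φ s t ∧ φ s' t - φ s t ≤ s' - s)
    (h2 : ∀ s t t', |φ s t - φ s t'| ≤ L * |t - t'|) (h3 : ∀ s t, |φ s t| ≤ o / 2)
    {η : ℝ} (hη : 0 < η) :
    ∃ a g R : ℂ → ℝ, A0 U a ∧ TT Λ M g ∧ (∀ z ∈ U, |g z| ≤ o / 2) ∧ om U g b = 0 ∧
      XX U R ∧ Bdd U R ∧
      Adm Λ M Y R (fun q => if q ∈ Z then e q + 2 * η else e q + 2 * L * eb q) ∧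
      (∀ q ∈ Z, Λ.osc R q ≤ e q + 2 * η) ∧
      ∀ z, v z + g z = φ (v z) (b z) + (R z + a z) := by
  obtain ⟨N, hN⟩ := xp_sep Λ (Y ∪ Z)
  choose nn hnn using fun q => Λ.near hvb q hη
  set n := max N (Z.sup nn) with hn
  have hsep := hN n (le_max_left _ _)
  have hr : ∀ q ∈ Z, ∀ z ∈ Λ.W n q, v z ∈ Icc (Λ.lo v q - η) (Λ.lo v q + Λ.osc v q + η) := by
    intro q hq z hz
    have := hnn q z (Λ.W_mono ((Finset.le_sup hq).trans (le_max_right _ _)) q hz)
    simpa [Lumps.osc] using this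
  choose χ hχ hsm h01 h0 hLχ using fun q => exists_Ind hU Λ n q
  have hZsep : ∀ p ∈ Z, ∀ q ∈ Z, p ≠ q → Disjoint (Λ.W n p) (Λ.W n q) := fun p hp q hq h =>
    hsep p (Finset.mem_union_right _ hp) q (Finset.mem_union_right _ hq) h
  have hYZ : ∀ q ∈ Z, ∀ p ∈ Y, Λ.W n p ≠ Λ.W n q := fun q hq p hp =>
    xp_ne (hsep p (Finset.mem_union_left _ hp) q (Finset.mem_union_right _ hq)
      fun h => hZY q hq (h ▸ hp))
  -- at most one cutoff is nonzero
  have hone : ∀ (f : Λ.E → ℝ) z, (∀ q ∈ Z, χ q z = 0) ∨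
      ∃ q ∈ Z, z ∈ Λ.W n q ∧ ∑ p ∈ Z, f p * χ p z = f q * χ q z := by
    intro f z
    by_cases h : ∃ q ∈ Z, z ∈ Λ.W n q
    · obtain ⟨q, hq, hz⟩ := h
      refine Or.inr ⟨q, hq, hz, Finset.sum_eq_single_of_mem q hq fun p hp hpq => ?_⟩
      rw [h0 p z fun h' => Set.disjoint_left.1 (hZsep p hp q hq hpq) h' hz, mul_zero]
    · push Not at h
      exact Or.inl fun q hq => h0 q z (h q hq)
  have ho : 0 ≤ o := by have := (abs_nonneg _).trans (h3 0 0); linarith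
  have hA1 := A0.sum hU Λ Z (fun _ => (1 : ℝ)) (χ := χ) fun q _ => (hχ q).1
  have hA2 := A0.sub hU Λ (A0.const (U := U) 1) hA1.1
  have hv1 : ∀ q, Λ.val (fun _ : ℂ => (1 : ℝ)) q = 1 := fun q =>
    (val_eq Λ (n := 0) ⟨1, fun _ _ => by simp⟩ fun _ _ => rfl).1
  have hφm : ∀ m : ℝ, XX U (fun z => φ m (b z)) := fun m => XX.comp_lip hU (h2 m) hb
  have hXΦ : XX U (fun z => v z - φ (v z) (b z)) :=
    hv.sub hU (XX.comp2 hU (G := φ) (L₁ := 1) (L₂ := L) (fun s t s' t' => by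
      have a1 := (xp_Phi h1 s s' t).2
      have a2 := h2 s' t t'
      have : φ s t - φ s' t' = (φ s t - φ s' t) + (φ s' t - φ s' t') := by ring
      rw [this, one_mul]
      exact (abs_add_le _ _).trans (add_le_add a1 a2)) hv hb)
  have hXp : ∀ q, XX U (fun z =>
      ((v z - φ (v z) (b z)) - (Λ.lo v q - φ (Λ.lo v q) (b z))) * χ q z) := fun q =>
    (hXΦ.sub hU ((XX.const _).sub hU (hφm _))).mul_A0 hU Λ (hχ q).1
  have hX0 := hXΦ.mul_A0 hU Λ hA2.1
  refine ⟨fun z => ∑ q ∈ Z, Λ.lo v q * χ q z, fun z => ∑ q ∈ Z, φ (Λ.lo v q) (b z) * χ q z,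
    fun z => (v z - φ (v z) (b z)) * (1 - ∑ q ∈ Z, 1 * χ q z) + ∑ q ∈ Z,
      ((v z - φ (v z) (b z)) - (Λ.lo v q - φ (Λ.lo v q) (b z))) * χ q z,
    (A0.sum hU Λ Z _ fun q _ => (hχ q).1).1, ?_, ?_, ?_, ?_, ?_, ?_, ?_, ?_⟩
  · refine TT.sum hU hM Z fun q _ => TT.mul_A0 hU ⟨hφm _, _, hC.lip hb heb hL (h2 _)⟩ (hχ q).1
  · intro z _
    beta_reduce
    rcases hone (fun q => φ (Λ.lo v q) (b z)) z with h | ⟨q, -, -, h⟩
    · rw [Finset.sum_eq_zero fun q hq => by rw [h q hq, mul_zero], abs_zero]; linarith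
    · rw [h, abs_mul, abs_of_nonneg (h01 q z).1]
      exact (mul_le_of_le_one_right (abs_nonneg _) (h01 q z).2).trans (h3 _ _)
  · rw [om_sum_left hU Z (fun q _ => (hφm _).mul_A0 hU Λ (hχ q).1) hb]
    exact Finset.sum_eq_zero fun q _ => om_self_lip hU hb (hχ q).1 (h2 _)
  · exact hX0.add hU (XX.sum hU Z fun q _ => hXp q)
  · obtain ⟨B, hB⟩ := hvb
    refine ⟨(B + o / 2) + ∑ q ∈ Z, (|Λ.lo v q| + o / 2), fun z hz => ?_⟩
    have e1 : (v z - φ (v z) (b z)) * (1 - ∑ q ∈ Z, 1 * χ q z) + ∑ q ∈ Z,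
        ((v z - φ (v z) (b z)) - (Λ.lo v q - φ (Λ.lo v q) (b z))) * χ q z
        = (v z - φ (v z) (b z)) - ∑ q ∈ Z, (Λ.lo v q - φ (Λ.lo v q) (b z)) * χ q z := by
      simp only [sub_mul, Finset.sum_sub_distrib, mul_sub, one_mul, mul_one, Finset.mul_sum]
      ring
    beta_reduce
    rw [e1]
    refine (abs_sub _ _).trans (add_le_add ((abs_sub _ _).trans (add_le_add (hB z hz) (h3 _ _)))
      ((Finset.abs_sum_le_sum_abs _ _).trans (Finset.sum_le_sum fun q _ => ?_)))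
    rw [abs_mul, abs_of_nonneg (h01 q z).1]
    exact (mul_le_of_le_one_right (abs_nonneg _) (h01 q z).2).trans
      ((abs_sub _ _).trans (add_le_add le_rfl (h3 _ _)))
  · have hp0 := (xp_piece0 hU hM hC hb heb hv hvb he hL h1 h2 h3).mul_A0 hU hA2.1
    have hp : ∀ q ∈ Z, Adm Λ M Y (fun z =>
        ((v z - φ (v z) (b z)) - (Λ.lo v q - φ (Λ.lo v q) (b z))) * χ q z)
        (fun q' => |Λ.val (χ q) q'| *
          (if q' = q then Λ.osc v q + 2 * η else e q' + 2 * L * eb q')) := fun q hq => by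
      have := xp_piece hU hM hC hb heb hv he hL h1 h2 (hχ q) (h0 q) (hYZ q hq)
        (Λ.osc_nonneg hvb q) hη.le (hr q hq)
      exact this.mono hM (Finset.empty_subset _) this.l2 fun _ _ => le_rfl
    have hs := hp0.add hU hM hX0 (XX.sum hU Z fun q _ => hXp q)
      (Adm.sum hU hM Z (fun q _ => hXp q) hp)
    have hl2 : L2w (fun q => if q ∈ Z then e q + 2 * η else e q + 2 * L * eb q) := by
      have a1 : L2w (fun q => if q ∈ Z then 2 * η else (0 : ℝ)) := by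
        refine ⟨fun q => by beta_reduce; split_ifs <;> linarith, ?_⟩
        refine summable_of_ne_finset_zero (s := Z) fun q hq => by simp [hq]
      have a2 := (he.l2.add (heb.l2.smul (a := 2 * L) (by linarith)).1).1.add a1
      refine (L2w.of_le a2.1 (fun q => ?_) fun q => ?_).1
      · have := he.l2.1 q; have := heb.l2.1 q
        split_ifs <;> positivity
      · have := he.l2.1 q; have := heb.l2.1 q
        have : 0 ≤ 2 * L * eb q := by positivity
        split_ifs <;> linarith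
    refine hs.mono hM (subset_refl _) hl2 fun q' _ => ?_
    rw [hA2.2 q', hA1.2 q', hv1]
    have hw : 0 ≤ e q' + 2 * L * eb q' := by
      have := he.l2.1 q'; have := heb.l2.1 q'; positivity
    by_cases h : ∃ q ∈ Z, Λ.W n q' = Λ.W n q
    · obtain ⟨q, hq, hW⟩ := h
      have hval : ∀ p ∈ Z, p ≠ q → Λ.val (χ p) q' = 0 := fun p hp hpq => by
        rw [(hχ p).2 q', if_neg]
        rw [hW]; exact xp_ne (hZsep q hq p hp hpq.symm)
      have hvq : Λ.val (χ q) q' = 1 := by rw [(hχ q).2 q', if_pos hW]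
      rw [Finset.sum_eq_single_of_mem q hq fun p hp hpq => by rw [hval p hp hpq, mul_zero],
        Finset.sum_eq_single_of_mem q hq fun p hp hpq => by rw [hval p hp hpq, abs_zero, zero_mul],
        hvq]
      by_cases hq' : q' = q
      · subst hq'
        simp only [hq, if_true]
        have := heZ q' hq
        simp; linarith
      · have : q' ∉ Z := fun h' => xp_ne (hZsep q' h' q hq hq') hW
        simp [hq', this]
    · push Not at h
      have hval : ∀ p ∈ Z, Λ.val (χ p) q' = 0 := fun p hp => by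
        rw [(hχ p).2 q', if_neg (h p hp)]
      have : q' ∉ Z := fun h' => h q' h' rfl
      rw [Finset.sum_eq_zero fun p hp => by rw [hval p hp, mul_zero],
        Finset.sum_eq_zero fun p hp => by rw [hval p hp, abs_zero, zero_mul]]
      simp [this]
  · intro q hq
    obtain ⟨N', hN'⟩ := (hχ q).1.eq_val Λ
    have hvq : Λ.val (χ q) q = 1 := by rw [(hχ q).2 q, if_pos rfl]
    have key : ∀ z ∈ Λ.W (max n N') q,
        (v z - φ (v z) (b z)) * (1 - ∑ q ∈ Z, 1 * χ q z) + ∑ q ∈ Z,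
        ((v z - φ (v z) (b z)) - (Λ.lo v q - φ (Λ.lo v q) (b z))) * χ q z
          ∈ Icc (-η) (Λ.osc v q + η) := by
      intro z hz
      have hz1 : z ∈ Λ.W n q := Λ.W_mono (le_max_left _ _) q hz
      have hc : χ q z = 1 := by rw [hN' _ (le_max_right _ _) q z hz, hvq]
      have hz0 : ∀ p ∈ Z, p ≠ q → χ p z = 0 := fun p hp hpq =>
        h0 p z fun h' => Set.disjoint_left.1 (hZsep p hp q hq hpq) h' hz1
      rw [Finset.sum_eq_single_of_mem q hq fun p hp hpq => by rw [hz0 p hp hpq, mul_zero],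
        Finset.sum_eq_single_of_mem q hq fun p hp hpq => by rw [hz0 p hp hpq, mul_zero], hc]
      obtain ⟨c1, c2⟩ := hr q hq z hz1
      have := Λ.osc_nonneg hvb q
      rcases le_total (Λ.lo v q) (v z) with h | h
      · obtain ⟨a, a'⟩ := h1 _ _ (b z) h
        constructor <;> linarith
      · obtain ⟨a, a'⟩ := h1 _ _ (b z) h
        constructor <;> linarith
    have hbR : Bdd U (fun z => (v z - φ (v z) (b z)) * (1 - ∑ q ∈ Z, 1 * χ q z) + ∑ q ∈ Z,
        ((v z - φ (v z) (b z)) - (Λ.lo v q - φ (Λ.lo v q) (b z))) * χ q z) := by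
      obtain ⟨B, hB⟩ := hvb
      refine ⟨(B + o / 2) + ∑ q ∈ Z, (|Λ.lo v q| + o / 2), fun z hz => ?_⟩
      have e1 : (v z - φ (v z) (b z)) * (1 - ∑ q ∈ Z, 1 * χ q z) + ∑ q ∈ Z,
          ((v z - φ (v z) (b z)) - (Λ.lo v q - φ (Λ.lo v q) (b z))) * χ q z
          = (v z - φ (v z) (b z)) - ∑ q ∈ Z, (Λ.lo v q - φ (Λ.lo v q) (b z)) * χ q z := by
        simp only [sub_mul, Finset.sum_sub_distrib, mul_sub, one_mul, mul_one, Finset.mul_sum]
        ring
      beta_reduce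
      rw [e1]
      refine (abs_sub _ _).trans (add_le_add ((abs_sub _ _).trans
        (add_le_add (hB z hz) (h3 _ _)))
        ((Finset.abs_sum_le_sum_abs _ _).trans (Finset.sum_le_sum fun q _ => ?_)))
      rw [abs_mul, abs_of_nonneg (h01 q z).1]
      exact (mul_le_of_le_one_right (abs_nonneg _) (h01 q z).2).trans
        ((abs_sub _ _).trans (add_le_add le_rfl (h3 _ _)))
    refine Λ.osc_le hbR fun η' hη' => ⟨max n N', fun z hz z' hz' => ?_⟩
    have a1 := key z hz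
    have a2 := key z' hz'
    have := heZ q hq
    linarith [a1.2, a2.1]
  · intro z
    simp only [sub_mul, Finset.sum_sub_distrib, mul_sub, one_mul, mul_one, Finset.mul_sum]
    ring

open Classical in
/-- POSITIVITY step of the exact range lemma -/
theorem pos_step (hU : IsOpen U) (hM : ∀ r ∈ M, Reg Λ r) (hC : CH Λ M) {Y Z : Finset Λ.E}
    (hZY : ∀ q ∈ Z, q ∉ Y) (μ : (ℂ → ℝ) → ℝ) {ν : ℝ}
    (μadd : ∀ v w, TT Λ M v → Bdd U v → TT Λ M w → Bdd U w →
      μ (fun z => v z + w z) = μ v + μ w)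
    (μA : ∀ a, A0 U a → μ a = 0)
    (μle : ∀ v B, TT Λ M v → (∀ z ∈ U, |v z| ≤ B / 2) → |μ v| ≤ ν * B)
    {b : ℂ → ℝ} {eb s : Λ.E → ℝ} (hb : XX U b) (heb : Adm Λ M ∅ b eb) (hs : L2w s)
    (hτ : ∀ v e, TT Λ M v → Bdd U v → Adm Λ M Y v e → (∀ q ∈ Z, Λ.osc v q ≤ e q) →
      |μ v - om U v b| ≤ ∑' q, s q * e q)
    {v : ℂ → ℝ} {e : Λ.E → ℝ} (hv : TT Λ M v) (hvb : Bdd U v) (he : Adm Λ M Y v e)
    (heZ : ∀ q ∈ Z, Λ.osc v q ≤ e q) {φ : ℝ → ℝ → ℝ} {L o : ℝ} (hL : 0 ≤ L)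
    (h1 : ∀ s s' t, s ≤ s' → 0 ≤ φ s' t - φ s t ∧ φ s' t - φ s t ≤ s' - s)
    (h2 : ∀ s t t', |φ s t - φ s t'| ≤ L * |t - t'|) (h3 : ∀ s t, |φ s t| ≤ o / 2) :
    om U (fun z => φ (v z) (b z)) b ≤ 2 * ν * o +
      2 * L * (∑' q, if q ∈ Z then 0 else s q * eb q) +
      ((∑' q, s q * e q) - (μ v - om U v b)) := by
  have hGl : ∀ s t s' t', |φ s t - φ s' t'| ≤ 1 * |s - s'| + L * |t - t'| := fun s t s' t' => by
    have a1 := (xp_Phi h1 s s' t).2
    have a2 := h2 s' t t'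
    have : φ s t - φ s' t' = (φ s t - φ s' t) + (φ s' t - φ s' t') := by ring
    rw [this, one_mul]
    exact (abs_add_le _ _).trans (add_le_add a1 a2)
  have hf : TT Λ M (fun z => φ (v z) (b z)) := by
    obtain ⟨e0, he0⟩ := hv.2
    exact ⟨XX.comp2 hU hGl hv.1 hb, _, hC ∅ v b e0 eb φ 1 L 0 hv.1 hb he0 heb zero_le_one hL
      le_rfl hGl (Or.inl rfl)⟩
  have hfb : Bdd U (fun z => φ (v z) (b z)) := ⟨o / 2, fun z _ => h3 _ _⟩
  have hS : 0 ≤ ∑ q ∈ Z, s q := Finset.sum_nonneg fun q _ => hs.1 q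
  refine le_of_forall_pos_le_add fun ε hε => ?_
  set η := ε / (2 * (∑ q ∈ Z, s q) + 1) with hη
  have hη0 : 0 < η := by positivity
  have hηε : 2 * η * (∑ q ∈ Z, s q) ≤ ε := by
    have : η * (2 * (∑ q ∈ Z, s q) + 1) = ε := by rw [hη]; field_simp
    nlinarith
  obtain ⟨a, g, R, ha, hg, hgo, hgb, hR, hRb, hRA, hRo, hid⟩ :=
    xp_dec hU hM hC hZY hb heb hv.1 hvb he heZ hL h1 h2 h3 hη0
  have hRT : TT Λ M R := hC.remove hU hR hRb hRA
  have haT : TT Λ M a := TT.of_A0 hU hM ha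
  have hab : Bdd U a := ha.bdd Λ
  have hgB : Bdd U g := ⟨o / 2, hgo⟩
  have hRa : Bdd U (fun z => R z + a z) := by
    obtain ⟨B1, h1⟩ := hRb; obtain ⟨B2, h2⟩ := hab
    exact ⟨B1 + B2, fun z hz => (abs_add_le _ _).trans (add_le_add (h1 z hz) (h2 z hz))⟩
  have hfun : (fun z => v z + g z) = fun z => φ (v z) (b z) + (R z + a z) := funext hid
  have m1 : μ v + μ g = μ (fun z => φ (v z) (b z)) + (μ R + μ a) := by
    rw [← μadd v g hv hvb hg hgB, hfun, μadd _ _ hf hfb (hRT.add hU hM haT) hRa,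
      μadd R a hRT hRb haT hab]
  have o1 : om U v b + om U g b = om U (fun z => φ (v z) (b z)) b + (om U R b + om U a b) := by
    rw [← om_add_left hU hv.1 hg.1 hb, hfun, om_add_left hU hf.1 (hR.add hU ha.xx) hb,
      om_add_left hU hR ha.xx hb]
  have oa : om U a b = 0 := by rw [om_skew, om_A0 hU hb.lip ha, neg_zero]
  have b1 := abs_le.1 (μle _ o hf fun z _ => h3 _ _)
  have b2 := abs_le.1 (μle _ o hg hgo)
  have b3 := abs_le.1 (hτ R _ hRT hRb hRA fun q hq => by simpa [hq] using hRo q hq)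
  have hsum : ∑' q, s q * (if q ∈ Z then e q + 2 * η else e q + 2 * L * eb q)
      = ∑' q, s q * e q + 2 * η * ∑ q ∈ Z, s q
        + 2 * L * ∑' q, (if q ∈ Z then 0 else s q * eb q) := by
    have s1 := (hs.summable_mul he.l2).1
    have s2 : Summable fun q => if q ∈ Z then s q else 0 :=
      summable_of_ne_finset_zero (s := Z) fun q hq => by simp [hq]
    have s3 : Summable fun q => if q ∈ Z then 0 else s q * eb q :=
      Summable.of_nonneg_of_le
        (fun q => by split_ifs; exacts [le_rfl, mul_nonneg (hs.1 q) (heb.l2.1 q)])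
        (fun q => by split_ifs; exacts [mul_nonneg (hs.1 q) (heb.l2.1 q), le_rfl])
        (hs.summable_mul heb.l2).1
    have t2 : ∑' q, (if q ∈ Z then s q else 0) = ∑ q ∈ Z, s q := by
      rw [tsum_eq_sum (s := Z) fun q hq => by simp [hq]]
      exact Finset.sum_congr rfl fun q hq => by simp [hq]
    rw [← t2, ← tsum_mul_left, ← tsum_mul_left, ← s1.tsum_add (s2.mul_left _),
      ← (s1.add (s2.mul_left _)).tsum_add (s3.mul_left _)]
    refine tsum_congr fun q => ?_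
    split_ifs <;> ring
  rw [hsum] at b3
  rw [μA a ha] at m1
  linarith [b1.2, b2.1, b3.1]

end Crest.Agent.R105
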