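import Crest.Agent.R105.XStg2
import Crest.Agent.R105.XPos

/-! Row 105, block RX: positivity for the minimiser. -/

set_option autoImplicit false

open MeasureTheory Set Filter Topology
open scoped ENNReal Classical ContDiff

namespace Crest.Agent.R105

variable {U : Set ℂ} {Λ : Lumps U} {M : Set (ℂ → ℝ)} {Y Z : Finset Λ.E}
  {c : ℂ → ℝ} {ν θ : ℝ} {t : Λ.E → ℝ} {μ : (ℂ → ℝ) → ℝ}
  {F : ℂ → ℂ} {b : ℂ → ℝ} {σ : Λ.E → ℝ}

/-- the normalised test function `ψ s t = (φ (s, t) - 1/2) / (L + 1)` of `pos_step` (mean value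
theorem) -/
theorem Tst.norm {φ : ℝ × ℝ → ℝ} {L : ℝ} (h : Tst φ L) :
    0 ≤ L ∧ (∀ s s' t : ℝ, s ≤ s' → 0 ≤ φ (s', t) - φ (s, t) ∧ φ (s', t) - φ (s, t) ≤ L * (s' - s)) ∧
      ∀ s t t' : ℝ, |φ (s, t) - φ (s, t')| ≤ L * |t - t'| := by
  have hd : Differentiable ℝ φ := h.sm.differentiable (by simp)
  have h0 : 0 ≤ L := (norm_nonneg _).trans (h.le 0)
  have key : ∀ p p' : ℝ × ℝ, |φ p - φ p'| ≤ L * ‖p - p'‖ := fun p p' =>
    (convex_univ (𝕜 := ℝ) (E := ℝ × ℝ)).norm_image_sub_le_of_norm_fderiv_le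
      (fun x _ => hd x) (fun x _ => h.le x) (mem_univ p') (mem_univ p)
  refine ⟨h0, fun s s' t hs => ⟨?_, ?_⟩, fun s t t' => ?_⟩
  · have hD : ∀ x : ℝ, HasDerivAt (fun x : ℝ => φ (x, t)) (fderiv ℝ φ (x, t) (1, 0)) x := fun x =>
      (hd (x, t)).hasFDerivAt.comp_hasDerivAt x
        ((hasDerivAt_id x).prodMk (hasDerivAt_const x t))
    have hm : Monotone fun x : ℝ => φ (x, t) :=
      monotone_of_deriv_nonneg (fun x => (hD x).differentiableAt) fun x => by
        rw [(hD x).deriv]; exact h.pos _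
    exact sub_nonneg.2 (hm hs)
  · have := key (s', t) (s, t)
    have e : ‖((s', t) : ℝ × ℝ) - (s, t)‖ = s' - s := by
      simp [Prod.norm_def, abs_of_nonneg (sub_nonneg.2 hs), sub_nonneg.2 hs]
    rw [e] at this
    exact (le_abs_self _).trans this
  · have := key (s, t) (s, t')
    have e : ‖((s, t) : ℝ × ℝ) - (s, t')‖ = |t - t'| := by
      simp [Prod.norm_def]
    rwa [e] at this

/-- approximants converging almost everywhere, with vanishing defect: `Stg.app` with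
`δ = 1 / (j + 1)`, `hb_poinc` for `v j - Re F`, subtract the constants (`PZ.lin`, `PZ.of_A0`,
`Mu.lin`, `Mu.a0`); the defect tends to `0` by `pair_close` with `F' = F`, `ip_self`. -/
theorem Stg.seq (hU : IsOpen U) (hc : IsPreconnected U) (hM : ∀ r ∈ M, Reg Λ r)
    (hμ : Mu Λ M Y c ν t μ) (h : Stg Λ M Y Z μ θ F b σ) :
    ∃ (v : ℕ → ℂ → ℝ) (e : ℕ → Λ.E → ℝ), (∀ j, PZ Λ M Y Z (v j) (e j)) ∧
      Tendsto (fun j => En U (fun z => v j z - (F z).re)) atTop (𝓝 0) ∧
      (∀ᵐ z, z ∈ U → Tendsto (fun j => v j z) atTop (𝓝 (F z).re)) ∧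
      Tendsto (fun j => (∑' q, θ * σ q * e j q) - (μ (v j) - R105.om U (v j) b)) atTop (𝓝 0) := by
  have hpos : ∀ j : ℕ, (0 : ℝ) < 1 / ((j : ℝ) + 1) := fun j => Nat.one_div_pos_of_nat
  choose v0 e0 hP hE hN hm using fun j : ℕ => h.app (1 / ((j : ℝ) + 1)) (hpos j)
  have hlim : Tendsto (fun j : ℕ => 1 / ((j : ℝ) + 1)) atTop (𝓝 0) :=
    tendsto_one_div_add_atTop_nhds_zero_nat
  have hE0 : Tendsto (fun j => En U (fun z => v0 j z - (F z).re)) atTop (𝓝 0) := by
    have h1 : Tendsto (fun j : ℕ => ENNReal.ofReal (1 / ((j : ℝ) + 1))) atTop (𝓝 0) := by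
      simpa using ENNReal.tendsto_ofReal hlim
    exact tendsto_of_tendsto_of_tendsto_of_le_of_le tendsto_const_nhds h1
      (fun _ => zero_le) hE
  obtain ⟨ψ, k, hψ, hae⟩ := hb_poinc hU hc (u := fun j z => v0 j z - (F z).re)
    (fun j => (hP j).tt.1.lip.sub (hol_re_lip hU h.hol)) hE0
  have h1 : PZ Λ M Y Z (fun _ => (1 : ℝ)) (fun _ => 0) := PZ.of_A0 hU hM (A0.const 1)
  have hform : ∀ j, (fun z => v0 (ψ j) z - k j) = fun z => 1 * v0 (ψ j) z + (-k j) * 1 :=
    fun j => funext fun z => by ring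
  have hdef : Tendsto (fun j => (∑' q, θ * σ q * e0 j q) - (μ (v0 j) - R105.om U (v0 j) b))
      atTop (𝓝 0) := by
    rw [Metric.tendsto_atTop]
    intro η hη
    obtain ⟨δ, hδ, hcl⟩ := pair_close (θ := θ) hU h.hol h.en h.en h.l2 h.l2 (half_pos hη)
    obtain ⟨N, hN'⟩ := (hlim.eventually (ge_mem_nhds hδ)).exists_forall_of_atTop
    refine ⟨N, fun j hj => ?_⟩
    have h2 := hcl (v0 j) (e0 j) (hP j).tt.1 (hP j).adm.l2
      ((hE j).trans (ENNReal.ofReal_le_ofReal (hN' j hj))) ((hN j).trans (hN' j hj))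
    have h3 : ∑' q, σ q * σ q = nrm σ ^ 2 := by
      rw [L2w.nrm_sq]; exact tsum_congr fun q => by ring
    rw [ip_self h.en, h3] at h2
    rw [Real.dist_eq, sub_zero, hm j, h.om _ (hP j).tt.1, sq2]
    refine lt_of_le_of_lt (le_of_eq_of_le ?_ h2) (half_lt_self hη)
    congr 1
    ring
  refine ⟨fun j z => v0 (ψ j) z - k j, fun j => e0 (ψ j), fun j => ?_, ?_, ?_, ?_⟩
  · have := (hP (ψ j)).lin hU hM h1 1 (-k j)
    simpa [sub_eq_add_neg] using this
  · refine (hE0.comp hψ.tendsto_atTop).congr fun j => ?_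
    have e : (fun z => v0 (ψ j) z - k j - (F z).re) = fun z => (v0 (ψ j) z - (F z).re) - k j :=
      funext fun z => by ring
    simp only [Function.comp, En]
    rw [e]
    simp only [fderiv_sub_const]
  · filter_upwards [hae] with z hz hzU
    have := (hz hzU).add_const (F z).re
    rw [zero_add] at this
    exact this.congr fun j => by ring
  · refine (hdef.comp hψ.tendsto_atTop).congr fun j => ?_
    have e1 : μ (fun z => v0 (ψ j) z - k j) = μ (v0 (ψ j)) := by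
      rw [hform j, hμ.lin (hP (ψ j)) h1, hμ.a0 _ (A0.const 1)]
      ring
    have e2 : R105.om U (fun z => v0 (ψ j) z - k j) b = R105.om U (v0 (ψ j)) b := by
      rw [om_sub_left hU (hP (ψ j)).tt.1 (XX.const _) h.xx, om_skew (fun _ => k j) b,
        om_A0 hU h.xx.lip (A0.const _)]
      ring
    simp only [Function.comp]
    rw [e1, e2]

/-- `pos_step` for `ψ s t = (φ (s, t) - 1/2) / (L + 1)` (`o = 1 / (L + 1)`, Lipschitz constant `1`),
`Stg.seq`, `LimPos`. -/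
theorem Stg.pos (hU : IsOpen U) (hc : IsPreconnected U) (hF : Fam Λ M) (hC : CH Λ M)
    (hL : LimPos Λ) (hμ : Mu Λ M Y c ν t μ) (hθ : 0 < θ) (hd : Disjoint Y Z)
    (h : Stg Λ M Y Z μ θ F b σ) {φ : ℝ × ℝ → ℝ} {L : ℝ} (hφ : Tst φ L) :
    rint U φ F ≤ 2 * ν + 2 * (L + 1) * (θ * (2 * ν + θ * nrm σ)) *
      nrm (fun q => if q ∈ Z then 0 else σ q) := by
  obtain ⟨hL0, hφ1, hφ2⟩ := hφ.norm
  have hL1 : 0 < L + 1 := by linarith
  obtain ⟨eb, heb, hebn⟩ := h.adm hU hF hC hμ hθ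
  obtain ⟨v, e, hP, hE, hae, hdef⟩ := h.seq hU hc hF.reg hμ
  have hs : L2w fun q => θ * σ q := (h.l2.smul hθ.le).1
  have hσZ : L2w fun q => if q ∈ Z then 0 else σ q :=
    (h.l2.of_le (fun q => by split_ifs; exacts [le_rfl, h.l2.1 q])
      (fun q => by split_ifs; exacts [h.l2.1 q, le_rfl])).1
  have hsum : (∑' q, if q ∈ Z then 0 else θ * σ q * eb q) ≤
      θ * (2 * ν + θ * nrm σ) * nrm (fun q => if q ∈ Z then 0 else σ q) := by
    have e1 : (∑' q, if q ∈ Z then 0 else θ * σ q * eb q) =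
        θ * ∑' q, (if q ∈ Z then 0 else σ q) * eb q := by
      rw [← tsum_mul_left]
      exact tsum_congr fun q => by split_ifs <;> ring
    rw [e1, mul_assoc]
    refine mul_le_mul_of_nonneg_left ((hσZ.summable_mul heb.l2).2.trans ?_) hθ.le
    rw [mul_comm]
    exact mul_le_mul_of_nonneg_right hebn (L2w.nrm_nonneg _)
  have hstep : ∀ j, R105.om U (fun z => φ (v j z, b z)) b ≤ 2 * ν + 2 * (L + 1) *
      (θ * (2 * ν + θ * nrm σ)) * nrm (fun q => if q ∈ Z then 0 else σ q) +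
      (L + 1) * ((∑' q, θ * σ q * e j q) - (μ (v j) - R105.om U (v j) b)) := by
    intro j
    have hp := pos_step hU hF.reg hC (Y := Y) (Z := Z)
      (fun q hq hY => Finset.disjoint_left.1 hd hY hq) μ hμ.add hμ.a0 hμ.le h.xx heb hs
      (fun w f h1 h2 h3 h4 => h.tau hU hF.reg hμ ⟨h1, h2, h3, h4⟩)
      (hP j).tt (hP j).bdd (hP j).adm (hP j).osc
      (φ := fun s t => (L + 1)⁻¹ * (φ (s, t) - 1 / 2)) (L := 1) (o := (L + 1)⁻¹) zero_le_one
      (fun s s' t hs => by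
        obtain ⟨a1, a2⟩ := hφ1 s s' t hs
        have e1 : (L + 1)⁻¹ * (φ (s', t) - 1 / 2) - (L + 1)⁻¹ * (φ (s, t) - 1 / 2) =
          (L + 1)⁻¹ * (φ (s', t) - φ (s, t)) := by ring
        rw [e1]
        refine ⟨mul_nonneg (inv_nonneg.2 hL1.le) a1, ?_⟩
        rw [inv_mul_le_iff₀ hL1]
        nlinarith)
      (fun s t t' => by
        have e1 : (L + 1)⁻¹ * (φ (s, t) - 1 / 2) - (L + 1)⁻¹ * (φ (s, t') - 1 / 2) =
          (L + 1)⁻¹ * (φ (s, t) - φ (s, t')) := by ring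
        rw [e1, abs_mul, abs_of_pos (inv_pos.2 hL1), inv_mul_le_iff₀ hL1]
        have := hφ2 s t t'
        nlinarith [abs_nonneg (t - t')])
      (fun s t => by
        rw [abs_mul, abs_of_pos (inv_pos.2 hL1)]
        have a1 := hφ.rng (s, t)
        have : |φ (s, t) - 1 / 2| ≤ 1 / 2 := abs_le.2 ⟨by linarith [a1.1], by linarith [a1.2]⟩
        have := mul_le_mul_of_nonneg_left this (inv_pos.2 hL1).le
        linarith)
    have hX : XX U fun z => φ (v j z, b z) :=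
      XX.comp2 hU (G := fun s t => φ (s, t)) (L₁ := L) (L₂ := L) (fun s t s' t' => by
        have a1 : |φ (s, t) - φ (s', t)| ≤ L * |s - s'| := by
          rcases le_total s s' with hh | hh
          · obtain ⟨b1, b2⟩ := hφ1 s s' t hh
            rw [abs_sub_comm, abs_of_nonneg b1, abs_sub_comm, abs_of_nonneg (sub_nonneg.2 hh)]
            exact b2
          · obtain ⟨b1, b2⟩ := hφ1 s' s t hh
            rw [abs_of_nonneg b1, abs_of_nonneg (sub_nonneg.2 hh)]
            exact b2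
        have a2 := hφ2 s' t t'
        have : φ (s, t) - φ (s', t') = (φ (s, t) - φ (s', t)) + (φ (s', t) - φ (s', t')) := by ring
        rw [this]
        exact (abs_add_le _ _).trans (add_le_add a1 a2)) (hP j).tt.1 h.xx
    rw [om_smul_left, om_sub_left hU hX (XX.const _) h.xx, om_skew (fun _ => (1 / 2 : ℝ)) b,
      om_A0 hU h.xx.lip (A0.const _), neg_zero, sub_zero, inv_mul_le_iff₀ hL1] at hp
    refine hp.trans ?_
    have e2 : (L + 1) * (2 * ν * (L + 1)⁻¹) = 2 * ν := by field_simp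
    have := mul_le_mul_of_nonneg_left hsum hL1.le
    nlinarith
  have hlim := hL F b v φ L h.hol h.en h.xx h.im h.om (fun j => (hP j).tt.1) hE hae hφ
  have hr := (hdef.const_mul (L + 1)).const_add (2 * ν + 2 * (L + 1) *
      (θ * (2 * ν + θ * nrm σ)) * nrm (fun q => if q ∈ Z then 0 else σ q))
  rw [mul_zero, add_zero] at hr
  exact le_of_tendsto_of_tendsto' hlim hr hstep

end Crest.Agent.R105
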