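import Crest.Agent.R105.XStg
import Crest.Agent.R105.XStg3
import Crest.Agent.R105.XSplit

/-! Row 105, block RX: the limit along the node sets and the assembly. -/

set_option autoImplicit false

open MeasureTheory Set Filter Topology
open scoped ENNReal Classical ContDiff

namespace Crest.Agent.R105

variable {U : Set ℂ} {Λ : Lumps U} {M : Set (ℂ → ℝ)} {Y : Finset Λ.E}
  {c : ℂ → ℝ} {ν θ : ℝ} {t : Λ.E → ℝ} {μ : (ℂ → ℝ) → ℝ}

/-- the stages along an increasing sequence of node sets converge -/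
theorem rx_stages (hU : IsOpen U) (hc : IsPreconnected U) (hM : ∀ r ∈ M, Reg Λ r)
    (h1 : HoloLim U) (hμ : Mu Λ M Y c ν t μ) (hθ : 0 < θ) :
    ∃ (Z : ℕ → Finset Λ.E) (F : ℕ → ℂ → ℂ) (b : ℕ → ℂ → ℝ) (σ : ℕ → Λ.E → ℝ) (G : ℂ → ℂ)
      (s : Λ.E → ℝ), (∀ n, Disjoint Y (Z n)) ∧
      (∀ n, Stg Λ M Y (Z n) μ θ (F n) (b n) (σ n)) ∧ DifferentiableOn ℂ G U ∧
      En U (fun z => (G z).re) < ⊤ ∧ L2w s ∧
      Tendsto (fun n => En U (fun z => (F n z).re - (G z).re)) atTop (𝓝 0) ∧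
      Tendsto (fun n => nrm (fun q => σ n q - s q)) atTop (𝓝 0) ∧
      Tendsto (fun n => nrm (fun q => if q ∈ Z n then 0 else σ n q)) atTop (𝓝 0) := by
  have hex : ∀ Z : Finset Λ.E, ∃ x : (ℂ → ℂ) × (ℂ → ℝ) × (Λ.E → ℝ),
      Disjoint Y Z → Stg Λ M Y Z μ θ x.1 x.2.1 x.2.2 := by
    intro Z
    by_cases hd : Disjoint Y Z
    · obtain ⟨F, b, σ, h⟩ := exists_stg hU hc hM hμ hθ hd
      exact ⟨(F, b, σ), fun _ => h⟩
    · exact ⟨(0, 0, 0), fun h => (hd h).elim⟩
  choose x hx using hex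
  have hmono : ∀ Z Z', Z ⊆ Z' → Disjoint Y Z' →
      (En U (fun z => ((x Z).1 z).re - ((x Z').1 z).re)).toReal +
        nrm (fun q => (x Z).2.2 q - (x Z').2.2 q) ^ 2 ≤
      sq2 U (x Z).1 (x Z).2.2 - sq2 U (x Z').1 (x Z').2.2 := fun Z Z' hZ hd =>
    Stg.mono hU hZ (hx Z (hd.mono_right hZ)) (hx Z' hd)
  obtain ⟨Z, z1, z2, z3, z4⟩ := x2_seq Y (fun Z => sq2 U (x Z).1 (x Z).2.2) (fun Z => (x Z).2.2)
    (fun Z _ => add_nonneg ENNReal.toReal_nonneg (sq_nonneg _)) (fun Z hd => (hx Z hd).l2)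
    (fun Z hd => (hx Z hd).zero)
    (fun Z Z' hZ hd => le_trans (le_add_of_nonneg_left ENNReal.toReal_nonneg) (hmono Z Z' hZ hd))
  have hS : ∀ n, Stg Λ M Y (Z n) μ θ (x (Z n)).1 (x (Z n)).2.1 (x (Z n)).2.2 :=
    fun n => hx _ (z1 n)
  have hfin : ∀ m n, En U (fun z => ((x (Z m)).1 z).re - ((x (Z n)).1 z).re) < ⊤ := fun m n =>
    (ip_sub_left hU (hol_re_lip hU (hS m).hol) (hol_re_lip hU (hS n).hol) (hS m).en (hS n).en
      (hS n).en).1
  have hsym : ∀ u v : ℂ → ℝ, En U (fun z => u z - v z) = En U (fun z => v z - u z) := by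
    intro u v
    unfold En
    refine lintegral_congr fun z => ?_
    have : (fun z => u z - v z) = fun z => -(v z - u z) := funext fun z => by ring
    rw [this, fderiv_fun_neg, enorm_neg]
  have nsym : ∀ a b : Λ.E → ℝ, nrm (fun q => a q - b q) = nrm (fun q => b q - a q) := by
    intro a b
    unfold nrm
    congr 1
    exact tsum_congr fun q => by ring
  have key : ∀ ε > 0, ∃ N, ∀ m ≥ N, ∀ n ≥ N,
      (En U (fun z => ((x (Z m)).1 z).re - ((x (Z n)).1 z).re)).toReal +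
        nrm (fun q => (x (Z m)).2.2 q - (x (Z n)).2.2 q) ^ 2 ≤ ε := by
    intro ε hε
    obtain ⟨N, hN⟩ := z3 ε hε
    refine ⟨N, fun m hm n hn => ?_⟩
    rcases le_total m n with h | h
    · exact (hmono _ _ (z2 h) (z1 n)).trans (hN m hm n h)
    · rw [hsym, nsym]
      exact (hmono _ _ (z2 h) (z1 m)).trans (hN n hn m h)
  obtain ⟨G, g1, g2, g3⟩ := h1 (fun n => (x (Z n)).1) (fun n => (hS n).hol) (fun n => (hS n).en)
    (by
      intro ε hε
      obtain ⟨N, hN⟩ := key ε hε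
      refine ⟨N, fun m hm n hn => ?_⟩
      rw [← ENNReal.ofReal_toReal (hfin m n).ne]
      exact ENNReal.ofReal_le_ofReal
        (le_trans (le_add_of_nonneg_right (sq_nonneg _)) (hN m hm n hn)))
  obtain ⟨s, s1, s2⟩ := x2_lim (σ := fun n => (x (Z n)).2.2) (fun n => (hS n).l2)
    (by
      intro ε hε
      obtain ⟨N, hN⟩ := key (ε ^ 2) (by positivity)
      refine ⟨N, fun m hm n hn => ?_⟩
      exact (pow_le_pow_iff_left₀ (L2w.nrm_nonneg _) hε.le two_ne_zero).1
        (le_trans (le_add_of_nonneg_left ENNReal.toReal_nonneg) (hN m hm n hn)))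
  exact ⟨Z, fun n => (x (Z n)).1, fun n => (x (Z n)).2.1, fun n => (x (Z n)).2.2, G, s, z1, hS,
    g1, g2, s1, g3, s2, z4⟩

/-- the exact range lemma from the analytic inputs -/
theorem rx_core (hU : IsOpen U) (hc : IsPreconnected U) (hF : Fam Λ M) (hC : CH Λ M)
    (hA : ATp Λ M) (hL : LimPos Λ) (h1 : HoloLim U) (h2 : RangeLim U) (h3 : CutClip U) :
    RX Λ M 4 := by
  intro c ν t Y hcx hν ht hcls ε hε
  have hM := hF.reg
  obtain ⟨μ, m1, m2, m3, m4, m5⟩ := exists_mu hU hM hcx hν ht hcls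
  have hμ : Mu Λ M Y c ν t μ := ⟨hcx, hν, ht, m1, m2, m3, m4, m5⟩
  set D := Real.sqrt (En U c).toReal with hD
  have hD0 : 0 ≤ D := Real.sqrt_nonneg _
  set θ := ε / (D + 1) with hθd
  have hθ : 0 < θ := by positivity
  have hθD : θ * D / 2 ≤ ε / 2 := by
    have : θ * (D + 1) = ε := by rw [hθd]; field_simp
    nlinarith
  obtain ⟨Z, F, b, σ, G, s, z1, hS, g1, g2, s1, l1, l2, l3⟩ := rx_stages hU hc hM h1 hμ hθ
  have t0 := L2w.nrm_nonneg t
  have hσ : ∀ n, θ * nrm (σ n) ≤ nrm t + ε / 2 := fun n => by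
    have := (hS n).nrm_le hU hμ hθ
    linarith
  -- the range bound
  have hr : ∀ z ∈ U, ∀ z' ∈ U, (G z).im - (G z').im ≤ 2 * ν := by
    refine h2 F G (2 * ν) (fun n => (hS n).hol) (fun n => (hS n).en) g1 g2 l1 fun L η hη => ?_
    set K := 2 * (|L| + 1) * (θ * (2 * ν + (nrm t + ε / 2))) with hK
    have hK0 : 0 ≤ K := by positivity
    have l4 := l3.const_mul K
    rw [mul_zero] at l4
    filter_upwards [l4.eventually (gt_mem_nhds hη)] with n hn φ hφ
    have h5 := (hS n).pos hU hc hF hC hL hμ hθ (z1 n) hφ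
    have h6 : 2 * (L + 1) * (θ * (2 * ν + θ * nrm (σ n))) ≤ K := by
      have a1 : 0 ≤ θ * (2 * ν + θ * nrm (σ n)) :=
        mul_nonneg hθ.le (add_nonneg (by positivity) (mul_nonneg hθ.le (L2w.nrm_nonneg _)))
      have a2 : θ * (2 * ν + θ * nrm (σ n)) ≤ θ * (2 * ν + (nrm t + ε / 2)) :=
        mul_le_mul_of_nonneg_left (by linarith [hσ n]) hθ.le
      exact mul_le_mul (by linarith [le_abs_self L]) a2 a1 (by positivity)
    have h7 := mul_le_mul_of_nonneg_right h6
      (L2w.nrm_nonneg (fun q => if q ∈ Z n then 0 else σ n q))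
    linarith
  obtain ⟨β, b1, b2, b3, b4⟩ := h3 G (2 * ν) g1 g2 hr
  have hs2 : ∀ n, nrm s ≤ nrm (σ n) + nrm (fun q => σ n q - s q) := fun n => by
    have a1 := (x2_sub s1.2 (hS n).l2.2).1
    have a2 := (x2_add (hS n).l2.2 a1).2
    have e1 : (fun q => σ n q + (s q - σ n q)) = s := funext fun q => by ring
    have e2 : nrm (fun q => s q - σ n q) = nrm (fun q => σ n q - s q) := by
      unfold nrm
      congr 1
      exact tsum_congr fun q => by ring
    rw [e1, e2] at a2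
    exact a2
  have hs : θ * nrm s ≤ nrm t + ε / 2 := by
    have l5 := (l2.const_mul θ).const_add (nrm t + ε / 2)
    rw [mul_zero, add_zero] at l5
    refine ge_of_tendsto' l5 fun n => ?_
    have := mul_le_mul_of_nonneg_left (hs2 n) hθ.le
    have := hσ n
    linarith
  have k1 := L2w.smul s1 hθ.le
  have k2 := L2w.add ht k1.1
  have k3 : nrm (fun q => t q + θ * s q) < 4 * nrm t + ε := by
    have := k2.2
    rw [k1.2] at this
    linarith
  have hlam : XX U (fun z => c z - β z) := hcx.sub hU b1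
  have hmain : ∀ v e, TT Λ M v → Bdd U v → Adm Λ M Y v e →
      |om U v (fun z => c z - β z)| ≤ ∑' q, (t q + θ * s q) * e q := by
    intro v e hv hb he
    have hn : ∀ n, |om U v c - ip U v (fun z => (F n z).re)| ≤
        ∑' q, (t q + θ * s q) * e q + θ * nrm e * nrm (fun q => σ n q - s q) := by
      intro n
      have j1 := L2w.smul (hS n).l2 hθ.le
      have j2 := L2w.add ht j1.1
      have j3 := hA (fun z => c z - b n z) (fun q => t q + θ * σ n q) Y (Z n)
        (hcx.sub hU (hS n).xx) j2.1 (z1 n) (by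
          intro w f hw hwb hf hZ
          have a1 := hμ.tau w f hw hwb hf
          have a2 := (hS n).tau hU hM hμ ⟨hw, hwb, hf, hZ⟩
          have a3 : ∑' q, (t q + θ * σ n q) * f q =
              ∑' q, t q * f q + ∑' q, θ * σ n q * f q := by
            rw [← (L2w.summable_mul ht hf.l2).1.tsum_add (L2w.summable_mul j1.1 hf.l2).1]
            exact tsum_congr fun q => by ring
          rw [om_sub_right hU hw.1 hcx (hS n).xx, a3]
          have a4 := abs_add_le (om U w c - μ w) (μ w - om U w (b n))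
          have e : om U w c - μ w + (μ w - om U w (b n)) = om U w c - om U w (b n) := by ring
          rw [e] at a4
          linarith) v e hv hb he
      rw [om_sub_right hU hv.1 hcx (hS n).xx, (hS n).om v hv.1] at j3
      have c1 := x2_cs he.l2.2 (x2_sub (hS n).l2.2 s1.2).1
      have c2 : ∑' q, (t q + θ * σ n q) * e q =
          ∑' q, (t q + θ * s q) * e q + θ * ∑' q, e q * (σ n q - s q) := by
        rw [← tsum_mul_left, ← (L2w.summable_mul k2.1 he.l2).1.tsum_add (c1.1.mul_left θ)]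
        exact tsum_congr fun q => by ring
      have c3 := mul_le_mul_of_nonneg_left ((le_abs_self _).trans c1.2) hθ.le
      rw [c2] at j3
      linarith
    have l6 := ((ip_tendsto hU (fun n => (hS n).hol) (fun n => (hS n).en) g1 g2 l1
      hv.1.en).const_sub (om U v c)).abs
    have l7 := (l2.const_mul (θ * nrm e)).const_add (∑' q, (t q + θ * s q) * e q)
    rw [mul_zero, add_zero] at l7
    rw [om_sub_right hU hv.1 hcx b1, b4 v hv.1]
    exact le_of_tendsto_of_tendsto' l6 l7 hn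
  refine ⟨β, fun q => t q + θ * s q, b1, b2, fun z hz => (b3 z hz).trans (le_of_eq (by ring)),
    k2.1, k3.le, hmain, fun r hr => ?_⟩
  obtain ⟨l, k, q1, q2, -, q4⟩ := r0_one hU hc hM hC hlam Y k2.1 k3 hmain hr
  exact ⟨l, k, q1, q2, q4⟩

end Crest.Agent.R105
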