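import Crest.Agent.R105.KDefs
import Crest.Agent.R105.HGr
import Crest.Agent.R105.HPoinc
import Crest.Agent.R105.LFar

/-! Row 105, block RX: definitions. -/

set_option autoImplicit false

open MeasureTheory Set Filter Topology
open scoped ENNReal Classical ContDiff

namespace Crest.Agent.R105

noncomputable section

variable {U : Set ℂ}

/-- the cone `P^Z` of test pairs -/
structure PZ (Λ : Lumps U) (M : Set (ℂ → ℝ)) (Y Z : Finset Λ.E) (v : ℂ → ℝ) (e : Λ.E → ℝ) :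
    Prop where
  tt : TT Λ M v
  bdd : Bdd U v
  adm : Adm Λ M Y v e
  osc : ∀ q ∈ Z, Λ.osc v q ≤ e q

/-- the output of the Hahn-Banach splitting `exists_mu` -/
structure Mu (Λ : Lumps U) (M : Set (ℂ → ℝ)) (Y : Finset Λ.E) (c : ℂ → ℝ) (ν : ℝ)
    (t : Λ.E → ℝ) (μ : (ℂ → ℝ) → ℝ) : Prop where
  xx : XX U c
  nn : 0 ≤ ν
  l2 : L2w t
  add : ∀ v w, TT Λ M v → Bdd U v → TT Λ M w → Bdd U w → μ (fun z => v z + w z) = μ v + μ w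
  smul : ∀ (a : ℝ) v, TT Λ M v → Bdd U v → μ (fun z => a * v z) = a * μ v
  a0 : ∀ a, A0 U a → μ a = 0
  le : ∀ v B, TT Λ M v → (∀ z ∈ U, |v z| ≤ B / 2) → |μ v| ≤ ν * B
  tau : ∀ v e, TT Λ M v → Bdd U v → Adm Λ M Y v e → |om U v c - μ v| ≤ ∑' q, t q * e q

/-- squared norm of a pair -/
def sq2 (U : Set ℂ) {E : Type} (F : ℂ → ℂ) (σ : E → ℝ) : ℝ :=
  (En U (fun z => (F z).re)).toReal + nrm σ ^ 2

/-- the minimiser for a finite set `Z` of nodes -/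
structure Stg (Λ : Lumps U) (M : Set (ℂ → ℝ)) (Y Z : Finset Λ.E) (μ : (ℂ → ℝ) → ℝ) (θ : ℝ)
    (F : ℂ → ℂ) (b : ℂ → ℝ) (σ : Λ.E → ℝ) : Prop where
  hol : DifferentiableOn ℂ F U
  en : En U (fun z => (F z).re) < ⊤
  xx : XX U b
  im : ∀ z, ‖z‖ ≤ Λ.R → b z = (F z).im
  om : ∀ w, XX U w → om U w b = ip U w (fun z => (F z).re)
  l2 : L2w σ
  zero : ∀ q ∈ Y, σ q = 0
  vi : ∀ v e, PZ Λ M Y Z v e → μ v ≤ R105.om U v b + ∑' q, θ * σ q * e q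
  app : ∀ δ > 0, ∃ v e, PZ Λ M Y Z v e ∧ En U (fun z => v z - (F z).re) ≤ ENNReal.ofReal δ ∧
    nrm (fun q => θ * e q - σ q) ≤ δ ∧ μ v = sq2 U F σ

/-- the hypothesis of `hb_range` on a test function, with the bound `L` -/
structure Tst (φ : ℝ × ℝ → ℝ) (L : ℝ) : Prop where
  sm : ContDiff ℝ ∞ φ
  rng : ∀ p, 0 ≤ φ p ∧ φ p ≤ 1
  pos : ∀ p, 0 ≤ fderiv ℝ φ p (1, 0)
  le : ∀ p, ‖fderiv ℝ φ p‖ ≤ L

/-- the integral in `hb_range` -/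
def rint (U : Set ℂ) (φ : ℝ × ℝ → ℝ) (F : ℂ → ℂ) : ℝ :=
  ∫ z in U, fderiv ℝ φ ((F z).re, (F z).im) (1, 0) * ‖deriv F z‖ ^ 2

/-- statement of `at_main` -/
def ATp (Λ : Lumps U) (M : Set (ℂ → ℝ)) : Prop :=
  ∀ (lam : ℂ → ℝ) (k : Λ.E → ℝ) (Y Z : Finset Λ.E), XX U lam → L2w k → Disjoint Y Z →
    (∀ v e, TT Λ M v → Bdd U v → Adm Λ M Y v e → (∀ q ∈ Z, Λ.osc v q ≤ e q) →
      |om U v lam| ≤ ∑' q, k q * e q) →
    ∀ v e, TT Λ M v → Bdd U v → Adm Λ M Y v e → |om U v lam| ≤ ∑' q, k q * e q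

/-- statement of `lim_pos` -/
def LimPos (Λ : Lumps U) : Prop :=
  ∀ (F : ℂ → ℂ) (b : ℂ → ℝ) (v : ℕ → ℂ → ℝ) (φ : ℝ × ℝ → ℝ) (L : ℝ), DifferentiableOn ℂ F U →
    En U (fun z => (F z).re) < ⊤ → XX U b → (∀ z, ‖z‖ ≤ Λ.R → b z = (F z).im) →
    (∀ w, XX U w → om U w b = ip U w (fun z => (F z).re)) → (∀ j, XX U (v j)) →
    Tendsto (fun j => En U (fun z => v j z - (F z).re)) atTop (𝓝 0) →
    (∀ᵐ z, z ∈ U → Tendsto (fun j => v j z) atTop (𝓝 (F z).re)) → Tst φ L →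
    Tendsto (fun j => om U (fun z => φ (v j z, b z)) b) atTop (𝓝 (rint U φ F))

/-- statement of `hb_limit` -/
def HoloLim (U : Set ℂ) : Prop :=
  ∀ F : ℕ → ℂ → ℂ, (∀ n, DifferentiableOn ℂ (F n) U) → (∀ n, En U (fun z => (F n z).re) < ⊤) →
    (∀ ε > 0, ∃ N, ∀ m ≥ N, ∀ n ≥ N,
      En U (fun z => (F m z).re - (F n z).re) ≤ ENNReal.ofReal ε) →
    ∃ G : ℂ → ℂ, DifferentiableOn ℂ G U ∧ En U (fun z => (G z).re) < ⊤ ∧
      Tendsto (fun n => En U (fun z => (F n z).re - (G z).re)) atTop (𝓝 0)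

/-- statement of `range_of_limit` -/
def RangeLim (U : Set ℂ) : Prop :=
  ∀ (F : ℕ → ℂ → ℂ) (G : ℂ → ℂ) (m : ℝ), (∀ n, DifferentiableOn ℂ (F n) U) →
    (∀ n, En U (fun z => (F n z).re) < ⊤) → DifferentiableOn ℂ G U →
    En U (fun z => (G z).re) < ⊤ →
    Tendsto (fun n => En U (fun z => (F n z).re - (G z).re)) atTop (𝓝 0) →
    (∀ L ε : ℝ, 0 < ε → ∀ᶠ n in atTop, ∀ φ, Tst φ L → rint U φ (F n) ≤ m + ε) →
    ∀ z ∈ U, ∀ z' ∈ U, (G z).im - (G z').im ≤ m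

/-- statement of `cut_clip` -/
def CutClip (U : Set ℂ) : Prop :=
  ∀ (G : ℂ → ℂ) (m : ℝ), DifferentiableOn ℂ G U → En U (fun z => (G z).re) < ⊤ →
    (∀ z ∈ U, ∀ z' ∈ U, (G z).im - (G z').im ≤ m) →
    ∃ b, XX U b ∧ ContDiffOn ℝ 1 b U ∧ (∀ z ∈ U, |b z| ≤ 2 * m) ∧
      ∀ w, XX U w → om U w b = ip U w (fun z => (G z).re)

end

end Crest.Agent.R105
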