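import Crest.Agent.R105.HGr
import Crest.Agent.R105.HLog

/-! Row 105, block RX: the bridge at infinity for the range lemma. -/

set_option autoImplicit false

open MeasureTheory Set Filter Topology
open scoped ENNReal

namespace Crest.Agent.R105

variable {U : Set ℂ}

/-- the same lumps with a larger radius -/
def Lumps.enl (Λ : Lumps U) (R' : ℝ) (h : Λ.R ≤ R') : Lumps U where
  R := R'
  E := Λ.E
  W := Λ.W
  C := fun n => Λ.C n ∪ {z | Λ.R ≤ ‖z‖ ∧ ‖z‖ ≤ R'}
  far := fun z hz => Λ.far z (h.trans hz)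
  op := Λ.op
  conn := Λ.conn
  sub := fun n q => (Λ.sub n q).trans (inter_subset_inter_right _ (Metric.ball_subset_ball h))
  part := Λ.part
  fin := Λ.fin
  anti := Λ.anti
  sep := Λ.sep
  koenig := Λ.koenig
  cpt := fun n => (Λ.cpt n).union ((isCompact_closedBall (0 : ℂ) R').of_isClosed_subset
      ((isClosed_le continuous_const continuous_norm).inter
        (isClosed_le continuous_norm continuous_const))
      fun z hz => mem_closedBall_zero_iff.2 hz.2)
  csub := fun n => union_subset (Λ.csub n) fun z hz => Λ.far z hz.1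
  cover := fun n z hz hC => by
    rcases Λ.cover n z hz (fun h' => hC (Or.inl h')) with h1 | h1
    · left
      by_contra h2
      exact hC (Or.inr ⟨h1, (not_le.1 h2).le⟩)
    · exact Or.inr h1
  bd := fun n q z hz hc => (Λ.bd n q z hz hc).imp id Or.inl
  exh := Λ.exh

theorem xi_fd {F : ℂ → ℂ} {z : ℂ} (hF : DifferentiableAt ℂ F z) (L : ℂ →L[ℝ] ℝ) (w : ℂ) :
    fderiv ℝ (fun z => L (F z)) z w = L (w * deriv F z) := by
  have h := (L.hasFDerivAt.comp z (hF.hasDerivAt.hasFDerivAt.restrictScalars ℝ)).fderiv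
  exact congrArg (fun A : ℂ →L[ℝ] ℝ => A w) h

theorem xi_cr (hU : IsOpen U) {F : ℂ → ℂ} (hF : DifferentiableOn ℂ F U) {z : ℂ} (hz : z ∈ U) :
    fderiv ℝ (fun z => (F z).re) z 1 = (deriv F z).re ∧
    fderiv ℝ (fun z => (F z).re) z Complex.I = -(deriv F z).im ∧
    fderiv ℝ (fun z => (F z).im) z 1 = (deriv F z).im ∧
    fderiv ℝ (fun z => (F z).im) z Complex.I = (deriv F z).re := by
  have hd := hF.differentiableAt (hU.mem_nhds hz)
  exact ⟨(xi_fd hd Complex.reCLM 1).trans (by simp),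
    (xi_fd hd Complex.reCLM Complex.I).trans (by simp),
    (xi_fd hd Complex.imCLM 1).trans (by simp),
    (xi_fd hd Complex.imCLM Complex.I).trans (by simp)⟩

theorem xi_En_im (hU : IsOpen U) {F : ℂ → ℂ} (hF : DifferentiableOn ℂ F U) :
    En U (fun z => (F z).im) = En U (fun z => (F z).re) := by
  refine setLIntegral_congr_fun hU.measurableSet fun z hz => ?_
  obtain ⟨r1, r2, i1, i2⟩ := xi_cr hU hF hz
  have h : ‖fderiv ℝ (fun z => (F z).im) z‖ = ‖fderiv ℝ (fun z => (F z).re) z‖ := by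
    rw [← norm_grd, ← norm_grd, grd, grd, r1, r2, i1, i2,
      Complex.norm_eq_sqrt_sq_add_sq, Complex.norm_eq_sqrt_sq_add_sq]
    simp only [neg_sq, add_comm]
  simp only [← ofReal_norm, h]

theorem xi_lip (hU : IsOpen U) {f : ℂ → ℝ} (hf : ContDiffOn ℝ 1 f U) :
    LocallyLipschitzOn U f := fun z hz => by
  obtain ⟨K, t, ht, h⟩ := (hf.contDiffAt (hU.mem_nhds hz)).exists_lipschitzOnWith
  exact ⟨K, t, mem_nhdsWithin_of_mem_nhds ht, h⟩

theorem xi_lip_im (hU : IsOpen U) {F : ℂ → ℂ} (hF : DifferentiableOn ℂ F U) :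
    LocallyLipschitzOn U (fun z => (F z).im) ∧ LocallyLipschitzOn U (fun z => (F z).re) :=
  ⟨xi_lip hU (Complex.imCLM.contDiff.comp_contDiffOn
      ((hF.contDiffOn (n := 1) hU).restrict_scalars ℝ)),
    xi_lip hU (Complex.reCLM.contDiff.comp_contDiffOn
      ((hF.contDiffOn (n := 1) hU).restrict_scalars ℝ))⟩

theorem xi_ip (hU : IsOpen U) {F : ℂ → ℂ} (hF : DifferentiableOn ℂ F U) (w : ℂ → ℝ) :
    ip U w (fun z => (F z).re) = om U w (fun z => (F z).im) := by
  refine setIntegral_congr_fun hU.measurableSet fun z hz => ?_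
  obtain ⟨r1, r2, i1, i2⟩ := xi_cr hU hF hz
  simp only [wd, r1, r2, i1, i2]
  ring

theorem xi_int_abs {u c : ℂ → ℝ} (hu : En U u < ⊤) (hc : En U c < ⊤) :
    ∫ z in U, |wd u c z| ≤ Real.sqrt (En U u).toReal * Real.sqrt (En U c).toReal := by
  have h1 : En U u ^ (1 / 2 : ℝ) ≠ ⊤ := ENNReal.rpow_ne_top_of_nonneg (by norm_num) hu.ne
  have h2 : En U c ^ (1 / 2 : ℝ) ≠ ⊤ := ENNReal.rpow_ne_top_of_nonneg (by norm_num) hc.ne
  rw [h99_sqrt_toReal, h99_sqrt_toReal, ← ENNReal.toReal_mul]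
  have h3 := ENNReal.toReal_mono (ENNReal.mul_ne_top h1 h2) (h99_lint_wd U u c)
  have h4 := integral_norm_eq_lintegral_enorm (μ := volume.restrict U)
    (h99_meas_wd u c).aestronglyMeasurable
  simp only [Real.norm_eq_abs] at h4
  rw [h4]; exact h3

theorem xi_lip2 {φ : ℝ × ℝ → ℝ} (hφ : ContDiff ℝ 1 φ) {L : ℝ} (hL : ∀ p, ‖fderiv ℝ φ p‖ ≤ L)
    (s t s' t' : ℝ) : |φ (s, t) - φ (s', t')| ≤ L * |s - s'| + L * |t - t'| := by
  have h := (convex_univ (𝕜 := ℝ) (E := ℝ × ℝ)).norm_image_sub_le_of_norm_fderiv_le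
    (fun x _ => hφ.differentiable one_ne_zero x) (fun x _ => hL x) (mem_univ (s', t'))
    (mem_univ (s, t))
  have h0 : 0 ≤ L := (norm_nonneg _).trans (hL 0)
  have h2 : ‖((s, t) : ℝ × ℝ) - (s', t')‖ ≤ |s - s'| + |t - t'| := by
    rw [Prod.norm_def]
    exact max_le (le_add_of_nonneg_right (abs_nonneg _)) (le_add_of_nonneg_left (abs_nonneg _))
  rw [Real.norm_eq_abs] at h
  nlinarith [mul_le_mul_of_nonneg_left h2 h0]

theorem xi_chain {φ : ℝ × ℝ → ℝ} (hφ : ContDiff ℝ 1 φ) {u v : ℂ → ℝ} {z : ℂ}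
    (hu : DifferentiableAt ℝ u z) (hv : DifferentiableAt ℝ v z) :
    DifferentiableAt ℝ (fun z => φ (u z, v z)) z ∧ ∀ w,
      fderiv ℝ (fun z => φ (u z, v z)) z w = fderiv ℝ φ (u z, v z) (1, 0) * fderiv ℝ u z w
        + fderiv ℝ φ (u z, v z) (0, 1) * fderiv ℝ v z w := by
  have h := (hφ.differentiable one_ne_zero (u z, v z)).hasFDerivAt.comp z
    (hu.hasFDerivAt.prodMk hv.hasFDerivAt)
  refine ⟨h.differentiableAt, fun w => ?_⟩
  have h2 := congrArg (fun A : ℂ →L[ℝ] ℝ => A w) h.fderiv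
  refine h2.trans ?_
  have e : ((fderiv ℝ u z w, fderiv ℝ v z w) : ℝ × ℝ)
      = fderiv ℝ u z w • ((1, 0) : ℝ × ℝ) + fderiv ℝ v z w • ((0, 1) : ℝ × ℝ) := by simp
  simp only [ContinuousLinearMap.comp_apply, ContinuousLinearMap.prod_apply]
  rw [e, map_add, map_smul, map_smul, smul_eq_mul, smul_eq_mul]
  ring

theorem xi_meas (hU : IsOpen U) {g : ℝ × ℝ → ℝ} (hg : Continuous g) {u v : ℂ → ℝ}
    (hu : LocallyLipschitzOn U u) (hv : LocallyLipschitzOn U v) :
    AEStronglyMeasurable (fun z => g (u z, v z)) (volume.restrict U) :=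
  (hg.comp_continuousOn (hu.continuousOn.prodMk hv.continuousOn)).aestronglyMeasurable
    hU.measurableSet

theorem xi_ds {φ : ℝ × ℝ → ℝ} (hφ : ContDiff ℝ 1 φ) {L : ℝ} (hL : ∀ p, ‖fderiv ℝ φ p‖ ≤ L) :
    Continuous (fun p => fderiv ℝ φ p (1, 0)) ∧ ∀ p, ‖fderiv ℝ φ p (1, 0)‖ ≤ L := by
  refine ⟨(hφ.continuous_fderiv one_ne_zero).clm_apply continuous_const, fun p => ?_⟩
  have := (fderiv ℝ φ p).le_opNorm (1, 0)
  have h1 : ‖((1, 0) : ℝ × ℝ)‖ = 1 := by simp [Prod.norm_def]
  rw [h1, mul_one] at this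
  exact this.trans (hL p)

/-- exact formula for the pairing with the cut conjugate -/
theorem xi_exact (hU : IsOpen U) (Λ : Lumps U) {F : ℂ → ℂ} (hF : DifferentiableOn ℂ F U)
    (hE : En U (fun z => (F z).re) < ⊤) {b : ℂ → ℝ} (hb : XX U b)
    (hbF : ∀ z, ‖z‖ ≤ Λ.R → b z = (F z).im)
    (hbo : ∀ w, XX U w → om U w b = ip U w (fun z => (F z).re)) {v : ℂ → ℝ} (hv : XX U v)
    {φ : ℝ × ℝ → ℝ} (hφ : ContDiff ℝ 1 φ) {L B : ℝ} (hL : ∀ p, ‖fderiv ℝ φ p‖ ≤ L)
    (hB : ∀ p, |φ p| ≤ B) :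
    om U (fun z => φ (v z, b z)) b =
      ∫ z in U, fderiv ℝ φ (v z, (F z).im) (1, 0) * wd v (fun z => (F z).im) z := by
  have hEi : En U (fun z => (F z).im) < ⊤ := by rw [xi_En_im hU hF]; exact hE
  have hlip := (xi_lip_im hU hF).1
  obtain ⟨dc, db⟩ := xi_ds hφ hL
  set g : ℂ → ℝ := fun z => fderiv ℝ φ (v z, (F z).im) (1, 0) * wd v (fun z => (F z).im) z
    with hg
  have gi : IntegrableOn g U :=
    (wd_integrableOn hv.en hEi).bdd_mul (xi_meas hU dc hv.lip hlip) (c := L)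
      (Eventually.of_forall fun z => db _)
  have hB0 : 0 ≤ B := (abs_nonneg _).trans (hB 0)
  choose ψ p1 p2 p3 p4 p5 p6 using fun k : ℕ =>
    hb_log_inf (ε := 1 / ((k : ℝ) + 1)) (by positivity) (max Λ.R k)
  have pE : ∀ k, En U (ψ k) ≤ ENNReal.ofReal (1 / ((k : ℝ) + 1)) := fun k =>
    (setLIntegral_le_lintegral _ _).trans (p6 k)
  have pE' : ∀ k, En U (ψ k) < ⊤ := fun k => (pE k).trans_lt ENNReal.ofReal_lt_top
  have key : ∀ k, om U (fun z => φ (v z, b z)) b = (∫ z in U, ψ k z * g z) +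
      ∫ z in U, φ (v z, (F z).im) * wd (ψ k) (fun z => (F z).im) z := by
    intro k
    obtain ⟨R', hR', hS⟩ := (p2 k).isCompact.isBounded.subset_closedBall_lt Λ.R (0 : ℂ)
    obtain ⟨β, hβ, -, hβF, -⟩ := hb_cut hU (Λ.enl R' hR'.le) hF hE
    have hψX : XX U (ψ k) := by
      refine ⟨xi_lip hU ((p1 k).of_le (by exact_mod_cast le_top)).contDiffOn,
        ⟨R' + 1, 0, fun z hz => ?_⟩, pE' k⟩
      by_contra h
      have := mem_closedBall_zero_iff.1 (hS (subset_tsupport _ h))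
      linarith
    have hX1 : XX U (fun z => φ (v z, b z)) :=
      XX.comp2 hU (G := fun s t => φ (s, t)) (xi_lip2 hφ hL) hv hb
    have hX2 : XX U (fun z => φ (v z, β z) * ψ k z) :=
      (XX.comp2 hU (G := fun s t => φ (s, t)) (xi_lip2 hφ hL) hv hβ).mul hU hψX
        ⟨B, fun z _ => hB _⟩ ⟨1, fun z _ => by rw [abs_of_nonneg (p3 k z)]; exact p4 k z⟩
    have hfun : (fun z => φ (v z, β z) * ψ k z) = fun z => φ (v z, (F z).im) * ψ k z := by
      funext z
      by_cases h : ψ k z = 0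
      · rw [h, mul_zero, mul_zero]
      · rw [hβF z (mem_closedBall_zero_iff.1 (hS (subset_tsupport _ h)))]
    have e1 : om U (fun z => φ (v z, b z)) b = om U (fun z => φ (v z, β z) * ψ k z) b := by
      refine om_germ_congr hU Λ hX1 hX2 hb hb fun q => ⟨0, 0, 0, fun z hz => ?_, fun z _ => by simp⟩
      have hz' : ‖z‖ < Λ.R := mem_ball_zero_iff.1 (Λ.sub 0 q hz).2
      rw [p5 k z (mem_closedBall_zero_iff.2 (hz'.le.trans (le_max_left _ _))), hbF z hz'.le,
        hβF z (hz'.le.trans hR'.le)]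
      ring
    rw [e1, hbo _ hX2, xi_ip hU hF, hfun, om, ← integral_add]
    · refine setIntegral_congr_ae hU.measurableSet ?_
      filter_upwards [ae_diff hU hv.lip, ae_diff hU hlip] with z h1 h2 hz
      obtain ⟨c1, c2⟩ := xi_chain hφ (h1 hz) (h2 hz)
      have c3 : DifferentiableAt ℝ (ψ k) z := (p1 k).differentiable (by simp) z
      simp only [wd, hg, h90_fderiv_mul c1 c3, c2]
      ring
    · exact gi.bdd_mul (p1 k).continuous.aestronglyMeasurable (c := 1)
        (Eventually.of_forall fun z => by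
          rw [Real.norm_eq_abs, abs_of_nonneg (p3 k z)]; exact p4 k z)
    · exact (wd_integrableOn (pE' k) hEi).bdd_mul (xi_meas hU hφ.continuous hv.lip hlip) (c := B)
        (Eventually.of_forall fun z => hB _)
  have l1 : Tendsto (fun k => ∫ z in U, ψ k z * g z) atTop (𝓝 (∫ z in U, g z)) := by
    refine tendsto_integral_of_dominated_convergence (fun z => ‖g z‖)
      (fun k => (p1 k).continuous.aestronglyMeasurable.mul gi.1) gi.norm
      (fun k => Eventually.of_forall fun z => ?_) (Eventually.of_forall fun z => ?_)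
    · rw [norm_mul, Real.norm_eq_abs (ψ k z), abs_of_nonneg (p3 k z)]
      exact mul_le_of_le_one_left (norm_nonneg _) (p4 k z)
    · obtain ⟨N, hN⟩ := exists_nat_ge ‖z‖
      refine tendsto_const_nhds.congr' ?_
      filter_upwards [eventually_ge_atTop N] with k hk
      rw [p5 k z (mem_closedBall_zero_iff.2 (hN.trans
        ((Nat.cast_le.2 hk).trans (le_max_right _ _)))), one_mul]
  have l2 : Tendsto (fun k => ∫ z in U, φ (v z, (F z).im) * wd (ψ k) (fun z => (F z).im) z)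
      atTop (𝓝 0) := by
    have t0 : Tendsto (fun k : ℕ => B * (Real.sqrt (1 / ((k : ℝ) + 1)) *
        Real.sqrt (En U (fun z => (F z).im)).toReal)) atTop (𝓝 0) := by
      have := ((tendsto_one_div_add_atTop_nhds_zero_nat (𝕜 := ℝ)).sqrt.mul_const
        (Real.sqrt (En U (fun z => (F z).im)).toReal)).const_mul B
      simpa using this
    refine squeeze_zero_norm (fun k => ?_) t0
    refine (norm_integral_le_of_norm_le ((wd_integrableOn (pE' k) hEi).abs.const_mul B)
      (Eventually.of_forall fun z => ?_)).trans ?_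
    · rw [norm_mul, Real.norm_eq_abs, Real.norm_eq_abs]
      exact mul_le_mul_of_nonneg_right (hB _) (abs_nonneg _)
    · rw [integral_const_mul]
      refine mul_le_mul_of_nonneg_left ((xi_int_abs (pE' k) hEi).trans ?_) hB0
      refine mul_le_mul_of_nonneg_right (Real.sqrt_le_sqrt ?_) (Real.sqrt_nonneg _)
      exact ENNReal.toReal_le_of_le_ofReal (by positivity) (pE k)
  have l3 := l1.add l2
  rw [add_zero] at l3
  exact tendsto_nhds_unique (tendsto_const_nhds.congr key) l3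

/-- bridge at infinity: the positivity integrals converge to the integrand of `hb_range` -/
theorem lim_pos (hU : IsOpen U) (Λ : Lumps U) {F : ℂ → ℂ} (hF : DifferentiableOn ℂ F U)
    (hE : En U (fun z => (F z).re) < ⊤) {b : ℂ → ℝ} (hb : XX U b)
    (hbF : ∀ z, ‖z‖ ≤ Λ.R → b z = (F z).im)
    (hbo : ∀ w, XX U w → om U w b = ip U w (fun z => (F z).re)) {v : ℕ → ℂ → ℝ}
    (hv : ∀ j, XX U (v j))
    (he : Tendsto (fun j => En U (fun z => v j z - (F z).re)) atTop (𝓝 0))
    (ha : ∀ᵐ z, z ∈ U → Tendsto (fun j => v j z) atTop (𝓝 (F z).re))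
    {φ : ℝ × ℝ → ℝ} (hφ : ContDiff ℝ 1 φ) {L B : ℝ} (hL : ∀ p, ‖fderiv ℝ φ p‖ ≤ L)
    (hB : ∀ p, |φ p| ≤ B) :
    Tendsto (fun j => om U (fun z => φ (v j z, b z)) b) atTop
      (𝓝 (∫ z in U, fderiv ℝ φ ((F z).re, (F z).im) (1, 0) * ‖deriv F z‖ ^ 2)) := by
  have hEi : En U (fun z => (F z).im) < ⊤ := by rw [xi_En_im hU hF]; exact hE
  obtain ⟨hlip, hlipr⟩ := xi_lip_im hU hF
  obtain ⟨dc, db⟩ := xi_ds hφ hL
  have hL0 : 0 ≤ L := (norm_nonneg _).trans (hL 0)
  have hw : IntegrableOn (wd (fun z => (F z).re) (fun z => (F z).im)) U := wd_integrableOn hE hEi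
  have hfin : ∀ᶠ j in atTop, En U (fun z => v j z - (F z).re) < ⊤ :=
    he.eventually (gt_mem_nhds (by simp))
  have l1 : Tendsto (fun j => ∫ z in U, fderiv ℝ φ (v j z, (F z).im) (1, 0) *
      wd (fun z => (F z).re) (fun z => (F z).im) z) atTop
      (𝓝 (∫ z in U, fderiv ℝ φ ((F z).re, (F z).im) (1, 0) * ‖deriv F z‖ ^ 2)) := by
    have e : ∫ z in U, fderiv ℝ φ ((F z).re, (F z).im) (1, 0) * ‖deriv F z‖ ^ 2 =
        ∫ z in U, fderiv ℝ φ ((F z).re, (F z).im) (1, 0) *
          wd (fun z => (F z).re) (fun z => (F z).im) z := by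
      refine setIntegral_congr_fun hU.measurableSet fun z hz => ?_
      obtain ⟨r1, r2, i1, i2⟩ := xi_cr hU hF hz
      simp only [wd, r1, r2, i1, i2, Complex.sq_norm, Complex.normSq_apply]
      ring
    rw [e]
    refine tendsto_integral_of_dominated_convergence
      (fun z => L * ‖wd (fun z => (F z).re) (fun z => (F z).im) z‖)
      (fun j => (xi_meas hU dc (hv j).lip hlip).mul hw.1) (hw.norm.const_mul L)
      (fun j => Eventually.of_forall fun z => ?_) ?_
    · rw [norm_mul]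
      exact mul_le_mul_of_nonneg_right (db _) (norm_nonneg _)
    · rw [ae_restrict_iff' hU.measurableSet]
      filter_upwards [ha] with z h hz
      exact ((dc.tendsto _).comp ((h hz).prodMk_nhds tendsto_const_nhds)).mul_const _
  have l2 : Tendsto (fun j => ∫ z in U, fderiv ℝ φ (v j z, (F z).im) (1, 0) *
      wd (fun z => v j z - (F z).re) (fun z => (F z).im) z) atTop (𝓝 0) := by
    have t0 : Tendsto (fun j => L * (Real.sqrt (En U (fun z => v j z - (F z).re)).toReal *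
        Real.sqrt (En U (fun z => (F z).im)).toReal)) atTop (𝓝 0) := by
      have := (((ENNReal.tendsto_toReal ENNReal.zero_ne_top).comp he).sqrt.mul_const
        (Real.sqrt (En U (fun z => (F z).im)).toReal)).const_mul L
      simpa using this
    refine squeeze_zero_norm' ?_ t0
    filter_upwards [hfin] with j hj
    refine (norm_integral_le_of_norm_le ((wd_integrableOn hj hEi).abs.const_mul L)
      (Eventually.of_forall fun z => ?_)).trans ?_
    · rw [norm_mul, Real.norm_eq_abs (wd _ _ _)]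
      exact mul_le_mul_of_nonneg_right (db _) (abs_nonneg _)
    · rw [integral_const_mul]
      exact mul_le_mul_of_nonneg_left (xi_int_abs hj hEi) hL0
  have l3 := l1.add l2
  rw [add_zero] at l3
  refine l3.congr' ?_
  filter_upwards [hfin] with j hj
  rw [xi_exact hU Λ hF hE hb hbF hbo (hv j) hφ hL hB, ← integral_add]
  · refine setIntegral_congr_ae hU.measurableSet ?_
    filter_upwards [ae_diff hU (hv j).lip, ae_diff hU hlipr] with z h1 h2 hz
    simp only [wd, fderiv_fun_sub (h1 hz) (h2 hz), sub_apply]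
    ring
  · exact hw.bdd_mul (xi_meas hU dc (hv j).lip hlip) (c := L)
      (Eventually.of_forall fun z => db _)
  · exact (wd_integrableOn hj hEi).bdd_mul (xi_meas hU dc (hv j).lip hlip) (c := L)
      (Eventually.of_forall fun z => db _)

end Crest.Agent.R105
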