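import Crest.Agent.R105.XLim

/-! Row 105, block RX: the Dirichlet inner product. -/

set_option autoImplicit false

open MeasureTheory Set Filter Topology
open scoped ENNReal Classical ContDiff

namespace Crest.Agent.R105

variable {U : Set ℂ}

theorem ip_comm (u v : ℂ → ℝ) : ip U u v = ip U v u := by
  unfold ip
  refine integral_congr_ae (Eventually.of_forall fun z => ?_)
  ring

theorem ip_self {u : ℂ → ℝ} (hu : En U u < ⊤) : ip U u u = (En U u).toReal := by
  rw [← int_grd_sq hu]
  unfold ip
  refine integral_congr_ae (Eventually.of_forall fun z => ?_)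
  simp only [h93_nsq, grd]
  ring

/-- `ae_diff`, `memLp_grd`, `h93_grd_sub`, `h93_En` -/
theorem ip_sub_left (hU : IsOpen U) {u v w : ℂ → ℝ} (lu : LocallyLipschitzOn U u)
    (lv : LocallyLipschitzOn U v) (hu : En U u < ⊤) (hv : En U v < ⊤) (hw : En U w < ⊤) :
    En U (fun z => u z - v z) < ⊤ ∧ ip U (fun z => u z - v z) w = ip U u w - ip U v w := by
  have hm : MeasurableSet U := hU.measurableSet
  have e : (fun z => grd u z - grd v z) =ᵐ[volume.restrict U] grd (fun z => u z - v z) := by
    filter_upwards [(ae_restrict_iff' hm).2 (ae_diff hU lu),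
      (ae_restrict_iff' hm).2 (ae_diff hU lv)] with z d1 d2
    rw [h93_grd_sub d1 d2]
  have md : MemLp (fun z => grd u z - grd v z) 2 (volume.restrict U) :=
    (memLp_grd hu).sub (memLp_grd hv)
  have mw := memLp_grd hw
  have iP : ∀ {g : ℂ → ℂ}, MemLp g 2 (volume.restrict U) →
      Integrable (fun z => (g z).re * (grd w z).re + (g z).im * (grd w z).im)
        (volume.restrict U) :=
    fun hg => (h93_int_mul (h93_re hg) (h93_re mw)).add (h93_int_mul (h93_im hg) (h93_im mw))
  refine ⟨(h93_En md e).1, ?_⟩
  have h := integral_sub (iP (memLp_grd hu)) (iP (memLp_grd hv))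
  refine Eq.trans ?_ h
  unfold ip
  refine integral_congr_ae ?_
  filter_upwards [e] with z hz
  show (grd (fun z => u z - v z) z).re * (grd w z).re +
    (grd (fun z => u z - v z) z).im * (grd w z).im = _
  rw [← hz]
  simp only [Complex.sub_re, Complex.sub_im]
  ring

/-- the real part of a holomorphic function is locally Lipschitz -/
theorem hol_re_lip (hU : IsOpen U) {F : ℂ → ℂ} (hF : DifferentiableOn ℂ F U) :
    LocallyLipschitzOn U (fun z => (F z).re) :=
  xl_lip hU hF Complex.reCLM

end Crest.Agent.R105
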