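import Crest.Agent.R105.HGr

/-! Row 105, block RX: signed `ℓ²` tools. -/

set_option autoImplicit false

open MeasureTheory Set Filter Topology
open scoped ENNReal Classical ContDiff

namespace Crest.Agent.R105

variable {E : Type}

/-- a square summable family as a vector of `ℓ²` -/
def x2v {a : E → ℝ} (ha : Summable fun q => a q ^ 2) : lp (fun _ : E => ℝ) 2 := ⟨a, h70_memlp ha⟩

theorem x2v_norm {a : E → ℝ} (ha : Summable fun q => a q ^ 2) : nrm a = ‖x2v ha‖ :=
  (h70_lp_norm (x2v ha)).2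

theorem x2v_inner {a b : E → ℝ} (ha : Summable fun q => a q ^ 2)
    (hb : Summable fun q => b q ^ 2) : ∑' q, a q * b q = inner ℝ (x2v ha) (x2v hb) :=
  (h70_lp_inner (x2v ha) (x2v hb)).symm

theorem x2v_add {a b : E → ℝ} (ha : Summable fun q => a q ^ 2) (hb : Summable fun q => b q ^ 2) :
    (Summable fun q => (a q + b q) ^ 2) ∧ nrm (fun q => a q + b q) = ‖x2v ha + x2v hb‖ :=
  h70_lp_norm (x2v ha + x2v hb)

theorem x2v_sub {a b : E → ℝ} (ha : Summable fun q => a q ^ 2) (hb : Summable fun q => b q ^ 2) :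
    (Summable fun q => (a q - b q) ^ 2) ∧ nrm (fun q => a q - b q) = ‖x2v ha - x2v hb‖ :=
  h70_lp_norm (x2v ha - x2v hb)

/-- Cauchy-Schwarz for signed families (`L2w.summable_mul` for the absolute values) -/
theorem x2_cs {a b : E → ℝ} (ha : Summable fun q => a q ^ 2) (hb : Summable fun q => b q ^ 2) :
    Summable (fun q => a q * b q) ∧ |∑' q, a q * b q| ≤ nrm a * nrm b := by
  constructor
  · refine Summable.of_norm_bounded (ha.add hb) fun q => ?_
    rw [Real.norm_eq_abs, abs_le]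
    constructor <;> nlinarith [sq_nonneg (a q + b q), sq_nonneg (a q - b q)]
  · rw [x2v_inner ha hb, x2v_norm ha, x2v_norm hb]
    exact abs_real_inner_le_norm _ _

/-- triangle inequality for signed families -/
theorem x2_add {a b : E → ℝ} (ha : Summable fun q => a q ^ 2) (hb : Summable fun q => b q ^ 2) :
    (Summable fun q => (a q + b q) ^ 2) ∧ nrm (fun q => a q + b q) ≤ nrm a + nrm b := by
  refine ⟨(x2v_add ha hb).1, ?_⟩
  rw [(x2v_add ha hb).2, x2v_norm ha, x2v_norm hb]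
  exact norm_add_le _ _

theorem x2_sub {a b : E → ℝ} (ha : Summable fun q => a q ^ 2) (hb : Summable fun q => b q ^ 2) :
    (Summable fun q => (a q - b q) ^ 2) ∧
      nrm (fun q => a q - b q) ^ 2 = nrm a ^ 2 - 2 * ∑' q, a q * b q + nrm b ^ 2 := by
  refine ⟨(x2v_sub ha hb).1, ?_⟩
  rw [(x2v_sub ha hb).2, x2v_inner ha hb, x2v_norm ha, x2v_norm hb]
  exact norm_sub_sq_real _ _

/-- completeness of `ℓ²` for nonnegative weights (`h70_memlp`, `h70_lp_norm`, `lp` is complete;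
`lp.norm_apply_le_norm` for the sign of the limit) -/
theorem x2_lim {σ : ℕ → E → ℝ} (hσ : ∀ n, L2w (σ n))
    (h : ∀ ε > 0, ∃ N, ∀ m ≥ N, ∀ n ≥ N, nrm (fun q => σ m q - σ n q) ≤ ε) :
    ∃ s, L2w s ∧ Tendsto (fun n => nrm (fun q => σ n q - s q)) atTop (𝓝 0) := by
  have hc : CauchySeq fun n => x2v (hσ n).2 := by
    refine Metric.cauchySeq_iff.2 fun ε hε => ?_
    obtain ⟨N, hN⟩ := h (ε / 2) (by positivity)
    refine ⟨N, fun m hm n hn => ?_⟩
    rw [dist_eq_norm, ← (x2v_sub (hσ m).2 (hσ n).2).2]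
    exact (hN m hm n hn).trans_lt (by linarith)
  obtain ⟨s, hs⟩ := cauchySeq_tendsto_of_complete hc
  have ht : Tendsto (fun n => ‖x2v (hσ n).2 - s‖) atTop (𝓝 0) :=
    tendsto_iff_norm_sub_tendsto_zero.1 hs
  have e : ∀ n, nrm (fun q => σ n q - s q) = ‖x2v (hσ n).2 - s‖ := fun n =>
    (h70_lp_norm (x2v (hσ n).2 - s)).2
  refine ⟨s, ⟨fun q => ?_, (h70_lp_norm s).1⟩, by simpa only [e] using ht⟩
  have h1 : ∀ n, -‖x2v (hσ n).2 - s‖ ≤ s q := fun n => by
    have h2 : ‖σ n q - s q‖ ≤ ‖x2v (hσ n).2 - s‖ :=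
      lp.norm_apply_le_norm (by norm_num) (x2v (hσ n).2 - s) q
    have h3 := (hσ n).1 q
    rw [Real.norm_eq_abs, abs_le] at h2
    linarith [h2.2]
  have h4 := ht.neg
  rw [neg_zero] at h4
  exact le_of_tendsto' h4 h1

/-- The increasing sequence of node sets: `Z 0 = ∅`, `Z (n+1) = Z n ∪ (T n \ Y)` where `T n` carries
all of `σ (Z n)` but `1 / (n + 1)` (`L2w.tail`).  `m (Z n)` decreases and is bounded below, so it
converges; the tail of `σ (Z (n+1))` is at most `nrm (σ (Z (n+1)) - σ (Z n)) + 1 / (n + 1)`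
(`x2_add`, `σ (Z n) = 0` on `Y`). -/
theorem x2_seq (Y : Finset E) (m : Finset E → ℝ) (σ : Finset E → E → ℝ)
    (h0 : ∀ Z, Disjoint Y Z → 0 ≤ m Z) (h1 : ∀ Z, Disjoint Y Z → L2w (σ Z))
    (h2 : ∀ Z, Disjoint Y Z → ∀ q ∈ Y, σ Z q = 0)
    (h3 : ∀ Z Z', Z ⊆ Z' → Disjoint Y Z' → nrm (fun q => σ Z q - σ Z' q) ^ 2 ≤ m Z - m Z') :
    ∃ Z : ℕ → Finset E, (∀ n, Disjoint Y (Z n)) ∧ Monotone Z ∧
      (∀ ε > 0, ∃ N, ∀ n ≥ N, ∀ n' ≥ n, m (Z n) - m (Z n') ≤ ε) ∧
      Tendsto (fun n => nrm (fun q => if q ∈ Z n then 0 else σ (Z n) q)) atTop (𝓝 0) := by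
  have step : ∀ (n : ℕ) (Z : Finset E), Disjoint Y Z → ∃ Z', Z ⊆ Z' ∧ Disjoint Y Z' ∧
      nrm (fun q => if q ∈ Z' then 0 else σ Z q) ≤ 1 / ((n : ℝ) + 1) := by
    intro n Z hZ
    obtain ⟨T, hT⟩ := (h1 Z hZ).tail (show (0 : ℝ) < 1 / ((n : ℝ) + 1) by positivity)
    refine ⟨Z ∪ (T \ Y), Finset.subset_union_left,
      Finset.disjoint_union_right.2 ⟨hZ, Finset.disjoint_sdiff⟩, ?_⟩
    refine le_trans (le_of_eq ?_) (hT (Z ∪ T ∪ Y)
      (Finset.subset_union_right.trans Finset.subset_union_left))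
    congr 1
    funext q
    by_cases hq : q ∈ Y
    · simp [hq, h2 Z hZ q hq]
    · simp [hq]
  choose! nx hnx using step
  let Z : ℕ → Finset E := fun n => Nat.rec ∅ (fun k W => nx k W) n
  have hS : ∀ n, Z (n + 1) = nx n (Z n) := fun n => rfl
  have hd : ∀ n, Disjoint Y (Z n) := by
    intro n
    induction n with
    | zero => exact Finset.disjoint_empty_right _
    | succ k ih => rw [hS]; exact (hnx k _ ih).2.1
  have hmono : Monotone Z := monotone_nat_of_le_succ fun n => by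
    rw [hS]; exact (hnx n _ (hd n)).1
  have hanti : Antitone fun n => m (Z n) := fun n n' h => by
    have := h3 _ _ (hmono h) (hd n')
    have := sq_nonneg (nrm fun q => σ (Z n) q - σ (Z n') q)
    show m (Z n') ≤ m (Z n)
    linarith
  have hlim : Tendsto (fun n => m (Z n)) atTop (𝓝 (⨅ n, m (Z n))) :=
    tendsto_atTop_ciInf hanti ⟨0, by rintro _ ⟨n, rfl⟩; exact h0 _ (hd n)⟩
  refine ⟨Z, hd, hmono, fun ε hε => ?_, ?_⟩
  · obtain ⟨N, hN⟩ := Metric.cauchySeq_iff.1 hlim.cauchySeq ε hε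
    refine ⟨N, fun n hn n' hn' => ?_⟩
    have := hN n hn n' (hn.trans hn')
    rw [Real.dist_eq] at this
    exact (le_abs_self _).trans this.le
  · rw [← tendsto_add_atTop_iff_nat 1]
    have t1 : Tendsto (fun n => Real.sqrt (m (Z n) - m (Z (n + 1))) + 1 / ((n : ℝ) + 1)) atTop
        (𝓝 0) := by
      have a := (hlim.sub ((tendsto_add_atTop_iff_nat 1).2 hlim)).sqrt
      rw [sub_self, Real.sqrt_zero] at a
      simpa using a.add (tendsto_one_div_add_atTop_nhds_zero_nat (𝕜 := ℝ))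
    refine squeeze_zero (fun n => L2w.nrm_nonneg _) (fun n => ?_) t1
    have a1 := h1 _ (hd n)
    have a2 := h1 _ (hd (n + 1))
    have s1 : Summable fun q => (if q ∈ Z (n + 1) then 0 else σ (Z n) q) ^ 2 :=
      (a1.of_le (fun q => by split_ifs; exacts [le_rfl, a1.1 q])
        (fun q => by split_ifs; exacts [a1.1 q, le_rfl])).1.2
    have s0 := (x2_sub a1.2 a2.2).1
    have s2 : L2w fun q => |σ (Z n) q - σ (Z (n + 1)) q| :=
      ⟨fun q => abs_nonneg _, by simpa only [sq_abs] using s0⟩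
    have s3 : L2w fun q => if q ∈ Z (n + 1) then 0 else σ (Z n) q :=
      ⟨fun q => by dsimp only; split_ifs; exacts [le_rfl, a1.1 q], s1⟩
    have b1 := ((s2.add s3).1.of_le (e := fun q => if q ∈ Z (n + 1) then 0 else σ (Z (n + 1)) q)
      (fun q => by split_ifs; exacts [le_rfl, a2.1 q]) (fun q => by
        split_ifs
        · simp
        · linarith [neg_abs_le (σ (Z n) q - σ (Z (n + 1)) q)])).2
    have b2 : nrm (fun q => |σ (Z n) q - σ (Z (n + 1)) q|) ≤
        Real.sqrt (m (Z n) - m (Z (n + 1))) := by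
      refine Real.le_sqrt_of_sq_le (le_trans (le_of_eq ?_)
        (h3 _ _ (hmono (Nat.le_succ n)) (hd (n + 1))))
      simp only [L2w.nrm_sq, sq_abs]
    have b3 := (hnx n _ (hd n)).2.2
    rw [← hS] at b3
    linarith [(s2.add s3).2]

end Crest.Agent.R105
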