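import Crest.Agent.R105.HGr
import Crest.Agent.R105.HPoinc
import Crest.Agent.R105.HRange
import Crest.Agent.R105.LL1

/-! Row 105, block RX: limits of holomorphic functions of finite energy. -/

set_option autoImplicit false

open MeasureTheory Set Filter Topology
open scoped ENNReal ContDiff

namespace Crest.Agent.R105

variable {U : Set ℂ}

theorem xl_fd {F : ℂ → ℂ} {z : ℂ} (hF : DifferentiableAt ℂ F z) (L : ℂ →L[ℝ] ℝ) (w : ℂ) :
    fderiv ℝ (fun z => L (F z)) z w = L (w * deriv F z) := by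
  have h := (L.hasFDerivAt.comp z (hF.hasDerivAt.hasFDerivAt.restrictScalars ℝ)).fderiv
  exact congrArg (fun A : ℂ →L[ℝ] ℝ => A w) h

theorem xl_cr {F : ℂ → ℂ} {z : ℂ} (hF : DifferentiableAt ℂ F z) :
    fderiv ℝ (fun z => (F z).re) z 1 = (deriv F z).re ∧
      fderiv ℝ (fun z => (F z).re) z Complex.I = -(deriv F z).im ∧
      fderiv ℝ (fun z => (F z).im) z 1 = (deriv F z).im ∧
      fderiv ℝ (fun z => (F z).im) z Complex.I = (deriv F z).re :=
  ⟨(xl_fd hF Complex.reCLM 1).trans (by simp), (xl_fd hF Complex.reCLM Complex.I).trans (by simp),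
    (xl_fd hF Complex.imCLM 1).trans (by simp), (xl_fd hF Complex.imCLM Complex.I).trans (by simp)⟩

theorem xl_norm {F : ℂ → ℂ} {z : ℂ} (hF : DifferentiableAt ℂ F z) :
    ‖fderiv ℝ (fun z => (F z).re) z‖ = ‖deriv F z‖ ∧
      ‖fderiv ℝ (fun z => (F z).im) z‖ = ‖deriv F z‖ := by
  obtain ⟨r1, r2, i1, i2⟩ := xl_cr hF
  constructor
  · rw [← norm_grd, grd, r1, r2, Complex.norm_eq_sqrt_sq_add_sq, Complex.norm_eq_sqrt_sq_add_sq]
    simp only [neg_sq]
  · rw [← norm_grd, grd, i1, i2, Complex.norm_eq_sqrt_sq_add_sq, Complex.norm_eq_sqrt_sq_add_sq]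
    simp only [add_comm]

theorem xl_lip (hU : IsOpen U) {F : ℂ → ℂ} (hF : DifferentiableOn ℂ F U) (L : ℂ →L[ℝ] ℝ) :
    LocallyLipschitzOn U (fun z => L (F z)) := fun z hz => by
  have hv : ContDiffOn ℝ 1 (fun z => L (F z)) U :=
    L.contDiff.comp_contDiffOn ((hF.contDiffOn hU).restrict_scalars ℝ)
  obtain ⟨K, t, ht, h⟩ := (hv.contDiffAt (hU.mem_nhds hz)).exists_lipschitzOnWith
  exact ⟨K, t, mem_nhdsWithin_of_mem_nhds ht, h⟩

theorem xl_En_im (hU : IsOpen U) {F : ℂ → ℂ} (hF : DifferentiableOn ℂ F U) :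
    En U (fun z => (F z).im) = En U (fun z => (F z).re) := by
  refine setLIntegral_congr_fun hU.measurableSet fun z hz => ?_
  obtain ⟨a, b⟩ := xl_norm (hF.differentiableAt (hU.mem_nhds hz))
  simp only [← ofReal_norm, a, b]

theorem xl_int (hU : IsOpen U) {F : ℂ → ℂ} (hF : DifferentiableOn ℂ F U)
    (hE : En U (fun z => (F z).re) < ⊤) : IntegrableOn (fun z => ‖deriv F z‖ ^ 2) U ∧
      ∫ z in U, ‖deriv F z‖ ^ 2 = (En U (fun z => (F z).re)).toReal := by
  obtain ⟨a, b⟩ := h49_sq_int hE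
  have e : EqOn (fun z => ‖fderiv ℝ (fun z => (F z).re) z‖ ^ 2) (fun z => ‖deriv F z‖ ^ 2) U :=
    fun z hz => by simp only [(xl_norm (hF.differentiableAt (hU.mem_nhds hz))).1]
  exact ⟨a.congr_fun e hU.measurableSet, (setIntegral_congr_fun hU.measurableSet e).symm.trans b⟩

theorem xl_En_sub (hU : IsOpen U) {u v : ℂ → ℝ} (hu : ∀ z ∈ U, DifferentiableAt ℝ u z)
    (hv : ∀ z ∈ U, DifferentiableAt ℝ v z) {f g : Lp ℂ 2 (volume.restrict U)}
    (hf : f =ᵐ[volume.restrict U] grd u) (hg : g =ᵐ[volume.restrict U] grd v) :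
    En U (fun z => u z - v z) = ENNReal.ofReal (‖f - g‖ ^ 2) := by
  have e : (f - g : Lp ℂ 2 (volume.restrict U)) =ᵐ[volume.restrict U]
      grd (fun z => u z - v z) := by
    filter_upwards [Lp.coeFn_sub f g, hf, hg, ae_restrict_mem hU.measurableSet] with z a b c hz
    rw [a, Pi.sub_apply, b, c, h93_grd_sub (hu z hz) (hv z hz)]
  obtain ⟨h1, h2⟩ := h93_En (Lp.memLp (f - g)) e
  rw [h70_L2_norm, ← h2, ENNReal.ofReal_toReal h1.ne]

/-- completeness of the holomorphic functions of finite energy -/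
theorem hb_limit (hU : IsOpen U) (hc : IsPreconnected U) {F : ℕ → ℂ → ℂ}
    (hF : ∀ n, DifferentiableOn ℂ (F n) U) (hE : ∀ n, En U (fun z => (F n z).re) < ⊤)
    (hC : ∀ ε > 0, ∃ N, ∀ m ≥ N, ∀ n ≥ N,
      En U (fun z => (F m z).re - (F n z).re) ≤ ENNReal.ofReal ε) :
    ∃ G : ℂ → ℂ, DifferentiableOn ℂ G U ∧ En U (fun z => (G z).re) < ⊤ ∧
      Tendsto (fun n => En U (fun z => (F n z).re - (G z).re)) atTop (𝓝 0) := by
  have hd : ∀ {H : ℂ → ℂ}, DifferentiableOn ℂ H U → ∀ z ∈ U,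
      DifferentiableAt ℝ (fun z => (H z).re) z := fun hH z hz =>
    Complex.reCLM.differentiableAt.comp z
      ((hH.differentiableAt (hU.mem_nhds hz)).restrictScalars ℝ)
  set g : ℕ → Lp ℂ 2 (volume.restrict U) := fun n => (memLp_grd (hE n)).toLp _ with hg
  have hge : ∀ n, g n =ᵐ[volume.restrict U] grd (fun z => (F n z).re) := fun n =>
    MemLp.coeFn_toLp _
  have hcau : CauchySeq g := by
    refine Metric.cauchySeq_iff.2 fun ε hε => ?_
    obtain ⟨N, hN⟩ := hC ((ε / 2) ^ 2) (by positivity)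
    refine ⟨N, fun m hm n hn => ?_⟩
    have h1 := hN m hm n hn
    rw [xl_En_sub hU (hd (hF m)) (hd (hF n)) (hge m) (hge n),
      ENNReal.ofReal_le_ofReal_iff (by positivity)] at h1
    rw [dist_eq_norm]
    have := abs_le_of_sq_le_sq h1 (by positivity)
    rw [abs_of_nonneg (norm_nonneg _)] at this
    linarith
  obtain ⟨G, hG⟩ := cauchySeq_tendsto_of_complete hcau
  have key : ∀ {k : ℂ → ℂ}, MemLp k 2 (volume.restrict U) →
      (∀ n, ∫ z in U, ((grd (fun z => (F n z).re) z).re * (k z).re +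
        (grd (fun z => (F n z).re) z).im * (k z).im) = 0) →
      ∫ z in U, ((G z).re * (k z).re + (G z).im * (k z).im) = 0 := by
    intro k hk h0
    have h1 : ∀ n, inner ℝ (hk.toLp k) (g n) = 0 := fun n => by
      rw [h70_L2_inner, ← h0 n]
      refine integral_congr_ae ?_
      filter_upwards [hge n, hk.coeFn_toLp] with z a b
      rw [a, b]
    have h2 : Tendsto (fun n => inner ℝ (hk.toLp k) (g n)) atTop (𝓝 (inner ℝ (hk.toLp k) G)) :=
      tendsto_const_nhds.inner hG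
    simp only [h1] at h2
    have h3 := tendsto_nhds_unique h2 tendsto_const_nhds
    rw [h70_L2_inner] at h3
    rw [← h3]
    refine integral_congr_ae ?_
    filter_upwards [hk.coeFn_toLp] with z b
    rw [b]
  obtain ⟨H, hH, hGH⟩ := hb_conj hU hc (Lp.memLp G)
    (fun a ha => by
      refine key (memLp_grd ha.xx.en) fun n => ?_
      have h0 := om_A0 hU (xl_lip hU (hF n) Complex.imCLM) ha
      rw [← neg_eq_zero, ← integral_neg, ← h0]
      refine setIntegral_congr_fun hU.measurableSet fun z hz => ?_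
      obtain ⟨r1, r2, i1, i2⟩ := xl_cr ((hF n).differentiableAt (hU.mem_nhds hz))
      simp only [wd, grd, Complex.imCLM_apply, r1, r2, i1, i2]
      ring)
    (fun a ha => by
      have h1 := key ((memLp_grd ha.xx.en).const_mul (-Complex.I)) fun n => by
        have h0 := om_A0 hU (xl_lip hU (hF n) Complex.reCLM) ha
        rw [← h0]
        refine setIntegral_congr_fun hU.measurableSet fun z _ => ?_
        simp [wd, grd]
        ring
      rw [← h1]
      refine setIntegral_congr_fun hU.measurableSet fun z _ => ?_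
      simp [grd]
      ring)
  refine ⟨H, hH, (h93_En (Lp.memLp G) hGH).1, ?_⟩
  simp only [fun n => xl_En_sub hU (hd (hF n)) (hd hH) (hge n) hGH]
  have h1 : Tendsto (fun n => ‖g n - G‖ ^ 2) atTop (𝓝 (0 ^ 2)) :=
    (tendsto_iff_norm_sub_tendsto_zero.1 hG).pow 2
  simpa using ENNReal.tendsto_ofReal h1

theorem xl_sq {a b : ℂ} {δ : ℝ} (h0 : 0 < δ) (h1 : δ < 1) :
    (1 - δ) * ‖b‖ ^ 2 ≤ ‖a‖ ^ 2 + δ⁻¹ * ‖a - b‖ ^ 2 := by
  have h2 : ‖b‖ ≤ ‖a‖ + ‖a - b‖ := by
    have := norm_sub_le a (a - b)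
    rwa [sub_sub_cancel] at this
  have h3 : ‖b‖ ^ 2 ≤ (‖a‖ + ‖a - b‖) ^ 2 := pow_le_pow_left₀ (norm_nonneg _) h2 2
  set x := ‖a‖
  set y := ‖a - b‖
  have h4 : δ * ((1 - δ) * (x + y) ^ 2) ≤ δ * x ^ 2 + y ^ 2 := by
    nlinarith [sq_nonneg (δ * x - (1 - δ) * y), mul_nonneg h0.le (sq_nonneg y)]
  have h5 : (1 - δ) * (x + y) ^ 2 ≤ x ^ 2 + δ⁻¹ * y ^ 2 := by
    refine le_of_mul_le_mul_left ?_ h0
    rw [mul_add δ, ← mul_assoc δ δ⁻¹, mul_inv_cancel₀ h0.ne', one_mul]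
    exact h4
  exact (mul_le_mul_of_nonneg_left h3 (by linarith)).trans h5

/-- the range bound passes to the limit -/
theorem range_of_limit (hU : IsOpen U) (hc : IsPreconnected U) {F : ℕ → ℂ → ℂ} {G : ℂ → ℂ}
    (hF : ∀ n, DifferentiableOn ℂ (F n) U) (hE : ∀ n, En U (fun z => (F n z).re) < ⊤)
    (hG : DifferentiableOn ℂ G U) (hEG : En U (fun z => (G z).re) < ⊤)
    (hl : Tendsto (fun n => En U (fun z => (F n z).re - (G z).re)) atTop (𝓝 0))
    {m : ℝ} (h : ∀ L ε : ℝ, 0 < ε → ∀ᶠ n in atTop, ∀ φ : ℝ × ℝ → ℝ, ContDiff ℝ ∞ φ →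
      (∀ p, 0 ≤ φ p ∧ φ p ≤ 1) → (∀ p, 0 ≤ fderiv ℝ φ p (1, 0)) → (∀ p, ‖fderiv ℝ φ p‖ ≤ L) →
      ∫ z in U, fderiv ℝ φ ((F n z).re, (F n z).im) (1, 0) * ‖deriv (F n) z‖ ^ 2 ≤ m + ε) :
    ∀ z ∈ U, ∀ z' ∈ U, (G z).im - (G z').im ≤ m := by
  have hm := hU.measurableSet
  have hD : ∀ n, DifferentiableOn ℂ (fun z => F n z - G z) U := fun n => (hF n).sub hG
  have hl' : Tendsto (fun n => En U (fun z => (F n z - G z).re)) atTop (𝓝 0) := by
    simpa only [Complex.sub_re] using hl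
  obtain ⟨φ₁, c₁, s₁, a₁⟩ := hb_poinc hU hc (u := fun n z => (F n z - G z).re)
    (fun n => xl_lip hU (hD n) Complex.reCLM) hl'
  obtain ⟨φ₂, c₂, s₂, a₂⟩ := hb_poinc hU hc (u := fun n z => (F (φ₁ n) z - G z).im)
    (fun n => xl_lip hU (hD _) Complex.imCLM) (by
      have := hl'.comp s₁.tendsto_atTop
      refine this.congr fun n => ?_
      exact (xl_En_im hU (hD _)).symm)
  set σ : ℕ → ℕ := fun n => φ₁ (φ₂ n) with hσ
  have hσt : Tendsto σ atTop atTop := s₁.tendsto_atTop.comp s₂.tendsto_atTop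
  obtain ⟨iG, -⟩ := xl_int hU hG hEG
  refine hb_range hU hc hG iG fun φ hφ h01 hs hL => ?_
  obtain ⟨L, hL⟩ := hL
  have hL0 : 0 ≤ L := (norm_nonneg _).trans (hL 0)
  have hcont : Continuous fun p => fderiv ℝ φ p (1, 0) :=
    (hφ.continuous_fderiv (by simp)).clm_apply continuous_const
  have hle : ∀ p, fderiv ℝ φ p (1, 0) ≤ L := fun p => by
    have h1 := (fderiv ℝ φ p).le_opNorm (1, 0)
    have h2 : ‖((1, 0) : ℝ × ℝ)‖ = 1 := by simp [Prod.norm_def]
    rw [h2, mul_one] at h1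
    exact (le_abs_self _).trans (h1.trans (hL p))
  set g : ℕ → ℂ → ℝ := fun n z =>
    fderiv ℝ φ (((F (σ n) z).re, (F (σ n) z).im) - (c₁ (φ₂ n), c₂ n)) (1, 0) with hg
  have hgm : ∀ n, AEStronglyMeasurable (g n) (volume.restrict U) := fun n =>
    (hcont.comp_continuousOn
      (((Complex.continuous_re.comp_continuousOn (hF _).continuousOn).prodMk
        (Complex.continuous_im.comp_continuousOn (hF _).continuousOn)).sub
        continuousOn_const)).aestronglyMeasurable hm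
  have hgb : ∀ n z, ‖g n z‖ ≤ L := fun n z => by
    rw [Real.norm_eq_abs, abs_of_nonneg (hs _)]
    exact hle _
  have hb : ∀ ε : ℝ, 0 < ε → ∀ᶠ n in atTop,
      ∫ z in U, g n z * ‖deriv (F (σ n)) z‖ ^ 2 ≤ m + ε := by
    intro ε hε
    filter_upwards [hσt.eventually (h L ε hε)] with n hn
    have e : ∀ p, fderiv ℝ (fun p => φ (p - (c₁ (φ₂ n), c₂ n))) p =
        fderiv ℝ φ (p - (c₁ (φ₂ n), c₂ n)) := fun p => by
      simpa only [sub_eq_add_neg] using fderiv_comp_add_right (𝕜 := ℝ) (f := φ) (x := p) _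
    have := hn (fun p => φ (p - (c₁ (φ₂ n), c₂ n)))
      (hφ.comp (contDiff_id.sub contDiff_const)) (fun p => h01 _) (fun p => by rw [e]; exact hs _)
      (fun p => by rw [e]; exact hL _)
    simpa only [e] using this
  have hlim : Tendsto (fun n => ∫ z in U, g n z * ‖deriv G z‖ ^ 2) atTop
      (𝓝 (∫ z in U, fderiv ℝ φ ((G z).re, (G z).im) (1, 0) * ‖deriv G z‖ ^ 2)) := by
    refine tendsto_integral_of_dominated_convergence (fun z => L * ‖deriv G z‖ ^ 2)
      (fun n => (hgm n).mul iG.1) (iG.const_mul L) (fun n => Eventually.of_forall fun z => ?_) ?_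
    · rw [norm_mul, norm_pow, norm_norm]
      exact mul_le_mul_of_nonneg_right (hgb n z) (sq_nonneg _)
    · filter_upwards [(ae_restrict_iff' hm).2 a₁, (ae_restrict_iff' hm).2 a₂] with z b₁ b₂
      refine Tendsto.mul_const _ ((hcont.tendsto _).comp ?_)
      have t₁ := (b₁.comp s₂.tendsto_atTop).add_const (G z).re
      have t₂ := b₂.add_const (G z).im
      rw [zero_add] at t₁ t₂
      refine (t₁.prodMk_nhds t₂).congr fun n => ?_
      simp only [Function.comp, Complex.sub_re, Complex.sub_im, Prod.mk_sub_mk, hσ]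
      congr 1 <;> ring
  have hz : Tendsto (fun n => (En U (fun z => (F (σ n) z - G z).re)).toReal) atTop (𝓝 0) :=
    (ENNReal.tendsto_toReal ENNReal.zero_ne_top).comp (hl'.comp hσt)
  have hδ : ∀ δ : ℝ, 0 < δ → δ < 1 → (1 - δ) *
      ∫ z in U, fderiv ℝ φ ((G z).re, (G z).im) (1, 0) * ‖deriv G z‖ ^ 2 ≤ m := by
    intro δ h0 h1
    refine le_of_forall_pos_le_add fun ε hε => ?_
    have t1 := (hz.const_mul (L * δ⁻¹)).const_add (m + ε)
    rw [mul_zero, add_zero] at t1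
    refine le_of_tendsto_of_tendsto (hlim.const_mul (1 - δ)) t1 ?_
    filter_upwards [(hl'.comp hσt).eventually (gt_mem_nhds ENNReal.zero_lt_top), hb ε hε]
      with n hn hbn
    obtain ⟨iD, eD⟩ := xl_int hU (hD (σ n)) hn
    obtain ⟨iF, -⟩ := xl_int hU (hF (σ n)) (hE _)
    have j1 : IntegrableOn (fun z => g n z * ‖deriv (F (σ n)) z‖ ^ 2) U :=
      Integrable.bdd_mul iF (hgm n) (Eventually.of_forall (hgb n))
    have j2 : IntegrableOn (fun z => g n z * ‖deriv G z‖ ^ 2) U :=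
      Integrable.bdd_mul iG (hgm n) (Eventually.of_forall (hgb n))
    show (1 - δ) * ∫ z in U, g n z * ‖deriv G z‖ ^ 2 ≤ m + ε + _
    rw [← eD, ← integral_const_mul, ← integral_const_mul]
    refine le_trans ?_ (add_le_add hbn le_rfl)
    rw [← integral_add j1 (iD.const_mul _)]
    refine setIntegral_mono_on (j2.const_mul _) (j1.add (iD.const_mul _)) hm fun z hz => ?_
    rw [deriv_fun_sub ((hF _).differentiableAt (hU.mem_nhds hz))
      (hG.differentiableAt (hU.mem_nhds hz))]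
    have k1 := xl_sq (a := deriv (F (σ n)) z) (b := deriv G z) h0 h1
    have k2 : 0 ≤ g n z := hs _
    have k3 : g n z ≤ L := hle _
    have k4 : 0 ≤ δ⁻¹ * ‖deriv (F (σ n)) z - deriv G z‖ ^ 2 := by positivity
    nlinarith [mul_le_mul_of_nonneg_left k1 k2, mul_le_mul_of_nonneg_right k3 k4]
  set I := ∫ z in U, fderiv ℝ φ ((G z).re, (G z).im) (1, 0) * ‖deriv G z‖ ^ 2
  have t2 : Tendsto (fun δ : ℝ => (1 - δ) * I) (𝓝[>] 0) (𝓝 ((1 - 0) * I)) :=
    ((continuous_const.sub continuous_id).mul continuous_const).continuousAt.tendsto.mono_left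
      nhdsWithin_le_nhds
  rw [sub_zero, one_mul] at t2
  refine le_of_tendsto t2 ?_
  filter_upwards [Ioo_mem_nhdsGT (zero_lt_one' ℝ)] with δ hδ' using hδ δ hδ'.1 hδ'.2

/-- a bounded conjugate function in `XX` -/
theorem cut_clip (hU : IsOpen U) (Λ : Lumps U) {G : ℂ → ℂ} (hG : DifferentiableOn ℂ G U)
    (hE : En U (fun z => (G z).re) < ⊤) {m : ℝ}
    (hm : ∀ z ∈ U, ∀ z' ∈ U, (G z).im - (G z').im ≤ m) :
    ∃ b, XX U b ∧ ContDiffOn ℝ 1 b U ∧ (∀ z, |b z| ≤ 2 * m) ∧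
      ∀ w, XX U w → om U w b = ip U w (fun z => (G z).re) := by
  have h0 : ((|Λ.R| : ℝ) : ℂ) ∈ U := Λ.far _ (by simpa using le_abs_self _)
  set z₀ : ℂ := ((|Λ.R| : ℝ) : ℂ)
  have hm0 : 0 ≤ m := by simpa using hm z₀ h0 z₀ h0
  have hre : (fun z => (G z - ((G z₀).im : ℂ) * Complex.I).re) = fun z => (G z).re := by
    funext z; simp
  obtain ⟨c, c1, c2, c3, c4⟩ := hb_cut hU Λ (F := fun z => G z - ((G z₀).im : ℂ) * Complex.I)
    (hG.sub_const _) (by rwa [hre])
  rw [hre] at c4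
  obtain ⟨T, hT⟩ := exists_sclip (zero_le_one' ℝ)
  have hx : XX U (fun z => m * T (c z / m)) := by
    refine XX.comp_lip hU (T := fun s => m * T (s / m)) (L := 1) (fun s s' => ?_) c1
    rcases hm0.eq_or_lt with h | h
    · simp [← h]
    · rw [← mul_sub, abs_mul, abs_of_pos h]
      refine (mul_le_mul_of_nonneg_left (hT.lip _ _) hm0).trans (le_of_eq ?_)
      rw [← sub_div, abs_div, abs_of_pos h]
      field_simp
  refine ⟨fun z => m * T (c z / m), hx, ?_, fun z => ?_, fun w hw => ?_⟩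
  · exact contDiffOn_const.mul (((hT.sm.of_le (by norm_num)).comp_contDiffOn
      ((c2.of_le (by exact_mod_cast le_top)).div_const m)))
  · rw [abs_mul, abs_of_nonneg hm0]
    nlinarith [hT.bd (c z / m)]
  · rw [← c4 w hw]
    refine om_germ_congr hU Λ hw hw hx c1 fun q => ⟨0, 0, 0, fun z _ => by simp, fun z hz => ?_⟩
    obtain ⟨hzU, hzR⟩ := Λ.sub 0 q hz
    have e : c z = (G z).im - (G z₀).im := by
      rw [c3 z (mem_ball_zero_iff.1 hzR).le]; simp
    have hb : |c z| ≤ m := by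
      rw [e, abs_le]
      exact ⟨by linarith [hm z₀ h0 z hzU], hm z hzU z₀ h0⟩
    rcases hm0.eq_or_lt with h | h
    · rw [← h] at hb ⊢
      simp [abs_nonpos_iff.1 hb]
    · rw [hT.id _ (by rw [abs_div, abs_of_pos h, div_le_one h]; exact hb), add_zero]
      field_simp

theorem ip_eq_inner {u v : ℂ → ℝ} (hu : En U u < ⊤) (hv : En U v < ⊤) :
    ip U u v = inner ℝ ((memLp_grd hu).toLp _) ((memLp_grd hv).toLp _) := by
  rw [h70_L2_inner, ip]
  refine integral_congr_ae ?_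
  filter_upwards [(memLp_grd hu).coeFn_toLp, (memLp_grd hv).coeFn_toLp] with z a b
  rw [a, b]
  simp only [grd]
  ring

theorem norm_toLp_grd {u : ℂ → ℝ} (hu : En U u < ⊤) :
    ‖(memLp_grd hu).toLp _‖ = Real.sqrt (En U u).toReal := by
  rw [(h93_En (Lp.memLp _) (memLp_grd hu).coeFn_toLp).2, ← h70_L2_norm,
    Real.sqrt_sq (norm_nonneg _)]

theorem abs_ip_le {u v : ℂ → ℝ} (hu : En U u < ⊤) (hv : En U v < ⊤) :
    |ip U u v| ≤ Real.sqrt (En U u).toReal * Real.sqrt (En U v).toReal := by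
  rw [ip_eq_inner hu hv, ← norm_toLp_grd hu, ← norm_toLp_grd hv]
  exact abs_real_inner_le_norm _ _

theorem ip_tendsto (hU : IsOpen U) {F : ℕ → ℂ → ℂ} {G : ℂ → ℂ}
    (hF : ∀ n, DifferentiableOn ℂ (F n) U) (hE : ∀ n, En U (fun z => (F n z).re) < ⊤)
    (hG : DifferentiableOn ℂ G U) (hEG : En U (fun z => (G z).re) < ⊤)
    (hl : Tendsto (fun n => En U (fun z => (F n z).re - (G z).re)) atTop (𝓝 0))
    {w : ℂ → ℝ} (hw : En U w < ⊤) :
    Tendsto (fun n => ip U w (fun z => (F n z).re)) atTop (𝓝 (ip U w (fun z => (G z).re))) := by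
  have hd : ∀ {H : ℂ → ℂ}, DifferentiableOn ℂ H U → ∀ z ∈ U,
      DifferentiableAt ℝ (fun z => (H z).re) z := fun hH z hz =>
    Complex.reCLM.differentiableAt.comp z
      ((hH.differentiableAt (hU.mem_nhds hz)).restrictScalars ℝ)
  simp only [fun n => ip_eq_inner hw (hE n), ip_eq_inner hw hEG]
  refine tendsto_const_nhds.inner (tendsto_iff_norm_sub_tendsto_zero.2 ?_)
  have h1 : Tendsto (fun n => Real.sqrt (En U (fun z => (F n z).re - (G z).re)).toReal) atTop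
      (𝓝 (Real.sqrt (0 : ℝ≥0∞).toReal)) :=
    ((ENNReal.tendsto_toReal ENNReal.zero_ne_top).comp hl).sqrt
  rw [ENNReal.toReal_zero, Real.sqrt_zero] at h1
  refine h1.congr fun n => ?_
  rw [xl_En_sub hU (hd (hF n)) (hd hG) (memLp_grd (hE n)).coeFn_toLp (memLp_grd hEG).coeFn_toLp,
    ENNReal.toReal_ofReal (sq_nonneg _), Real.sqrt_sq (norm_nonneg _)]

end Crest.Agent.R105
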