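import Crest.Agent.R105.XCore
import Crest.Agent.R105.XInf
import Crest.Agent.R105.LAt3
import Crest.Agent.R105.HMain

/-! Row 105, block RX: the exact range lemma. -/

set_option autoImplicit false

open MeasureTheory Set Filter Topology
open scoped ENNReal Classical ContDiff

namespace Crest.Agent.R105

theorem rx_thm {U : Set ℂ} (hU : IsOpen U) (hc : IsPreconnected U) {Λ : Lumps U}
    {M : Set (ℂ → ℝ)} (hF : Fam Λ M) (hC : CH Λ M) (hX : MAX Λ M) : ∃ C, 0 ≤ C ∧ RX Λ M C := by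
  refine ⟨4, by norm_num, rx_core hU hc hF hC ?_ ?_ ?_ ?_ ?_⟩
  · intro lam k Y Z hl hk hd h
    exact at_main hU hc hF hC hX hl hk (fun q hq hY => Finset.disjoint_left.1 hd hY hq) h
  · intro F b v φ L h1 h2 h3 h4 h5 h6 h7 h8 h9
    exact lim_pos hU Λ h1 h2 h3 h4 h5 h6 h7 h8 (h9.sm.of_le (by exact_mod_cast le_top)) h9.le
      (B := 1) fun p => abs_le.2 ⟨by linarith [(h9.rng p).1], (h9.rng p).2⟩
  · intro F h1 h2 h3
    exact hb_limit hU hc h1 h2 h3
  · intro F G m h1 h2 h3 h4 h5 h6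
    refine range_of_limit hU hc h1 h2 h3 h4 h5 fun L ε hε => ?_
    filter_upwards [h6 L ε hε] with n hn φ a1 a2 a3 a4
    exact hn φ ⟨a1, a2, a3, a4⟩
  · intro G m h1 h2 h3
    obtain ⟨b, b1, b2, b3, b4⟩ := cut_clip hU Λ h1 h2 h3
    exact ⟨b, b1, b2, fun z _ => b3 z, b4⟩

theorem blkRX : BlkRX := fun _ hU hc _ _ hF hC hX => rx_thm hU hc hF hC hX

theorem blkMAIN : BlkMAIN := blkMAIN_of_RX blkRX

end Crest.Agent.R105
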