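import Crest.Agent.R105.XStg2
import Crest.Agent.R105.XMu

/-! Row 105, block RX: the minimiser for a finite set of nodes. -/

set_option autoImplicit false

open MeasureTheory Set Filter Topology
open scoped ENNReal Classical ContDiff

namespace Crest.Agent.R105

variable {U : Set ℂ} {Λ : Lumps U} {M : Set (ℂ → ℝ)} {Y Z : Finset Λ.E}
  {c : ℂ → ℝ} {ν θ : ℝ} {t : Λ.E → ℝ} {μ : (ℂ → ℝ) → ℝ}

/-- Existence of the minimiser.  If `μ = 0` on `P^Z` take `F = 0`, `b = 0`, `σ = 0`.  Otherwise apply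
`hb_nearest` to `K = {(v, θ e) | (v, e) ∈ P^Z, e = 0 on Y, μ v = 1}`; `Δ = sq2 F t > 0` because
`1 = μ v ≤ √En v √En c + nrm t nrm e` (`Mu.le_pair`) for the approximants; divide by `Δ`.
For `(v, e) ∈ P^Z` with `μ v > 0` scale; in general apply this to `x₀ + s (v, e)` for a small
`s > 0` and approximants `x₀` (`pair_close`, `ip_self`). -/
theorem exists_stg (hU : IsOpen U) (hc : IsPreconnected U) (hM : ∀ r ∈ M, Reg Λ r)
    (hμ : Mu Λ M Y c ν t μ) (hθ : 0 < θ) (hd : Disjoint Y Z) :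
    ∃ F b σ, Stg Λ M Y Z μ θ F b σ := by
  have hθ' : 0 < θ⁻¹ := inv_pos.2 hθ
  obtain ⟨F, b, σ, h1, h2, h3, -, h5, h6, h7, h8, h9, h10⟩ := cone_min hU hc Λ
    {x | ∃ e, PZ Λ M Y Z x.1 e ∧ (∀ q ∈ Y, e q = 0) ∧ x.2 = fun q => θ * e q} μ
    (C₁ := Real.sqrt (En U c).toReal) (C₂ := nrm t * θ⁻¹) (Real.sqrt_nonneg _)
    (mul_nonneg (L2w.nrm_nonneg t) hθ'.le)
    ⟨fun _ => 0, PZ.of_A0 hU hM (A0.const 0), fun _ _ => rfl, by simp⟩
    (by
      rintro x ⟨e, he, -, e2⟩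
      exact ⟨he.tt.1, e2 ▸ (he.adm.l2.smul hθ.le).1⟩)
    (by
      rintro x ⟨e, he, e1, e2⟩ y ⟨e', he', e1', e2'⟩
      refine ⟨⟨fun q => e q + e' q, by simpa using he.lin hU hM he' 1 1,
        fun q hq => by simp [e1 q hq, e1' q hq], ?_⟩, hμ.add _ _ he.tt he.bdd he'.tt he'.bdd⟩
      funext q
      simp only [e2, e2']
      ring)
    (by
      rintro x ⟨e, he, e1, e2⟩ a ha
      refine ⟨⟨fun q => a * e q, by simpa [abs_of_nonneg ha] using he.lin hU hM he a 0,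
        fun q hq => by simp [e1 q hq], ?_⟩, hμ.smul _ _ he.tt he.bdd⟩
      funext q
      simp only [e2]
      ring)
    (by
      rintro x ⟨e, he, e1, e2⟩ a ha
      refine ⟨⟨e, by simpa using he.lin hU hM (PZ.of_A0 hU hM ha) 1 1, e1, e2⟩, ?_⟩
      rw [hμ.add _ _ he.tt he.bdd (TT.of_A0 hU hM ha) (ha.bdd Λ), hμ.a0 a ha, add_zero])
    (by
      rintro x ⟨e, he, -, e2⟩
      refine (hμ.le_pair he).trans (le_of_eq ?_)
      rw [e2, (he.adm.l2.smul hθ.le).2]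
      field_simp)
  have hz : ∀ q ∈ Y, σ q = 0 := fun q hq => h8 q (by
    rintro x ⟨e, -, e1, e2⟩
    rw [e2]
    simp [e1 q hq])
  refine ⟨F, b, σ, h1, h2, h3, h5, h6, h7, hz, fun v e hv => ?_, fun δ hδ => ?_⟩
  · have h := h9 (v, fun q => θ * if q ∈ Y then 0 else e q)
      ⟨_, hv.off hM hd, fun q hq => if_pos hq, rfl⟩
    refine h.trans (le_of_eq ?_)
    congr 1
    refine tsum_congr fun q => ?_
    by_cases hq : q ∈ Y
    · simp [hz q hq]
    · simp only [if_neg hq]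
      ring
  · obtain ⟨x, ⟨e, he, -, e2⟩, a1, a2, a3⟩ := h10 δ hδ
    exact ⟨x.1, e, he, a1, by simpa only [e2] using a2, a3⟩

end Crest.Agent.R105
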