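import Crest.Agent.R105.XCone
import Crest.Agent.R105.XL2
import Crest.Agent.R105.XIp
import Crest.Agent.R105.XMu

/-! Row 105, block RX: estimates for the minimiser. -/

set_option autoImplicit false

open MeasureTheory Set Filter Topology
open scoped ENNReal Classical ContDiff

namespace Crest.Agent.R105

variable {U : Set ℂ} {Λ : Lumps U} {M : Set (ℂ → ℝ)} {Y Z : Finset Λ.E}
  {c : ℂ → ℝ} {ν θ : ℝ} {t : Λ.E → ℝ} {μ : (ℂ → ℝ) → ℝ}
  {F : ℂ → ℂ} {b : ℂ → ℝ} {σ : Λ.E → ℝ}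

/-- `Stg.vi` for `v` and `-v` (`PZ.lin`, `Mu.smul`, `om_smul_left`) -/
theorem Stg.tau (hU : IsOpen U) (hM : ∀ r ∈ M, Reg Λ r) (hμ : Mu Λ M Y c ν t μ)
    (h : Stg Λ M Y Z μ θ F b σ) {v : ℂ → ℝ} {e : Λ.E → ℝ} (hv : PZ Λ M Y Z v e) :
    |μ v - R105.om U v b| ≤ ∑' q, θ * σ q * e q := by
  have h1 := h.vi v e hv
  have hn : PZ Λ M Y Z (fun z => (-1) * v z + 0 * v z) (fun q => |(-1 : ℝ)| * e q + |(0 : ℝ)| * e q) :=
    hv.lin hU hM hv (-1) 0
  have e1 : (fun z => (-1) * v z + 0 * v z) = fun z => (-1) * v z := by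
    funext z; ring
  have e2 : (fun q => |(-1 : ℝ)| * e q + |(0 : ℝ)| * e q) = e := by
    funext q; simp
  rw [e1, e2] at hn
  have h2 := h.vi _ e hn
  rw [hμ.smul (-1) v hv.tt hv.bdd, om_smul_left] at h2
  exact abs_le.2 ⟨by linarith, by linarith⟩

theorem h42_lv {E : Type} {e k : E → ℝ} (θ : ℝ) (h : L2w e) (h' : L2w k) :
    nrm (fun q => θ * e q - k q) = ‖θ • lv h - lv h'‖ :=
  (h70_lp_norm (θ • lv h - lv h')).2

theorem h42_lvi {E : Type} {e k : E → ℝ} (θ : ℝ) (h : L2w e) (h' : L2w k) :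
    ∑' q, θ * k q * e q = inner ℝ (θ • lv h) (lv h') := by
  rw [real_inner_smul_left, ← lv_inner h h', ← tsum_mul_left]
  exact tsum_congr fun q => by ring

theorem h42_near (hU : IsOpen U) {u v : ℂ → ℝ} (hu : LocallyLipschitzOn U u)
    (hv : LocallyLipschitzOn U v) (hu' : En U u < ⊤) (hv' : En U v < ⊤) {δ δ' : ℝ} (hδ : 0 ≤ δ)
    (hd : δ' ≤ δ ^ 2) (h : En U (fun z => u z - v z) ≤ ENNReal.ofReal δ') :
    ‖gL U u - gL U v‖ ≤ δ :=
  (gL_near hU hu hv hu' hv' hδ).1 (h.trans (ENNReal.ofReal_le_ofReal hd))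

/-- the pairing of an approximant with a fixed pair: `ip_sub_left`, `abs_ip_le`, `x2_cs` -/
theorem pair_close (hU : IsOpen U) {F F' : ℂ → ℂ} {σ σ' : Λ.E → ℝ}
    (hF : DifferentiableOn ℂ F U) (hE : En U (fun z => (F z).re) < ⊤)
    (hE' : En U (fun z => (F' z).re) < ⊤) (hσ : L2w σ) (hσ' : L2w σ') {η : ℝ} (hη : 0 < η) :
    ∃ δ > 0, ∀ (v : ℂ → ℝ) (e : Λ.E → ℝ), XX U v → L2w e →
      En U (fun z => v z - (F z).re) ≤ ENNReal.ofReal δ → nrm (fun q => θ * e q - σ q) ≤ δ →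
      |(ip U v (fun z => (F' z).re) + ∑' q, θ * σ' q * e q) -
        (ip U (fun z => (F z).re) (fun z => (F' z).re) + ∑' q, σ q * σ' q)| ≤ η := by
  set A := ‖gL U (fun z => (F' z).re)‖ + ‖lv hσ'‖ + 1 with hA
  have hA0 : 0 < A := by positivity
  have hr : 0 < η / A := by positivity
  refine ⟨min (η / A) ((η / A) ^ 2), by positivity, fun v e hv he h1 h2 => ?_⟩
  have a1 := h42_near hU hv.lip (hol_re_lip hU hF) hv.en hE hr.le (min_le_right _ _) h1
  have a2 : ‖θ • lv he - lv hσ‖ ≤ η / A := by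
    rw [← h42_lv]; exact h2.trans (min_le_left _ _)
  rw [xm_ip_eq hv.en hE', xm_ip_eq hE hE', h42_lvi θ he hσ', lv_inner hσ hσ']
  have b1 := abs_real_inner_le_norm (gL U v - gL U (fun z => (F z).re)) (gL U (fun z => (F' z).re))
  have b2 := abs_real_inner_le_norm (θ • lv he - lv hσ) (lv hσ')
  rw [inner_sub_left] at b1 b2
  have c1 := mul_le_mul_of_nonneg_right a1 (norm_nonneg (gL U (fun z => (F' z).re)))
  have c2 := mul_le_mul_of_nonneg_right a2 (norm_nonneg (lv hσ'))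
  have d : η / A * A = η := div_mul_cancel₀ _ hA0.ne'
  have b1' := abs_le.1 (b1.trans c1)
  have b2' := abs_le.1 (b2.trans c2)
  rw [hA] at d
  rw [abs_le]
  constructor <;> nlinarith [b1'.1, b1'.2, b2'.1, b2'.2]

theorem h70_sqrt_near (hU : IsOpen U) {u v : ℂ → ℝ} (lu : LocallyLipschitzOn U u)
    (lv : LocallyLipschitzOn U v) (hu : En U u < ⊤) {η : ℝ} (hη : 0 ≤ η)
    (h : En U (fun z => v z - u z) ≤ ENNReal.ofReal (η ^ 2)) :
    Real.sqrt (En U v).toReal ≤ Real.sqrt (En U u).toReal + η := by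
  have hd : En U (fun z => v z - u z) < ⊤ := h.trans_lt ENNReal.ofReal_lt_top
  have h1 : En U u ^ (1 / 2 : ℝ) ≠ ⊤ := ENNReal.rpow_ne_top_of_nonneg (by norm_num) hu.ne
  have h2 : En U (fun z => v z - u z) ^ (1 / 2 : ℝ) ≠ ⊤ :=
    ENNReal.rpow_ne_top_of_nonneg (by norm_num) hd.ne
  have h3 : Real.sqrt (En U (fun z => v z - u z)).toReal ≤ η :=
    Real.sqrt_le_iff.2 ⟨hη, ENNReal.toReal_le_of_le_ofReal (sq_nonneg η) h⟩
  have h4 := En_add_le hU lu (lv.sub lu)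
  simp only [add_sub_cancel] at h4
  refine le_trans ?_ (add_le_add le_rfl h3)
  rw [h99_sqrt_toReal, h99_sqrt_toReal, h99_sqrt_toReal, ← ENNReal.toReal_add h1 h2]
  exact ENNReal.toReal_mono (ENNReal.add_ne_top.2 ⟨h1, h2⟩) h4

/-- With `a = √En(Re F)`, `β = nrm σ`, `C = √En c`, `τ = nrm t` the approximants and `Mu.le_pair` give
`a² + β² ≤ a C + τ β / θ` (`En_add_le`, `x2_add`), so `β² ≤ C²/4 + τ β / θ`. -/
theorem Stg.nrm_le (hU : IsOpen U) (hμ : Mu Λ M Y c ν t μ) (hθ : 0 < θ)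
    (h : Stg Λ M Y Z μ θ F b σ) :
    θ * nrm σ ≤ nrm t + θ * Real.sqrt (En U c).toReal / 2 := by
  set a := ‖gL U (fun z => (F z).re)‖ with ha
  set β := nrm σ with hβ
  set C := Real.sqrt (En U c).toReal with hCd
  set τ := nrm t with hτ
  have C0 : 0 ≤ C := Real.sqrt_nonneg _
  have τ0 : 0 ≤ τ := L2w.nrm_nonneg _
  have β0 : 0 ≤ β := L2w.nrm_nonneg _
  have key : θ * (a ^ 2 + β ^ 2) ≤ θ * (a * C) + τ * β := by
    refine le_of_forall_pos_le_add fun η hη => ?_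
    have hK : 0 < θ * C + τ + 1 := by positivity
    set r := η / (θ * C + τ + 1) with hr
    have r0 : 0 < r := by positivity
    obtain ⟨v, e, hp, h1, h2, h3⟩ := h.app (min r (r ^ 2)) (by positivity)
    have a1 := h42_near hU hp.tt.1.lip (hol_re_lip hU h.hol) hp.tt.1.en h.en r0.le
      (min_le_right _ _) h1
    have a2 : ‖θ • lv hp.adm.l2 - lv h.l2‖ ≤ r := by
      rw [← h42_lv]; exact h2.trans (min_le_left _ _)
    have a3 : ‖gL U v‖ ≤ a + r := by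
      have := norm_le_insert' (gL U v) (gL U (fun z => (F z).re))
      linarith
    have a4 : θ * nrm e ≤ β + r := by
      have := norm_le_insert' (θ • lv hp.adm.l2) (lv h.l2)
      rw [norm_smul, Real.norm_eq_abs, abs_of_pos hθ, ← lv_norm, ← lv_norm] at this
      linarith
    have a5 := hμ.le_pair hp
    rw [h3, sq2, En_toReal_gL h.en, sqrt_En_gL hp.tt.1.en] at a5
    have a6 := mul_le_mul_of_nonneg_left a5 hθ.le
    have a7 := mul_le_mul_of_nonneg_left (mul_le_mul_of_nonneg_right a3 C0) hθ.le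
    have a8 := mul_le_mul_of_nonneg_left a4 τ0
    have a9 : r * (θ * C + τ + 1) = η := div_mul_cancel₀ _ hK.ne'
    nlinarith
  have k2 : θ * β ^ 2 ≤ θ * (C ^ 2 / 4) + τ * β := by
    nlinarith [mul_nonneg hθ.le (sq_nonneg (a - C / 2))]
  by_contra hn
  push Not at hn
  have p1 : θ * (C / 2) < θ * β := by linarith
  have p2 : C / 2 < β := lt_of_mul_lt_mul_left p1 hθ.le
  have p3 : 0 < β := by linarith
  have p4 := mul_lt_mul_of_pos_right hn p3
  have p5 : θ * (C / 2) * (C / 2) ≤ θ * (C / 2) * β :=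
    mul_le_mul_of_nonneg_left p2.le (by positivity)
  nlinarith

/-- Monotonicity in `Z`: test `h.vi` with the approximants of `h'` (`PZ.anti`, `pair_close`) to get
`sq2 F' σ' ≤ ⟨x', x⟩`, and expand the square (`ip_sub_left`, `ip_self`, `ip_comm`, `x2_sub`). -/
theorem Stg.mono (hU : IsOpen U) {Z' : Finset Λ.E} (hZ : Z ⊆ Z') {F' : ℂ → ℂ} {b' : ℂ → ℝ}
    {σ' : Λ.E → ℝ} (h : Stg Λ M Y Z μ θ F b σ) (h' : Stg Λ M Y Z' μ θ F' b' σ') :
    (En U (fun z => (F z).re - (F' z).re)).toReal + nrm (fun q => σ q - σ' q) ^ 2 ≤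
      sq2 U F σ - sq2 U F' σ' := by
  have key : sq2 U F' σ' ≤ ip U (fun z => (F' z).re) (fun z => (F z).re) + ∑' q, σ' q * σ q := by
    refine le_of_forall_pos_le_add fun η hη => ?_
    obtain ⟨δ, hδ, hd⟩ := pair_close (θ := θ) (Λ := Λ) hU h'.hol h'.en h.en h'.l2 h.l2 hη
    obtain ⟨v, e, hp, h1, h2, h3⟩ := h'.app δ hδ
    have a1 := abs_le.1 (hd v e hp.tt.1 hp.adm.l2 h1 h2)
    have a2 := h.vi v e (hp.anti hZ)
    rw [h.om v hp.tt.1, h3] at a2
    linarith [a1.2]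
  rw [(gL_sub hU (hol_re_lip hU h.hol) (hol_re_lip hU h'.hol) h.en h'.en).1,
    ENNReal.toReal_ofReal (by positivity), lv_sub h.l2 h'.l2]
  rw [xm_ip_eq h'.en h.en, lv_inner h'.l2 h.l2] at key
  simp only [sq2] at key ⊢
  rw [En_toReal_gL h.en, En_toReal_gL h'.en, lv_norm h.l2, lv_norm h'.l2] at *
  rw [norm_sub_sq_real, norm_sub_sq_real, real_inner_comm, real_inner_comm (lv h'.l2)]
  linarith

/-- `farkas` with `ψ = 1`, `F = ∅`: `|om b l| ≤ |μ l| + |μ l - om l b|` (`om_skew`, `Mu.le_LL`,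
`Stg.tau`, `PZ.of_LL`). -/
theorem Stg.adm (hU : IsOpen U) (hF : Fam Λ M) (hC : CH Λ M) (hμ : Mu Λ M Y c ν t μ) (hθ : 0 < θ)
    (h : Stg Λ M Y Z μ θ F b σ) :
    ∃ eb, Adm Λ M ∅ b eb ∧ nrm eb ≤ 2 * ν + θ * nrm σ := by
  have hv : ∀ q, Λ.val (fun _ => (1 : ℝ)) q = 1 := fun q =>
    (val_eq Λ ⟨1, fun _ _ => by simp⟩ (n := 0) fun _ _ => rfl).1
  have h0 : 0 ≤ 2 * ν + θ * nrm σ :=
    add_nonneg (mul_nonneg zero_le_two hμ.nn) (mul_nonneg hθ.le (L2w.nrm_nonneg _))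
  obtain ⟨e, he, hn, -⟩ := farkas hU hF.reg h.xx (A0.const 1) (fun q => Or.inr (hv q)) ∅ h0
    (fun l k hl _ => by
      have a1 := hμ.le_LL hU hF hC hl
      have a2 := h.tau hU hF.reg hμ (PZ.of_LL (Y := Y) (Z := Z) hU hF hC hl)
      have a3 : ∑' q, θ * σ q * k q ≤ θ * (nrm σ * nrm k) := by
        have := mul_le_mul_of_nonneg_left (h.l2.summable_mul (hl.l2 hF.reg)).2 hθ.le
        rw [← tsum_mul_left] at this
        exact (le_of_eq (tsum_congr fun q => by ring)).trans this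
      rw [om_skew, abs_neg]
      have b1 := abs_le.1 a1
      have b2 := abs_le.1 (a2.trans a3)
      rw [abs_le]
      constructor <;> nlinarith [b1.1, b1.2, b2.1, b2.2])
  refine ⟨e, ?_, hn⟩
  simpa using he

end Crest.Agent.R105
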