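import Crest.Agent.R105.BPre
import Crest.Agent.R105.AMain
import Crest.Agent.R105.EMain
import Crest.Agent.R105.HMain
import Crest.Agent.R105.MMax
import Crest.Agent.R105.MIsoF
import Crest.Agent.R105.NZorn

/-! Row 105: both theorems from the exact range lemma. -/

set_option autoImplicit false

open MeasureTheory Set Filter Topology Crest.AnalysisR

namespace Crest.Agent.R105

theorem blkEND : BlkEND := end_thm

theorem koebe_of (h : BlkMAIN) (U : Set ℂ) (hU : IsExteriorDomain U) :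
    ∃ f : ℂ → ℂ, DifferentiableOn ℂ f U ∧ InjOn f U ∧
      Tendsto f (cocompact ℂ) (cocompact ℂ) ∧ IsCircleDomainFinitePart (f '' U) := by
  obtain ⟨Λ⟩ := exists_lumps hU
  obtain ⟨M, hM⟩ := exists_maxFam hU.1 Λ fun M hm _ => ch_mono hU.1 Λ hm
  have hC : CH Λ M := ch_mono hU.1 Λ hM.mono
  obtain ⟨f, c, ρ, hO⟩ := end_thm U hU Λ M hM.fam hC
    (h U hU Λ M hM.fam hC (max_of_maxFam hU hM hC)) (isoF_of_maxFam hU.1 hU.2.1 hM hC)
  obtain ⟨b, hb⟩ := hO.inf
  exact ⟨f, hO.hol, hO.inj, tendsto_cocompact_of_sub hb, hO.circle hU⟩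

theorem rigid_of (h : BlkMAIN) (U V : Set ℂ) (hU : IsCircleDomainFinitePart U)
    (hV : IsCircleDomainFinitePart V) (hE : IsConformallyRemovable (frontier U)) (f : ℂ → ℂ)
    (hf : DifferentiableOn ℂ f U) (hinj : InjOn f U) (hsurj : f '' U = V)
    (hinf : Tendsto f (cocompact ℂ) (cocompact ℂ)) :
    ∃ a b : ℂ, a ≠ 0 ∧ ∀ z ∈ U, f z = a * z + b :=
  rigid_of_stB (stB_of h blkEND) U V hU hV hE f hf hinj hsurj hinf

end Crest.Agent.R105
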